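import Vale.Agent.P167.H192.TA.Str
import Vale.Agent.P167.H685.LD.Ea
import Vale.Agent.P167.H135.Z.Side

/-!
# P167, the range `0 < q < 1`, block Q-LAM: killed sites of a polygon domain

`q`: the contour of the domain `D`, `q t` a boundary site of the colour `c`.

* `chain_false`, `chain_true`: if `q t` is not joined by its colour in `D` to the outside of `B`, then
  a strand of the *zero type* (the colour `c` is on the side of `q t`) goes over `q t` and stays in `B`.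
  (Follow the strands with the neighbouring site of colour `c` joined to `q t`; no topology.)
* `not_over_join`: if `q t` is joined by its colour in `D` to `q m`, then every strand which goes over
  one of the two sites goes over both.
-/

set_option autoImplicit false

namespace Vale.Agent.P167.N.QL

open Finset Relation
open Vale.Agent.P145.FB (PStep)
open Vale.Agent.P167 Vale.Agent.P167.BR Vale.Agent.P167.FK
open Vale.Agent.P167.E6 (IsPolygon Encloses)
open Vale.Agent.P167.H871 (IsC)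
open Vale.Agent.P167.H632 (cs pr)
open Vale.Agent.P167.H192.TA (Pw sc sc_nx)
open Vale.Agent.P167.H318 (st)
open Vale.Agent.P167.H718 (IsXY)
open Vale.Agent.P167.QX (lo hi exists_xy lo_xy hi_xy)
open Vale.Agent.P167.H685.LD (par_step)

variable {n : ℕ} {q : ZMod n → ℤ × ℤ} {D B : Finset (ℤ × ℤ)} {ω : Cfg} {c : Bool} {t m x y : ℕ}
  {z s : ℤ × ℤ} {A : Finset Ed}

/-- No connection of colour `c` in `D` from `z` to the outside of `B`. -/
def NoArm (c : Bool) (D B : Finset (ℤ × ℤ)) (z : ℤ × ℤ) (ω : Cfg) : Prop :=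
  ∀ s v, Pw (cs c ω ∩ ↑(D ∩ B)) z s → IsC v s → v ∈ B

theorem sc_isC (c : Bool) (e : Ed) : IsC (hdv e) (sc c e) ∧ IsC (tlv e) (sc c e) :=
  H135.Z.sd_isC c e

/-- A strand whose site of colour `c` is joined to `z` stays in `B`, and its sites are joined to
`z`. -/
theorem run_in (hN : NoArm c D B z ω) {e : Ed} {K : ℕ} (hK : ∀ j < K, hdv (st e ω j) ∈ D)
    (h : Pw (cs c ω ∩ ↑(D ∩ B)) z (sc c e)) : ∀ k ≤ K, hdv (st e ω k) ∈ B ∧
      Pw (cs c ω ∩ ↑(D ∩ B)) z (sc c (st e ω k)) := by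
  intro k
  induction k with
  | zero => exact fun _ => ⟨hN _ _ h (sc_isC c _).1, h⟩
  | succ k ih =>
    intro hk
    obtain ⟨h2, h3⟩ := ih (by omega)
    have h4 : hdv (st e ω k) ∈ D ∩ B := mem_inter.2 ⟨hK k (by omega), h2⟩
    have h5 : Pw (cs c ω ∩ ↑(D ∩ B)) z (sc c (st e ω (k + 1))) := by
      have e1 : st e ω (k + 1) = nx ω (st e ω k) := Function.iterate_succ_apply' _ _ _
      rw [e1]
      rcases sc_nx (ω := ω) (D := D ∩ B) (e := st e ω k) c h4 with h6 | h6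
      · rw [h6]
        exact h3
      · exact h3.tail h6
    exact ⟨hN _ _ h5 (sc_isC c _).1, h5⟩

/-- Finite chains. -/
theorem chain_end {S : Set ℕ} (hS : S.Finite) {f : ℕ → ℕ} {t : ℕ} (ht : t ∈ S)
    (hf : ∀ i ∈ S, f i ∈ S) (hne : ∀ i ∈ S, f i ≠ t)
    (hinj : ∀ i ∈ S, ∀ j ∈ S, f i = f j → i = j) : False := by
  have := hS.to_subtype
  have hi : Function.Injective fun i : S => (⟨f i.1, hf i.1 i.2⟩ : S) := by
    rintro ⟨i, h1⟩ ⟨j, h2⟩ h
    exact Subtype.ext (hinj i h1 j h2 (congrArg Subtype.val h))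
  obtain ⟨⟨i, h1⟩, h2⟩ := Finite.surjective_of_injective hi ⟨t, ht⟩
  exact hne i h1 (congrArg Subtype.val h2)

theorem pconn_of_pw {F : Set (ℤ × ℤ)} {u v : ℤ × ℤ} (h : Pw F u v) :
    Vale.Agent.P145.FB.PConn F Set.univ u v := by
  refine ⟨Set.mem_univ _, ?_⟩
  induction h with
  | refl => exact ReflTransGen.refl
  | tail _ h ih => exact ih.tail ⟨h, Set.mem_univ _⟩

/-- Pieces with a common edge are equal. -/
theorem eq_of_mem {A A' : Finset Ed} (hA : A ∈ pcs ω D) (hA' : A' ∈ pcs ω D) {e : Ed} (h : e ∈ A)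
    (h' : e ∈ A') : A = A' := by
  obtain ⟨e0, h0, rfl⟩ := exists_of_mem_pcs hA
  obtain ⟨e1, h1, rfl⟩ := exists_of_mem_pcs hA'
  rw [mem_piece] at h h'
  ext e
  rw [mem_piece, mem_piece]
  have h2 : Relation.EqvGen (Nxt ω D) e0 e1 := h.2.trans _ _ _ (h'.2.symm _ _)
  exact and_congr_right fun _ => ⟨fun h3 => (h2.symm _ _).trans _ _ _ h3,
    fun h3 => h2.trans _ _ _ h3⟩

section poly

variable (hq : IsPolygon q) (hD : Encloses q D)

include hq hD

/-- The strand which enters at a side. -/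
theorem exists_strand (hx : x < n) (hev : Even ((q (x : ZMod n)).1 + (q (x : ZMod n)).2)) :
    ∃ A ∈ pcs ω D, ∃ y, IsXY q A x y ∧ ¬ IsLp D A := by
  obtain ⟨-, -, h3, h4⟩ := be_even hq hD hev
  have h1 : be q (x : ZMod n) ∈ eds D := mem_eds.2 (Or.inl h3)
  have hA := piece_mem_pcs h1 (ω := ω)
  have hm : be q (x : ZMod n) ∈ piece ω D (be q (x : ZMod n)) := self_mem_piece h1
  have hl : ¬ IsLp D (piece ω D (be q (x : ZMod n))) := fun hl => h4 (hl.tl hA hm)
  obtain ⟨x', y, hxy⟩ := exists_xy hq hD hA hl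
  rcases (hxy.iff hq hD hA hx).1 hm with h | h
  · subst h
    exact ⟨_, hA, y, hxy, hl⟩
  · subst h
    exact absurd hev hxy.2.2.2.2.2

/-- All the edges of a strand whose site of colour `c` is joined to `z` are in `B`. -/
theorem strand_in (hN : NoArm c D B z ω) (hA : A ∈ pcs ω D) (hxy : IsXY q A x y)
    (h : Pw (cs c ω ∩ ↑(D ∩ B)) z (sc c (be q (x : ZMod n)))) :
    (∀ e ∈ A, hdv e ∈ B) ∧ Pw (cs c ω ∩ ↑(D ∩ B)) z (sc c (be q (y : ZMod n))) := by
  obtain ⟨-, -, -, b4⟩ := be_even hq hD hxy.2.2.2.2.1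
  have key : ∀ e ∈ A, hdv e ∈ B ∧ Pw (cs c ω ∩ ↑(D ∩ B)) z (sc c e) := by
    intro e he
    obtain ⟨K, hK, hKD⟩ := H685.LD.run_entry hA hxy.2.2.1 b4 he
    have := run_in hN hKD h K le_rfl
    rwa [hK] at this
  exact ⟨fun e he => (key e he).1, (key _ hxy.2.2.2.1).2⟩

/-- **A dual boundary site.** If no strand of the zero type goes over `q t` in `B`, then `q t` is
joined to the outside of `B`. -/
theorem chain_false (ht : t < n) (hodd : ¬ Even ((q (t : ZMod n)).1 + (q (t : ZMod n)).2))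
    (hN : NoArm false D B (q (t : ZMod n)) ω) (h0 : ∃ v, IsC v (q 0) ∧ v ∉ B) :
    ∃ A ∈ pcs ω D, ∃ x y, IsXY q A x y ∧ x < t ∧ t ≤ y ∧ ¬ IsLp D A ∧ ∀ e ∈ A, hdv e ∈ B := by
  by_contra hcon
  push Not at hcon
  obtain ⟨S, hS⟩ : ∃ S : Set ℕ, S = {i | i ≤ t ∧
    ¬ Even ((q (i : ZMod n)).1 + (q (i : ZMod n)).2) ∧
    Pw (cs false ω ∩ ↑(D ∩ B)) (q (t : ZMod n)) (q (i : ZMod n))} := ⟨_, rfl⟩
  have hfin : S.Finite := (Set.finite_le_nat t).subset fun i hi => by
    rw [hS] at hi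
    exact hi.1
  have step : ∀ i ∈ S, ∃ y, y < t ∧ y ∈ S ∧ ∃ A ∈ pcs ω D, IsXY q A (i - 1) y ∧ 0 < i := by
    intro i hi
    rw [hS] at hi
    obtain ⟨h1, h3, h4⟩ := hi
    have hi0 : 0 < i := by
      rcases Nat.eq_zero_or_pos i with h | h
      · exfalso
        obtain ⟨v, hv, hv'⟩ := h0
        rw [h, Nat.cast_zero] at h4
        exact hv' (hN _ _ h4 hv)
      · exact h
    obtain ⟨j, rfl⟩ : ∃ j, i = j + 1 := ⟨i - 1, by omega⟩
    have hev : Even ((q (j : ZMod n)).1 + (q (j : ZMod n)).2) := by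
      by_contra hne
      apply h3
      have h5 := par_step hq hD (j : ZMod n)
      push_cast
      exact h5.2 hne
    obtain ⟨A, hA, y, hxy, hl⟩ := exists_strand hq hD (ω := ω) (by omega : j < n) hev
    have g2 := (be_even hq hD hev).2.1
    have h5 : Pw (cs false ω ∩ ↑(D ∩ B)) (q (t : ZMod n)) (sc false (be q (j : ZMod n))) := by
      show Pw _ _ (rs (be q (j : ZMod n)))
      rw [g2]
      rw [Nat.cast_add, Nat.cast_one] at h4
      exact h4
    obtain ⟨h6, h7⟩ := strand_in hq hD hN hA hxy h5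
    have h8 : y < t := by
      by_contra hge
      obtain ⟨e, he, heB⟩ := hcon A hA j y hxy (by omega) (by omega) hl
      exact heB (h6 e he)
    have h9 := (be_odd hq hD hxy.2.2.2.2.2).1
    refine ⟨y, h8, ?_, A, hA, by simpa using hxy, hi0⟩
    rw [hS]
    refine ⟨h8.le, hxy.2.2.2.2.2, ?_⟩
    change Pw _ _ (rs (be q (y : ZMod n))) at h7
    rwa [h9] at h7
  choose! f hf1 hf2 hf3 using step
  refine chain_end hfin (f := f) (t := t) ?_ hf2 (fun i hi => (hf1 i hi).ne) ?_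
  · rw [hS]
    exact ⟨le_rfl, hodd, ReflTransGen.refl⟩
  · intro i hi j hj hij
    obtain ⟨A, hA, h1, h2⟩ := hf3 i hi
    obtain ⟨A', hA', h3, h4⟩ := hf3 j hj
    rw [← hij] at h3
    have h5 := eq_of_mem hA hA' h1.2.2.2.1 h3.2.2.2.1
    rw [← h5] at h3
    have h6 := (h1.unique hq hD hA h3).1
    omega

/-- **A primal boundary site.** -/
theorem chain_true (ht : t < n)
    (hev : Even ((q (t : ZMod n)).1 + (q (t : ZMod n)).2))
    (hN : NoArm true D B (q (t : ZMod n)) ω) (h0 : ∃ v, IsC v (q 0) ∧ v ∉ B) :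
    ∃ A ∈ pcs ω D, ∃ x y, IsXY q A x y ∧ y < t ∧ t ≤ x ∧ ¬ IsLp D A ∧ ∀ e ∈ A, hdv e ∈ B := by
  by_contra hcon
  push Not at hcon
  obtain ⟨S, hS⟩ : ∃ S : Set ℕ, S = {i | t ≤ i ∧ i < n ∧
    Even ((q (i : ZMod n)).1 + (q (i : ZMod n)).2) ∧
    Pw (cs true ω ∩ ↑(D ∩ B)) (q (t : ZMod n)) (q (i : ZMod n))} := ⟨_, rfl⟩
  have hfin : S.Finite := (Set.finite_lt_nat n).subset fun i hi => by
    rw [hS] at hi
    exact hi.2.1
  have step : ∀ i ∈ S, ∃ y, t ≤ y ∧ y + 1 ∈ S ∧ ∃ A ∈ pcs ω D, IsXY q A i y := by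
    intro i hi
    rw [hS] at hi
    obtain ⟨h1, h2, h3, h4⟩ := hi
    obtain ⟨A, hA, y, hxy, hl⟩ := exists_strand hq hD (ω := ω) h2 h3
    have g2 := (be_even hq hD h3).1
    have h5 : Pw (cs true ω ∩ ↑(D ∩ B)) (q (t : ZMod n)) (sc true (be q (i : ZMod n))) := by
      show Pw _ _ (ls (be q (i : ZMod n)))
      rw [g2]
      exact h4
    obtain ⟨h6, h7⟩ := strand_in hq hD hN hA hxy h5
    have h8 : t ≤ y := by
      by_contra hge
      obtain ⟨e, he, heB⟩ := hcon A hA i y hxy (by omega) (by omega) hl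
      exact heB (h6 e he)
    have h9 := (be_odd hq hD hxy.2.2.2.2.2).2.1
    change Pw _ _ (ls (be q (y : ZMod n))) at h7
    rw [h9] at h7
    have hyn : y + 1 < n := by
      rcases Nat.lt_or_ge (y + 1) n with h | h
      · exact h
      · exfalso
        have hy : y + 1 = n := by have := hxy.2.1; omega
        obtain ⟨v, hv, hv'⟩ := h0
        have e1 : ((y : ZMod n) + 1) = 0 := by
          have : ((y + 1 : ℕ) : ZMod n) = 0 := by rw [hy]; exact ZMod.natCast_self n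
          push_cast at this
          exact this
        rw [e1] at h7
        exact hv' (hN _ _ h7 hv)
    refine ⟨y, h8, ?_, A, hA, hxy⟩
    rw [hS]
    refine ⟨by omega, hyn, ?_, ?_⟩
    · have hp := h7.parity
      rw [Int.even_iff] at hev ⊢
      rw [Nat.cast_add, Nat.cast_one]
      omega
    · rw [Nat.cast_add, Nat.cast_one]
      exact h7
  choose! f hf1 hf2 hf3 using step
  refine chain_end hfin (f := fun i => f i + 1) (t := t) ?_ hf2 (fun i hi => ?_) ?_
  · rw [hS]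
    exact ⟨le_rfl, ht, hev, ReflTransGen.refl⟩
  · have := hf1 i hi
    omega
  · intro i hi j hj hij
    have hij' : f i = f j := by simpa using hij
    obtain ⟨A, hA, h1⟩ := hf3 i hi
    obtain ⟨A', hA', h3⟩ := hf3 j hj
    rw [← hij'] at h3
    have h5 := eq_of_mem hA hA' h1.2.2.2.1 h3.2.2.2.1
    rw [← h5] at h3
    exact (h1.unique hq hD hA h3).1

/-- **A connection between two boundary sites.** -/
theorem over_iff_of_join (hA : A ∈ pcs ω D) (hl : ¬ IsLp D A) (ht : t ≤ n) (hm : m ≤ n)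
    (hp : ((q (t : ZMod n)).1 + (q (t : ZMod n)).2) % 2 = pr c)
    (h : Pw (cs c ω ∩ ↑D) (q (t : ZMod n)) (q (m : ZMod n))) :
    (lo q A < t ∧ t ≤ hi q A) ↔ (lo q A < m ∧ m ≤ hi q A) := by
  obtain ⟨x, y, hxy⟩ := exists_xy hq hD hA hl
  obtain ⟨u, hu⟩ := BR.exists_pot hq hD hA
  have h1 : u (q (t : ZMod n)) = u (q (m : ZMod n)) := by
    exact H685.LD.pot_path hA hu (pconn_of_pw h) hp
  rw [H718.pot_bd hq hD hA hxy hu ht, H718.pot_bd hq hD hA hxy hu hm] at h1
  rw [lo_xy hq hD hA hxy, hi_xy hq hD hA hxy]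
  have := hxy.ne
  split_ifs at h1 <;> omega

end poly

end Vale.Agent.P167.N.QL
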