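import Vale.Agent.P167.N.QL.LkX

/-!
# P167, the range `0 < q < 1`, block Q-LAM (LK): the comparison of the local factors

`LkD`: a polygon with a regular configuration outside, with explicit colours. `SameI`: two indices with
the same local geometry, up to a rotation and an even translation (turn, parity, colours; straight
legs). `PhW`: the phases and the junction agree in the window. `lkP`: the local factors are comparable.
`KI`: the indicator that no strand in the box goes over the site; `lkK` compares these for a base and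
for an interior site, too.
-/

set_option autoImplicit false

namespace Vale.Agent.P167.N.QL

open Finset Vale.Agent.P167 Vale.Agent.P167.BR
open Vale.Agent.P167.E6 (IsPolygon Encloses dir face)
open Vale.Agent.P167.FK (Bq Good Ex RSW)
open Vale.Agent.P167.FKA (Loc)
open Vale.Agent.P167.H192.Q (SRSW)
open Vale.Agent.P167.H718 (Dob)
open Vale.Agent.P167.H760 (Tr)
open Vale.Agent.P167.H871 (Bd vec_fin)
open Vale.Agent.P167.N.H167.Q (Bd3 Reg)
open Vale.Agent.P167.H825.Reg (al)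
open Vale.Agent.P167.H975 (TX TX_loc TX_locD lkBq nm_of_be ccol ccol_jun ccol_bas ccol_col dir_inj' vec4)

variable {N k N' k' : ℕ} {q : ZMod N → ℤ × ℤ} {q' : ZMod N' → ℤ × ℤ} {D D' : Finset (ℤ × ℤ)}
  {ω η η' : Cfg} {A : Finset Ed} {θ β : ℝ} {ρ ρ' : ℕ → ℝ} {τ τ' : ℕ → ℤ} {c : ℤ × ℤ}
  {r R m m' : ℤ} {J J' j j' d n n' L L' : ℕ} {T : Tr} {s : Fin 4}

/-! ### rotations -/

theorem vec_rot (t : ℤ) (s u : Fin 4) (h : Top.vec t = dir u) :
    Top.vec (t - (s.val : ℤ)) = dir (u - s) := by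
  rw [← vec_fin] at h ⊢
  have h1 := Enl.vec_eq_mod h
  refine Top.vec_congr ?_
  have h2 : ∀ u s : Fin 4, (((u - s).val : ℕ) : ℤ) % 4 = (((u.val : ℕ) : ℤ) - ((s.val : ℕ) : ℤ)) % 4 := by
    decide
  have h3 := h2 u s
  omega

theorem exists_dir (t : ℤ) : ∃ u : Fin 4, Top.vec t = dir u := by
  have h : t % 4 = 0 ∨ t % 4 = 1 ∨ t % 4 = 2 ∨ t % 4 = 3 := by omega
  rcases h with h | h | h | h
  · exact ⟨0, by rw [← vec_fin]; exact Top.vec_congr (by rw [h]; rfl)⟩
  · exact ⟨1, by rw [← vec_fin]; exact Top.vec_congr (by rw [h]; rfl)⟩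
  · exact ⟨2, by rw [← vec_fin]; exact Top.vec_congr (by rw [h]; rfl)⟩
  · exact ⟨3, by rw [← vec_fin]; exact Top.vec_congr (by rw [h]; rfl)⟩

theorem Rt.step (h : Rt T s)
    (hs : ∀ j : ℕ, q ((j + 1 : ℕ) : ZMod N) = q (j : ZMod N) + Top.vec (τ j)) (j : ℕ) :
    pq T q ((j + 1 : ℕ) : ZMod N) = pq T q (j : ZMod N) + Top.vec (τ j - (s.val : ℤ)) := by
  obtain ⟨u, hu⟩ := exists_dir (τ j)
  rw [vec_rot _ _ _ hu]
  unfold pq
  rw [hs, hu, h.dr']

theorem al_mvT (x y z v : ℤ × ℤ) (s u : Fin 4) :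
    al (u + s) ((mvT x y s).S z) ((mvT x y s).Q v) = al u z v := by
  rw [mvT_Q, mvT_S, mvT_S]
  unfold al
  fin_cases s <;> fin_cases u <;> simp [face, dir] <;> ring

/-! ### the data -/

/-- The kind of the boundary at the index `j`: free, wired, junction, Dobrushin base. -/
def cty (N k j : ℕ) : ℕ :=
  if 0 < k ∧ k < N then (if j = k then 2 else if j = 0 then 3 else if k ≤ j then 1 else 0)
  else if k ≤ j then 1 else 0

/-- The index `j` is far from the base and the junction (or equal). -/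
def FarI (N k L j : ℕ) : Prop :=
  ¬ (0 < k ∧ k < N) ∨ ((j = 0 ∨ (L ≤ j ∧ j + L ≤ N)) ∧ (j = k ∨ j + L ≤ k ∨ k + L ≤ j))

/-- Polygons with a regular configuration outside with explicit colours. -/
structure LkD (n N : ℕ) (q : ZMod N → ℤ × ℤ) (D : Finset (ℤ × ℤ)) (k : ℕ) (τ : ℕ → ℤ) (L : ℕ)
    (m : ℤ) (η : Cfg) : Prop where
  geo : GeoP n N q
  poly : IsPolygon q
  enc : Encloses q D
  bd : Bd (D : Set (ℤ × ℤ)) N (fun j => q (j : ZMod N)) τ 1
  kle : k ≤ N
  dob : Dob η D q k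
  reg : Reg m D η
  ksep : 0 < k → k < N → L ≤ k ∧ k + L ≤ N
  col : ∀ j < N, FarI N k L j → ∃ r₀ rk : Fin 4, dir r₀ = Top.vec (τ 0) ∧ dir rk = Top.vec (τ k) ∧
    ∀ v ∈ Bq (q (j : ZMod N)) m, v ∉ D → η v = ccol N k q r₀ rk j v

theorem LkD.step (h : LkD n N q D k τ L m η) (j : ℕ) :
    q ((j + 1 : ℕ) : ZMod N) = q (j : ZMod N) + Top.vec (τ j) := h.bd.step j

theorem LkD.per (h : LkD n N q D k τ L m η) (j : ℕ) : τ (j + N) = τ j + 4 := by
  have := h.bd.per j
  rwa [mul_one] at this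

/-- The centre of the window: `N` for the base. -/
def jB (N j : ℕ) : ℕ := if j = 0 then N else j

theorem jn_cast (q : ZMod N → ℤ × ℤ) (j : ℕ) : q ((jB N j : ℕ) : ZMod N) = q (j : ZMod N) := by
  unfold jB
  split_ifs with h
  · rw [ZMod.natCast_self, h, Nat.cast_zero]
  · rfl

theorem cty_cases (N k j : ℕ) : (0 < k ∧ k < N ∧ j = k ∧ cty N k j = 2) ∨
    (0 < k ∧ k < N ∧ j = 0 ∧ cty N k j = 3) ∨
    ((¬ (0 < k ∧ k < N) ∨ (j ≠ k ∧ j ≠ 0)) ∧ cty N k j = if k ≤ j then 1 else 0) := by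
  unfold cty
  split_ifs <;> omega

theorem jn_le (hj : j < N) : jB N j ≤ N := by
  unfold jB
  split_ifs <;> omega

/-- **The same local geometry**, up to a rotation and an even translation. -/
structure SameI (d N k : ℕ) (q : ZMod N → ℤ × ℤ) (τ : ℕ → ℤ) (j N' k' : ℕ)
    (q' : ZMod N' → ℤ × ℤ) (τ' : ℕ → ℤ) (j' : ℕ) : Prop where
  lt : j < N
  lt' : j' < N'
  str : Str τ (jB N j) d
  str' : Str τ' (jB N' j') d
  le : d ≤ jB N j
  le' : d ≤ jB N' j'
  turn : τ' (jB N' j') - τ' (jB N' j' - 1) = τ (jB N j) - τ (jB N j - 1)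
  par : Even ((q (j : ZMod N)).1 + (q (j : ZMod N)).2) ↔
    Even ((q' (j' : ZMod N')).1 + (q' (j' : ZMod N')).2)
  ty : cty N k j = cty N' k' j'

theorem SameI.symm (h : SameI d N k q τ j N' k' q' τ' j') : SameI d N' k' q' τ' j' N k q τ j :=
  ⟨h.lt', h.lt, h.str', h.str, h.le', h.le, h.turn.symm, h.par.symm, h.ty.symm⟩

/-- **The windows agree.** -/
theorem sameW_of (h : LkD n N q D k τ L m η) (h' : LkD n' N' q' D' k' τ' L' m' η')
    (hI : SameI d N k q τ j N' k' q' τ' j') (hF : FarI N k L j) (hF' : FarI N' k' L' j')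
    (hR1 : 1 ≤ R) (h3 : 3 * (R + 1) < n) (h3' : 3 * (R + 1) < n') (hR : 2 * (R + 1) ≤ d)
    (hm : R ≤ m) (hm' : R ≤ m') :
    ∃ s : Fin 4, Rt (mvT (q (j : ZMod N)) (q' (j' : ZMod N')) s) s ∧
      SameW (mvT (q (j : ZMod N)) (q' (j' : ZMod N')) s) D η (q (j : ZMod N)) D' η'
        (q' (j' : ZMod N')) R ∧
      Win0 q (pq (mvT (q (j : ZMod N)) (q' (j' : ZMod N')) s) q') (jB N j) (jB N' j') d := by
  have hle : jB N j ≤ N := jn_le hI.lt
  have hle' : jB N' j' ≤ N' := jn_le hI.lt'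
  have hd0 : 0 < d := by omega
  -- the rotation
  obtain ⟨s, hs⟩ : ∃ s : Fin 4, (τ' (jB N' j') - τ (jB N j)) % 4 = (s.val : ℤ) := by
    have h1 : (τ' (jB N' j') - τ (jB N j)) % 4 = 0 ∨ (τ' (jB N' j') - τ (jB N j)) % 4 = 1 ∨
      (τ' (jB N' j') - τ (jB N j)) % 4 = 2 ∨ (τ' (jB N' j') - τ (jB N j)) % 4 = 3 := by omega
    rcases h1 with h1 | h1 | h1 | h1
    · exact ⟨0, h1⟩
    · exact ⟨1, h1⟩
    · exact ⟨2, h1⟩
    · exact ⟨3, h1⟩
  have hT := rt_mvT hI.par s
  have hcen := mvT_cen (q (j : ZMod N)) (q' (j' : ZMod N')) s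
  set T := mvT (q (j : ZMod N)) (q' (j' : ZMod N')) s with hTd
  -- the window
  have hw : Win0 q (pq T q') (jB N j) (jB N' j') d := by
    refine win0_of h.step (fun i => hT.step h'.step i) hI.le hI.le' hI.str
      ⟨fun i h1 h2 => ?_, fun i h1 h2 => ?_⟩ ?_ ?_ ?_
    · show τ' i - (s.val : ℤ) = τ' _ - (s.val : ℤ)
      rw [hI.str'.1 i h1 h2]
    · show τ' i - (s.val : ℤ) = τ' _ - (s.val : ℤ)
      rw [hI.str'.2 i h1 h2]
    · rw [jn_cast (pq T q') j', jn_cast q j]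
      unfold pq
      rw [← hcen, Equiv.symm_apply_apply]
    · refine Top.vec_congr ?_
      omega
    · refine Top.vec_congr ?_
      have := hI.turn
      omega
  have hdom : ∀ v ∈ Bq (q (j : ZMod N)) R, v ∈ D ↔ T.Q v ∈ D' := by
    have key := dom_win h.geo (geoP_pq T h'.geo) h.poly h.enc (hT.poly h'.poly) (hT.encl h'.enc)
      hle hI.le hle' hI.le' hR1 h3 h3' hR hw
    intro v hv
    rw [← T.mem_pre]
    refine key v ?_
    rw [jn_cast q j]
    exact hv
  refine ⟨s, hT, ⟨hT.o, hcen, hdom, fun v hv hvD => ?_⟩, hw⟩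
  -- the colours
  obtain ⟨r₀, rk, a1, a2, a3⟩ := h.col j hI.lt hF
  obtain ⟨r₀', rk', b1, b2, b3⟩ := h'.col j' hI.lt' hF'
  have hv' : T.Q v ∈ Bq (q' (j' : ZMod N')) R := by
    rw [← hcen]
    exact (bq_T T).2 hv
  have hvD' : T.Q v ∉ D' := fun hc => hvD ((hdom v hv).2 hc)
  rw [a3 v (bq_sub hm hv) hvD, b3 _ (bq_sub hm' hv') hvD']
  have hty := hI.ty
  rcases cty_cases N k j with ⟨k0, kN, hjk, c1⟩ | ⟨k0, kN, hj0, c1⟩ | ⟨hc, c1⟩ <;>
    rcases cty_cases N' k' j' with ⟨k0', kN', hjk', c2⟩ | ⟨k0', kN', hj0', c2⟩ | ⟨hc', c2⟩ <;>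
    rw [c1, c2] at hty
  · rw [ccol_jun ⟨k0, kN⟩ hjk, ccol_jun ⟨k0', kN'⟩ hjk']
    have hj0 : jB N j = k := by
      unfold jB
      rw [if_neg (by omega)]
      exact hjk
    have hj0' : jB N' j' = k' := by
      unfold jB
      rw [if_neg (by omega)]
      exact hjk'
    rw [hj0, hj0'] at hs
    have e4 : rk' = rk + s := by
      refine dir_inj' ?_
      have e := vec_rot (τ' k') s rk' b2.symm
      have e5 : Top.vec (τ' k' - (s.val : ℤ)) = Top.vec (τ k) := Top.vec_congr (by omega)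
      rw [e5, ← a2] at e
      rw [dir_inj' e, sub_add_cancel]
    have e5 : q' (k' : ZMod N') = T.S (q (k : ZMod N)) := by
      rw [← hjk, ← hjk', hcen]
    rw [e4, e5, al_mvT]
  · exact absurd hty (by norm_num)
  · exact absurd hty (by split_ifs <;> norm_num)
  · exact absurd hty (by norm_num)
  · have h0 : k ≠ 0 := by omega
    have h0' : k' ≠ 0 := by omega
    rw [ccol_bas ⟨k0, kN⟩ hj0, ccol_bas ⟨k0', kN'⟩ hj0']
    have hJ0 : jB N j = N := by
      unfold jB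
      rw [if_pos hj0]
    have hJ0' : jB N' j' = N' := by
      unfold jB
      rw [if_pos hj0']
    have p1 := h.per 0
    have p2 := h'.per 0
    rw [zero_add] at p1 p2
    rw [hJ0, hJ0', p1, p2] at hs
    have e4 : r₀' = r₀ + s := by
      refine dir_inj' ?_
      have e := vec_rot (τ' 0) s r₀' b1.symm
      have e5 : Top.vec (τ' 0 - (s.val : ℤ)) = Top.vec (τ 0) := Top.vec_congr (by omega)
      rw [e5, ← a1] at e
      rw [dir_inj' e, sub_add_cancel]
    have e5 : q' ((0 : ℕ) : ZMod N') = T.S (q ((0 : ℕ) : ZMod N)) := by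
      have := hcen
      rw [hj0, hj0'] at this
      exact this.symm
    rw [e4, e5, al_mvT]
  · exact absurd hty (by split_ifs <;> norm_num)
  · exact absurd hty (by split_ifs <;> norm_num)
  · exact absurd hty (by split_ifs <;> norm_num)
  · rw [ccol_col hc, ccol_col hc']
    by_cases d1 : k ≤ j <;> by_cases d2 : k' ≤ j'
    · rw [decide_eq_true d1, decide_eq_true d2]
    · rw [if_pos d1, if_neg d2] at hty
      exact absurd hty (by norm_num)
    · rw [if_neg d1, if_pos d2] at hty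
      exact absurd hty (by norm_num)
    · rw [decide_eq_false d1, decide_eq_false d2]

end Vale.Agent.P167.N.QL
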