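import Vale.Agent.P167.N.QL.Al21

/-!
# P167, the range `0 < q < 1`, block Q-LAM: assembly, the product inequality for the families
-/

set_option autoImplicit false

namespace Vale.Agent.P167.N.QL

open Finset Filter Vale.Agent.P167.BR Vale.Agent.P167.FK
open Vale.Agent.P167.E6 (IsPolygon Encloses face dir)
open Vale.Agent.P167.H718 (Dob rc IsCl)
open Vale.Agent.P167.H871 (Bd)
open Vale.Agent.P167.H192.Q (SRSW)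
open Vale.Agent.P167.H542.Q (BD)
open Vale.Agent.P167.H760.Q (BaseQ)
open Vale.Agent.P167.H975 (TX)

variable {θ : ℝ}

/-- Nonnegative local factors from the two kinds. -/
theorem TN.of_or {P : PD} {β b B c0 : ℝ} {Λ : ℤ} {KE : ℕ → ℤ} {CE : ℕ → ℝ} {η₀ : Cfg} {r r₀ : ℤ}
    {j : ℕ} (hc : 0 < c0) (hb : 0 < b) (hr : 1 ≤ r) (hr0 : r ≤ r₀)
    (h : PC θ β P.q P.D P.k P.ρ c0 (P.q (j : ZMod P.N)) r₀ ∨
      KC θ β P.q P.D P.k P.ρ η₀ b B Λ KE CE (P.q (j : ZMod P.N)) r₀) : TN θ β P j r := by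
  rcases h with h | h
  · exact TN.of_pc hc (h.mono le_rfl hr0)
  · exact TN.of_kc hb h hr hr0

/-- **The product inequality.** -/
theorem prodI (h0 : 0 < θ) (h1 : Ang θ) (hR : RSW (2 * Real.cos θ)) (hS : SRSW (2 * Real.cos θ))
    {S : CA.Dat} (X : BD S θ (bt θ)) {s : ℕ → ℕ} (hb : BaseQ X s) (hB : BcX X s) {e : ℝ}
    (he : 0 < e) (he1 : 2 * e ≤ S.tp) (he2 : e ≤ 1 - S.tp) {ja : Finset ℕ} (hj : JunP X ja) :
    ProdI X s e ja := by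
  obtain ⟨b, B, Λ, W, KE, CE, hA⟩ := lall h1
  obtain ⟨cl, σ, R, -, -, hCs, Hloc⟩ := loc_all_of h1 hA X hb hB he he1 he2 hj
  obtain ⟨c₀, hc₀, Hlk⟩ := lkD_X X hb hB
  obtain ⟨c', hc'⟩ : ∃ c', c' = min c₀ (min (e / 4) 1) := ⟨_, rfl⟩
  have hc'0 : 0 < c' := by
    rw [hc']
    exact lt_min hc₀ (lt_min (by positivity) one_pos)
  have hc'1 : c' ≤ c₀ := by
    rw [hc']
    exact min_le_left _ _
  have hc'e : c' ≤ e / 4 := by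
    rw [hc']
    exact (min_le_right _ _).trans (min_le_left _ _)
  have hc'2 : c' ≤ 1 := by
    rw [hc']
    exact (min_le_right _ _).trans (min_le_right _ _)
  obtain ⟨c, hc⟩ : ∃ c, c = c' / 200 := ⟨_, rfl⟩
  have hc0 : 0 < c := by
    rw [hc]
    positivity
  have hc1 : c ≤ 1 / 200 := by
    rw [hc]
    linarith
  have hce : c ≤ e / 8 := by
    rw [hc]
    linarith
  obtain ⟨ρ₁, hρ₁, HF⟩ := ref_thm h0 h1 hR hS hc0 hc1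
  obtain ⟨ρ₂, hρ₂, Hs⟩ := sca hc0 (hc1.trans (by norm_num)) (le_refl (1 : ℝ))
  obtain ⟨C₀, hC₀⟩ := exists_sc' X hb he (Rf_sub S) hj 8
  refine ⟨min (min ρ₁ ρ₂) σ, lt_min (lt_min hρ₁ hρ₂) hCs.sp, fun ρ hρ hρ' => ?_⟩
  obtain ⟨C₁, n₁, hC₁, HF⟩ := HF ρ hρ (hρ'.trans ((min_le_left _ _).trans (min_le_left _ _)))
  obtain ⟨n₂, Hs⟩ := Hs ρ hρ (hρ'.trans ((min_le_left _ _).trans (min_le_right _ _)))
  have hρσ : ρ ≤ σ := hρ'.trans (min_le_right _ _)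
  have hwl := wl_pos h0 h1.lt
  obtain ⟨C, hC⟩ : ∃ C, C = C₁ + 1 + (wl θ)⁻¹ := ⟨_, rfl⟩
  have hwi : 0 < (wl θ)⁻¹ := inv_pos.2 hwl
  have hC1 : 1 ≤ C := by
    rw [hC]
    linarith
  have hCC : C₁ ≤ C := by
    rw [hC]
    linarith
  have hCw : 1 ≤ C * wl θ := by
    calc (1 : ℝ) = (wl θ)⁻¹ * wl θ := (inv_mul_cancel₀ hwl.ne').symm
      _ ≤ C * wl θ := mul_le_mul_of_nonneg_right (by rw [hC]; linarith) hwl.le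
  have hlarge : ∀ A : ℝ, ∀ᶠ n : ℕ in X.L, A ≤ n := fun A => X.le
    ((eventually_ge_atTop ⌈A⌉₊).mono fun n hn => (Nat.le_ceil A).trans (by exact_mod_cast hn))
  refine ⟨(16 * C ^ 6) ^ (4 * (Rf S).card + 6), by positivity, ?_⟩
  filter_upwards [Hloc, Hlk c' hc'0 hc'1, hC₀, X.le (eventually_ge_atTop n₁),
    X.le (eventually_ge_atTop n₂), hlarge (32 / e)] with n a1 a2 a3 a4 a5 a6 u v x x' τ huv hτ hx
    hx' η η' hη hη'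
  obtain ⟨H, hbig⟩ := a3
  obtain ⟨Pi, A, B, Z, bb, ζ, Db, Dj, F⟩ := HF n a4
  have F := F.mono hCC
  have Hs := Hs n a5
  obtain ⟨r, hr⟩ : ∃ r : ℤ, r = ⌊ρ * (n : ℝ)⌋ := ⟨_, rfl⟩
  have hrσ : r ≤ ⌊σ * (n : ℝ)⌋ := by
    rw [hr]
    exact Int.floor_le_floor (mul_le_mul_of_nonneg_right hρσ (Nat.cast_nonneg n))
  rw [← hr] at F Hs ⊢
  have hr1 := Hs.r1
  have hrR : r ≤ ⌊c / 8 * (n : ℝ)⌋ := by
    have := Hs.K
    rw [one_mul] at this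
    exact_mod_cast this
  have hr3 : 3 * (r + 1) < (n : ℤ) := by
    have := Hs.n3
    omega
  have hrd : 2 * (r + 1) ≤ ((⌊c * (n : ℝ)⌋₊ : ℕ) : ℤ) := by
    have := Hs.d
    omega
  have hd0 : 0 < ⌊c * (n : ℝ)⌋₊ := by omega
  -- numbers
  rw [div_le_iff₀ he] at a6
  have hn0 : (0 : ℝ) ≤ n := Nat.cast_nonneg n
  have f1 : (⌊c * (n : ℝ)⌋₊ : ℝ) ≤ c * n := Nat.floor_le (by positivity)
  have f2 : c * (n : ℝ) ≤ e / 8 * n := mul_le_mul_of_nonneg_right hce hn0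
  have f3 : e / 2 * (n : ℝ) < ⌊e / 2 * (n : ℝ)⌋₊ + 1 := Nat.lt_floor_add_one _
  have hd : ⌊c * (n : ℝ)⌋₊ + 3 ≤ ⌊e / 2 * (n : ℝ)⌋₊ := by
    have h2 : ((⌊c * (n : ℝ)⌋₊ + 3 : ℕ) : ℝ) < ((⌊e / 2 * (n : ℝ)⌋₊ + 1 : ℕ) : ℝ) := by
      push_cast
      linarith
    have h3 : ⌊c * (n : ℝ)⌋₊ + 3 < ⌊e / 2 * (n : ℝ)⌋₊ + 1 := by exact_mod_cast h2
    omega
  have hL : ⌊c' * (n : ℝ)⌋₊ ≤ ⌊e / 2 * (n : ℝ)⌋₊ :=
    Nat.floor_le_floor (mul_le_mul_of_nonneg_right (by linarith) hn0)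
  have hm : ⌊c * (n : ℝ)⌋ ≤ ⌊c' / 100 * (n : ℝ)⌋ :=
    Int.floor_le_floor (mul_le_mul_of_nonneg_right (by rw [hc]; linarith) hn0)
  -- data
  obtain ⟨ηu, hLu⟩ := a2 u τ hτ
  obtain ⟨ηv, hLv⟩ := a2 v τ hτ
  obtain ⟨ξu, -, hNu, hIu⟩ := a1 u τ hτ
  obtain ⟨ξv, -, hNv, hIv⟩ := a1 v τ hτ
  have huv' : ¬ (Even (v.1 + v.2) ↔ Even (u.1 + u.2)) := fun h => huv h.symm
  have g1 : GD c n (IA X s e ja n τ u v x) τ ⌊c' * (n : ℝ)⌋₊ η :=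
    ⟨⟨n, _, ηu, le_rfl, hm, hLu⟩, hη⟩
  have g2 : GD c n (IA X s e ja n τ v u x') τ ⌊c' * (n : ℝ)⌋₊ η' :=
    ⟨⟨n, _, ηv, le_rfl, hm, hLv⟩, hη'⟩
  have g3 : GD c n (NA X s e ja n v x) τ ⌊c' * (n : ℝ)⌋₊ η' :=
    ⟨⟨n, _, ηv, le_rfl, hm, hLv⟩, hη'⟩
  have g4 : GD c n (NA X s e ja n u x') τ ⌊c' * (n : ℝ)⌋₊ η :=
    ⟨⟨n, _, ηu, le_rfl, hm, hLu⟩, hη⟩
  have t1 : ∀ j ∈ (IA X s e ja n τ u v x).J, TN θ (bt θ) (IA X s e ja n τ u v x) j r :=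
    fun j hj => TN.of_or hwl hA.kc.bp hr1 hrσ ((hIu v x huv hx).2 j hj)
  have t2 : ∀ j ∈ (IA X s e ja n τ v u x').J, TN θ (bt θ) (IA X s e ja n τ v u x') j r :=
    fun j hj => TN.of_or hwl hA.kc.bp hr1 hrσ ((hIv u x' huv' hx').2 j hj)
  have t3 : ∀ j ∈ (NA X s e ja n v x).J, TN θ (bt θ) (NA X s e ja n v x) j r :=
    fun j hj => TN.of_or hwl hA.kc.bp hr1 hrσ ((hNv x hx).2 j hj)
  have t4 : ∀ j ∈ (NA X s e ja n u x').J, TN θ (bt θ) (NA X s e ja n u x') j r :=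
    fun j hj => TN.of_or hwl hA.kc.bp hr1 hrσ ((hNu x' hx').2 j hj)
  have hK : (1 : ℝ) ≤ 16 * C ^ 6 := by
    have : 1 ≤ C ^ 6 := one_le_pow₀ hC1
    linarith
  exact H.prod_fix he he1 he2 hbig (fun i => X.q n i + v) (fun i => X.q n i + u) F.pp hK
    (fun i hi => kind_c h1 H he he1 he2 hbig hτ hd hd0 hL hr3 hrd F hC1 huv g1 g2 t1 t2 hi)
    (fun i hi => kind_r h1 H he he1 he2 hbig hτ hd hd0 hL F hC1 huv g1 g2 g3 g4 t1 t2 t3 t4 hi)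
    (fun i hi => kind_z h1 H he he1 he2 hbig hτ hd hd0 hL F hC1 huv g1 g2 g3 g4 t1 t2 t3 t4 hi
      rfl rfl)
    (kind_b h0 h1 H he he1 he2 hbig hτ hd hd0 hL hr1 hr3 hrd F hC1 hCw huv g1 g2 t1 t2 hx hx')

/-- **`LamG` of the parity images.** -/
theorem lamG_im (h1 : Ang θ) {S : CA.Dat} (X : BD S θ (bt θ)) {s : ℕ → ℕ} (hb : BaseQ X s)
    (hB : BcX X s) (hx : ∀ᶠ n in X.L, XOk (X.N n) (X.k n) (X.q n) false) {e : ℝ} (he : 0 < e)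
    (he1 : 16 * e ≤ S.tp) (he2 : 16 * e ≤ 1 - S.tp) {ja : Finset ℕ} (hj : JunP X ja) :
    LamG θ (bt θ) X.L (imF X (rhoP X s e (Rf S)) (JP X s e (Rf S) ja)) :=
  lamG_im_of h1 X hb hB hx he he1 he2 hj (prodI h1.pos h1 h1.kit.rsw h1.kit.srsw X hb hB he
    (by linarith) (by linarith) hj)

end Vale.Agent.P167.N.QL
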