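import Vale.Agent.P167.N.QL.TrA
import Vale.Agent.P167.N.KitQ

/-!
# P167, the range `0 < q < 1`: the transfer for the three families

`tr_fam_of`: the local input of the transfer at all sides, from the majorants and the closeness of the
natural functionals, and from the moments and `LamG` of the parity images.
-/

set_option autoImplicit false

namespace Vale.Agent.P167.N.QL

open Finset Filter Topology Vale.Agent.P167 Vale.Agent.P167.FK
open Vale.Agent.P167.H542.Q (BD)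
open Vale.Agent.P167.H760.Q (BaseQ JunQ baseQ_b)
open Vale.Agent.P167.H852.Q (Cls FwC DbC)
open Vale.Agent.P167.N.H955 (TrAll MajNU CloN)

variable {S : CA.Dat} {θ β : ℝ}

/-- Moments and `LamG` of the parity images, at small `e`. -/
def MlIm (X : BD S θ β) (s : ℕ → ℕ) (ja : Finset ℕ) : Prop :=
  ∃ e0 : ℝ, 0 < e0 ∧ ∀ e : ℝ, 0 < e → e ≤ e0 →
    MomG θ β X.L (imF X (rhoP X s e (Rf S)) (JP X s e (Rf S) ja)) ∧
    LamG θ β X.L (imF X (rhoP X s e (Rf S)) (JP X s e (Rf S) ja))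

/-- The base, the boundary condition and the junction of a class. -/
theorem cls_jun {X : BD S θ β} {s : ℕ → ℕ} (hb : BaseQ X s) (hcl : Cls X) :
    ∃ (s' : ℕ → ℕ) (ia : ℕ) (C₀ : ℝ) (ja : Finset ℕ), BaseQ X s' ∧ BcX X s' ∧ JunQ X ia C₀ ∧
      JunP X ja := by
  rcases hcl.ty with ⟨b, hk, -⟩ | ⟨ia, i0, i1, -, hb0, hk⟩
  · cases b with
    | true =>
      have hk' : ∀ᶠ n in X.L, X.k n = 0 := by simpa using hk
      refine ⟨s, 0, 0, ∅, hb, Or.inr (Or.inl hk'), ?_, Or.inl ⟨rfl, hk'.mono fun _ h => Or.inl h⟩⟩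
      filter_upwards [hk'] with n hn
      rw [hn]
      simp
    | false =>
      have hk' : ∀ᶠ n in X.L, X.k n = X.N n := by simpa using hk
      refine ⟨s, S.l, 0, ∅, hb, Or.inl hk', ?_, Or.inl ⟨rfl, hk'.mono fun _ h => Or.inr h⟩⟩
      filter_upwards [hk', pos_X X hb] with n hn h2
      rw [hn, h2.2.2.1]
      simp
  · have hj : JunQ X ia 0 := by
      filter_upwards [hk] with n hn
      rw [hn]
      simp
    exact ⟨fun _ => 0, ia, 0, {ia}, baseQ_b hb0, Or.inr (Or.inr ⟨fun _ => rfl, ia, i0, i1, hk⟩),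
      hj, Or.inr ⟨ia, 0, i0, i1, rfl, hj⟩⟩

/-- **Majorants of the parity images.** -/
theorem imgU_of (h0 : 0 < θ) (h1 : Ang θ) (hβ : Real.cos (θ / 2 + β) = Real.sin θ) (X : BD S θ β)
    {s : ℕ → ℕ} (hb : BaseQ X s) {ja : Finset ℕ} (hj : JunP X ja) (hml : MlIm X s ja) {f : ℂ → ℝ}
    (hf : S.FF f) : ImgU X s f := by
  intro δ hδ
  obtain ⟨e0, he0, H⟩ := hml
  have htp0 := S.tp0
  have htp1 := S.tp1
  have h2 : 0 < 1 - S.tp := by linarith
  refine ⟨min (min e0 (δ / 4)) (min (S.tp / 2) (1 - S.tp)), by positivity, fun e he hle => ?_⟩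
  have k1 : e ≤ e0 := hle.trans ((min_le_left _ _).trans (min_le_left _ _))
  have k2 : e ≤ δ / 4 := hle.trans ((min_le_left _ _).trans (min_le_right _ _))
  have k3 : e ≤ S.tp / 2 := hle.trans ((min_le_right _ _).trans (min_le_left _ _))
  have k4 : e ≤ 1 - S.tp := hle.trans ((min_le_right _ _).trans (min_le_right _ _))
  obtain ⟨m1, m2⟩ := H e he k1
  exact majIP h0 h1 hβ h1.kit.rsw X hb he (by linarith) k4 (Rf_sub S) hj hδ k2 m1 m2 hf

/-- **The transfer.** -/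
theorem tr_fam_of (h0 : 0 < θ) (h1 : Ang θ) (hβ : Real.cos (θ / 2 + β) = Real.sin θ)
    (X : BD S θ β) {s : ℕ → ℕ} (hb : BaseQ X s) (hcl : Cls X)
    (hml : ∀ {s : ℕ → ℕ} {ja : Finset ℕ}, BaseQ X s → JunP X ja → MlIm X s ja)
    (hmn : ∀ {s : ℕ → ℕ} {f : ℂ → ℝ} {δ : ℝ}, BaseQ X s → BcX X s → S.FF f → 0 < δ →
      MajNU X s f δ)
    (hcn : ∀ {s : ℕ → ℕ} {f : ℂ → ℝ} {δ : ℝ}, BaseQ X s → BcX X s → S.FF f → 0 < δ →
      CloN X s f δ) {f : ℂ → ℝ} (hf : S.FF f) :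
    TrAll (2 * Real.cos θ) S X.L
      (fun n => (Vale.Agent.P167.N.H542.Q.BD.famB X h0 h1 hβ).H n f) := by
  obtain ⟨s', ia, C₀, ja, hb', hB, hk, hj⟩ := cls_jun hb hcl
  have hI := imgU_of h0 h1 hβ X hb' hj (hml hb' hj) hf
  have hI0 := imgU_of h0 h1 hβ X hb' hj (hml hb' hj) (ff_zero S)
  intro w r hw1 hw2
  exact ⟨tr_in X h0 h1 hβ hb' hk hj hf (fun δ hδ => hmn hb' hB hf hδ)
      (fun δ hδ => hmn hb' hB (ff_zero S) hδ) (fun δ hδ => hcn hb' hB hf hδ) hI hI0 hw1 hw2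
      (Or.inl ⟨rfl, rfl⟩),
    tr_in X h0 h1 hβ hb' hk hj hf (fun δ hδ => hmn hb' hB hf hδ)
      (fun δ hδ => hmn hb' hB (ff_zero S) hδ) (fun δ hδ => hcn hb' hB hf hδ) hI hI0 hw1 hw2
      (Or.inr ⟨rfl, rfl⟩)⟩

end Vale.Agent.P167.N.QL
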