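import Vale.Agent.P167.N.QL.MlIm
import Vale.Agent.P167.N.QL.TrFam
import Vale.Agent.P167.N.QL.Al22
import Vale.Agent.P167.N.H955.Fin
import Vale.Agent.P167.N.H955.Neu
import Vale.Agent.P167.N.H365.Q.FinC
import Vale.Agent.P167.N.H760.Q.Bs7
import Vale.Agent.P167.N.H872.Asm.Fam
import Vale.Agent.P167.N.H760.Q.NeuB
import Vale.Agent.P167.N.KitQ
import Vale.Agent.P167.H852.Q.Cls

/-!
# P167, `0 < q < 1`: the averaged Neumann condition of the three families (the field `tw` of `In2`)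

`ml_im`: moments and `LamG` of the parity images. `tr_fam`: the transfer. `neu_block`, `in_tw`: the
averaged Neumann condition.
-/

set_option autoImplicit false

namespace Vale.Agent.P167.N.QL

open Finset Filter Topology Vale.Agent.P167 Vale.Agent.P167.FK
open Vale.Agent.P167.CA (Dat)
open Vale.Agent.P167.H542.Q (BD)
open Vale.Agent.P167.H760.Q (NeuH BaseQ JunQ nbX neuh_cmp baseQ_nb junQ_nb baseQ_b pb_b even_pb
  even_floor)
open Vale.Agent.P167.H825.Q (Bc bdQ qS kS tN)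
open Vale.Agent.P167.H852.Q (Cls FwC DbC)
open Vale.Agent.P167.H872.Asm (BcG hbe)
open Vale.Agent.P167.N.H365.NQ (NREDC StagQ nredc_cos stagq_cos)
open Vale.Agent.P167.N.H955 (TrAll neuh_of_tr maj_nu clo_n)
open Vale.Agent.P167.QB (gB)

variable {θ : ℝ}

/-- **Moments and `LamG` of the parity images** of the functionals with charges at the reflex
corners. -/
theorem ml_im (h1 : Ang θ) {S : Dat} (X : BD S θ (bt θ)) {s : ℕ → ℕ} (hb : BaseQ X s)
    (hcl : Cls X) {ja : Finset ℕ} (hj : JunP X ja) : MlIm X s ja :=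
  ml_im_of h1 X hb hcl hj fun _ hb' hB hx _ he he1 he2 =>
    lamG_im h1 X hb' hB hx he he1 he2 hj

/-- **The transfer.** -/
theorem tr_fam (h0 : 0 < θ) (h1 : Ang θ) {S : Dat} (X : BD S θ (gB θ)) {s : ℕ → ℕ}
    (hb : BaseQ X s) (hcl : Cls X) {f : ℂ → ℝ} (hf : S.FF f) :
    TrAll (2 * Real.cos θ) S X.L
      (fun n => (Vale.Agent.P167.N.H542.Q.BD.famB X h0 h1 (hbe θ)).H n f) :=
  tr_fam_of h0 h1 (hbe θ) X hb hcl (fun hb' hj => ml_im h1 X hb' hcl hj)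
    (fun hb' hB hf' hδ => maj_nu h0 h1 (hbe θ) X hb' hB hf' hδ)
    (fun hb' hB hf' hδ => clo_n h0 h1 (hbe θ) X hb' hB hf' hδ) hf

/-- The averaged Neumann condition of a class. -/
theorem neuh_cls (h0 : 0 < θ) (h1 : Ang θ) {S : Dat} (X : BD S θ (gB θ)) {s : ℕ → ℕ}
    (hb : BaseQ X s) (hcl : Cls X) {f : ℂ → ℝ} (hf : S.FF f) :
    NeuH S X.L (fun n => (Vale.Agent.P167.N.H542.Q.BD.famB X h0 h1 (hbe θ)).H n f) :=
  neuh_of_tr h1.kit.pos (fun t => nredc_cos h1 t (by norm_num))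
    (fun t => stagq_cos h1 t (by norm_num)) X.le (tr_fam h0 h1 X hb hcl hf)

/-- **The Neumann block.** -/
theorem neu_block (h0 : 0 < θ) (h1 : Ang θ) (S : Dat) (bc : Bc) (hbc : bc.In S.l) (L : Filter ℕ) (hL : L ≤ atTop)
    (hc : L.IsCountablyGenerated) (htp : S.tp = 1 / 2) (hr : S.r = 0) (h4 : L ≤ 𝓟 {n | 4 ∣ n})
    (hbg : ∀ i ta, bc = .dob i ta → ta = S.tp ∧ S.p (i + 1) = S.p i + (1, 0)) {f : ℂ → ℝ}
    (hf : S.FF f) : NeuH S L (fun n =>
      ((Vale.Agent.P167.N.H542.Q.BD.famB (bdQ S θ (gB θ) bc hbc L hL hc)) h0 h1 (hbe θ)).H n f) := by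
  have hRSW : RSW (2 * Real.cos θ) := h1.kit.rsw
  have h4' : ∀ᶠ n in L, 4 ∣ n := h4 (mem_principal_self _)
  obtain ⟨X, hX⟩ : ∃ X : BD S θ (gB θ), X = bdQ S θ (gB θ) bc hbc L hL hc := ⟨_, rfl⟩
  have hXL : X.L = L := by rw [hX]; rfl
  have hb : ∀ᶠ n : ℕ in X.L, X.q n 0 = S.b n := by
    rw [hX]
    exact hL ((eventually_gt_atTop 0).mono fun _ hn => H825.Q.qS_zero S hn)
  have hpar : ∀ᶠ n : ℕ in X.L, Even ((X.q n 0).1 + (X.q n 0).2) := by
    filter_upwards [hb, (hXL ▸ h4' : ∀ᶠ n in X.L, 4 ∣ n)] with n a1 a2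
    rw [a1, pb_b, even_pb hr a2]
    exact even_floor htp a2
  have h4X : X.L ≤ 𝓟 {n | 4 ∣ n} := hXL ▸ h4
  rw [← hX]
  rw [← hXL]
  cases bc with
  | free =>
    have hk : ∀ᶠ n in X.L, X.k n = X.N n := by rw [hX]; exact Eventually.of_forall fun _ => rfl
    refine neuh_cls h0 h1 X (baseQ_b hb) ⟨htp, hr, h4X, Or.inl ⟨false, ?_, ?_⟩⟩ hf
    · simpa using hk
    · simpa using hpar
  | wired =>
    have hk : ∀ᶠ n in X.L, X.k n = 0 := by rw [hX]; exact Eventually.of_forall fun _ => rfl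
    have hk' : ∀ᶠ n in X.L, X.k n = 0 ∨ X.k n = X.N n := hk.mono fun _ h => Or.inl h
    have hbn := baseQ_nb X hk' hb
    have hcl : Cls (nbX X hk') := by
      refine ⟨htp, hr, h4X, Or.inl ⟨true, hk, ?_⟩⟩
      · filter_upwards [hbn.2, (hXL ▸ h4' : ∀ᶠ n in X.L, 4 ∣ n)] with n a1 a2
        rw [a1, even_pb hr a2, Nat.even_add_one]
        simpa using even_floor htp a2
    exact neuh_cmp X.le (neuh_cls h0 h1 (nbX X hk') hbn hcl hf)
      (N.H760.Q.cmp_flx h0 h1 (hbe θ) hRSW hf X hk' hb)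
  | dob i ta =>
    obtain ⟨rfl, hdir⟩ := hbg i ta rfl
    have hk : ∀ᶠ n in X.L, X.k n = i * n := by
      rw [hX]
      exact Eventually.of_forall fun _ => H760.Q.kS_dobT
    obtain ⟨i0, i1, -, -⟩ := hbc
    exact neuh_cls h0 h1 X (baseQ_b hb)
      ⟨htp, hr, h4X, Or.inr ⟨i, i0, i1, hdir, hb, hk⟩⟩ hf

/-- **The field `tw` of `In2`.** -/
theorem in_tw (h0 : 0 < θ) (h1 : Ang θ) : ∀ (S : Dat) (bc : Bc) (hbc : bc.In S.l) (L : Filter ℕ)
    (hL : L ≤ atTop) (hc : L.IsCountablyGenerated),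
      Vale.Agent.P167.H872.Asm.Gd S L → BcG S bc → ∀ f, S.FF f →
      NeuH S L fun n => (N.H872.Asm.fam h0 h1 S bc hbc L hL hc).H n f := by
  intro S bc hbc L hL hc hg hb f hf
  refine neu_block h0 h1 S bc hbc L hL hc hg.tp hg.r hg.four ?_ hf
  rintro i ta rfl
  exact hb

end Vale.Agent.P167.N.QL
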