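import Vale.Agent.P167.N.QL.Defs
import Vale.Agent.P167.H852.Q.Y5g

/-!
# P167, the range `0 < q < 1`, block Q-LAM: the families with charges at the reflex corners

For a set `Rs` of reflex corners of the unit polygon (numbers `1 ≤ i ≤ l`): the charge `θ` at the
corner `i` or at the next site (`rI`: the odd one on the free arc, the even one on the wired arc) and
the charge `-θ` at the site with the number larger by `me e n = 2 * ⌊e * n / 2⌋ + 1` (of the other
parity). `rhoP`: the phases, `JP`: the centres of the boxes (base, junction, corners, compensating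
charges). `Rs = ∅`: no charges.
-/

set_option autoImplicit false

namespace Vale.Agent.P167.N.QL

open Finset Filter Vale.Agent.P167.BR Vale.Agent.P167.FK
open Vale.Agent.P167.E6 (IsPolygon Encloses dir face)
open Vale.Agent.P167.H825 (enl pdir tn)
open Vale.Agent.P167.H825.Reg (near_idx lip)
open Vale.Agent.P167.Enl (PN PN_succ vec_eq_mod)
open Vale.Agent.P167.H718 (Dob rc)
open Vale.Agent.P167.H871 (Bd)
open Vale.Agent.P167.H542.Q (BD)
open Vale.Agent.P167.H760.Q (BaseQ JunQ pb q_pos)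

/-! ### phases -/

/-- The number of the charged site at the corner with the number `c`. -/
def rI {N : ℕ} (q : ZMod N → ℤ × ℤ) (k c : ℕ) : ℕ :=
  if (c < k ↔ Even ((q (c : ZMod N)).1 + (q (c : ZMod N)).2)) then c + 1 else c

theorem rI_or {N : ℕ} (q : ZMod N → ℤ × ℤ) (k c : ℕ) : rI q k c = c ∨ rI q k c = c + 1 := by
  unfold rI
  split_ifs
  · exact Or.inr rfl
  · exact Or.inl rfl

/-- The phases of the charges `θ` at `rI c` and `-θ` at `rI c + m`, for `c ∈ C`. -/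
noncomputable def phP {N : ℕ} (θ : ℝ) (q : ZMod N → ℤ × ℤ) (k : ℕ) (C : Finset ℕ) (m j : ℕ) : ℝ :=
  ∑ c ∈ C, θ * ((if rI q k c ≤ j then 1 else 0) - (if rI q k c + m ≤ j then 1 else 0))

theorem phP_empty {N : ℕ} (θ : ℝ) (q : ZMod N → ℤ × ℤ) (k m : ℕ) :
    phP θ q k ∅ m = fun _ => 0 := by
  funext j
  unfold phP
  rw [sum_empty]

/-- The jumps of the phases. -/
theorem phP_jump {N : ℕ} {θ : ℝ} {q : ZMod N → ℤ × ℤ} {k m j : ℕ} {C : Finset ℕ} (hj : 0 < j)
    (h : phP θ q k C m j ≠ phP θ q k C m (j - 1)) : ∃ c ∈ C, j = rI q k c ∨ j = rI q k c + m := by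
  by_contra hcon
  push Not at hcon
  apply h
  unfold phP
  refine sum_congr rfl fun c hc => ?_
  obtain ⟨h1, h2⟩ := hcon c hc
  have e1 : (rI q k c ≤ j) = (rI q k c ≤ j - 1) := by
    rw [eq_iff_iff]; omega
  have e2 : (rI q k c + m ≤ j) = (rI q k c + m ≤ j - 1) := by
    rw [eq_iff_iff]; omega
  simp only [e1, e2]

variable (S : CA.Dat)

/-- The corners of the unit polygon. -/
def Tn : Finset ℕ := (Icc 1 S.l).filter fun m => tn (pdir S.p (m - 1)) (pdir S.p m) ≠ 0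

/-- The reflex corners of the unit polygon. -/
def Rf : Finset ℕ := (Icc 1 S.l).filter fun m => tn (pdir S.p (m - 1)) (pdir S.p m) = -1

theorem Rf_sub : Rf S ⊆ Tn S := by
  intro m hm
  unfold Rf at hm
  unfold Tn
  rw [mem_filter] at hm ⊢
  exact ⟨hm.1, by rw [hm.2]; decide⟩

/-- The number of the base. -/
noncomputable def t0 (s : ℕ → ℕ) (n : ℕ) : ℕ := ⌊S.tp * n⌋₊ + s n

/-- The distance of the two charges of a corner. -/
noncomputable def me (e : ℝ) (n : ℕ) : ℕ := 2 * ⌊e * n / 2⌋₊ + 1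

/-- The kinds of the centres: corner, compensating charge, base and junction. -/
def ids (Rs ja : Finset ℕ) : Finset (ℕ × Fin 3) :=
  (Tn S).image (fun i => (i, 0)) ∪ Rs.image (fun i => (i, 1)) ∪
    insert (0, 2) (ja.image fun i => (i, 2))

/-- The numbers of the centres. -/
def jn {N : ℕ} (q : ZMod N → ℤ × ℤ) (k t₀ m n : ℕ) (a : ℕ × Fin 3) : ℕ :=
  if a.2 = 0 then a.1 * n - t₀ else if a.2 = 1 then rI q k (a.1 * n - t₀) + m
  else if a.1 = 0 then 0 else k

/-- The macroscopic positions of the centres. -/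
noncomputable def vv (e tp : ℝ) (a : ℕ × Fin 3) : ℝ :=
  a.1 + if a.2 = 0 then 0 else if a.2 = 1 then e else tp

/-! ### geometry -/

variable {S}

theorem vv0 (e tp : ℝ) (i : ℕ) : vv e tp (i, 0) = i := by simp [vv]

theorem vv1 (e tp : ℝ) (i : ℕ) : vv e tp (i, 1) = i + e := by simp [vv]

theorem vv2 (e tp : ℝ) (i : ℕ) : vv e tp (i, 2) = i + tp := by
  have e1 : ((2 : Fin 3) = 0) = False := by simp
  have e2 : ((2 : Fin 3) = 1) = False := by simp
  simp only [vv, e1, e2, if_false]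

/-- Two kinds of centres have different positions. -/
theorem vv_gap {e tp : ℝ} (he : 0 < e) (he1 : 2 * e ≤ tp) (he2 : e ≤ 1 - tp)
    {a b : ℕ × Fin 3} (hab : a ≠ b) : e ≤ |vv e tp a - vv e tp b| := by
  have key : ∀ a b : ℕ × Fin 3, a ≠ b → a.1 ≤ b.1 → e ≤ |vv e tp b - vv e tp a| := by
    rintro ⟨i, x⟩ ⟨j, y⟩ hab hij
    simp only at hij
    have hx : x = 0 ∨ x = 1 ∨ x = 2 := by fin_cases x <;> simp
    have hy : y = 0 ∨ y = 1 ∨ y = 2 := by fin_cases y <;> simp
    rcases hij.eq_or_lt with rfl | hij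
    · have hxy : x ≠ y := fun h => hab (by rw [h])
      rcases hx with rfl | rfl | rfl <;> rcases hy with rfl | rfl | rfl <;>
        simp only [vv0, vv1, vv2] <;>
        first
        | exact absurd rfl hxy
        | (rw [le_abs]; left; linarith)
        | (rw [le_abs]; right; linarith)
    · have h1 : (i : ℝ) + 1 ≤ j := by exact_mod_cast hij
      rw [le_abs]
      left
      rcases hx with rfl | rfl | rfl <;> rcases hy with rfl | rfl | rfl <;>
        simp only [vv0, vv1, vv2] <;> linarith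
  rcases le_total a.1 b.1 with h | h
  · rw [abs_sub_comm]
    exact key a b hab h
  · exact key b a hab.symm h

/-- The range of the positions. -/
theorem vv_range {e tp : ℝ} (he : 0 < e) (he1 : 2 * e ≤ tp) (htp : tp < 1) {Rs ja : Finset ℕ}
    (hRs : Rs ⊆ Tn S) (hja : ∀ i ∈ ja, 0 < i ∧ i < S.l) {a : ℕ × Fin 3} (ha : a ∈ ids S Rs ja) :
    tp ≤ vv e tp a ∧ vv e tp a ≤ S.l + e := by
  have hl : 0 < S.l := by have := S.poly.1; omega
  have hl' : (1 : ℝ) ≤ S.l := by exact_mod_cast hl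
  have hT : ∀ i ∈ Tn S, (1 : ℝ) ≤ i ∧ (i : ℝ) ≤ S.l := by
    intro i hi
    unfold Tn at hi
    rw [mem_filter, mem_Icc] at hi
    exact ⟨by exact_mod_cast hi.1.1, by exact_mod_cast hi.1.2⟩
  unfold ids at ha
  rw [mem_union, mem_union, mem_insert, mem_image, mem_image, mem_image] at ha
  rcases ha with (⟨i, hi, rfl⟩ | ⟨i, hi, rfl⟩) | rfl | ⟨i, hi, rfl⟩
  · obtain ⟨h1, h2⟩ := hT i hi
    rw [vv0]
    constructor <;> linarith
  · obtain ⟨h1, h2⟩ := hT i (hRs hi)
    rw [vv1]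
    constructor <;> linarith
  · rw [vv2, Nat.cast_zero]
    constructor <;> linarith
  · obtain ⟨h1, h2⟩ := hja i hi
    have h3 : (1 : ℝ) ≤ i := by exact_mod_cast h1
    have h4 : (i : ℝ) + 1 ≤ S.l := by exact_mod_cast h2
    rw [vv2]
    constructor <;> linarith

theorem me_est {e : ℝ} (he : 0 < e) (n : ℕ) : |((me e n : ℕ) : ℝ) - e * n| ≤ 1 := by
  have h1 : (⌊e * n / 2⌋₊ : ℝ) ≤ e * n / 2 := Nat.floor_le (by positivity)
  have h2 : e * n / 2 < ⌊e * n / 2⌋₊ + 1 := Nat.lt_floor_add_one _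
  unfold me
  push_cast
  rw [abs_le]
  constructor <;> linarith

/-- The positions of the centres. -/
theorem jn_pos {e : ℝ} (he : 0 < e) {s : ℕ → ℕ} (hs : ∀ n, s n ≤ 1) {Rs ja : Finset ℕ}
    (hRs : Rs ⊆ Tn S) (hja : ∀ i ∈ ja, 0 < i ∧ i < S.l) {n N k : ℕ} {q : ZMod N → ℤ × ℤ}
    (ht : t0 S s n < n) {C₀ : ℝ} (hk : ∀ i ∈ ja, |(k : ℝ) - i * n| ≤ C₀) {a : ℕ × Fin 3}
    (ha : a ∈ ids S Rs ja) :
    |((t0 S s n : ℕ) : ℝ) + (jn q k (t0 S s n) (me e n) n a : ℕ) - vv e S.tp a * n| ≤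
      |C₀| + 2 := by
  have htp0 := S.tp0
  have hC0 := abs_nonneg C₀
  have hC1 := le_abs_self C₀
  have hT : ∀ i ∈ Tn S, n ≤ i * n := by
    intro i hi
    unfold Tn at hi
    rw [mem_filter, mem_Icc] at hi
    exact Nat.le_mul_of_pos_left n hi.1.1
  have hb1 : (⌊S.tp * n⌋₊ : ℝ) ≤ S.tp * n := Nat.floor_le (by positivity)
  have hb2 : S.tp * n < ⌊S.tp * n⌋₊ + 1 := Nat.lt_floor_add_one _
  have hs1 : ((s n : ℕ) : ℝ) ≤ 1 := by exact_mod_cast hs n
  have hs0 : (0 : ℝ) ≤ (s n : ℕ) := Nat.cast_nonneg _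
  have ht' : ((t0 S s n : ℕ) : ℝ) = (⌊S.tp * n⌋₊ : ℝ) + (s n : ℕ) := by
    unfold t0
    push_cast
    rfl
  have ht2 : |((t0 S s n : ℕ) : ℝ) - S.tp * n| ≤ 1 := by
    rw [ht', abs_le]
    constructor <;> linarith
  rw [abs_le] at ht2
  unfold ids at ha
  rw [mem_union, mem_union, mem_insert, mem_image, mem_image, mem_image] at ha
  have e1 : ((2 : Fin 3) = 0) = False := by simp
  have e2 : ((2 : Fin 3) = 1) = False := by simp
  rcases ha with (⟨i, hi, rfl⟩ | ⟨i, hi, rfl⟩) | rfl | ⟨i, hi, rfl⟩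
  · have h1 := hT i hi
    have h2 : ((i * n - t0 S s n : ℕ) : ℝ) = i * n - (t0 S s n : ℕ) := by
      rw [Nat.cast_sub (by omega)]
      push_cast
      rfl
    unfold jn
    simp only [if_true]
    rw [h2, vv0, add_sub_cancel, sub_self, abs_zero]
    linarith
  · have h1 := hT i (hRs hi)
    have h2 : ((i * n - t0 S s n : ℕ) : ℝ) = i * n - (t0 S s n : ℕ) := by
      rw [Nat.cast_sub (by omega)]
      push_cast
      rfl
    have h3 := me_est he n
    rw [abs_le] at h3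
    unfold jn
    simp only [one_ne_zero, if_false, if_true]
    rw [vv1]
    have h4 : ((rI q k (i * n - t0 S s n) : ℕ) : ℝ) = i * n - (t0 S s n : ℕ) ∨
        ((rI q k (i * n - t0 S s n) : ℕ) : ℝ) = i * n - (t0 S s n : ℕ) + 1 := by
      rcases rI_or q k (i * n - t0 S s n) with h | h <;> rw [h]
      · exact Or.inl h2
      · right
        push_cast
        rw [h2]
    push_cast
    rw [abs_le]
    rcases h4 with h4 | h4 <;> rw [h4] <;> constructor <;> linarith
  · unfold jn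
    simp only [e1, e2, if_false, if_true]
    rw [vv2, Nat.cast_zero, abs_le]
    constructor <;> linarith
  · obtain ⟨h1, h2⟩ := hja i hi
    have h3 := hk i hi
    rw [abs_le] at h3
    have h4 : i ≠ 0 := by omega
    unfold jn
    simp only [e1, e2, if_false, h4]
    rw [vv2, abs_le]
    constructor <;> linarith

/-- **The centres are separated.** -/
theorem sep_pos {e : ℝ} (he : 0 < e) (he1 : 2 * e ≤ S.tp) (he2 : e ≤ 1 - S.tp) {Rs ja : Finset ℕ}
    (hRs : Rs ⊆ Tn S) (hja : ∀ i ∈ ja, 0 < i ∧ i < S.l) {n t₀ : ℕ} {g : ℕ × Fin 3 → ℕ} {C : ℝ}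
    (hC : ∀ a ∈ ids S Rs ja, |(t₀ : ℝ) + (g a : ℕ) - vv e S.tp a * n| ≤ C) (hn : 4 * C < e * n)
    {i j : ℕ} (hi : i ∈ (ids S Rs ja).image g) (hj : j ∈ (ids S Rs ja).image g) (hij : i < j) :
    i + ⌊e / 2 * n⌋₊ ≤ j ∧ j + ⌊e / 2 * n⌋₊ ≤ i + S.l * n := by
  rw [mem_image] at hi hj
  obtain ⟨a, ha, rfl⟩ := hi
  obtain ⟨b, hb, rfl⟩ := hj
  have hab : a ≠ b := by
    rintro rfl
    exact lt_irrefl _ hij
  have h1 := vv_gap he he1 he2 hab
  have h2 := hC a ha
  have h3 := hC b hb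
  obtain ⟨h4, h5⟩ := vv_range he he1 S.tp1 hRs hja ha
  obtain ⟨h6, h7⟩ := vv_range he he1 S.tp1 hRs hja hb
  have hn0 : (0 : ℝ) ≤ n := Nat.cast_nonneg _
  have hij' : ((g a : ℕ) : ℝ) < (g b : ℕ) := by exact_mod_cast hij
  rw [abs_le] at h2 h3
  have hfl : ((⌊e / 2 * n⌋₊ : ℕ) : ℝ) ≤ e / 2 * n := Nat.floor_le (by positivity)
  -- the order of the positions
  have h8 : e ≤ vv e S.tp b - vv e S.tp a := by
    by_contra hcon
    push Not at hcon
    have h9 : vv e S.tp b - vv e S.tp a ≤ -e := by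
      rw [le_abs] at h1
      rcases h1 with h1 | h1
      · linarith
      · linarith
    have h10 : (vv e S.tp b - vv e S.tp a) * n ≤ -e * n := mul_le_mul_of_nonneg_right h9 hn0
    have hC0 : 0 ≤ C := by linarith
    linarith
  have h9 : e * n ≤ (vv e S.tp b - vv e S.tp a) * n := mul_le_mul_of_nonneg_right h8 hn0
  have h10 : (vv e S.tp b - vv e S.tp a) * n ≤ (S.l - e) * n :=
    mul_le_mul_of_nonneg_right (by linarith) hn0
  constructor
  · have : ((g a : ℕ) : ℝ) + (⌊e / 2 * n⌋₊ : ℕ) ≤ (g b : ℕ) := by linarith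
    exact_mod_cast this
  · have : ((g b : ℕ) : ℝ) + (⌊e / 2 * n⌋₊ : ℕ) ≤ (g a : ℕ) + S.l * n := by linarith
    exact_mod_cast this

end Vale.Agent.P167.N.QL
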