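import Vale.Agent.P167.N.QL.Pr1

/-!
# P167, the range `0 < q < 1`, block Q-LAM: a pair of charges as a killed centre

`Ld q D κ t m c`: the site `q t` is joined by its colour in the box of radius `4 m` around `q κ` to a
site of the polygon with a position in `[κ + 2 m, κ + 3 m]`. `Lnd`: this event is comparable to the
event that no strand of the box of radius `m` goes over `q t`. `kil_nz`, `extI_nz`: the pair of charges
`θ` at `q t`, `-θ` at `q z`, `z = t + m`, is a killed centre for the radii from `4 m`.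
-/

set_option autoImplicit false

namespace Vale.Agent.P167.N.QL

open Finset Relation
open Vale.Agent.P145.FB (PStep PConn)
open Vale.Agent.P167 Vale.Agent.P167.BR Vale.Agent.P167.FK
open Vale.Agent.P167.E6 (IsPolygon Encloses)
open Vale.Agent.P167.FKA (Loc Ex_mono Ex_congr Ex_const Ex_mul_left Ex_nonneg)
open Vale.Agent.P167.H871 (IsC)
open Vale.Agent.P167.H632 (cs pr pr_or pr_not)
open Vale.Agent.P167.H192.TA (Pw sc sc_nx)
open Vale.Agent.P167.H718 (IsXY IsCl)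
open Vale.Agent.P167.H975 (TX)
open Vale.Agent.P167.H601.S2 (Off)
open Vale.Agent.P167.QX (lo hi exists_xy lo_xy hi_xy)
open Vale.Agent.P167.N.NET (Mid mid_pos Ar Jn)
open Vale.Agent.P167.N.AX (Kil ExtI extI_cut)

variable {n κ t z k m m' : ℕ} {q : ZMod n → ℤ × ℤ} {D B : Finset (ℤ × ℤ)} {ω ω' η : Cfg} {c : Bool}
  {x y i j : ℕ} {s v : ℤ × ℤ} {A C : Finset Ed} {r r' R Λ k₀ : ℤ} {Q c1 θ β : ℝ} {ρ : ℕ → ℝ}

/-- **The landing event.** -/
def Ld (q : ZMod n → ℤ × ℤ) (D : Finset (ℤ × ℤ)) (κ t m : ℕ) (c : Bool) : Set Cfg :=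
  Jn c ↑(Bq (q (κ : ZMod n)) (4 * (m : ℤ)) ∩ D) (Ar q c t t) (Ar q c (κ + 2 * m) (κ + 3 * m))

/-- **The inequality of the landing event.** -/
def Lnd (Q : ℝ) (q : ZMod n → ℤ × ℤ) (D : Finset (ℤ × ℤ)) (η : Cfg) (κ t m : ℕ) (c : Bool)
    (c1 : ℝ) : Prop :=
  ∀ F : Cfg → ℝ, (∀ ω, 0 ≤ F ω) →
    (∀ ω ω' : Cfg, (∀ v, v ∉ Bq (q (κ : ZMod n)) (4 * (m : ℤ)) ∩ D → ω' v = ω v) → F ω' = F ω) →
    c1 * Ex Q D η (fun ω => F ω * (NS q D κ t m).indicator 1 ω) ≤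
      Ex Q D η (fun ω => F ω * (Ld q D κ t m c).indicator 1 ω)

theorem Ld_path (h : ω ∈ Ld q D κ t m c) :
    ((q (t : ZMod n)).1 + (q (t : ZMod n)).2) % 2 = pr c ∧ ∃ j : ℕ, κ + 2 * m ≤ j ∧
      j ≤ κ + 3 * m ∧ Pw (cs c ω ∩ ↑(Bq (q (κ : ZMod n)) (4 * (m : ℤ)) ∩ D)) (q (t : ZMod n))
        (q (j : ZMod n)) := by
  obtain ⟨u, ⟨hu, k, k1, k2, rfl⟩, v, ⟨hv, j, j1, j2, rfl⟩, h1⟩ := h
  obtain rfl : k = t := le_antisymm k2 k1
  exact ⟨hu, j, j1, j2, h1⟩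

/-- The landing event is local. -/
theorem Ld_loc (q : ZMod n → ℤ × ℤ) (D : Finset (ℤ × ℤ)) (κ t m : ℕ) (c : Bool) :
    Loc (Bq (q (κ : ZMod n)) (4 * (m : ℤ)) ∩ D) ((Ld q D κ t m c).indicator (1 : Cfg → ℝ)) := by
  have key : ∀ ω ω' : Cfg, (∀ v ∈ Bq (q (κ : ZMod n)) (4 * (m : ℤ)) ∩ D, ω v = ω' v) →
      ω ∈ Ld q D κ t m c → ω' ∈ Ld q D κ t m c := by
    rintro ω ω' h ⟨u, hu, v, hv, h1⟩
    refine ⟨u, hu, v, hv, H192.TA.Pw.mono ?_ h1⟩
    rintro w ⟨h2, h3⟩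
    refine ⟨?_, h3⟩
    have h4 := h w (mem_coe.1 h3)
    change ω w = c at h2
    show ω' w = c
    rw [← h4]
    exact h2
  intro ω ω' h
  have h1 : ω ∈ Ld q D κ t m c ↔ ω' ∈ Ld q D κ t m c :=
    ⟨key ω ω' h, key ω' ω fun v hv => (h v hv).symm⟩
  by_cases h2 : ω ∈ Ld q D κ t m c
  · rw [Set.indicator_of_mem h2, Set.indicator_of_mem (h1.1 h2)]
    rfl
  · rw [Set.indicator_of_notMem h2, Set.indicator_of_notMem fun h3 => h2 (h1.2 h3)]

section poly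

variable (hq : IsPolygon q) (hD : Encloses q D)

include hq hD

/-- **Strands on the landing event**: a strand over `q t` is over `q z`; a strand with a foot in `[t, z)`
has both feet in `[t, κ + 3 m)` and is in the box. -/
theorem Ld_over (hW : Wn q κ R) (hR : 4 * (m : ℤ) + 1 ≤ R) (hm : 0 < m) (ht1 : κ ≤ t) (ht : t ≤ κ + 1)
    (hz : z ≤ κ + 2 * m) (hω : ω ∈ Ld q D κ t m c) (hA : A ∈ pcs ω D) (hl : ¬ IsLp D A) :
    ¬ (lo q A < t ∧ t ≤ hi q A ∧ hi q A < z) ∧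
      ((t ≤ lo q A ∧ lo q A < z) ∨ (t ≤ hi q A ∧ hi q A < z) →
        (t ≤ lo q A ∧ hi q A < κ + 3 * m) ∧
          ∀ e ∈ A, hdv e ∈ Bq (q (κ : ZMod n)) (4 * (m : ℤ))) := by
  obtain ⟨hp, j, j1, j2, hP⟩ := Ld_path hω
  have hlt := hW.lt
  have hjn : j ≤ n := by omega
  constructor
  · rintro ⟨h1, h2, h3⟩
    have hov := over_iff_of_join hq hD hA hl (by omega : t ≤ n) hjn hp
      (H192.TA.Pw.mono (by
        rintro v ⟨h2, h3⟩
        exact ⟨h2, mem_coe.2 (mem_inter.1 (mem_coe.1 h3)).2⟩) hP)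
    omega
  · intro hf
    have h1 := under_path hq hD hW (r := 4 * (m : ℤ)) (by omega) hR (i := t) (j := j) (by omega) hjn
      (by omega) (by omega) hp hP hA hl (by omega)
    exact ⟨⟨h1.1.1, by omega⟩, h1.2⟩

/-- The landing event excludes the strands over `q t` and not over `q z`. -/
theorem Ld_sub_NZ (hW : Wn q κ R) (hR : 4 * (m : ℤ) + 1 ≤ R) (hm : 0 < m) (ht1 : κ ≤ t)
    (ht : t ≤ κ + 1) (hz : z ≤ κ + 2 * m) : Ld q D κ t m c ⊆ NZ q D κ t z r :=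
  fun _ hω _ hA hl _ => (Ld_over hq hD hW hR hm ht1 ht hz hω hA hl).1

/-- **The pair of charges is a killed centre.** -/
theorem kil_nz (hs : Real.sin θ ≠ 0) (hc : 0 < 2 * Real.cos θ) (hc1 : 2 * Real.cos θ ≤ 1)
    (hβ : Real.cos (θ / 2 + β) = Real.sin θ) (hW : Wn q κ R) (hk0 : 0 ≤ k₀) (hrR : r + 1 ≤ R)
    (hρ : PhZ θ κ t z R ρ) (hG : GdR q k t) (htR : (κ : ℤ) - R ≤ t)
    (ho : (κ : ℤ) + R ≤ k ∨ (k : ℤ) ≤ κ - R) :
    Kil (2 * Real.cos θ) (2 * Real.cos θ)⁻¹ (wP θ β q D k ρ) D (q (κ : ZMod n))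
      (fun a => (NZ q D κ t z (max a k₀)).indicator (1 : Cfg → ℝ)) k₀ r := by
  have h01 : ∀ (a : ℤ) (ω : Cfg), (NZ q D κ t z a).indicator (1 : Cfg → ℝ) ω = 0 ∨
      (NZ q D κ t z a).indicator (1 : Cfg → ℝ) ω = 1 := by
    intro a ω
    by_cases hω : ω ∈ NZ q D κ t z a
    · right
      rw [Set.indicator_of_mem hω]
      rfl
    · left
      rw [Set.indicator_of_notMem hω]
  have hanti : ∀ (a b : ℤ) (ω : Cfg), a ≤ b → (NZ q D κ t z b).indicator (1 : Cfg → ℝ) ω ≤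
      (NZ q D κ t z a).indicator (1 : Cfg → ℝ) ω := by
    intro a b ω h
    exact Set.indicator_le_indicator_of_subset (NZ_anti h) (fun _ => zero_le_one) ω
  have hinv : 1 ≤ (2 * Real.cos θ)⁻¹ := (one_le_inv₀ hc).2 hc1
  have key : ∀ (a : ℤ) (ω : Cfg), k₀ ≤ a → a ≤ r →
      2 * Real.cos θ * (NZ q D κ t z a).indicator (1 : Cfg → ℝ) ω ≤
        TX (wP θ β q D k ρ) D (q (κ : ZMod n)) a ω ∧
      TX (wP θ β q D k ρ) D (q (κ : ZMod n)) a ω ≤
        (2 * Real.cos θ)⁻¹ * (NZ q D κ t z a).indicator (1 : Cfg → ℝ) ω := by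
    intro a ω ha ha'
    obtain ⟨h1, h2⟩ := TX_nz (ω := ω) (β := β) hq hD hs (by
      intro h
      rw [h, mul_zero] at hc
      exact lt_irrefl _ hc) hβ hW (r := a) (by omega) (by omega) hρ hG htR ho
    by_cases hω : ω ∈ NZ q D κ t z a
    · obtain ⟨e, he, h3⟩ := h2 hω
      rw [Set.indicator_of_mem hω, h3, Pi.one_apply, mul_one, mul_one]
      rw [abs_le] at he
      have : e = -1 ∨ e = 0 ∨ e = 1 := by omega
      rcases this with rfl | rfl | rfl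
      · rw [zpow_neg_one]
        exact ⟨hc1.trans hinv, le_rfl⟩
      · rw [zpow_zero]
        exact ⟨hc1, hinv⟩
      · rw [zpow_one]
        exact ⟨le_rfl, hc1.trans hinv⟩
    · rw [Set.indicator_of_notMem hω, h1 hω, mul_zero, mul_zero]
      exact ⟨le_rfl, le_rfl⟩
  refine ⟨fun a ω _ _ => h01 _ ω, fun a b ω _ h2 _ => hanti _ _ ω (max_le_max h2 le_rfl),
    fun a ω h1 h2 => ?_, fun a ω h1 h2 => ?_⟩
  · rw [max_eq_left h1]
    exact (key a ω h1 h2).1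
  · rw [max_eq_left h1]
    exact (key a ω h1 h2).2

/-- **Extension.** -/
theorem extI_nz (hQ : 0 < Q) (hc1 : 0 < c1) (hc11 : c1 ≤ 1) (hW : Wn q κ R)
    (hR : 4 * (m : ℤ) + 1 ≤ R) (hm : 0 < m) (ht1 : κ ≤ t) (ht : t ≤ κ + 1) (hzκ : κ + m ≤ z)
    (hz : z ≤ κ + 2 * m) (hL : Lnd Q q D η κ t m c c1) (hΛ : 1 ≤ Λ) (hr : 4 * (m : ℤ) ≤ r)
    (E : ℕ) (K : ℤ) :
    ExtI Q D η (fun a => (NZ q D κ t z (max a (4 * (m : ℤ)))).indicator (1 : Cfg → ℝ))
      {q (κ : ZMod n)} Λ E K c1⁻¹ r (4 * (m : ℤ)) := by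
  refine extI_cut (I := fun a => (NZ q D κ t z a).indicator (1 : Cfg → ℝ)) hQ hΛ hr
    ((one_le_inv₀ hc1).2 hc11) (fun a ω _ _ => Set.indicator_nonneg (fun _ _ => zero_le_one) _)
    (fun a b ω _ h2 _ => Set.indicator_le_indicator_of_subset (NZ_anti h2) (fun _ => zero_le_one) ω)
    (fun a _ _ => ?_) fun a b h1 _ _ h4 _ _ F hF0 hF => ?_
  · rw [singleton_biUnion]
    intro ω ω' h
    exact NZ_loc q D κ t z a ω ω' fun v hv => h v (mem_inter.1 hv).1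
  · have k1 := hL F hF0 fun ω ω' h => (hF ω ω' fun v hv => (h v fun h' => hv ?_).symm).symm
    · have k2 : Ex Q D η (fun ω => (NZ q D κ t z a).indicator 1 ω * F ω) ≤
          Ex Q D η (fun ω => F ω * (NS q D κ t m).indicator 1 ω) := by
        refine Ex_mono hQ fun S _ => ?_
        rw [mul_comm]
        refine mul_le_mul_of_nonneg_left ?_ (hF0 _)
        exact Set.indicator_le_indicator_of_subset
          (NZ_sub_NS hq hD hW (m := m) (by omega) (by omega) (by omega)) (fun _ => zero_le_one) _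
      have k3 : Ex Q D η (fun ω => F ω * (Ld q D κ t m c).indicator 1 ω) ≤
          Ex Q D η (fun ω => (NZ q D κ t z b).indicator 1 ω * F ω) := by
        refine Ex_mono hQ fun S _ => ?_
        rw [mul_comm (Set.indicator _ _ _)]
        refine mul_le_mul_of_nonneg_left ?_ (hF0 _)
        exact Set.indicator_le_indicator_of_subset
          (Ld_sub_NZ hq hD hW hR hm ht1 ht hz) (fun _ => zero_le_one) _
      calc Ex Q D η (fun ω => (NZ q D κ t z a).indicator 1 ω * F ω)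
          ≤ Ex Q D η (fun ω => F ω * (NS q D κ t m).indicator 1 ω) := k2
        _ = c1⁻¹ * (c1 * Ex Q D η (fun ω => F ω * (NS q D κ t m).indicator 1 ω)) := by
            field_simp
        _ ≤ c1⁻¹ * Ex Q D η (fun ω => (NZ q D κ t z b).indicator 1 ω * F ω) :=
            mul_le_mul_of_nonneg_left (k1.trans k3) (inv_nonneg.2 hc1.le)
    · obtain ⟨h2, h3⟩ := mem_inter.1 h'
      refine ⟨h3, q (κ : ZMod n), mem_singleton_self _, ?_⟩
      rw [mBq] at h2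
      have h5 : nm (v - q (κ : ZMod n)) ≤ 4 * (m : ℤ) := by
        rw [nmle]
        simp only [Prod.fst_sub, Prod.snd_sub]
        omega
      have h6 : 4 * (m : ℤ) ≤ Λ * b := by nlinarith
      exact h5.trans h6

end poly

end Vale.Agent.P167.N.QL
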