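import Vale.Agent.P167.N.QL.Fam

/-!
# P167, the range `0 < q < 1`, block Q-LAM: the geometry of the families with charges at the reflex
corners
-/

set_option autoImplicit false

namespace Vale.Agent.P167.N.QL

open Finset Filter Vale.Agent.P167.BR Vale.Agent.P167.FK
open Vale.Agent.P167.E6 (IsPolygon Encloses dir face)
open Vale.Agent.P167.H825 (enl pdir tn)
open Vale.Agent.P167.H825.Reg (near_idx lip)
open Vale.Agent.P167.Enl (PN PN_succ vec_eq_mod)
open Vale.Agent.P167.H718 (Dob rc poly_add encl_add)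
open Vale.Agent.P167.H871 (Bd)
open Vale.Agent.P167.H542.Q (BD)
open Vale.Agent.P167.H601.LG (exists_PN)
open Vale.Agent.P167.H760.Q (BaseQ JunQ pb q_pos)
open Vale.Agent.P167.H852.Q (PN_pe)

/-- Enlargements have the property `GeoP`. -/
theorem geoP_enl {l N n : ℕ} {p : ZMod l → ℤ × ℤ} {q : ZMod N → ℤ × ℤ} {S₀ : Finset (ℤ × ℤ)}
    {a : ℤ × ℤ} (hp : IsPolygon p) (hS : Encloses p S₀) (hn : 0 < n) (hq : IsPolygon q)
    (hD : Encloses q ((enl S₀ n).image (· + a))) : GeoP n N q := by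
  have hl : NeZero l := ⟨by have := hp.1; omega⟩
  obtain ⟨hN, s, hs⟩ := exists_PN hp hS hn hq hD
  have hNe : (N : ℤ) = l * n := by rw [hN]; push_cast; ring
  refine ⟨hn, ?_, ?_, ?_⟩
  · rw [hN]
    exact Nat.mul_le_mul_right n (by have := hp.1; omega)
  · intro x y hx hy d hd h
    rw [hs, hs, add_sub_add_right_eq_sub] at h
    rw [hN] at hx hy
    have := near_idx hp hn hx hy hd h
    rw [hNe]
    exact this
  · intro x y
    rw [hs, hs, add_sub_add_right_eq_sub]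
    have := lip hp hn (x + s) (y + s)
    have h6 : ((x + s : ℕ) : ℤ) - ((y + s : ℕ) : ℤ) = x - y := by push_cast; ring
    rwa [h6] at this

section turn

variable {l N : ℕ} {p : ZMod l → ℤ × ℤ} {q : ZMod N → ℤ × ℤ} {n s : ℕ}
  {a : ℤ × ℤ} {u : ℕ → ℤ} {D : Set (ℤ × ℤ)}

theorem vec_dir (hp : IsPolygon p) (hn : 0 < n)
    (hs : ∀ j : ℕ, q (j : ZMod N) = PN p n (j + s) + a)
    (hu : Bd D N (fun k => q (k : ZMod N)) u 1) (k : ℕ) :
    Top.vec (u k) = dir (pdir p ((k + s) / n)) := by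
  have h2 := hu.step k
  rw [hs, hs, show k + 1 + s = k + s + 1 by ring, PN_succ hn hp] at h2
  have h3 : PN p n (k + s) + a + dir (pdir p ((k + s) / n)) =
      PN p n (k + s) + a + Top.vec (u k) := by
    rw [← h2]; ring
  exact (add_left_cancel h3).symm

theorem vec_val (r : Fin 4) : Top.vec ((r.val : ℕ) : ℤ) = dir r := by
  fin_cases r <;> rfl

/-- **The turning at the corner `i`.** -/
theorem turn_at (hp : IsPolygon p) (hn : 0 < n)
    (hs : ∀ j : ℕ, q (j : ZMod N) = PN p n (j + s) + a)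
    (hu : Bd D N (fun k => q (k : ZMod N)) u 1) {i j : ℕ} (hi : 0 < i) (hj : j + s = i * n)
    (hj0 : 0 < j) : u j - u (j - 1) = tn (pdir p (i - 1)) (pdir p i) := by
  have h1 := vec_dir hp hn hs hu j
  have h2 := vec_dir hp hn hs hu (j - 1)
  have e1 : (j + s) / n = i := by rw [hj, Nat.mul_div_cancel _ hn]
  have e2 : (j - 1 + s) / n = i - 1 := by
    obtain ⟨i', rfl⟩ : ∃ i', i = i' + 1 := ⟨i - 1, by omega⟩
    have h3 : j - 1 + s = i' * n + (n - 1) := by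
      have h4 : (i' + 1) * n = i' * n + n := by ring
      omega
    rw [h3, Nat.add_sub_cancel, mul_comm, Nat.mul_add_div hn, Nat.div_eq_of_lt (by omega),
      add_zero]
  rw [e1, ← vec_val] at h1
  rw [e2, ← vec_val] at h2
  have h3 := vec_eq_mod h1
  have h4 := vec_eq_mod h2
  have h5 := hu.turn (j - 1)
  rw [Nat.sub_add_cancel hj0, abs_le] at h5
  generalize pdir p i = b at *
  generalize pdir p (i - 1) = c at *
  have hb := b.isLt
  have hc := c.isLt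
  unfold tn
  split_ifs with h6 h7
  · subst h6
    rw [Fin.val_add] at h3
    have : ((1 : Fin 4) : ℕ) = 1 := rfl
    rw [this] at h3
    omega
  · subst h7
    rw [Fin.val_add] at h4
    have : ((1 : Fin 4) : ℕ) = 1 := rfl
    rw [this] at h4
    omega
  · have h8 : ¬ (b.val : ℕ) = (c.val + 1) % 4 := fun h => h6 (Fin.ext (by rw [Fin.val_add]; exact h))
    have h9 : ¬ (c.val : ℕ) = (b.val + 1) % 4 := fun h => h7 (Fin.ext (by rw [Fin.val_add]; exact h))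
    omega

/-- The turning is at the corners. -/
theorem turn_dvd (hp : IsPolygon p) (hn : 0 < n)
    (hs : ∀ j : ℕ, q (j : ZMod N) = PN p n (j + s) + a)
    (hu : Bd D N (fun k => q (k : ZMod N)) u 1) {j : ℕ} (hj0 : 0 < j) (hne : u j ≠ u (j - 1)) :
    ∃ i : ℕ, 0 < i ∧ j + s = i * n ∧ tn (pdir p (i - 1)) (pdir p i) ≠ 0 := by
  have h1 := H601.LG.corner_dvd hp hn hs hu (i := j - 1) (by
    rw [Nat.sub_add_cancel hj0]; exact hne)
  rw [Nat.sub_add_cancel hj0] at h1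
  obtain ⟨i, hi⟩ := h1
  have hi0 : 0 < i := by
    rcases Nat.eq_zero_or_pos i with h | h
    · rw [h, mul_zero] at hi
      omega
    · exact h
  have h3 : j + s = i * n := by rw [hi, mul_comm]
  refine ⟨i, hi0, h3, ?_⟩
  rw [← turn_at hp hn hs hu hi0 h3 hj0]
  omega

end turn

/-! ### the families -/

variable {S : CA.Dat} {θ β : ℝ}

/-- The phases: charges at the reflex corners in `Rs`. -/
noncomputable def rhoP (X : BD S θ β) (s : ℕ → ℕ) (e : ℝ) (Rs : Finset ℕ) (n : ℕ) : ℕ → ℝ :=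
  phP θ (X.q n) (X.k n) (Rs.image fun i => i * n - t0 S s n) (me e n)

/-- The centres. -/
noncomputable def JP (X : BD S θ β) (s : ℕ → ℕ) (e : ℝ) (Rs ja : Finset ℕ) (n : ℕ) : Finset ℕ :=
  (ids S Rs ja).image (jn (X.q n) (X.k n) (t0 S s n) (me e n) n)

/-- The junction: none (free or wired) or in the interior of a side of the unit polygon. -/
def JunP (X : BD S θ β) (ja : Finset ℕ) : Prop :=
  (ja = ∅ ∧ ∀ᶠ n in X.L, X.k n = 0 ∨ X.k n = X.N n) ∨
    ∃ (ia : ℕ) (C₀ : ℝ), 0 < ia ∧ ia < S.l ∧ ja = {ia} ∧ JunQ X ia C₀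

/-- The standing facts at the scale `n`. -/
structure Sc (X : BD S θ β) (s : ℕ → ℕ) (e : ℝ) (Rs ja : Finset ℕ) (C : ℝ) (n : ℕ) : Prop where
  n0 : 0 < n
  poly : IsPolygon (X.q n)
  enc : Encloses (X.q n) (S.D n)
  tn : t0 S s n < n
  q0 : X.q n 0 = pb S n (t0 S s n)
  N : X.N n = S.l * n
  hs : ∀ j : ℕ, X.q n (j : ZMod (X.N n)) = PN S.p n (j + t0 S s n)
  big : 4 * C < e * n
  C1 : 2 ≤ C
  pos : ∀ a ∈ ids S Rs ja, |((t0 S s n : ℕ) : ℝ) +
    (jn (X.q n) (X.k n) (t0 S s n) (me e n) n a : ℕ) - vv e S.tp a * n| ≤ C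
  jun : ja = ∅ ∧ (X.k n = 0 ∨ X.k n = X.N n) ∨
    ∃ ia, ja = {ia} ∧ 0 < ia ∧ ia < S.l

/-- The standing facts hold eventually. -/
theorem exists_sc (X : BD S θ β) {s : ℕ → ℕ} (hb : BaseQ X s) {e : ℝ} (he : 0 < e)
    {Rs ja : Finset ℕ} (hRs : Rs ⊆ Tn S) (hj : JunP X ja) :
    ∃ C : ℝ, ∀ᶠ n : ℕ in X.L, Sc X s e Rs ja C n := by
  have htp0 := S.tp0
  have htp1 := S.tp1
  have hlarge : ∀ A : ℝ, ∀ᶠ n : ℕ in X.L, A ≤ n := fun A => X.le
    ((eventually_ge_atTop ⌈A⌉₊).mono fun n hn => (Nat.le_ceil A).trans (by exact_mod_cast hn))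
  have hj' : ∃ C₀ : ℝ, (∀ i ∈ ja, 0 < i ∧ i < S.l) ∧ ∀ᶠ n in X.L,
      (∀ i ∈ ja, |(X.k n : ℝ) - i * n| ≤ C₀) ∧ (ja = ∅ ∧ (X.k n = 0 ∨ X.k n = X.N n) ∨
        ∃ ia, ja = {ia} ∧ 0 < ia ∧ ia < S.l) := by
    rcases hj with ⟨rfl, h⟩ | ⟨ia, C₀, h1, h2, rfl, h3⟩
    · exact ⟨0, fun i hi => absurd hi (by simp), h.mono fun n hn =>
        ⟨fun i hi => absurd hi (by simp), Or.inl ⟨rfl, hn⟩⟩⟩
    · refine ⟨C₀, fun i hi => ?_, h3.mono fun n hn => ⟨fun i hi => ?_, Or.inr ⟨ia, rfl, h1, h2⟩⟩⟩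
      · rw [mem_singleton.1 hi]
        exact ⟨h1, h2⟩
      · rw [mem_singleton.1 hi]
        exact hn
  obtain ⟨C₀, hja, hk⟩ := hj'
  have hC0 := abs_nonneg C₀
  obtain ⟨hs1, hb⟩ := hb
  refine ⟨|C₀| + 2, ?_⟩
  filter_upwards [X.poly, X.enc, hb, hk, hlarge (2 / (1 - S.tp)), hlarge 1,
    hlarge ((4 * (|C₀| + 2) + 1) / e)] with n a1 a2 a3 a4 a5 a6 a7
  have hn' : (0 : ℝ) < n := by linarith
  have hn : 0 < n := by exact_mod_cast hn'
  rw [div_le_iff₀ (by linarith)] at a5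
  rw [div_le_iff₀ he] at a7
  have ht1 : ((s n : ℕ) : ℝ) ≤ 1 := by exact_mod_cast hs1 n
  have hb1 : (⌊S.tp * n⌋₊ : ℝ) ≤ S.tp * n := Nat.floor_le (by positivity)
  have htn : t0 S s n < n := by
    have h1 : ((t0 S s n : ℕ) : ℝ) = (⌊S.tp * n⌋₊ : ℝ) + (s n : ℕ) := by
      unfold t0
      push_cast
      rfl
    have : ((t0 S s n : ℕ) : ℝ) < n := by rw [h1]; linarith
    exact_mod_cast this
  obtain ⟨hN, hpos⟩ := q_pos S hn a1 a2 htn a3
  refine ⟨hn, a1, a2, htn, a3, by rw [hN, mul_comm], fun j => ?_, by linarith, by linarith,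
    fun a ha => jn_pos he hs1 hRs hja htn a4.1 ha, a4.2⟩
  rw [hpos, PN_pe S.poly, add_comm]

section

variable {X : BD S θ β} {s : ℕ → ℕ} {e C : ℝ} {Rs ja : Finset ℕ} {n : ℕ}

theorem Sc.lt (H : Sc X s e Rs ja C n) (he : 0 < e) (he1 : 2 * e ≤ S.tp) (hRs : Rs ⊆ Tn S)
    {j : ℕ} (hj : j ∈ JP X s e Rs ja n) : j < X.N n := by
  have hja : ∀ i ∈ ja, 0 < i ∧ i < S.l := by
    rcases H.jun with ⟨h, -⟩ | ⟨ia, h, h1, h2⟩
    · intro i hi
      rw [h] at hi
      exact absurd hi (by simp)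
    · intro i hi
      rw [h, mem_singleton] at hi
      rw [hi]
      exact ⟨h1, h2⟩
  unfold JP at hj
  rw [mem_image] at hj
  obtain ⟨a, ha, rfl⟩ := hj
  have h1 := H.pos a ha
  obtain ⟨-, h2⟩ := vv_range he he1 S.tp1 hRs hja ha
  have hn0 : (0 : ℝ) ≤ n := Nat.cast_nonneg _
  rw [abs_le] at h1
  have h3 : vv e S.tp a * n ≤ (S.l + e) * n := mul_le_mul_of_nonneg_right h2 hn0
  have h4 : 2 * e * n ≤ S.tp * n := mul_le_mul_of_nonneg_right he1 hn0
  have h5 : S.tp * n < ⌊S.tp * n⌋₊ + 1 := Nat.lt_floor_add_one _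
  have h6 : (⌊S.tp * n⌋₊ : ℝ) ≤ (t0 S s n : ℕ) := by
    unfold t0
    push_cast
    linarith [(Nat.cast_nonneg (s n) : (0 : ℝ) ≤ (s n : ℕ))]
  have h7 := H.big
  have h8 := H.C1
  have h9 : (X.N n : ℝ) = S.l * n := by rw [H.N]; push_cast; rfl
  have : ((jn (X.q n) (X.k n) (t0 S s n) (me e n) n a : ℕ) : ℝ) < (X.N n : ℕ) := by
    rw [h9]
    linarith
  exact_mod_cast this

theorem mem_JP0 (n : ℕ) : 0 ∈ JP X s e Rs ja n := by
  unfold JP
  rw [mem_image]
  refine ⟨(0, 2), ?_, ?_⟩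
  · unfold ids
    simp
  · unfold jn
    have e1 : ((2 : Fin 3) = 0) = False := by simp
    have e2 : ((2 : Fin 3) = 1) = False := by simp
    simp only [e1, e2, if_false, if_true]

theorem mem_JPc {i : ℕ} (hi : i ∈ Tn S) : i * n - t0 S s n ∈ JP X s e Rs ja n := by
  unfold JP
  rw [mem_image]
  refine ⟨(i, 0), ?_, ?_⟩
  · unfold ids
    simp [hi]
  · unfold jn
    simp

theorem mem_JPz {i : ℕ} (hi : i ∈ Rs) :
    rI (X.q n) (X.k n) (i * n - t0 S s n) + me e n ∈ JP X s e Rs ja n := by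
  unfold JP
  rw [mem_image]
  refine ⟨(i, 1), ?_, ?_⟩
  · unfold ids
    simp [hi]
  · unfold jn
    simp

theorem mem_JPk {i : ℕ} (hi : i ∈ ja) (hi0 : 0 < i) : X.k n ∈ JP X s e Rs ja n := by
  unfold JP
  rw [mem_image]
  refine ⟨(i, 2), ?_, ?_⟩
  · unfold ids
    simp [hi]
  · unfold jn
    have e1 : ((2 : Fin 3) = 0) = False := by simp
    have e2 : ((2 : Fin 3) = 1) = False := by simp
    simp only [e1, e2, if_false, if_neg hi0.ne']

theorem Sc.near_k (H : Sc X s e Rs ja C n) {j : ℕ} (h0 : 0 < j) (hN : j < X.N n)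
    (h : j = X.k n) : ∃ i ∈ JP X s e Rs ja n, |(i : ℤ) - j| ≤ 2 := by
  rcases H.jun with ⟨-, h1 | h1⟩ | ⟨ia, h1, h2, h3⟩
  · omega
  · omega
  · refine ⟨X.k n, mem_JPk (i := ia) (by rw [h1]; simp) h2, ?_⟩
    rw [h, sub_self, abs_zero]
    norm_num

theorem near_rho (hRs : Rs ⊆ Tn S) {j : ℕ} (h0 : 0 < j)
    (h : rhoP X s e Rs n j ≠ rhoP X s e Rs n (j - 1)) :
    ∃ i ∈ JP X s e Rs ja n, |(i : ℤ) - j| ≤ 2 := by
  obtain ⟨c, hc, h1⟩ := phP_jump h0 h
  rw [mem_image] at hc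
  obtain ⟨i, hi, rfl⟩ := hc
  rcases h1 with h1 | h1
  · refine ⟨_, mem_JPc (hRs hi), ?_⟩
    rw [h1]
    rcases rI_or (X.q n) (X.k n) (i * n - t0 S s n) with h2 | h2 <;> rw [h2]
    · rw [sub_self, abs_zero]; norm_num
    · push_cast
      rw [sub_add_cancel_left, abs_neg, abs_one]; norm_num
  · refine ⟨_, mem_JPz hi, ?_⟩
    rw [h1, sub_self, abs_zero]; norm_num

/-- **The natural data.** -/
theorem Sc.ok_nat (H : Sc X s e Rs ja C n) (he : 0 < e) (he1 : 2 * e ≤ S.tp)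
    (he2 : e ≤ 1 - S.tp) (hRs : Rs ⊆ Tn S) :
    (natP (X.q n) (S.D n) (X.k n) (rhoP X s e Rs n) (JP X s e Rs ja n)).Ok n ⌊e / 2 * n⌋₊ := by
  have hja : ∀ i ∈ ja, 0 < i ∧ i < S.l := by
    rcases H.jun with ⟨h, -⟩ | ⟨ia, h, h1, h2⟩
    · intro i hi
      rw [h] at hi
      exact absurd hi (by simp)
    · intro i hi
      rw [h, mem_singleton] at hi
      rw [hi]
      exact ⟨h1, h2⟩
  refine ⟨H.poly, H.enc, ?_, ⟨fun j hj => H.lt he he1 hRs hj, mem_JP0 n, ?_⟩, ?_⟩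
  · refine geoP_enl (a := 0) S.poly S.enc H.n0 H.poly ?_
    have e1 : (enl S.Q n).image (· + (0 : ℤ × ℤ)) = S.D n := by
      simp only [add_zero, image_id']
      rfl
    rw [e1]
    exact H.enc
  · intro j h0 hN h
    rcases h with h | h
    · exact near_rho hRs h0 h
    · exact H.near_k h0 hN h
  · intro i hi j hj hij
    have h1 := sep_pos he he1 he2 hRs hja (n := n) (t₀ := t0 S s n)
      (g := jn (X.q n) (X.k n) (t0 S s n) (me e n) n) (C := C) H.pos H.big hi hj hij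
    refine ⟨h1.1, ?_⟩
    show j + _ ≤ i + X.N n
    rw [H.N]
    exact h1.2

/-- **The data of the parity images.** -/
theorem Sc.ok_im (H : Sc X s e Rs ja C n) (he : 0 < e) (he1 : 2 * e ≤ S.tp)
    (he2 : e ≤ 1 - S.tp) (hRs : Rs ⊆ Tn S) {τ : ℕ → ℤ} {a : ℤ × ℤ}
    (hτ : Bd (S.D n : Set (ℤ × ℤ)) (X.N n) (fun i => X.q n (i : ZMod (X.N n))) τ 1) :
    (imP θ β (X.q n) (S.D n) (X.k n) (rhoP X s e Rs n) (JP X s e Rs ja n) τ a).Ok n
      ⌊e / 2 * n⌋₊ := by
  have h1 := H.ok_nat he he1 he2 hRs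
  refine ⟨poly_add H.poly a, encl_add H.enc a, ?_, ⟨h1.near.lt, h1.near.zero, ?_⟩, h1.sep⟩
  · exact geoP_enl (a := a) S.poly S.enc H.n0 (poly_add H.poly a) (encl_add H.enc a)
  · intro j h0 hN h
    have hN' : j < X.N n := hN
    by_cases hk : j = X.k n
    · exact H.near_k h0 hN' hk
    rcases h with h | h
    · by_cases hr : rhoP X s e Rs n j ≠ rhoP X s e Rs n (j - 1)
      · exact near_rho hRs h0 hr
      · push Not at hr
        have hrc : rc θ β τ (X.k n) j ≠ rc θ β τ (X.k n) (j - 1) := by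
          intro h2
          apply h
          show rc θ β τ (X.k n) j - rhoP X s e Rs n j =
            rc θ β τ (X.k n) (j - 1) - rhoP X s e Rs n (j - 1)
          rw [hr, h2]
        have hτj : τ j ≠ τ (j - 1) := by
          intro h2
          apply hrc
          unfold rc
          rw [h2]
          by_cases h3 : j < X.k n
          · rw [if_pos h3, if_pos (by omega)]
          · rw [if_neg h3, if_neg (by omega)]
        obtain ⟨i, hi0, hi, hi2⟩ := turn_dvd S.poly H.n0 (a := 0) (s := t0 S s n) (fun j => by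
          rw [H.hs, add_zero]) hτ h0 hτj
        have hi3 : i ∈ Tn S := by
          unfold Tn
          rw [mem_filter, mem_Icc]
          refine ⟨⟨hi0, ?_⟩, hi2⟩
          by_contra hcon
          push Not at hcon
          have h4 : (S.l + 1) * n ≤ i * n := Nat.mul_le_mul_right n hcon
          have h5 := H.tn
          have h6 := H.N
          have h7 : (S.l + 1) * n = S.l * n + n := by ring
          omega
        refine ⟨i * n - t0 S s n, mem_JPc hi3, ?_⟩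
        have h4 : i * n - t0 S s n = j := by omega
        rw [h4, sub_self, abs_zero]
        norm_num
    · exact absurd h hk

end

/-- **The geometry of the natural families.** -/
theorem okG_nat (X : BD S θ β) {s : ℕ → ℕ} (hb : BaseQ X s) {e : ℝ} (he : 0 < e)
    (he1 : 2 * e ≤ S.tp) (he2 : e ≤ 1 - S.tp) {Rs ja : Finset ℕ} (hRs : Rs ⊆ Tn S)
    (hj : JunP X ja) : OkG X.L (natF X (rhoP X s e Rs) (JP X s e Rs ja)) := by
  obtain ⟨C, hC⟩ := exists_sc X hb he hRs hj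
  refine ⟨e / 2, by positivity, ?_⟩
  filter_upwards [hC] with n hn P hP
  rw [hP]
  exact hn.ok_nat he he1 he2 hRs

/-- **The geometry of the images.** -/
theorem okG_im (X : BD S θ β) {s : ℕ → ℕ} (hb : BaseQ X s) {e : ℝ} (he : 0 < e)
    (he1 : 2 * e ≤ S.tp) (he2 : e ≤ 1 - S.tp) {Rs ja : Finset ℕ} (hRs : Rs ⊆ Tn S)
    (hj : JunP X ja) : OkG X.L (imF X (rhoP X s e Rs) (JP X s e Rs ja)) := by
  obtain ⟨C, hC⟩ := exists_sc X hb he hRs hj
  refine ⟨e / 2, by positivity, ?_⟩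
  filter_upwards [hC] with n hn P hP
  obtain ⟨a, τ, hτ, rfl⟩ := hP
  exact hn.ok_im he he1 he2 hRs hτ

end Vale.Agent.P167.N.QL
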