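import Vale.Agent.P167.N.QL.Ph
import Vale.Agent.P167.H318.LC.Sp

/-!
# P167, the range `0 < q < 1`, block Q-LAM: the special polygons

`dsq n a`: the square with the side `2 n`, the base is the middle of the south side, the junction
(index `4 n`) is the middle of the north side, translated by `a`. Corners: `n, 3 n` (free), `5 n, 7 n`
(wired). `lsq n a`: the L shape made of three squares with the side `2 n`, the base is the middle of
the side `0`. Convex corners `3 n, 5 n, 9 n, 11 n, 15 n`, reflex corner `7 n`.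
`wP_ge`: lower bounds of the weights from intervals of the phase differences.
-/

set_option autoImplicit false

namespace Vale.Agent.P167.N.QL

open Finset Filter Vale.Agent.P167.BR Vale.Agent.P167.FK
open Vale.Agent.P167.E6 (IsPolygon Encloses face dir)
open Vale.Agent.P167.H718 (Dob IsXY Cl IsCl isCl_strand rc par_succ poly_add encl_add bd_add)
open Vale.Agent.P167.H871 (Bd)
open Vale.Agent.P167.H825 (enl pdir ptau)
open Vale.Agent.P167.Enl (PN qN uN bd_qN isPolygon_qN encloses_qN qN_nat)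
open Vale.Agent.P167.H601.LG (feet)
open Vale.Agent.P167.H318.LC (sqP sqS lP lS sq_poly sq_encl l_poly l_encl sq_ptau l_ptau lT)
open Vale.Agent.P167.QX (wB lo hi exists_xy lo_xy hi_xy)

variable {θ β : ℝ} {N k n : ℕ} {q : ZMod N → ℤ × ℤ} {D : Finset (ℤ × ℤ)} {ω : Cfg} {A : Finset Ed}
  {ρ : ℕ → ℝ}

/-! ### parity -/

/-- The parity along a polygon. -/
theorem par_nat (hq : IsPolygon q) (j : ℕ) :
    Even ((q (j : ZMod N)).1 + (q (j : ZMod N)).2) ↔ Even ((q 0).1 + (q 0).2 + j) := by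
  induction j with
  | zero => simp
  | succ j ih =>
    rw [Nat.cast_succ, par_succ hq, ih]
    push_cast
    rw [Int.not_even_iff, Int.even_iff]
    omega

/-- The feet of a strand have different parities. -/
theorem feet_par (hq : IsPolygon q) (hD : Encloses q D) (hA : A ∈ pcs ω D) (hl : ¬ IsLp D A) :
    Even ((q (lo q A : ZMod N)).1 + (q (lo q A : ZMod N)).2) ↔
      ¬ Even ((q (hi q A : ZMod N)).1 + (q (hi q A : ZMod N)).2) := by
  obtain ⟨x, y, h⟩ := exists_xy hq hD hA hl
  rw [lo_xy hq hD hA h, hi_xy hq hD hA h]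
  have h5 := h.2.2.2.2.1
  have h6 := h.2.2.2.2.2
  rcases le_total x y with h1 | h1
  · rw [min_eq_left h1, max_eq_right h1]
    exact ⟨fun _ => h6, fun _ => h5⟩
  · rw [min_eq_right h1, max_eq_left h1]
    exact ⟨fun h => absurd h h6, fun h => absurd h5 h⟩

/-- Closed strands: the parity of the lower foot. -/
theorem isCl_iff (hq : IsPolygon q) (hD : Encloses q D) (hA : A ∈ pcs ω D) (hl : ¬ IsLp D A) :
    IsCl D q k A ↔
      (hi q A < k ∧ ¬ Even ((q (lo q A : ZMod N)).1 + (q (lo q A : ZMod N)).2)) ∨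
      (k ≤ lo q A ∧ Even ((q (lo q A : ZMod N)).1 + (q (lo q A : ZMod N)).2)) := by
  obtain ⟨x, y, h⟩ := exists_xy hq hD hA hl
  rw [isCl_strand hq hD hA hl h, lo_xy hq hD hA h, hi_xy hq hD hA h]
  have h5 := h.2.2.2.2.1
  have h6 := h.2.2.2.2.2
  have hne := h.ne
  unfold Cl
  rcases lt_or_gt_of_ne hne with h1 | h1
  · rw [min_eq_left h1.le, max_eq_right h1.le]
    constructor
    · rintro (h2 | h2)
      · omega
      · exact Or.inr ⟨h2.1, h5⟩
    · rintro (h2 | h2)
      · exact absurd h5 h2.2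
      · exact Or.inr ⟨h2.1, by omega, h1⟩
  · rw [min_eq_right h1.le, max_eq_left h1.le]
    constructor
    · rintro (h2 | h2)
      · exact Or.inl ⟨h2.1, h6⟩
      · omega
    · rintro (h2 | h2)
      · exact Or.inl ⟨h2.1, by omega, h1⟩
      · exact absurd h2.2 h6

/-! ### bounds of the weights -/

/-- The lower bound of the weights of the special functionals. -/
noncomputable def wl (θ : ℝ) : ℝ := min (Real.sin (θ / 2)) (min (Real.sin (2 * θ)) (Real.cos θ))

theorem wl_pos (h0 : 0 < θ) (h1 : θ < Real.pi / 2) : 0 < wl θ := by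
  unfold wl
  refine lt_min ?_ (lt_min ?_ ?_)
  · exact Real.sin_pos_of_pos_of_lt_pi (by linarith) (by linarith)
  · exact Real.sin_pos_of_pos_of_lt_pi (by linarith) (by linarith)
  · exact Real.cos_pos_of_mem_Ioo ⟨by linarith, h1⟩

theorem wl_le_one (θ : ℝ) : wl θ ≤ 1 := (min_le_left _ _).trans (Real.sin_le_one _)

/-- The sine on an interval. -/
theorem sin_ge_min {a b x : ℝ} (ha : 0 ≤ a) (h1 : a ≤ x) (h2 : x ≤ b) (hb : b ≤ Real.pi) :
    min (Real.sin a) (Real.sin b) ≤ Real.sin x := by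
  rcases le_total x (Real.pi / 2) with h | h
  · exact (min_le_left _ _).trans (Real.sin_le_sin_of_le_of_le_pi_div_two (by linarith) h h1)
  · refine (min_le_right _ _).trans ?_
    rw [← Real.sin_pi_sub b, ← Real.sin_pi_sub x]
    exact Real.sin_le_sin_of_le_of_le_pi_div_two (by linarith) (by linarith) (by linarith)

theorem sin_ge_wl (h0 : 0 < θ) (h1 : θ < Real.pi / 2) {x : ℝ} (h2 : θ / 2 ≤ x) (h3 : x ≤ 2 * θ) :
    wl θ ≤ Real.sin x := by
  refine le_trans ?_ (sin_ge_min (by linarith) h2 h3 (by linarith))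
  unfold wl
  exact le_min (min_le_left _ _) ((min_le_right _ _).trans (min_le_left _ _))

theorem cos_ge_wl (h0 : 0 < θ) (h1 : θ < Real.pi / 2) {x : ℝ} (h2 : |x| ≤ θ) :
    wl θ ≤ Real.cos x := by
  rw [← Real.cos_abs x]
  refine le_trans ?_ (Real.cos_le_cos_of_nonneg_of_le_pi (abs_nonneg x) (by linarith) h2)
  unfold wl
  exact (min_le_right _ _).trans (min_le_right _ _)

theorem div_ge {a s c : ℝ} (hs : 0 < s) (hs1 : s ≤ 1) (hc : 0 ≤ c) (h : c ≤ a) : c ≤ a / s := by
  rw [le_div_iff₀ hs]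
  exact (mul_le_of_le_one_right hc hs1).trans h

/-- The allowed phase differences of a strand over the steps `x < y`. -/
structure SgA (θ β : ℝ) (q : ZMod N → ℤ × ℤ) (k : ℕ) (x y : ℕ) (s : ℝ) : Prop where
  fw : x < k → k ≤ y → |θ / 2 + β + s| ≤ θ
  cl : (y < k ∧ ¬ Even ((q (x : ZMod N)).1 + (q (x : ZMod N)).2)) ∨
    (k ≤ x ∧ Even ((q (x : ZMod N)).1 + (q (x : ZMod N)).2)) → -(3 * θ / 2) ≤ s ∧ s ≤ 0
  nc : (y < k ∧ Even ((q (x : ZMod N)).1 + (q (x : ZMod N)).2)) ∨
    (k ≤ x ∧ ¬ Even ((q (x : ZMod N)).1 + (q (x : ZMod N)).2)) → -θ ≤ s ∧ s ≤ θ / 2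

/-- Phase differences in `[-θ, 0]` on the arcs are allowed. -/
theorem sgA_of {x y : ℕ} {s : ℝ} (h0 : 0 < θ) (h : x < k → k ≤ y → |θ / 2 + β + s| ≤ θ)
    (h' : (y < k ∨ k ≤ x) → -θ ≤ s ∧ s ≤ 0) : SgA θ β q k x y s := by
  refine ⟨h, fun h2 => ?_, fun h2 => ?_⟩
  · obtain ⟨h3, h4⟩ := h' (h2.imp And.left And.left)
    exact ⟨by linarith, h4⟩
  · obtain ⟨h3, h4⟩ := h' (h2.imp And.left And.left)
    exact ⟨h3, by linarith⟩

/-- **The lower bound of the weights.** -/
theorem wP_ge (h0 : 0 < θ) (h1 : θ < Real.pi / 2) (hq : IsPolygon q) (hD : Encloses q D)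
    (hA : A ∈ pcs ω D)
    (h : ¬ IsLp D A → SgA θ β q k (lo q A) (hi q A) (ρ (hi q A) - ρ (lo q A))) :
    wl θ ≤ wP θ β q D k ρ A := by
  have hw := (wl_pos h0 h1).le
  have hc : 0 < Real.cos θ := Real.cos_pos_of_mem_Ioo ⟨by linarith, h1⟩
  have hs : 0 < Real.sin θ := Real.sin_pos_of_pos_of_lt_pi h0 (by linarith [Real.pi_pos])
  have hs2 : 0 < Real.sin (2 * θ) := Real.sin_pos_of_pos_of_lt_pi (by linarith) (by linarith)
  by_cases hl : IsLp D A
  · rw [wP_lp hq hD hA hl hc.ne']
    exact wl_le_one θ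
  obtain ⟨hf, hcl, hnc⟩ := h hl
  have hlt := (feet hq hD hA hl).1
  have hcli := isCl_iff (k := k) hq hD hA hl
  unfold wP wB
  rw [if_neg hl]
  split_ifs with h2 h3
  · exact div_ge hs (Real.sin_le_one _) hw (cos_ge_wl h0 h1 (hf h2.1 h2.2))
  · obtain ⟨k1, k2⟩ := hcl (hcli.1 h3)
    exact div_ge hs2 (Real.sin_le_one _) hw (sin_ge_wl h0 h1 (by linarith) (by linarith))
  · rw [hcli] at h3
    obtain ⟨k1, k2⟩ := hnc (by
      by_cases he : Even ((q (lo q A : ZMod N)).1 + (q (lo q A : ZMod N)).2)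
      · rcases Nat.lt_or_ge (hi q A) k with h4 | h4
        · exact Or.inl ⟨h4, he⟩
        · exact absurd (Or.inr ⟨by omega, he⟩) h3
      · rcases Nat.lt_or_ge (hi q A) k with h4 | h4
        · exact absurd (Or.inl ⟨h4, he⟩) h3
        · exact Or.inr ⟨by omega, he⟩)
    exact div_ge hs (Real.sin_le_one _) hw (sin_ge_wl h0 h1 (by linarith) (by linarith))

/-! ### phases with finitely many jumps -/

/-- Phases with the jumps `x.2` at the indices `x.1`. -/
noncomputable def stp (L : List (ℕ × ℝ)) (j : ℕ) : ℝ := (L.map fun x => if x.1 ≤ j then x.2 else 0).sum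

theorem stp_nil (j : ℕ) : stp [] j = 0 := rfl

theorem stp_cons (x : ℕ × ℝ) (L : List (ℕ × ℝ)) (j : ℕ) :
    stp (x :: L) j = (if x.1 ≤ j then x.2 else 0) + stp L j := by
  unfold stp
  rw [List.map_cons, List.sum_cons]

theorem stp_jump {L : List (ℕ × ℝ)} {j : ℕ} (hj : 0 < j) (h : stp L j ≠ stp L (j - 1)) :
    ∃ x ∈ L, x.1 = j := by
  by_contra hcon
  push Not at hcon
  apply h
  induction L with
  | nil => rfl
  | cons x L ih =>
    rw [stp_cons, stp_cons]
    have h1 : x.1 ≠ j := hcon x List.mem_cons_self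
    have h2 : stp L j = stp L (j - 1) := by
      by_contra hne
      exact hne (ih hne fun y hy => hcon y (List.mem_cons_of_mem x hy))
    rw [h2]
    congr 1
    by_cases h3 : x.1 ≤ j
    · rw [if_pos h3, if_pos (by omega)]
    · rw [if_neg h3, if_neg (by omega)]

/-! ### the Dobrushin square -/

/-- The square with the side `2 n`, the base is the middle of the south side, translated by `a`. -/
noncomputable def dsq (n : ℕ) (a : ℤ × ℤ) : ZMod (4 * (2 * n)) → ℤ × ℤ :=
  fun i => qN (sqP 0) (2 * n) n i + a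

/-- Its squares. -/
noncomputable def dsD (n : ℕ) (a : ℤ × ℤ) : Finset (ℤ × ℤ) := (enl sqS (2 * n)).image (· + a)

/-- Its lifted directions. -/
def dsT (n : ℕ) : ℕ → ℤ := uN (sqP 0) (2 * n) n

/-- The data of the functionals on the Dobrushin square. -/
noncomputable def dsP (n : ℕ) (a : ℤ × ℤ) (ρ : ℕ → ℝ) (J : Finset ℕ) : PD :=
  ⟨4 * (2 * n), dsq n a, dsD n a, 4 * n, ρ, J⟩

/-! ### the L shape -/

/-- The L shape, the base is the middle of the side `0`, translated by `a`. -/
noncomputable def lsq (n : ℕ) (a : ℤ × ℤ) : ZMod (8 * (2 * n)) → ℤ × ℤ :=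
  fun i => qN (lP 1) (2 * n) n i + a

/-- Its squares. -/
noncomputable def lsD (n : ℕ) (a : ℤ × ℤ) : Finset (ℤ × ℤ) := (enl (lS 1) (2 * n)).image (· + a)

/-- Its lifted directions. -/
def lsT (n : ℕ) : ℕ → ℤ := uN (lP 1) (2 * n) n

/-- The index of the junction: `16 n` for free, `0` for wired boundary conditions. -/
def lsK (b : Bool) (n : ℕ) : ℕ := if b then 0 else 8 * (2 * n)

/-- The data of the functionals on the L shape, free (`b = false`) or wired. -/
noncomputable def lsP (b : Bool) (n : ℕ) (a : ℤ × ℤ) (ρ : ℕ → ℝ) (J : Finset ℕ) : PD :=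
  ⟨8 * (2 * n), lsq n a, lsD n a, lsK b n, ρ, J⟩

section geo

variable (hn : 0 < n) (a : ℤ × ℤ)
include hn

theorem ds_poly : IsPolygon (dsq n a) := poly_add (isPolygon_qN (by omega) (sq_poly 0) n) a

theorem ds_encl : Encloses (dsq n a) (dsD n a) :=
  encl_add (encloses_qN (by omega) (sq_poly 0) (sq_encl 0) n) a

theorem ds_bd : Bd (dsD n a : Set (ℤ × ℤ)) (4 * (2 * n))
    (fun i => dsq n a (i : ZMod (4 * (2 * n)))) (dsT n) 1 :=
  bd_add (bd_qN (by omega) (sq_poly 0) (sq_encl 0) (by omega)) a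

theorem ls_poly : IsPolygon (lsq n a) := poly_add (isPolygon_qN (by omega) (l_poly 1) n) a

theorem ls_encl : Encloses (lsq n a) (lsD n a) :=
  encl_add (encloses_qN (by omega) (l_poly 1) (l_encl 1) n) a

theorem ls_bd : Bd (lsD n a : Set (ℤ × ℤ)) (8 * (2 * n))
    (fun i => lsq n a (i : ZMod (8 * (2 * n)))) (lsT n) 1 :=
  bd_add (bd_qN (by omega) (l_poly 1) (l_encl 1) (by omega)) a

omit a in
theorem div_eq' {j c : ℕ} (h1 : (2 * c) * n ≤ j + n) (h2 : j + n < (2 * c + 2) * n) :
    (j + n) / (2 * n) = c := by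
  have h3 : 0 < 2 * n := by omega
  rw [Nat.div_eq_iff h3]
  have e1 : (2 * c + 2) * n = 2 * c * n + 2 * n := by ring
  have e2 : c * (2 * n) = 2 * c * n := by ring
  omega

omit a in
/-- The lifted directions of the square. -/
theorem dsT_eq {j : ℕ} (hj : j < 9 * n) : dsT n j =
    if j < n then 0 else if j < 3 * n then 1 else if j < 5 * n then 2 else
      if j < 7 * n then 3 else 4 := by
  have h0 : ((pdir (sqP 0) 0).val : ℤ) = 0 := by decide
  unfold dsT uN
  rw [h0, zero_add]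
  split_ifs with h1 h2 h3 h4
  · rw [div_eq' hn (c := 0) (by omega) (by omega), sq_ptau 0 0 (by omega)]
    rfl
  · rw [div_eq' hn (c := 1) (by omega) (by omega), sq_ptau 0 1 (by omega)]
    rfl
  · rw [div_eq' hn (c := 2) (by omega) (by omega), sq_ptau 0 2 (by omega)]
    rfl
  · rw [div_eq' hn (c := 3) (by omega) (by omega), sq_ptau 0 3 (by omega)]
    rfl
  · rw [div_eq' hn (c := 4) (by omega) (by omega), sq_ptau 0 4 (by omega)]
    rfl

omit a in
/-- The lifted directions of the L shape. -/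
theorem lsT_eq {j : ℕ} (hj : j < 17 * n) : lsT n j =
    if j < 3 * n then 0 else if j < 5 * n then 1 else if j < 7 * n then 2 else
      if j < 9 * n then 1 else if j < 11 * n then 2 else if j < 15 * n then 3 else 4 := by
  have h0 : ((pdir (lP 1) 0).val : ℤ) = 0 := by decide
  have key : ∀ c : ℕ, c < 9 → (2 * c) * n ≤ j + n → j + n < (2 * c + 2) * n →
      lsT n j = lT c := by
    intro c hc h1 h2
    unfold lsT uN
    rw [h0, zero_add, div_eq' hn h1 h2, l_ptau 1 c hc]
  split_ifs with h1 h2 h3 h4 h5 h6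
  · by_cases h : j < n
    · rw [key 0 (by omega) (by omega) (by omega)]; rfl
    · rw [key 1 (by omega) (by omega) (by omega)]; rfl
  · rw [key 2 (by omega) (by omega) (by omega)]; rfl
  · rw [key 3 (by omega) (by omega) (by omega)]; rfl
  · rw [key 4 (by omega) (by omega) (by omega)]; rfl
  · rw [key 5 (by omega) (by omega) (by omega)]; rfl
  · by_cases h : j < 13 * n
    · rw [key 6 (by omega) (by omega) (by omega)]; rfl
    · rw [key 7 (by omega) (by omega) (by omega)]; rfl
  · rw [key 8 (by omega) (by omega) (by omega)]; rfl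

/-- The base of the square. -/
theorem ds_zero : dsq n a 0 = ((n : ℤ), 0) + a := by
  have h := qN_nat (p := sqP 0) (n := 2 * n) (by omega) n 0
  rw [Nat.cast_zero, zero_add] at h
  unfold dsq
  rw [h]
  unfold PN
  rw [Nat.div_eq_of_lt (by omega), Nat.mod_eq_of_lt (by omega)]
  have e1 : sqP 0 ((0 : ℕ) : ZMod 4) = (0, 0) := by decide
  have e2 : pdir (sqP 0) 0 = 0 := by decide
  rw [e1, e2]
  simp [dir]

/-- The base of the L shape. -/
theorem ls_zero : lsq n a 0 = ((n : ℤ), 0) + a := by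
  have h := qN_nat (p := lP 1) (n := 2 * n) (by omega) n 0
  rw [Nat.cast_zero, zero_add] at h
  unfold lsq
  rw [h]
  unfold PN
  rw [Nat.div_eq_of_lt (by omega), Nat.mod_eq_of_lt (by omega)]
  have e1 : lP 1 ((0 : ℕ) : ZMod 8) = (0, 0) := by decide
  have e2 : pdir (lP 1) 0 = 0 := by decide
  rw [e1, e2]
  simp [dir]

/-- The parity of the sites of the square. -/
theorem ds_par (j : ℕ) : Even ((dsq n a (j : ZMod (4 * (2 * n)))).1 +
    (dsq n a (j : ZMod (4 * (2 * n)))).2) ↔ Even ((n : ℤ) + j + (a.1 + a.2)) := by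
  rw [par_nat (ds_poly hn a), ds_zero hn a]
  simp only [Prod.fst_add, Prod.snd_add]
  rw [Int.even_iff, Int.even_iff]
  omega

/-- The parity of the sites of the L shape. -/
theorem ls_par (j : ℕ) : Even ((lsq n a (j : ZMod (8 * (2 * n)))).1 +
    (lsq n a (j : ZMod (8 * (2 * n)))).2) ↔ Even ((n : ℤ) + j + (a.1 + a.2)) := by
  rw [par_nat (ls_poly hn a), ls_zero hn a]
  simp only [Prod.fst_add, Prod.snd_add]
  rw [Int.even_iff, Int.even_iff]
  omega

end geo

/-- The data of the image on the square. -/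
theorem im_ds (θ β : ℝ) (a b : ℤ × ℤ) (ρ : ℕ → ℝ) (J : Finset ℕ) :
    imP θ β (dsq n a) (dsD n a) (4 * n) ρ J (dsT n) b =
      dsP n (a + b) (fun j => rc θ β (dsT n) (4 * n) j - ρ j) J := by
  have e1 : (fun i => dsq n a i + b) = dsq n (a + b) := by
    funext i
    unfold dsq
    rw [add_assoc]
  have e2 : (dsD n a).image (· + b) = dsD n (a + b) := by
    unfold dsD
    rw [image_image]
    congr 1
    funext v
    simp only [Function.comp]
    rw [add_assoc]
  unfold imP dsP
  rw [e1, e2]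

/-- The data of the image on the L shape. -/
theorem im_ls (θ β : ℝ) (b₀ : Bool) (a b : ℤ × ℤ) (ρ : ℕ → ℝ) (J : Finset ℕ) :
    imP θ β (lsq n a) (lsD n a) (lsK b₀ n) ρ J (lsT n) b =
      lsP b₀ n (a + b) (fun j => rc θ β (lsT n) (lsK b₀ n) j - ρ j) J := by
  have e1 : (fun i => lsq n a i + b) = lsq n (a + b) := by
    funext i
    unfold lsq
    rw [add_assoc]
  have e2 : (lsD n a).image (· + b) = lsD n (a + b) := by
    unfold lsD
    rw [image_image]
    congr 1
    funext v
    simp only [Function.comp]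
    rw [add_assoc]
  unfold imP lsP
  rw [e1, e2]

end Vale.Agent.P167.N.QL
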