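import Vale.Agent.P167.N.QL.Mom
import Vale.Agent.P167.N.QL.Fam2
import Vale.Agent.P167.N.QL.Sp1
import Vale.Agent.P167.N.H167.Q.ShpT

/-!
# P167, the range `0 < q < 1`, block Q-LAM: the families are regular

`BcX`: the boundary conditions. `reg_X`: regular configurations outside. `rg_nat`, `rg_im`: the natural
families and the families of the images. `ds_rg`, `ls_rg`: the special polygons.
-/

set_option autoImplicit false

namespace Vale.Agent.P167.N.QL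

open Finset Filter Vale.Agent.P167.BR Vale.Agent.P167.FK
open Vale.Agent.P167.Enl
open Vale.Agent.P167.E6 (IsPolygon Encloses dir face)
open Vale.Agent.P167.H825 (enl pdir)
open Vale.Agent.P167.H825.Q (Bc)
open Vale.Agent.P167.N.H167.Q (reg_free_tr reg_wired_tr s_REG_tr)
open Vale.Agent.P167.H718 (Dob rc poly_add encl_add)
open Vale.Agent.P167.H871 (Bd)
open Vale.Agent.P167.H542.Q (BD)
open Vale.Agent.P167.H760.Q (BaseQ JunQ pb q_pos)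
open Vale.Agent.P167.H852.Q (PN_pe)
open Vale.Agent.P167.H167.Q (BcIn)
open Vale.Agent.P167.N.H167.Q (Reg)
open Vale.Agent.P167.H318.LC (sqP sqS lP lS sq_poly sq_encl l_poly l_encl)

variable {S : CA.Dat} {θ β : ℝ}

/-- The boundary condition of a family: free, wired, or Dobrushin with the junction at the position
`tp` of a side. -/
def BcX (X : BD S θ β) (s : ℕ → ℕ) : Prop :=
  (∀ᶠ n in X.L, X.k n = X.N n) ∨ (∀ᶠ n in X.L, X.k n = 0) ∨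
    ((∀ n, s n = 0) ∧ ∃ ia, 0 < ia ∧ ia < S.l ∧ ∀ᶠ n in X.L, X.k n = ia * n)

theorem dob_cast {N l n t k : ℕ} [NeZero l] (hn : 0 < n) (hN : N = l * n) {p : ZMod l → ℤ × ℤ}
    {q : ZMod N → ℤ × ℤ} (hs : ∀ j : ℕ, q (j : ZMod N) = PN p n (j + t)) {η : Cfg}
    {D : Finset (ℤ × ℤ)} {a : ℤ × ℤ}
    (h : Dob η D (fun i : ZMod (l * n) => qN p n t i + a) k) : Dob η D (fun i => q i + a) k := by
  subst hN
  have hN0 : NeZero (l * n) := ⟨Nat.mul_ne_zero (NeZero.ne l) hn.ne'⟩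
  have e : (fun i : ZMod (l * n) => qN p n t i + a) = fun i => q i + a := by
    funext i
    have h1 := hs i.val
    rw [ZMod.natCast_zmod_val] at h1
    rw [h1]
    rfl
  rwa [e] at h

/-- The position of the polygon. -/
theorem pos_X (X : BD S θ β) {s : ℕ → ℕ} (hb : BaseQ X s) : ∀ᶠ n : ℕ in X.L, 0 < n ∧
    ⌊S.tp * n⌋₊ + s n < n ∧ X.N n = S.l * n ∧
    ∀ j : ℕ, X.q n (j : ZMod (X.N n)) = PN S.p n (j + (⌊S.tp * n⌋₊ + s n)) := by
  have htp0 := S.tp0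
  have htp1 := S.tp1
  obtain ⟨hs1, hb⟩ := hb
  have hlarge : ∀ A : ℝ, ∀ᶠ n : ℕ in X.L, A ≤ n := fun A => X.le
    ((eventually_ge_atTop ⌈A⌉₊).mono fun n hn => (Nat.le_ceil A).trans (by exact_mod_cast hn))
  filter_upwards [X.poly, X.enc, hb, hlarge (2 / (1 - S.tp)), hlarge 1] with n a1 a2 a3 a4 a6
  rw [div_le_iff₀ (by linarith)] at a4
  have hn' : (0 : ℝ) < n := by linarith
  have hn : 0 < n := by exact_mod_cast hn'
  have k1 : (⌊S.tp * n⌋₊ : ℝ) ≤ S.tp * n := Nat.floor_le (by positivity)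
  have k3 : ((s n : ℕ) : ℝ) ≤ 1 := by exact_mod_cast hs1 n
  have ht1 : ⌊S.tp * n⌋₊ + s n < n := by
    have : ((⌊S.tp * n⌋₊ + s n : ℕ) : ℝ) < n := by push_cast; nlinarith
    exact_mod_cast this
  obtain ⟨hN, hpos⟩ := q_pos S hn a1 a2 ht1 a3
  refine ⟨hn, ht1, by rw [hN, mul_comm], fun j => ?_⟩
  rw [hpos j, PN_pe S.poly, add_comm j]

/-- **Regular configurations outside** of the translates of the domains. -/
theorem reg_X (X : BD S θ β) {s : ℕ → ℕ} (hb : BaseQ X s) (hB : BcX X s) :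
    ∃ σ : ℝ, 0 < σ ∧ ∀ᶠ n : ℕ in X.L, ∀ a : ℤ × ℤ, ∃ η : Cfg,
      Dob η ((S.D n).image (· + a)) (fun i => X.q n i + a) (X.k n) ∧
        Reg ⌊σ * n⌋ ((S.D n).image (· + a)) η := by
  have hl : NeZero S.l := ⟨by have := S.poly.1; omega⟩
  have htp0 := S.tp0
  have htp1 := S.tp1
  rcases hB with hk | hk | ⟨hs, ia, hi0, hil, hk⟩
  · refine ⟨1 / 4, by norm_num, ?_⟩
    filter_upwards [pos_X X hb, hk, X.le (eventually_gt_atTop 1)] with n hp hk hn a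
    obtain ⟨h1, h3, h4, h5⟩ := hp
    obtain ⟨k1, k2⟩ := reg_free_tr S.poly S.enc h1 (H825.Reg.quarter hn) (⌊S.tp * n⌋₊ + s n) a
    refine ⟨_, dob_cast h1 h4 h5 ?_, k2⟩
    rw [hk, h4]
    exact k1
  · refine ⟨1 / 4, by norm_num, ?_⟩
    filter_upwards [pos_X X hb, hk, X.le (eventually_gt_atTop 1)] with n hp hk hn a
    obtain ⟨h1, h3, h4, h5⟩ := hp
    obtain ⟨k1, k2⟩ := reg_wired_tr S.poly S.enc h1 (H825.Reg.quarter hn) (⌊S.tp * n⌋₊ + s n) a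
    refine ⟨_, dob_cast h1 h4 h5 ?_, k2⟩
    rw [hk]
    exact k1
  · obtain ⟨c', hc', hR⟩ := s_REG_tr S.poly S.enc htp0 htp1 (bc := .dob ia S.tp)
      ⟨hi0, hil, htp0, htp1⟩
    refine ⟨c', hc', ?_⟩
    filter_upwards [pos_X X hb, hk, X.le hR] with n hp hk hR a
    obtain ⟨h1, h3, h4, h5⟩ := hp
    rw [hs n, add_zero] at h3 h5
    have h6 : (ia + 1) * n ≤ S.l * n := Nat.mul_le_mul_right n hil
    rw [add_mul, one_mul] at h6
    have h7 : n ≤ ia * n := Nat.le_mul_of_pos_left n hi0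
    obtain ⟨η, e1, e2⟩ := hR a
    refine ⟨η, dob_cast h1 h4 h5 ?_, e2⟩
    have e3 : (Bc.dob ia S.tp).ka S.l n ⌊S.tp * (n : ℝ)⌋₊ = X.k n := by
      rw [hk]
      show kOf S.l n ⌊S.tp * n⌋₊ ia ⌊S.tp * n⌋₊ = ia * n
      unfold kOf
      split_ifs <;> omega
    rw [e3] at e1
    exact e1

/-- The diameter of the translates of an enlargement. -/
theorem enl_dia {Q : Finset (ℤ × ℤ)} {n : ℕ} {a : ℤ × ℤ} {v : ℤ × ℤ}
    (hv : v ∈ (enl Q n).image (· + a)) :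
    (nm (v - a) : ℝ) ≤ ((∑ w ∈ Q, nm w : ℤ) + 1 : ℝ) * n := by
  obtain ⟨w, hw, rfl⟩ := mem_image.1 hv
  unfold enl at hw
  rw [mem_biUnion] at hw
  obtain ⟨u, hu, hw⟩ := hw
  obtain ⟨b, hb, rfl⟩ := mem_image.1 hw
  rw [mem_product, mem_range, mem_range] at hb
  have h1 : nm u ≤ ∑ w ∈ Q, nm w :=
    single_le_sum (f := fun w => nm w) (fun w _ => H825.Reg.nm_nn w) hu
  have h2 : nm ((((n : ℤ) * u.1 + b.1, (n : ℤ) * u.2 + b.2) : ℤ × ℤ) + a - a) ≤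
      n * nm u + n := by
    rw [add_sub_cancel_right]
    unfold nm
    have e1 := le_max_left |u.1| |u.2|
    have e2 := le_max_right |u.1| |u.2|
    have hn0 : (0 : ℤ) ≤ n := Int.natCast_nonneg n
    have f1 : |(n : ℤ) * u.1| ≤ n * max |u.1| |u.2| := by
      rw [abs_mul, abs_of_nonneg hn0]
      exact mul_le_mul_of_nonneg_left e1 hn0
    have f2 : |(n : ℤ) * u.2| ≤ n * max |u.1| |u.2| := by
      rw [abs_mul, abs_of_nonneg hn0]
      exact mul_le_mul_of_nonneg_left e2 hn0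
    rw [abs_le] at f1 f2
    rw [max_le_iff, abs_le, abs_le]
    simp only
    omega
  have h3 : (n : ℤ) * nm u + n ≤ (∑ w ∈ Q, nm w + 1) * n := by
    have h4 : (n : ℤ) * nm u ≤ n * ∑ w ∈ Q, nm w :=
      mul_le_mul_of_nonneg_left h1 (Int.natCast_nonneg n)
    have h5 : (∑ w ∈ Q, nm w + 1) * (n : ℤ) = n * ∑ w ∈ Q, nm w + n := by ring
    omega
  have h6 := h2.trans h3
  exact_mod_cast h6

/-! ### monotonicity -/

theorem PD.Sep.mono {P : PD} {L L' : ℕ} (h : P.Sep L) (hL : L' ≤ L) : P.Sep L' :=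
  fun i hi j hj hij => by
    have := h i hi j hj hij
    omega

theorem GeoP.mono {n n' N : ℕ} {q : ZMod N → ℤ × ℤ} (h : GeoP n N q) (h0 : 0 < n') (hn : n' ≤ n) :
    GeoP n' N q :=
  ⟨h0, by have := h.le; omega, fun hx hy _ hd => h.near hx hy (by omega), h.lip⟩

theorem PD.Ok.mono {P : PD} {n L L' : ℕ} (h : P.Ok n L) (hL : L' ≤ L) : P.Ok n L' :=
  ⟨h.poly, h.enc, h.geo, h.near, h.sep.mono hL⟩

theorem PD.Rg.mono {P : PD} {n ms : ℕ} {σ σ' R : ℝ} {η : Cfg} (h : P.Rg n σ R ms η)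
    (hσ : σ' ≤ σ) : P.Rg n σ' R ms η :=
  ⟨h.ok.mono (Nat.floor_le_floor (mul_le_mul_of_nonneg_right hσ (Nat.cast_nonneg n))), h.le,
    h.card, h.dia, h.dob,
    h.reg.mono (Int.floor_le_floor (mul_le_mul_of_nonneg_right hσ (Nat.cast_nonneg n)))⟩

/-! ### the families -/

/-- **The natural families are regular.** -/
theorem rg_nat (X : BD S θ β) {s : ℕ → ℕ} (hb : BaseQ X s) (hB : BcX X s) {ρ : ℕ → ℕ → ℝ}
    {J : ℕ → Finset ℕ} {ms : ℕ} (hJ : ∀ n, (J n).card ≤ ms) (hOk : OkG X.L (natF X ρ J)) :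
    ∃ σ R : ℝ, 0 < σ ∧ ∀ᶠ n : ℕ in X.L, ∀ P ∈ natF X ρ J n, ∃ η : Cfg, P.Rg n σ R ms η := by
  obtain ⟨σ, hσ, hreg⟩ := reg_X X hb hB
  obtain ⟨c, hc, hOk⟩ := hOk
  refine ⟨min σ c, ((∑ w ∈ S.Q, nm w : ℤ) + 1 : ℝ), lt_min hσ hc, ?_⟩
  filter_upwards [hreg, hOk, X.kle] with n h1 h2 h3 P hP
  have hok := h2 P hP
  obtain ⟨η, h4, h5⟩ := h1 0
  have e1 : (S.D n).image (· + (0 : ℤ × ℤ)) = S.D n := by
    simp only [add_zero, image_id']
  have e2 : (fun i => X.q n i + (0 : ℤ × ℤ)) = X.q n := by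
    simp only [add_zero]
  rw [e1, e2] at h4
  rw [e1] at h5
  have hnn : (0 : ℝ) ≤ n := Nat.cast_nonneg n
  refine ⟨η, hok.mono (Nat.floor_le_floor (mul_le_mul_of_nonneg_right (min_le_right _ _) hnn)),
    ?_, ?_, ⟨0, fun v hv => ?_⟩, ?_, ?_⟩
  · rw [hP]
    exact h3
  · rw [hP]
    exact hJ n
  · rw [hP] at hv
    refine enl_dia (Q := S.Q) (a := 0) ?_
    have e3 : (enl S.Q n).image (· + (0 : ℤ × ℤ)) = S.D n := by
      simp only [add_zero, image_id']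
      rfl
    rw [e3]
    exact hv
  · rw [hP]
    exact h4
  · rw [hP]
    exact h5.mono (Int.floor_le_floor (mul_le_mul_of_nonneg_right (min_le_left _ _) hnn))

/-- **The families of the images are regular.** -/
theorem rg_im (X : BD S θ β) {s : ℕ → ℕ} (hb : BaseQ X s) (hB : BcX X s) {ρ : ℕ → ℕ → ℝ}
    {J : ℕ → Finset ℕ} {ms : ℕ} (hJ : ∀ n, (J n).card ≤ ms) (hOk : OkG X.L (imF X ρ J)) :
    ∃ σ R : ℝ, 0 < σ ∧ ∀ᶠ n : ℕ in X.L, ∀ P ∈ imF X ρ J n, ∃ η : Cfg, P.Rg n σ R ms η := by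
  obtain ⟨σ, hσ, hreg⟩ := reg_X X hb hB
  obtain ⟨c, hc, hOk⟩ := hOk
  refine ⟨min σ c, ((∑ w ∈ S.Q, nm w : ℤ) + 1 : ℝ), lt_min hσ hc, ?_⟩
  filter_upwards [hreg, hOk, X.kle] with n h1 h2 h3 P hP
  have hok := h2 P hP
  obtain ⟨a, τ, -, rfl⟩ := hP
  obtain ⟨η, h4, h5⟩ := h1 (dir a)
  have hnn : (0 : ℝ) ≤ n := Nat.cast_nonneg n
  exact ⟨η, hok.mono (Nat.floor_le_floor (mul_le_mul_of_nonneg_right (min_le_right _ _) hnn)),
    h3, hJ n, ⟨dir a, fun v hv => enl_dia (Q := S.Q) hv⟩, h4,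
    h5.mono (Int.floor_le_floor (mul_le_mul_of_nonneg_right (min_le_left _ _) hnn))⟩

/-- The number of the centres. -/
theorem card_JP (X : BD S θ β) (s : ℕ → ℕ) (e : ℝ) (Rs ja : Finset ℕ) (n : ℕ) :
    (JP X s e Rs ja n).card ≤ (ids S Rs ja).card := card_image_le

/-! ### the special polygons -/

/-- **The Dobrushin square is regular.** -/
theorem ds_rg (ms : ℕ) : ∃ σ R : ℝ, 0 < σ ∧ ∀ᶠ n : ℕ in atTop, ∀ a : ℤ × ℤ, ∃ η : Cfg,
    ∀ (ρ : ℕ → ℝ) (J : Finset ℕ), (dsP n a ρ J).Near → (dsP n a ρ J).Sep ⌊σ * n⌋₊ →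
      J.card ≤ ms → (dsP n a ρ J).Rg n σ R ms η := by
  have h2 : (0 : ℝ) < 1 / 2 := by norm_num
  obtain ⟨c, hc, hR⟩ := s_REG_tr (sq_poly 0) (sq_encl 0) h2 (by norm_num) (bc := .dob 2 (1 / 2))
    ⟨by norm_num, by norm_num, by norm_num, by norm_num⟩
  obtain ⟨n₀, hn₀⟩ := eventually_atTop.1 hR
  refine ⟨c, ((∑ w ∈ sqS, nm w : ℤ) + 1 : ℝ) * 2, hc, ?_⟩
  filter_upwards [eventually_ge_atTop (max n₀ 1)] with n hn a
  have hn1 : 0 < n := by have := (le_max_right _ _).trans hn; omega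
  have hn2 : n₀ ≤ 2 * n := by have := (le_max_left _ _).trans hn; omega
  obtain ⟨η, e1, e2⟩ := hn₀ (2 * n) hn2 a
  have e3 : ⌊(1 / 2 : ℝ) * ((2 * n : ℕ) : ℝ)⌋₊ = n := by
    have : (1 / 2 : ℝ) * ((2 * n : ℕ) : ℝ) = (n : ℝ) := by push_cast; ring
    rw [this, Nat.floor_natCast]
  have e4 : (Bc.dob 2 (1 / 2)).ka 4 (2 * n) n = 4 * n := by
    show kOf 4 (2 * n) n 2 ⌊(1 / 2 : ℝ) * ((2 * n : ℕ) : ℝ)⌋₊ = 4 * n
    rw [e3]
    unfold kOf
    split_ifs <;> omega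
  rw [e3, e4] at e1
  have hnn : (0 : ℝ) ≤ n := Nat.cast_nonneg n
  refine ⟨η, fun ρ J hN hS hJ => ⟨⟨ds_poly hn1 a, ds_encl hn1 a, ?_, hN, hS⟩, ?_, hJ,
    ⟨a, fun v hv => ?_⟩, e1, ?_⟩⟩
  · exact (geoP_enl (sq_poly 0) (sq_encl 0) (n := 2 * n) (by omega) (ds_poly hn1 a)
      (ds_encl hn1 a)).mono hn1 (by omega)
  · show 4 * n ≤ 4 * (2 * n)
    omega
  · have h3 := enl_dia (Q := sqS) (n := 2 * n) (a := a) hv
    refine h3.trans (le_of_eq ?_)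
    push_cast
    ring
  · refine e2.mono (Int.floor_le_floor ?_)
    push_cast
    nlinarith [mul_nonneg hc.le hnn]

/-- **The L shape is regular.** -/
theorem ls_rg (b : Bool) (ms : ℕ) : ∃ σ R : ℝ, 0 < σ ∧ ∀ᶠ n : ℕ in atTop, ∀ a : ℤ × ℤ,
    ∃ η : Cfg, ∀ (ρ : ℕ → ℝ) (J : Finset ℕ), (lsP b n a ρ J).Near →
      (lsP b n a ρ J).Sep ⌊σ * n⌋₊ → J.card ≤ ms → (lsP b n a ρ J).Rg n σ R ms η := by
  refine ⟨1 / 4, ((∑ w ∈ lS 1, nm w : ℤ) + 1 : ℝ) * 2, by norm_num, ?_⟩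
  filter_upwards [eventually_gt_atTop 1] with n hn a
  have hn1 : 0 < n := by omega
  have hm : 2 * ⌊(1 / 4 : ℝ) * n⌋ + 1 ≤ ((2 * n : ℕ) : ℤ) := by
    have := H825.Reg.quarter hn
    push_cast
    omega
  have key : ∃ η : Cfg, Dob η (lsD n a) (lsq n a) (lsK b n) ∧ Reg ⌊(1 / 4 : ℝ) * n⌋ (lsD n a) η := by
    cases b
    · exact ⟨_, reg_free_tr (l_poly 1) (l_encl 1) (by omega) hm n a⟩
    · exact ⟨_, reg_wired_tr (l_poly 1) (l_encl 1) (by omega) hm n a⟩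
  obtain ⟨η, e1, e2⟩ := key
  refine ⟨η, fun ρ J hN hS hJ => ⟨⟨ls_poly hn1 a, ls_encl hn1 a, ?_, hN, hS⟩, ?_, hJ,
    ⟨a, fun v hv => ?_⟩, e1, e2⟩⟩
  · exact (geoP_enl (l_poly 1) (l_encl 1) (n := 2 * n) (by omega) (ls_poly hn1 a)
      (ls_encl hn1 a)).mono hn1 (by omega)
  · show lsK b n ≤ 8 * (2 * n)
    unfold lsK
    split_ifs <;> omega
  · have h3 := enl_dia (Q := lS 1) (n := 2 * n) (a := a) hv
    refine h3.trans (le_of_eq ?_)
    push_cast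
    ring

end Vale.Agent.P167.N.QL
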