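import Vale.Agent.P167.N.QL.K8
import Vale.Agent.P167.N.QL.Pr2
import Vale.Agent.P167.N.QL.Reg
import Vale.Agent.P167.N.NET.KitV
import Vale.Agent.P167.N.Kit

/-!
# P167, the range `0 < q < 1`, block Q-LAM: the landing inequality at the reflex corners of the families

`lnd_g`: the inequality `Lnd` at a window (straight legs, a straight or a reflex turn).
`sw_rf`: the windows at the reflex corners of the polygons of a family. `lnd_X`: `Lnd` at all reflex
corners, with a constant which does not depend on the distance `e` of the two charges.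
-/

set_option autoImplicit false

namespace Vale.Agent.P167.N.QL

open Finset Filter Vale.Agent.P167 Vale.Agent.P167.BR Vale.Agent.P167.FK
open Vale.Agent.P167.E6 (IsPolygon Encloses dir face)
open Vale.Agent.P167.H825 (enl pdir tn)
open Vale.Agent.P167.Enl (PN)
open Vale.Agent.P167.H718 (Dob)
open Vale.Agent.P167.H871 (Bd)
open Vale.Agent.P167.H542.Q (BD)
open Vale.Agent.P167.H760.Q (BaseQ)
open Vale.Agent.P167.H632 (pr)
open Vale.Agent.P167.H433 (par_pr)
open Vale.Agent.P167.N.NET (Ar Jn VRS)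

/-- **The landing inequality at a window**, every direction. -/
theorem lnd_g {Q : ℝ} (hQ : 0 < Q) (hQ1 : Q ≤ 1) (hV : VRS Q) : ∃ c1 : ℝ, 0 < c1 ∧ c1 ≤ 1 ∧
    ∀ {n n₀ κ t d : ℕ} {q : ZMod n → ℤ × ℤ} {D : Finset (ℤ × ℤ)} {η : Cfg} {b c : Bool}
      {τ : ℕ → ℤ}, SW n₀ b q D τ κ d → Good η → κ ≤ t → t ≤ κ + 1 →
    ((q (t : ZMod n)).1 + (q (t : ZMod n)).2) % 2 = pr c →
    ∀ m : ℕ, 64 ≤ m → 8 * m + 4 < d → 12 * m + 6 < n₀ → Lnd Q q D η κ t m c c1 := by
  obtain ⟨c1, hc1, hc11, H⟩ := ext_land hQ hQ1 hV 1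
  refine ⟨c1, hc1, hc11, ?_⟩
  intro n n₀ κ t d q D η b c τ hW hη hκt htκ htc m h1 h3 h4 F hF0 hF
  obtain ⟨s, hT, hW', h0⟩ := hW.rot
  set T := mvT (q (κ : ZMod n)) (q (κ : ZMod n)) s with hTd
  have hJ : JN b (pq T q) (T.pre D) κ (4 * m + 1 : ℤ) :=
    hW'.jn h0 (by omega) (by omega) (by omega)
  have hη' : Good (T.Ci η) := T.good_T' (by rw [T.C_Ci]; exact hη)
  have htc' : ((pq T q (t : ZMod n)).1 + (pq T q (t : ZMod n)).2) % 2 = pr c := by
    rw [← par_pr hT.o, S_pq]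
    exact htc
  have key := H (hT.poly hW.poly) (hT.encl hW.enc) hJ hη' hκt htκ htc' m m h1 (by omega)
    (by omega) le_rfl (fun ω => F (T.C ω)) (fun ω => hF0 _) (fun ω ω' hω => by
      refine hF _ _ fun v hv => ?_
      obtain ⟨v, rfl⟩ := T.Q.surjective v
      rw [T.C_apply, T.C_apply]
      congr 1
      have k2 : ¬ (v ∈ tub b (pq T q (κ : ZMod n)) m (m / 2) ∨
          v ∈ tub2 (pq T q (κ : ZMod n)) m m) := by
        intro hcon
        obtain ⟨k3, k4, -⟩ := hJ.tubs (by omega) (by omega) le_rfl hcon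
        refine hv (mem_inter.2 ⟨?_, T.mem_pre.1 k3⟩)
        rw [← S_pq T q, bq_T]
        exact k4
      exact hω v (fun h' => k2 (Or.inl h')) fun h' => k2 (Or.inr h'))
  rw [← T.Ex_pre Q D η, ← T.Ex_pre Q D η]
  unfold Ld
  simp only [NS_ind_T hT hW.poly, jn_ind_T hT.o]
  exact key

/-- **The windows at the reflex corners** of the polygons of a family. -/
theorem sw_rf {S : CA.Dat} {N n t₀ : ℕ} {q : ZMod N → ℤ × ℤ} (hn : 0 < n) (hq : IsPolygon q)
    (hD : Encloses q (S.D n)) (ht : t₀ < n) (hN : N = S.l * n)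
    (hs : ∀ j : ℕ, q (j : ZMod N) = PN S.p n (j + t₀)) {τ : ℕ → ℤ}
    (hτ : Bd (S.D n : Set (ℤ × ℤ)) N (fun i => q (i : ZMod N)) τ 1) {i : ℕ} (hi : i ∈ Rf S) :
    SW n true q (S.D n) τ (i * n - t₀) (min t₀ (n - t₀)) := by
  have hl : NeZero S.l := ⟨by have := S.poly.1; omega⟩
  unfold Rf at hi
  rw [mem_filter, mem_Icc] at hi
  obtain ⟨⟨hi1, hi2⟩, hi3⟩ := hi
  have h1 : n ≤ i * n := Nat.le_mul_of_pos_left n hi1
  have h2 : i * n ≤ S.l * n := Nat.mul_le_mul_right n hi2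
  have hs' : ∀ j : ℕ, q (j : ZMod N) = PN S.p n (j + t₀) + 0 := fun j => by
    rw [hs, add_zero]
  -- no turns in the legs
  have key : ∀ j : ℕ, 0 < j → i * n - n < j + t₀ → j + t₀ < i * n + n → j + t₀ ≠ i * n →
      τ j = τ (j - 1) := by
    intro j hj0 hj1 hj2 hj3
    by_contra hne
    obtain ⟨i', -, hi', -⟩ := turn_dvd S.poly hn hs' hτ hj0 hne
    rcases lt_trichotomy i' i with h | rfl | h
    · have h3 : (i' + 1) * n ≤ i * n := Nat.mul_le_mul_right n h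
      have h4 : (i' + 1) * n = i' * n + n := by ring
      omega
    · exact hj3 hi'
    · have h3 : (i + 1) * n ≤ i' * n := Nat.mul_le_mul_right n h
      have h4 : (i + 1) * n = i * n + n := by ring
      omega
  refine ⟨?_, hq, hD, hτ.step, ⟨fun j h3 h4 => ?_, fun j h3 h4 => ?_⟩, by omega, by omega, ?_⟩
  · refine geoP_enl (a := 0) S.poly S.enc hn hq ?_
    have e1 : (enl S.Q n).image (· + (0 : ℤ × ℤ)) = S.D n := by
      simp only [add_zero, image_id']
      rfl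
    rw [e1]
    exact hD
  · -- the outgoing leg
    obtain ⟨x, rfl⟩ := Nat.exists_eq_add_of_le h3
    clear h3
    induction x with
    | zero => rfl
    | succ x ih =>
      rw [← ih (by omega), key (i * n - t₀ + (x + 1)) (by omega) (by omega) (by omega) (by omega)]
      rfl
  · -- the incoming leg
    obtain ⟨x, hx⟩ : ∃ x, i * n - t₀ - 1 = j + x := ⟨i * n - t₀ - 1 - j, by omega⟩
    rw [hx]
    induction x generalizing j with
    | zero => rfl
    | succ x ih =>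
      rw [show j + (x + 1) = j + 1 + x by ring, ← ih (j + 1) (by omega) (by omega) (by omega),
        key (j + 1) (by omega) (by omega) (by omega) (by omega)]
      rfl
  · rw [turn_at S.poly hn hs' hτ (i := i) (by omega) (by omega) (by omega), hi3]
    rfl

variable {S : CA.Dat} {θ β : ℝ}

/-- **The landing inequality at the reflex corners of a family**, uniformly in `e`. -/
theorem lnd_X (h1 : Ang θ) (X : BD S θ β) {s : ℕ → ℕ} (hb : BaseQ X s) :
    ∃ c1 e0 : ℝ, 0 < c1 ∧ c1 ≤ 1 ∧ 0 < e0 ∧ ∀ e : ℝ, 0 < e → e ≤ e0 → ∀ᶠ n : ℕ in X.L,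
      ∀ c ∈ (Rf S).image (fun i => i * n - t0 S s n), ∀ η : Cfg, Good η → ∀ b : Bool,
      ((X.q n (rI (X.q n) (X.k n) c : ℕ)).1 + (X.q n (rI (X.q n) (X.k n) c : ℕ)).2) % 2 = pr b →
      Lnd (2 * Real.cos θ) (X.q n) (S.D n) η c (rI (X.q n) (X.k n) c) (me e n) b c1 := by
  obtain ⟨c1, hc1, hc11, H⟩ := lnd_g h1.kit.pos h1.kit.lt.le (NET.vrs h1.kit.pos h1.kit.lt)
  have htp0 := S.tp0
  have htp1 := S.tp1
  refine ⟨c1, min S.tp (1 - S.tp) / 16, hc1, hc11, by
    have : 0 < min S.tp (1 - S.tp) := lt_min htp0 (by linarith)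
    linarith, fun e he he0 => ?_⟩
  have hlarge : ∀ A : ℝ, ∀ᶠ n : ℕ in X.L, A ≤ n := fun A => X.le
    ((eventually_ge_atTop ⌈A⌉₊).mono fun n hn => (Nat.le_ceil A).trans (by exact_mod_cast hn))
  have hm1 := min_le_left S.tp (1 - S.tp)
  have hm2 := min_le_right S.tp (1 - S.tp)
  filter_upwards [pos_X X hb, X.poly, X.enc, hlarge (65 / e), hlarge (32 / min S.tp (1 - S.tp))]
    with n a1 a2 a3 a4 a5 c hc η hη b hbp
  obtain ⟨hn, ht, hN, hpos⟩ := a1
  obtain ⟨i, hi, rfl⟩ := mem_image.1 hc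
  obtain ⟨τ, hτ⟩ := H871.exists_bd a2 a3
  have hSW := sw_rf hn a2 a3 ht hN hpos hτ hi
  have hmin : 0 < min S.tp (1 - S.tp) := lt_min htp0 (by linarith)
  rw [div_le_iff₀ he] at a4
  rw [div_le_iff₀ hmin] at a5
  have hn' : (0 : ℝ) < n := by exact_mod_cast hn
  have k1 : (⌊S.tp * n⌋₊ : ℝ) ≤ S.tp * n := Nat.floor_le (by positivity)
  have k2 : S.tp * n < ⌊S.tp * n⌋₊ + 1 := Nat.lt_floor_add_one _
  have k3 : ((s n : ℕ) : ℝ) ≤ 1 := by exact_mod_cast hb.1 n
  have k4 : (0 : ℝ) ≤ (s n : ℕ) := Nat.cast_nonneg _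
  have k5 := me_est he n
  rw [abs_le] at k5
  have k6 : e * n ≤ min S.tp (1 - S.tp) / 16 * n := mul_le_mul_of_nonneg_right he0 hn'.le
  have k7 : min S.tp (1 - S.tp) * n ≤ S.tp * n := mul_le_mul_of_nonneg_right hm1 hn'.le
  have k8 : min S.tp (1 - S.tp) * n ≤ (1 - S.tp) * n := mul_le_mul_of_nonneg_right hm2 hn'.le
  have k9 : min S.tp (1 - S.tp) * n ≤ 1 / 2 * n := by
    refine mul_le_mul_of_nonneg_right ?_ hn'.le
    rcases le_total S.tp (1 - S.tp) with h | h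
    · rw [min_eq_left h]; linarith
    · rw [min_eq_right h]; linarith
  have m1 : 64 ≤ me e n := by
    have : ((64 : ℕ) : ℝ) ≤ (me e n : ℕ) := by push_cast; linarith
    exact_mod_cast this
  have m2 : 8 * me e n + 4 < ⌊S.tp * n⌋₊ + s n := by
    have : ((8 * me e n + 4 : ℕ) : ℝ) < (⌊S.tp * n⌋₊ + s n : ℕ) := by push_cast; linarith
    exact_mod_cast this
  have m3 : 8 * me e n + 4 + (⌊S.tp * n⌋₊ + s n) < n := by
    have : ((8 * me e n + 4 + (⌊S.tp * n⌋₊ + s n) : ℕ) : ℝ) < (n : ℕ) := by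
      push_cast; linarith
    exact_mod_cast this
  have m4 : 12 * me e n + 6 < n := by
    have : ((12 * me e n + 6 : ℕ) : ℝ) < (n : ℕ) := by push_cast; linarith
    exact_mod_cast this
  have e0 : ⌊S.tp * n⌋₊ + s n = t0 S s n := rfl
  rw [e0] at hSW m2 m3
  have hr := rI_or (X.q n) (X.k n) (i * n - t0 S s n)
  exact H hSW hη (by rcases hr with h | h <;> omega) (by rcases hr with h | h <;> omega) hbp
    (me e n) m1 (by omega) m4

/-- The same with the colour of the charged site. -/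
theorem lnd_X' (h1 : Ang θ) (X : BD S θ β) {s : ℕ → ℕ} (hb : BaseQ X s) :
    ∃ c1 e0 : ℝ, 0 < c1 ∧ 0 < e0 ∧ ∀ e : ℝ, 0 < e → e ≤ e0 → ∀ᶠ n : ℕ in X.L,
      ∀ c ∈ (Rf S).image (fun i => i * n - t0 S s n), ∀ η : Cfg,
      Dob η (S.D n) (X.q n) (X.k n) → ∃ b : Bool,
      Lnd (2 * Real.cos θ) (X.q n) (S.D n) η c (rI (X.q n) (X.k n) c) (me e n) b c1 := by
  obtain ⟨c1, e0, h2, -, h3, h4⟩ := lnd_X h1 X hb
  refine ⟨c1, e0, h2, h3, fun e he hee => (h4 e he hee).mono fun n hn c hc η hη => ?_⟩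
  rcases Int.emod_two_eq ((X.q n (rI (X.q n) (X.k n) c : ℕ)).1 +
    (X.q n (rI (X.q n) (X.k n) c : ℕ)).2) with h | h
  · exact ⟨true, hn c hc η hη.good true (by rw [h]; rfl)⟩
  · exact ⟨false, hn c hc η hη.good false (by rw [h]; rfl)⟩

end Vale.Agent.P167.N.QL
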