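import Vale.Agent.P167.N.QL.MajB
import Vale.Agent.P167.H852.Q.Y4

/-!
# P167, the range `0 < q < 1`, block Q-LAM: majorants of the natural functionals with boundary phases
and of their parity images

`MajNG`, `MajIG`: the versions of `MajN`, `MajI` for the charge `cP q ρ f` (interior charge `f`,
boundary phases `ρ`), relative to the value `V0` of the natural functional without interior charge.
-/

set_option autoImplicit false

namespace Vale.Agent.P167.N.QL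

open Finset Filter Topology Relation Vale.Agent.P167.BR Vale.Agent.P167.FK
open Vale.Agent.P167.H562.SML
open Vale.Agent.P167.H436 (ero)
open Vale.Agent.P167.H542.Q (BD)
open Vale.Agent.P167.H718 (Dob wn wn' imC lam)
open Vale.Agent.P167.H871 (Bd)
open Vale.Agent.P167.H760.Q (MajY Fp MajI MajN)
open Vale.Agent.P167.H852.Q (Zn ZG exists_zn nm_dir)
open Vale.Agent.P167.CA (cms)

variable {S : CA.Dat} {θ β : ℝ} {f : ℂ → ℝ}

/-- The value of the natural functional with the phases `ρ`. -/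
noncomputable def V0 (X : BD S θ β) (ρ : ℕ → ℕ → ℝ) (n : ℕ) : ℝ :=
  VP θ β (natP (X.q n) (S.D n) (X.k n) (ρ n) ∅)

/-- **Majorants of the natural functionals.** -/
def MajNG (X : BD S θ β) (ρ : ℕ → ℕ → ℝ) (f : ℂ → ℝ) (δ : ℝ) : Prop :=
  ∃ c C : ℝ, 0 < c ∧ 0 < C ∧ ∀ᶠ n : ℕ in X.L, ∀ z : ℤ × ℤ, Fp S δ n z →
    ∀ R : ℤ, (R : ℝ) ≤ c * n → ∀ η : Cfg, Dob η (S.D n) (X.q n) (X.k n) →
    MajY (2 * Real.cos θ) (S.D n) η
      (wn θ β (X.q n) (S.D n) (X.k n) (cP (X.q n) (ρ n) (cms f (1 / n))))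
      (wn' θ β (X.q n) (S.D n) (X.k n) (cP (X.q n) (ρ n) (cms f (1 / n)))) z R (C * V0 X ρ n)

/-- **Majorants of the parity images.** -/
def MajIG (X : BD S θ β) (ρ : ℕ → ℕ → ℝ) (f : ℂ → ℝ) (δ : ℝ) : Prop :=
  ∃ c C : ℝ, 0 < c ∧ 0 < C ∧ ∀ᶠ n : ℕ in X.L, ∀ z : ℤ × ℤ, Fp S δ n z →
    ∀ R : ℤ, (R : ℝ) ≤ c * n → ∀ (s : Fin 4) (τ : ℕ → ℤ),
    Bd (S.D n : Set (ℤ × ℤ)) (X.N n) (fun i => X.q n (i : ZMod (X.N n))) τ 1 → ∀ η : Cfg,
    Dob η ((S.D n).image (· + E6.dir s)) (fun i => X.q n i + E6.dir s) (X.k n) →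
    MajY (2 * Real.cos θ) ((S.D n).image (· + E6.dir s)) η
      (wn θ β (fun i => X.q n i + E6.dir s) ((S.D n).image (· + E6.dir s)) (X.k n)
        (imC θ β τ (X.q n) (X.k n) (E6.dir s) (cP (X.q n) (ρ n) (cms f (1 / n)))))
      (wn' θ β (fun i => X.q n i + E6.dir s) ((S.D n).image (· + E6.dir s)) (X.k n)
        (imC θ β τ (X.q n) (X.k n) (E6.dir s) (cP (X.q n) (ρ n) (cms f (1 / n))))) z R
      (C * (lam θ β (X.q n) (S.D n) (X.k n) (E6.dir s) * V0 X ρ n))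

theorem dir_odd (a : Fin 4) : ¬ Even ((E6.dir a).1 + (E6.dir a).2) := by
  fin_cases a <;> decide

theorem hlarge (X : BD S θ β) (A : ℝ) : ∀ᶠ n : ℕ in X.L, A ≤ n := X.le
  ((eventually_ge_atTop ⌈A⌉₊).mono fun n hn => (Nat.le_ceil A).trans (by exact_mod_cast hn))

/-- **The natural functionals with boundary phases.** -/
theorem majNG (h0 : 0 < θ) (h1 : Ang θ) (hβ : Real.cos (θ / 2 + β) = Real.sin θ)
    (hRSW : RSW (2 * Real.cos θ)) (X : BD S θ β) {ρ : ℕ → ℕ → ℝ} {J : ℕ → Finset ℕ} {δ : ℝ}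
    (hδ : 0 < δ) (hOk : OkG X.L (natF X ρ J)) (hfar : FarG X.L (natF X ρ J) fun n => {z | Fp S δ n z})
    (hMm : MomG θ β X.L (natF X ρ J)) (hLm : LamG θ β X.L (natF X ρ J)) (hf : S.FF f) :
    MajNG X ρ f δ := by
  obtain ⟨κ0, Mf, R1, hκ0, hMf0, hR1, hZn⟩ := exists_zn hf
  obtain ⟨c, C, hc, hC, H⟩ := majG_core h0 h1 hβ hRSW X.le hOk hfar hMm hLm
    (H := fun n _ => cms f (1 / (n : ℝ))) hκ0 hMf0 hR1.le fun κ hκ hκ1 hκ2 => by
      filter_upwards [(hZn κ0 hκ0 le_rfl κ hκ hκ1 hκ2).filter_mono X.le, hlarge X (1 / δ)]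
        with n hZ hn P hP
      rw [div_le_iff₀ hδ] at hn
      rw [hP]
      exact ⟨_, _, hZ.zg, fun z hz R hR v hv => hZ.win hz (by linarith) hR hv⟩
  refine ⟨c, C, hc, hC, ?_⟩
  filter_upwards [H] with n H z hz R hR η hη
  exact H _ rfl z hz R hR η hη

/-- **The parity images.** -/
theorem majIG (h0 : 0 < θ) (h1 : Ang θ) (hβ : Real.cos (θ / 2 + β) = Real.sin θ)
    (hRSW : RSW (2 * Real.cos θ)) (X : BD S θ β) {ρ : ℕ → ℕ → ℝ} {J : ℕ → Finset ℕ} {δ : ℝ}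
    (hδ : 0 < δ) (hOk : OkG X.L (imF X ρ J)) (hfar : FarG X.L (imF X ρ J) fun n => {z | Fp S δ n z})
    (hMm : MomG θ β X.L (imF X ρ J)) (hLm : LamG θ β X.L (imF X ρ J)) (hf : S.FF f) :
    MajIG X ρ f δ := by
  have h1_lt := h1.lt
  have hs : 0 < Real.sin θ := h1.sin_pos
  have hc' : 0 < Real.cos θ := h1.cos_pos
  obtain ⟨κ0, Mf, R1, hκ0, hMf0, hR1, hZn⟩ := exists_zn hf
  obtain ⟨c, C, hc, hC, H⟩ := majG_core h0 h1 hβ hRSW X.le hOk hfar hMm hLm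
    (H := fun n P z => -cms f (1 / (n : ℝ)) (z - (P.q 0 - X.q n 0))) hκ0 hMf0
    (by linarith : (0 : ℝ) ≤ R1 + 1) fun κ hκ hκ1 hκ2 => by
      filter_upwards [(hZn κ0 hκ0 le_rfl κ hκ hκ1 hκ2).filter_mono X.le, hlarge X (1 / δ)]
        with n hZ hn P hP
      rw [div_le_iff₀ hδ] at hn
      obtain ⟨a, τ, -, rfl⟩ := hP
      have ea : (imP θ β (X.q n) (S.D n) (X.k n) (ρ n) (J n) τ (E6.dir a)).q 0 - X.q n 0 =
          E6.dir a := add_sub_cancel_left _ _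
      rw [ea]
      exact ⟨_, _, hZ.zg.tr (nm_dir a), fun z hz R hR v hv =>
        hZ.win_im hz (by linarith) hR (nm_dir a) hv⟩
  refine ⟨c, C, hc, hC, ?_⟩
  filter_upwards [H, X.poly, X.enc] with n H hq hD z hz R hR a τ hτ η hη
  have h2 := H _ ⟨a, τ, hτ, rfl⟩ z hz R hR η hη
  have ea : (imP θ β (X.q n) (S.D n) (X.k n) (ρ n) (J n) τ (E6.dir a)).q 0 - X.q n 0 =
      E6.dir a := add_sub_cancel_left _ _
  rw [ea, VP_im hq hD hs hc' (dir_odd a) hτ hβ] at h2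
  rw [imC_cP]
  exact h2

end Vale.Agent.P167.N.QL
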