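import Vale.Agent.P167.N.QL.Fam3
import Vale.Agent.P167.N.QL.MajC

/-!
# P167, the range `0 < q < 1`, block Q-LAM: majorants for the families with charges at the reflex
corners
-/

set_option autoImplicit false

namespace Vale.Agent.P167.N.QL

open Finset Filter Vale.Agent.P167.FK
open Vale.Agent.P167.H542.Q (BD)
open Vale.Agent.P167.H760.Q (BaseQ MajI MajN)

variable {S : CA.Dat} {θ β : ℝ} {f : ℂ → ℝ}

/-- **Majorants of the natural functionals.** -/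
theorem majNP (h0 : 0 < θ) (h1 : Ang θ) (hβ : Real.cos (θ / 2 + β) = Real.sin θ)
    (hRSW : RSW (2 * Real.cos θ)) (X : BD S θ β) {s : ℕ → ℕ} (hb : BaseQ X s) {e : ℝ} (he : 0 < e)
    (he1 : 2 * e ≤ S.tp) (he2 : e ≤ 1 - S.tp) {Rs ja : Finset ℕ} (hRs : Rs ⊆ Tn S)
    (hj : JunP X ja) {δ : ℝ} (hδ : 0 < δ) (heδ : e ≤ δ / 4)
    (hMm : MomG θ β X.L (natF X (rhoP X s e Rs) (JP X s e Rs ja)))
    (hLm : LamG θ β X.L (natF X (rhoP X s e Rs) (JP X s e Rs ja))) (hf : S.FF f) :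
    MajNG X (rhoP X s e Rs) f δ :=
  majNG h0 h1 hβ hRSW X hδ (okG_nat X hb he he1 he2 hRs hj) (farG_nat X hb he he1 hRs hj hδ heδ)
    hMm hLm hf

/-- **Majorants of the parity images.** -/
theorem majIP (h0 : 0 < θ) (h1 : Ang θ) (hβ : Real.cos (θ / 2 + β) = Real.sin θ)
    (hRSW : RSW (2 * Real.cos θ)) (X : BD S θ β) {s : ℕ → ℕ} (hb : BaseQ X s) {e : ℝ} (he : 0 < e)
    (he1 : 2 * e ≤ S.tp) (he2 : e ≤ 1 - S.tp) {Rs ja : Finset ℕ} (hRs : Rs ⊆ Tn S)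
    (hj : JunP X ja) {δ : ℝ} (hδ : 0 < δ) (heδ : e ≤ δ / 4)
    (hMm : MomG θ β X.L (imF X (rhoP X s e Rs) (JP X s e Rs ja)))
    (hLm : LamG θ β X.L (imF X (rhoP X s e Rs) (JP X s e Rs ja))) (hf : S.FF f) :
    MajIG X (rhoP X s e Rs) f δ :=
  majIG h0 h1 hβ hRSW X hδ (okG_im X hb he he1 he2 hRs hj) (farG_im X hb he he1 hRs hj hδ heδ)
    hMm hLm hf

end Vale.Agent.P167.N.QL
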