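import Vale.Agent.P167.N.QL.Sw
import Vale.Agent.P167.N.AW.Up
import Vale.Agent.P167.H718.Lam.Asm1
import Vale.Agent.P167.H562.MAJ1
import Vale.Agent.P167.N.H167.Q.EDefs

/-!
# P167, the range `0 < q < 1`, block Q-LAM: moments for families of data

`PD.Rg`: regular data. `PD.Lk`: local data: every centre has positive weights or is killed. `mom_pd`: the
moments of the number of the large pieces. `LocG`, `momG_of`: `MomG` for families.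
-/

set_option autoImplicit false

namespace Vale.Agent.P167.N.QL

open Finset Filter Vale.Agent.P167.BR Vale.Agent.P167.FK
open Vale.Agent.P167.E6 (IsPolygon Encloses)
open Vale.Agent.P167.FKA (Loc Ex_mono Ex_congr Ex_const Ex_mul_left Ex_nonneg)
open Vale.Agent.P167.H562.MAJ (bigs)
open Vale.Agent.P167.H562.QM (MajA OneC)
open Vale.Agent.P167.H718 (Dob)
open Vale.Agent.P167.H718.Lam (Ex_eta)
open Vale.Agent.P167.H542.Q (cB)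
open Vale.Agent.P167.H975 (TX TX_loc)
open Vale.Agent.P167.N.H167.Q (Reg)
open Vale.Agent.P167.N.AW (Sw Wl PT Kil ExtI Lc mom_all)

variable {θ β : ℝ} {P : PD} {n ms : ℕ} {r r' Λ : ℤ} {η : Cfg} {σ R b B c0 : ℝ} {KE : ℕ → ℤ}
  {CE : ℕ → ℝ} {JP JZ : Finset ℕ}

/-- **Regular data.** -/
structure PD.Rg (P : PD) (n : ℕ) (σ R : ℝ) (ms : ℕ) (η : Cfg) : Prop where
  /-- the geometry -/
  ok : P.Ok n ⌊σ * n⌋₊
  /-- the junction -/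
  le : P.k ≤ P.N
  /-- the number of the centres -/
  card : P.J.card ≤ ms
  /-- the diameter -/
  dia : ∃ x₀ : ℤ × ℤ, ∀ v ∈ P.D, (nm (v - x₀) : ℝ) ≤ R * n
  /-- the boundary condition -/
  dob : Dob η P.D P.q P.k
  /-- regularity -/
  reg : Reg ⌊σ * n⌋ P.D η

/-- **Local data**: around the centres with indices in `JP` all the weights are at least `c0`, the
centres with indices in `JZ` are killed. -/
structure PD.Lk (θ β : ℝ) (P : PD) (b B c0 : ℝ) (Λ : ℤ) (KE : ℕ → ℤ) (CE : ℕ → ℝ) (η : Cfg)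
    (JP JZ : Finset ℕ) (r : ℤ) : Prop where
  /-- the two kinds of centres -/
  un : JP ∪ JZ = P.J
  dis : Disjoint JP JZ
  /-- positive weights -/
  pos : ∀ j ∈ JP, ∀ ω : Cfg, ∀ A ∈ pcs ω P.D, (∀ e ∈ A, hdv e ∈ Bq (P.q (j : ZMod P.N)) r) →
    c0 ≤ wP θ β P.q P.D P.k P.ρ A
  /-- killed centres -/
  kil : ∀ j ∈ JZ, ∃ I : ℤ → Cfg → ℝ,
    Kil b B (wP θ β P.q P.D P.k P.ρ) P.D (P.q (j : ZMod P.N)) I r ∧
    ∀ E : ℕ, ExtI (2 * Real.cos θ) P.D η I {P.q (j : ZMod P.N)} Λ E (KE E) (CE E) r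

/-- The constants of the local data. -/
structure Cs (σ b B c0 : ℝ) (Λ : ℤ) (CE : ℕ → ℝ) : Prop where
  sp : 0 < σ
  bp : 0 < b
  b1 : b ≤ 1
  B1 : 1 ≤ B
  cp : 0 < c0
  c1 : c0 ≤ 1
  L1 : 1 ≤ Λ
  C1 : ∀ E, 1 ≤ CE E

theorem PD.Lk.mono (h : P.Lk θ β b B c0 Λ KE CE η JP JZ r) (hr : r' ≤ r) :
    P.Lk θ β b B c0 Λ KE CE η JP JZ r' :=
  ⟨h.un, h.dis, fun j hj ω A hA hA' => h.pos j hj ω A hA fun e he =>
    H601.S2.Bq_sub hr (hA' e he), fun j hj => by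
      obtain ⟨I, h1, h2⟩ := h.kil j hj
      exact ⟨I, h1.mono hr, fun E => (h2 E).le_r hr⟩⟩

theorem PD.Lk.C_eq (h : P.Lk θ β b B c0 Λ KE CE η JP JZ r) :
    JP.image (fun j : ℕ => P.q (j : ZMod P.N)) ∪ JZ.image (fun j : ℕ => P.q (j : ZMod P.N)) =
      P.C := by
  unfold PD.C
  rw [← image_union, h.un]

theorem PD.Lk.ltP (h : P.Lk θ β b B c0 Λ KE CE η JP JZ r) (hN : P.Near) :
    ∀ j ∈ JP, j < P.N := fun j hj => hN.lt j (by rw [← h.un]; exact mem_union_left _ hj)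

theorem PD.Lk.ltZ (h : P.Lk θ β b B c0 Λ KE CE η JP JZ r) (hN : P.Near) :
    ∀ j ∈ JZ, j < P.N := fun j hj => hN.lt j (by rw [← h.un]; exact mem_union_right _ hj)

/-- The radii. -/
theorem exists_rad {W : ℤ} (hW : 1 ≤ W) {σ ρ : ℝ} (hρ : 0 < ρ) (h1 : 16 * W * ρ ≤ 1)
    (h2 : 16 * W * ρ ≤ σ) : ∃ n₀ : ℕ, ∀ n : ℕ, n₀ ≤ n → 1 ≤ ⌊ρ * n⌋ ∧
      12 * (W * ⌊ρ * n⌋) < (n : ℤ) ∧ 8 * (W * ⌊ρ * n⌋) < (⌊σ * n⌋₊ : ℤ) ∧ ⌊ρ * n⌋ ≤ ⌊σ * n⌋ := by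
  have hW' : (1 : ℝ) ≤ W := by exact_mod_cast hW
  have hσ : 0 < σ := lt_of_lt_of_le (by positivity) h2
  obtain ⟨n₀, hn₀⟩ := exists_nat_ge (max (1 / ρ) (4 / σ))
  refine ⟨n₀ + 1, fun n hn => ?_⟩
  have hn' : (n₀ : ℝ) + 1 ≤ n := by exact_mod_cast hn
  have e1 := (le_max_left _ _).trans hn₀
  have e2 := (le_max_right _ _).trans hn₀
  have hn1 : (1 : ℝ) ≤ n := by
    have : (0 : ℝ) ≤ n₀ := Nat.cast_nonneg _
    linarith
  have e3 : 1 / ρ ≤ n := by linarith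
  have e4 : 4 / σ ≤ n := by linarith
  rw [div_le_iff₀ hρ] at e3
  rw [div_le_iff₀ hσ] at e4
  have f1 := Int.floor_le (ρ * (n : ℝ))
  have f2 : W * (⌊ρ * (n : ℝ)⌋ : ℝ) ≤ W * ρ * n := by
    have := mul_le_mul_of_nonneg_left f1 (by linarith : (0 : ℝ) ≤ W)
    linarith
  have g1 : 16 * (W * ρ * n) ≤ n := by nlinarith
  have g2 : 16 * (W * ρ * n) ≤ σ * n := by nlinarith
  have g3 : 0 < W * ρ * n := by positivity
  refine ⟨?_, ?_, ?_, ?_⟩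
  · refine Int.le_floor.2 ?_
    push_cast
    linarith
  · have : ((12 * (W * ⌊ρ * (n : ℝ)⌋) : ℤ) : ℝ) < n := by
      push_cast
      linarith
    exact_mod_cast this
  · have h3 := Nat.lt_floor_add_one (σ * (n : ℝ))
    have : ((8 * (W * ⌊ρ * (n : ℝ)⌋) : ℤ) : ℝ) < (⌊σ * (n : ℝ)⌋₊ : ℝ) := by
      push_cast
      linarith
    exact_mod_cast this
  · refine Int.floor_le_floor (mul_le_mul_of_nonneg_right ?_ (Nat.cast_nonneg n))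
    nlinarith

/-- The weights of regular data as an abstract weight. -/
theorem PD.Rg.sw (hP : P.Rg n σ R ms η) (h0 : 0 < θ) (h1 : Ang θ)
    (hβ : Real.cos (θ / 2 + β) = Real.sin θ) {ℓ : ℤ} (hn : 12 * ℓ < (n : ℤ))
    (hL : 8 * ℓ < (⌊σ * n⌋₊ : ℤ)) :
    Sw (cB θ)⁻¹ ℓ ⌊σ * n⌋ P.D P.C (wP θ β P.q P.D P.k P.ρ) η :=
  hP.ok.sw h0 h1 hβ hn hL hP.reg.good hP.reg.one

/-- **The local data in terms of sites.** -/
theorem PD.Lk.lc (h : P.Lk θ β b B c0 Λ KE CE η JP JZ r) (hP : P.Rg n σ R ms η) (hr : 0 ≤ r)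
    (hΛ : 1 ≤ Λ) (hn : 12 * ((Λ + 4) * r) < (n : ℤ)) (hL : 8 * ((Λ + 4) * r) < (⌊σ * n⌋₊ : ℤ)) :
    ∃ I : ℤ × ℤ → ℤ → Cfg → ℝ, Lc (2 * Real.cos θ) b B c0 Λ KE CE P.D η
      (wP θ β P.q P.D P.k P.ρ) (JP.image fun j : ℕ => P.q (j : ZMod P.N))
      (JZ.image fun j : ℕ => P.q (j : ZMod P.N)) I r := by
  classical
  have hq := hP.ok.poly
  have hN := hP.ok.near
  have hk : ∀ c ∈ JZ.image fun j : ℕ => P.q (j : ZMod P.N), ∃ I : ℤ → Cfg → ℝ,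
      Kil b B (wP θ β P.q P.D P.k P.ρ) P.D c I r ∧
        ∀ E : ℕ, ExtI (2 * Real.cos θ) P.D η I {c} Λ E (KE E) (CE E) r := by
    intro c hc
    obtain ⟨j, hj, rfl⟩ := mem_image.1 hc
    exact h.kil j hj
  choose! I hI using hk
  refine ⟨I, disj_image hq (h.ltP hN) (h.ltZ hN) h.dis, ?_, fun z hz => (hI z hz).1,
    fun z hz => (hI z hz).2, ?_⟩
  · intro c hc ω A hA hA'
    obtain ⟨j, hj, rfl⟩ := mem_image.1 hc
    exact h.pos j hj ω A hA hA'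
  · rw [h.C_eq]
    intro c hc c' hc' hne
    obtain ⟨i, hi, rfl⟩ := mem_C.1 hc
    obtain ⟨j, hj, rfl⟩ := mem_C.1 hc'
    have h3 := far_idx hP.ok.geo hN hP.ok.sep hn hL hi hj fun h => hne (by rw [h])
    have h4 : 0 ≤ (Λ + 4) * r := by positivity
    omega

/-- The configuration `ω` in `D`, `η₀` outside. -/
noncomputable def mix (D : Finset (ℤ × ℤ)) (η₀ ω : Cfg) : Cfg := fun v => open Classical in
  if v ∈ D then ω v else η₀ v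

theorem mix_in {D : Finset (ℤ × ℤ)} {η₀ ω : Cfg} {v : ℤ × ℤ} (h : v ∈ D) :
    mix D η₀ ω v = ω v := by
  unfold mix
  rw [if_pos h]

theorem mix_out {D : Finset (ℤ × ℤ)} {η₀ ω : Cfg} {v : ℤ × ℤ} (h : v ∉ D) :
    mix D η₀ ω v = η₀ v := by
  unfold mix
  rw [if_neg h]

theorem mix_cf (D : Finset (ℤ × ℤ)) (η₀ : Cfg) (S : Finset (ℤ × ℤ)) :
    mix D η₀ (cf D η₀ S) = cf D η₀ S := by
  funext v
  by_cases h : v ∈ D
  · rw [mix_in h]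
  · rw [mix_out h]
    simp [cf, h]

/-- The number of the big pieces. -/
theorem card_bigs {D : Finset (ℤ × ℤ)} {ω : Cfg} {d : ℝ} {N : ℕ} (hN : MajA D d ω N) :
    (bigs D D d ω).card ≤ N := by
  classical
  refine hN _ (fun γ hγ => H167.isSeg (Finset.mem_filter.1 hγ).1) ?_ ?_
  · intro γ hγ γ' hγ' hne
    rw [Finset.disjoint_left]
    intro e he he'
    exact hne (eq_of_mem_pcs (Finset.mem_filter.1 hγ).1 (Finset.mem_filter.1 hγ').1 he he')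
  · intro γ hγ
    obtain ⟨h1, -, h2⟩ := Finset.mem_filter.1 hγ
    refine ⟨?_, ?_⟩
    · by_cases hl : IsLp D γ
      · obtain ⟨e, he⟩ := pcs_nonempty h1
        exact ⟨e, he, hl _ he⟩
      · obtain ⟨e, he, h3⟩ := exists_entry h1 hl
        exact ⟨e, he, (mem_eds.1 (subset_eds h1 he)).resolve_right h3⟩
    · unfold Small at h2
      push Not at h2
      obtain ⟨u, hu, v, hv, h4⟩ := h2
      obtain ⟨e1, he1, rfl⟩ := Finset.mem_image.1 hu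
      obtain ⟨e2, he2, rfl⟩ := Finset.mem_image.1 hv
      exact ⟨e1, he1, e2, he2, h4⟩

/-- **Moments of the number of the large pieces** for regular data. -/
theorem mom_pd (h0 : 0 < θ) (h1 : Ang θ) (hβ : Real.cos (θ / 2 + β) = Real.sin θ)
    (hR : RSW (2 * Real.cos θ)) (R : ℝ) (ms : ℕ) (KE : ℕ → ℤ) (hC : Cs σ b B c0 Λ CE) :
    ∃ ρ₁ : ℝ, 0 < ρ₁ ∧ ∀ ρ : ℝ, 0 < ρ → ρ ≤ ρ₁ → ∀ κ s : ℝ, 0 < κ → 0 ≤ s →
    ∃ (c C : ℝ) (n₀ : ℕ), 0 < c ∧ 0 < C ∧ ∀ n : ℕ, n₀ ≤ n → ∀ (P : PD) (η₀ : Cfg)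
      (JP JZ : Finset ℕ), P.Rg n σ R ms η₀ →
      P.Lk θ β b B c0 Λ KE CE η₀ JP JZ ⌊σ * n⌋ → ∀ z : ℤ × ℤ, ∃ Nc : Cfg → ℕ,
      (∀ ω ω' : Cfg, (∀ v : ℤ × ℤ, c * n < nm (v - z) → ω v = ω' v) → Nc ω = Nc ω') ∧
      (∀ ω, (bigs P.D P.D (κ * n) ω).card ≤ Nc ω) ∧
      ∀ η : Cfg, Dob η P.D P.q P.k →
        Ex (2 * Real.cos θ) P.D η
          (fun ω => |TPq θ β P ⌊ρ * n⌋ ω| * Real.exp (s * (Nc ω : ℝ))) ≤
        C * Ex (2 * Real.cos θ) P.D η (fun ω => |TPq θ β P ⌊ρ * n⌋ ω|) := by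
  classical
  have hQ : Kit (2 * Real.cos θ) := h1.kit
  have hQ0 : 0 < 2 * Real.cos θ := hQ.pos
  have hΛ := hC.L1
  have hΛ' : (1 : ℝ) ≤ Λ := by exact_mod_cast hΛ
  have hσ := hC.sp
  have hm0 : 0 < min 1 σ := lt_min one_pos hσ
  refine ⟨min 1 σ / (16 * (Λ + 4)), by positivity, fun ρ hρ hρ1 κ s hκ hs => ?_⟩
  rw [le_div_iff₀ (by positivity)] at hρ1
  have hW : 16 * ((Λ + 4 : ℤ) : ℝ) * ρ ≤ min 1 σ := by
    push_cast
    linarith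
  have hm1 := min_le_left 1 σ
  have hm2 := min_le_right 1 σ
  obtain ⟨n₁, hn₁⟩ := exists_rad (W := Λ + 4) (by omega) hρ (hW.trans hm1) (hW.trans hm2)
  have hρσ : 16 * ρ < σ := by nlinarith
  obtain ⟨c, C, n₂, hc, hCp, HM⟩ := mom_all hQ hR ms (one_le_cB h0 h1) hC.cp hC.c1 hC.bp hC.b1
    hC.B1 (Rd := |R|) (σ := σ) (abs_nonneg R) hΛ KE CE hC.C1 hρ hρσ hκ hs
  refine ⟨c, C, max n₁ n₂, hc, hCp, fun n hn P η₀ JP JZ hP hL z => ?_⟩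
  have hnn : (0 : ℝ) ≤ n := Nat.cast_nonneg _
  obtain ⟨r1, r2, r3, r4⟩ := hn₁ n ((le_max_left _ _).trans hn)
  have hq := hP.ok.poly
  have hD := hP.ok.enc
  have hN := hP.ok.near
  have h4r : 4 * ⌊ρ * (n : ℝ)⌋ ≤ (Λ + 4) * ⌊ρ * (n : ℝ)⌋ := by nlinarith
  obtain ⟨I, hLc⟩ := (hL.mono r4).lc hP (by omega) hΛ r2 r3
  obtain ⟨x₀, hx₀⟩ := hP.dia
  have hcard : (JP.image (fun j : ℕ => P.q (j : ZMod P.N)) ∪
      JZ.image (fun j : ℕ => P.q (j : ZMod P.N))).card ≤ ms := by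
    rw [hL.C_eq]
    exact card_C_le.trans hP.card
  obtain ⟨Nf, t1, t2, t3⟩ := HM n ((le_max_right _ _).trans hn) (D := P.D)
    (w := wP θ β P.q P.D P.k P.ρ) _ _ x₀ hcard (fun v hv => (hx₀ v hv).trans
      (mul_le_mul_of_nonneg_right (le_abs_self R) hnn)) z
  have hsw : Sw (cB θ)⁻¹ ⌊ρ * n⌋ ⌊σ * n⌋ P.D (JP.image (fun j : ℕ => P.q (j : ZMod P.N)) ∪
      JZ.image (fun j : ℕ => P.q (j : ZMod P.N))) (wP θ β P.q P.D P.k P.ρ) η₀ := by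
    rw [hL.C_eq]
    exact hP.sw h0 h1 hβ (by omega) (by omega)
  have key := t3 η₀ I hsw hLc
  have hpos : ∀ ω, 0 ≤ TPq θ β P ⌊ρ * n⌋ ω := fun ω => by
    have h3 := hLc.pnonneg hC.cp.le hC.bp.le r1 ω
    rw [hL.C_eq, PT_C hq hN] at h3
    exact h3
  have hPT : PT (wP θ β P.q P.D P.k P.ρ) P.D (JP.image (fun j : ℕ => P.q (j : ZMod P.N)) ∪
      JZ.image (fun j : ℕ => P.q (j : ZMod P.N))) ⌊ρ * n⌋ = TPq θ β P ⌊ρ * n⌋ := by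
    rw [hL.C_eq]
    exact funext fun ω => PT_C hq hN _ ω
  rw [hPT] at key
  refine ⟨fun ω => Nf (mix P.D η₀ ω), fun ω ω' h => t1 _ _ fun v hv => ?_, fun ω => ?_,
    fun η hη => ?_⟩
  · by_cases hv' : v ∈ P.D
    · rw [mix_in hv', mix_in hv', h v hv]
    · rw [mix_out hv', mix_out hv']
  · have h3 : bigs P.D P.D (κ * n) ω = bigs P.D P.D (κ * n) (mix P.D η₀ ω) := by
      unfold bigs
      rw [pcs_congr fun v hv => (mix_in hv).symm]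
    rw [h3]
    exact card_bigs (t2 _)
  · have e0 : ∀ ω, |TPq θ β P ⌊ρ * n⌋ ω| = TPq θ β P ⌊ρ * n⌋ ω := fun ω =>
      abs_of_nonneg (hpos ω)
    simp only [e0]
    have hloc : ∀ ω ω' : Cfg, (∀ v ∈ P.D, ω v = ω' v) →
        TPq θ β P ⌊ρ * n⌋ ω = TPq θ β P ⌊ρ * n⌋ ω' := fun ω ω' h =>
      TPq_congr fun j _ v _ hv => h v hv
    rw [Ex_eta hq hD hP.le hη hP.dob hQ0 (fun ω ω' h => ?_),
      Ex_eta hq hD hP.le hη hP.dob hQ0 hloc]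
    · refine le_trans (le_of_eq ?_) key
      refine Ex_congr fun T _ => ?_
      rw [mix_cf]
    · have h4 : mix P.D η₀ ω = mix P.D η₀ ω' := by
        funext v
        by_cases hv' : v ∈ P.D
        · rw [mix_in hv', mix_in hv', h v hv']
        · rw [mix_out hv', mix_out hv']
      rw [h4, hloc ω ω' h]

/-- **Local data for a family.** -/
def LocG (θ β : ℝ) (L : Filter ℕ) (F : ℕ → Set PD) : Prop :=
  ∃ (σ R b B c0 : ℝ) (ms : ℕ) (Λ : ℤ) (KE : ℕ → ℤ) (CE : ℕ → ℝ), Cs σ b B c0 Λ CE ∧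
    ∀ᶠ n : ℕ in L, ∀ P ∈ F n, ∃ (η : Cfg) (JP JZ : Finset ℕ), P.Rg n σ R ms η ∧
      P.Lk θ β b B c0 Λ KE CE η JP JZ ⌊σ * n⌋

/-- **`MomG`.** -/
theorem momG_of {L : Filter ℕ} {F : ℕ → Set PD} (h0 : 0 < θ) (h1 : Ang θ)
    (hβ : Real.cos (θ / 2 + β) = Real.sin θ) (hR : RSW (2 * Real.cos θ)) (hL : L ≤ atTop)
    (h : LocG θ β L F) : MomG θ β L F := by
  obtain ⟨σ, R, b, B, c0, ms, Λ, KE, CE, hC, h⟩ := h
  obtain ⟨ρ₁, hρ₁, H⟩ := mom_pd h0 h1 hβ hR R ms KE hC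
  refine ⟨ρ₁, hρ₁, fun ρ hρ hρ1 κ s hκ hs => ?_⟩
  obtain ⟨c, C, n₀, hc, hCp, H⟩ := H ρ hρ hρ1 κ s hκ hs
  refine ⟨c, C, hc, hCp, ?_⟩
  filter_upwards [h, hL (eventually_ge_atTop n₀)] with n hn hn0 P hP z
  obtain ⟨η, JP, JZ, hRg, hLk⟩ := hn P hP
  exact H n hn0 P η JP JZ hRg hLk z

end Vale.Agent.P167.N.QL
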