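import Vale.Agent.P167.N.QL.LndX

/-!
# P167, the range `0 < q < 1`, block Q-LAM: the event `NS` at a window has positive probability
-/

set_option autoImplicit false

namespace Vale.Agent.P167.N.QL

open Finset Filter Vale.Agent.P167 Vale.Agent.P167.BR Vale.Agent.P167.FK
open Vale.Agent.P145.FB (PStep)
open Vale.Agent.P167.E6 (IsPolygon Encloses dir face)
open Vale.Agent.P167.H718 (Dob)
open Vale.Agent.P167.H542.Q (BD)
open Vale.Agent.P167.H760.Q (BaseQ)
open Vale.Agent.P167.H632 (pr cs pr_or pr_not)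
open Vale.Agent.P167.H192.TA (Pw)

variable {n n₀ κ t d : ℕ} {q : ZMod n → ℤ × ℤ} {D : Finset (ℤ × ℤ)} {ω η : Cfg} {b c : Bool}
  {r R : ℤ} {Q : ℝ} {τ : ℕ → ℤ}

theorem cf_pos (hQ : 0 < Q) {F : Cfg → ℝ} (hF : ∀ ω, 0 ≤ F ω) {S : Finset (ℤ × ℤ)} (hS : S ⊆ D)
    (h : 0 < F (cf D η S)) : 0 < Ex Q D η F := by
  unfold Ex
  exact div_pos (Finset.sum_pos' (fun T _ => mul_nonneg (pow_nonneg hQ.le _) (hF _))
    ⟨S, mem_powerset.2 hS, mul_pos (pow_pos hQ _) h⟩) (FKA.Zq_pos hQ D η)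

/-- The path along the right part of the boundary. -/
theorem JN.path (h : JN b q D κ R) (ht : κ ≤ t) :
    ∀ i : ℕ, ((t + 2 * i : ℕ) : ℤ) ≤ κ + R →
      Pw (cs c (fun _ => c) ∩ ↑D) (q (t : ZMod n)) (q ((t + 2 * i : ℕ) : ZMod n)) := by
  have hpt : ∀ j : ℕ, κ ≤ j → (j : ℤ) ≤ κ + R →
      q (j : ZMod n) = ((q (κ : ZMod n)).1 + (j - κ), (q (κ : ZMod n)).2) := by
    intro j h1 h2
    have h3 := h.right (j - κ) (by omega)
    rw [show κ + (j - κ) = j by omega] at h3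
    rw [h3]
    ext
    · simp only
      omega
    · rfl
  intro i
  induction i with
  | zero =>
    intro _
    exact Relation.ReflTransGen.refl
  | succ i ih =>
    intro hi
    have h1 := ih (by push_cast at hi ⊢; omega)
    have e1 := hpt (t + 2 * i) (by omega) (by push_cast at hi ⊢; omega)
    have e2 := hpt (t + 2 * (i + 1)) (by omega) hi
    have hin : ∀ x : ℤ, (q (κ : ZMod n)).1 ≤ x → x < (q (κ : ZMod n)).1 + R →
        (x, (q (κ : ZMod n)).2) ∈ cs c (fun _ => c) ∩ (↑D : Set (ℤ × ℤ)) := by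
      intro x h2 h3
      refine ⟨rfl, mem_coe.2 ((h.dom _ ?_).2 (Or.inl le_rfl))⟩
      rw [mBq]
      dsimp only
      omega
    refine (h1.tail (b := q ((t + 2 * i : ℕ) : ZMod n)) (c := ((q (κ : ZMod n)).1 +
      ((t + 2 * i : ℕ) - κ) + 1, (q (κ : ZMod n)).2 + 1)) ?_).tail ?_
    · rw [e1]
      refine ⟨Or.inl rfl, Or.inl rfl, ?_⟩
      dsimp only
      rw [min_eq_left (by omega), min_eq_left (by omega)]
      exact hin _ (by push_cast at hi ⊢; omega) (by push_cast at hi ⊢; omega)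
    · rw [e2]
      refine ⟨Or.inl ?_, Or.inr ?_, ?_⟩
      · dsimp only
        push_cast
        ring
      · dsimp only
        ring
      · dsimp only
        rw [min_eq_left (by push_cast; omega), min_eq_right (by omega)]
        exact hin _ (by push_cast at hi ⊢; omega) (by push_cast at hi ⊢; omega)

/-- The event `NS` is not empty, canonical frame. -/
theorem JN.ns_ne (hq : IsPolygon q) (hD : Encloses q D) (h : JN b q D κ R) (ht : κ ≤ t)
    (ht1 : t ≤ κ + 1) (hr : 0 ≤ r) (hrR : r + 4 ≤ R) : ∃ ω, ω ∈ NS q D κ t r := by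
  obtain ⟨c, hc⟩ : ∃ c : Bool, ((q (t : ZMod n)).1 + (q (t : ZMod n)).2) % 2 = pr c := by
    rcases Int.emod_two_eq ((q (t : ZMod n)).1 + (q (t : ZMod n)).2) with h1 | h1
    · exact ⟨true, by rw [h1]; rfl⟩
    · exact ⟨false, by rw [h1]; rfl⟩
  have hlt := h.lt
  obtain ⟨i, hi1, hi2⟩ : ∃ i : ℕ, (κ : ℤ) + r < (t + 2 * i : ℕ) ∧ ((t + 2 * i : ℕ) : ℤ) ≤ κ + R :=
    ⟨(r / 2 + 1).toNat, by push_cast; omega, by push_cast; omega⟩
  exact ⟨fun _ => c, ns_of_join hq hD h.wn (by omega) (by omega) (m := t + 2 * i) (by omega)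
    (Or.inl hi1) hc (h.path (c := c) ht i hi2)⟩

/-- **The event `NS` has positive probability.** -/
theorem SW.ns_pos (hQ : 0 < Q) (h : SW n₀ b q D τ κ d) (ht : κ ≤ t) (ht1 : t ≤ κ + 1)
    (hr : 0 ≤ r) (hrd : 2 * (r + 5) < d) (hrn : 3 * (r + 5) < n₀) :
    0 < Ex Q D η ((NS q D κ t r).indicator 1) := by
  classical
  obtain ⟨s, hT, hW', h0⟩ := h.rot
  set T := mvT (q (κ : ZMod n)) (q (κ : ZMod n)) s with hTd
  have hJ : JN b (pq T q) (T.pre D) κ (r + 4) :=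
    hW'.jn h0 (by omega) (by omega) (by omega)
  obtain ⟨ω, hω⟩ := hJ.ns_ne (hT.poly h.poly) (hT.encl h.enc) ht ht1 hr le_rfl
  have h1 := (NS_T hT h.poly κ t r ω).2 hω
  have hWn := h.wn (R := r + 1) (by omega) (by omega) (by omega)
  refine cf_pos hQ (fun ω => Set.indicator_nonneg (fun _ _ => zero_le_one) _)
    (S := D.filter fun v => T.C ω v = true) (filter_subset _ _) ?_
  have h2 := NS_loc h.poly h.enc hWn hr le_rfl (t := t) (by have := h.lt; omega)
    (T.C ω) (cf D η (D.filter fun v => T.C ω v = true)) fun v hv => ?_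
  · rw [← h2, Set.indicator_of_mem h1]
    exact zero_lt_one
  · have hvD := (mem_inter.1 hv).2
    unfold cf
    rw [if_pos hvD]
    by_cases h3 : T.C ω v = true
    · rw [h3]
      simp [hvD, h3]
    · have h4 : T.C ω v = false := by simpa using h3
      rw [h4]
      simp [hvD, h4]

variable {S : CA.Dat} {θ β : ℝ}

/-- The windows at the reflex corners, with numbers. -/
theorem exists_sw_X (X : BD S θ β) {s : ℕ → ℕ} (hb : BaseQ X s) :
    ∃ e0 : ℝ, 0 < e0 ∧ ∀ e : ℝ, 0 < e → e ≤ e0 → ∀ᶠ n : ℕ in X.L,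
      64 ≤ me e n ∧ 12 * me e n + 6 < n ∧ ∀ c ∈ (Rf S).image (fun i => i * n - t0 S s n),
        ∃ (τ : ℕ → ℤ) (d : ℕ), SW n true (X.q n) (S.D n) τ c d ∧ 8 * me e n + 4 < d := by
  have htp0 := S.tp0
  have htp1 := S.tp1
  refine ⟨min S.tp (1 - S.tp) / 16, by
    have : 0 < min S.tp (1 - S.tp) := lt_min htp0 (by linarith)
    linarith, fun e he he0 => ?_⟩
  have hlarge : ∀ A : ℝ, ∀ᶠ n : ℕ in X.L, A ≤ n := fun A => X.le
    ((eventually_ge_atTop ⌈A⌉₊).mono fun n hn => (Nat.le_ceil A).trans (by exact_mod_cast hn))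
  have hm1 := min_le_left S.tp (1 - S.tp)
  have hm2 := min_le_right S.tp (1 - S.tp)
  filter_upwards [pos_X X hb, X.poly, X.enc, hlarge (65 / e), hlarge (32 / min S.tp (1 - S.tp))]
    with n a1 a2 a3 a4 a5
  obtain ⟨hn, ht, hN, hpos⟩ := a1
  obtain ⟨τ, hτ⟩ := H871.exists_bd a2 a3
  have hmin : 0 < min S.tp (1 - S.tp) := lt_min htp0 (by linarith)
  rw [div_le_iff₀ he] at a4
  rw [div_le_iff₀ hmin] at a5
  have hn' : (0 : ℝ) < n := by exact_mod_cast hn
  have k1 : (⌊S.tp * n⌋₊ : ℝ) ≤ S.tp * n := Nat.floor_le (by positivity)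
  have k2 : S.tp * n < ⌊S.tp * n⌋₊ + 1 := Nat.lt_floor_add_one _
  have k3 : ((s n : ℕ) : ℝ) ≤ 1 := by exact_mod_cast hb.1 n
  have k4 : (0 : ℝ) ≤ (s n : ℕ) := Nat.cast_nonneg _
  have k5 := me_est he n
  rw [abs_le] at k5
  have k6 : e * n ≤ min S.tp (1 - S.tp) / 16 * n := mul_le_mul_of_nonneg_right he0 hn'.le
  have k7 : min S.tp (1 - S.tp) * n ≤ S.tp * n := mul_le_mul_of_nonneg_right hm1 hn'.le
  have k8 : min S.tp (1 - S.tp) * n ≤ (1 - S.tp) * n := mul_le_mul_of_nonneg_right hm2 hn'.le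
  have k9 : min S.tp (1 - S.tp) * n ≤ 1 / 2 * n := by
    refine mul_le_mul_of_nonneg_right ?_ hn'.le
    rcases le_total S.tp (1 - S.tp) with h | h
    · rw [min_eq_left h]; linarith
    · rw [min_eq_right h]; linarith
  have m1 : 64 ≤ me e n := by
    have : ((64 : ℕ) : ℝ) ≤ (me e n : ℕ) := by push_cast; linarith
    exact_mod_cast this
  have m2 : 8 * me e n + 4 < ⌊S.tp * n⌋₊ + s n := by
    have : ((8 * me e n + 4 : ℕ) : ℝ) < (⌊S.tp * n⌋₊ + s n : ℕ) := by push_cast; linarith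
    exact_mod_cast this
  have m3 : 8 * me e n + 4 + (⌊S.tp * n⌋₊ + s n) < n := by
    have : ((8 * me e n + 4 + (⌊S.tp * n⌋₊ + s n) : ℕ) : ℝ) < (n : ℕ) := by
      push_cast; linarith
    exact_mod_cast this
  have m4 : 12 * me e n + 6 < n := by
    have : ((12 * me e n + 6 : ℕ) : ℝ) < (n : ℕ) := by push_cast; linarith
    exact_mod_cast this
  refine ⟨m1, m4, fun c hc => ?_⟩
  obtain ⟨i, hi, rfl⟩ := mem_image.1 hc
  have hSW := sw_rf hn a2 a3 ht hN hpos hτ hi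
  exact ⟨τ, _, hSW, by omega⟩

/-- **The events at the reflex corners of a family have positive probability.** -/
theorem ns_pos_X (hθ : 0 < Real.cos θ) (X : BD S θ β) {s : ℕ → ℕ} (hb : BaseQ X s) :
    ∃ e0 : ℝ, 0 < e0 ∧ ∀ e : ℝ, 0 < e → e ≤ e0 → ∀ᶠ n : ℕ in X.L,
      ∀ c ∈ (Rf S).image (fun i => i * n - t0 S s n), ∀ η : Cfg,
      0 < Ex (2 * Real.cos θ) (S.D n) η
        ((NS (X.q n) (S.D n) c (rI (X.q n) (X.k n) c) (me e n)).indicator 1) := by
  obtain ⟨e0, he0, H⟩ := exists_sw_X X hb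
  refine ⟨e0, he0, fun e he hee => (H e he hee).mono fun n hn c hc η => ?_⟩
  obtain ⟨h1, h2, h3⟩ := hn
  obtain ⟨τ, d, h4, h5⟩ := h3 c hc
  have hr := rI_or (X.q n) (X.k n) c
  exact h4.ns_pos (by linarith) (by omega) (by omega) (by omega) (by omega) (by omega)

end Vale.Agent.P167.N.QL
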