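import Vale.Agent.P167.N.QL.Pr2

/-!
# P167, the range `0 < q < 1`, block Q-LAM: the two events around a pair of charges

`K := NS q D κ t m`, `H := Ld q D κ t m c`, the charges are at `q t` and `q (t + m)`.
`k1`: off `K` there is an open strand over the first charge and not over the second one.
`k2`: on `H` the strands with a foot between the charges are in the box, the other strands are over both
or none of them. `k3`: the probability of `K` is at most a constant times the probability of `H`.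
-/

set_option autoImplicit false

namespace Vale.Agent.P167.N.QL

open Finset Relation
open Vale.Agent.P167 Vale.Agent.P167.BR Vale.Agent.P167.FK
open Vale.Agent.P167.E6 (IsPolygon Encloses)
open Vale.Agent.P167.FKA (Loc Ex_mono Ex_congr Ex_const Ex_mul_left Ex_nonneg)
open Vale.Agent.P167.H632 (cs pr)
open Vale.Agent.P167.H718 (IsXY IsCl)
open Vale.Agent.P167.QX (lo hi exists_xy lo_xy hi_xy)

variable {n κ t k m : ℕ} {q : ZMod n → ℤ × ℤ} {D : Finset (ℤ × ℤ)} {ω η : Cfg} {c : Bool}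
  {A : Finset Ed} {R : ℤ} {Q c1 : ℝ}

section poly

variable (hq : IsPolygon q) (hD : Encloses q D)

include hq hD

/-- **Off `K`**: an open strand over `q t` and not over `q (t + m)` in the box of radius `m`. -/
theorem k1 (hW : Wn q κ R) (hR : (m : ℤ) + 1 ≤ R) (ht1 : κ ≤ t) (ht : t ≤ κ + 1)
    (hG : GdR q k t) (ho : (κ : ℤ) + R ≤ k ∨ (k : ℤ) ≤ κ - R) (h : ω ∉ NS q D κ t m) :
    ∃ A ∈ pcs ω D, ¬ IsLp D A ∧ (∀ e ∈ A, hdv e ∈ Bq (q (κ : ZMod n)) m) ∧ lo q A < t ∧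
      t ≤ hi q A ∧ hi q A < t + m ∧ ¬ IsCl D q k A := by
  unfold NS at h
  rw [Set.mem_ofPred_eq] at h
  push Not at h
  obtain ⟨A, hA, hl, hin, h1, h2⟩ := h
  obtain ⟨C, hC, c1, c2, c3, c4, -⟩ := exists_vis hq hD hA (t := t) ⟨h1, h2⟩
  have hCl := ard_st hq hD hC c1
  obtain ⟨c5, c6⟩ := c1
  have hCin : ∀ e ∈ C, hdv e ∈ Bq (q (κ : ZMod n)) m := by
    by_cases hAC : C = A
    · rw [hAC]
      exact hin
    · have h6 := nest hq hD hC hA hCl hl hAC
      exact in_box hq hD hW (by omega) (by omega) hA hl hin hC hCl (by omega) (by omega)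
  obtain ⟨f1, f2, f3⟩ := feet_wn hq hD hW (by omega) hC hCl hCin
  have hcl := not_isCl_of hq hD hC hCl (k := k) (r := t) (by omega) hG c4
  exact ⟨C, hC, hCl, hCin, c5, c6, by omega, hcl⟩

/-- **On `H`.** -/
theorem k2 (hW : Wn q κ R) (hR : 4 * (m : ℤ) + 1 ≤ R) (hm : 0 < m) (ht1 : κ ≤ t)
    (ht : t ≤ κ + 1) (h : ω ∈ Ld q D κ t m c) (hA : A ∈ pcs ω D) (hl : ¬ IsLp D A) :
    (lo q A < t → t ≤ hi q A → t + m ≤ hi q A) ∧
      ((t ≤ lo q A ∧ lo q A < t + m) ∨ (t ≤ hi q A ∧ hi q A < t + m) →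
        ∀ e ∈ A, hdv e ∈ Bq (q (κ : ZMod n)) (4 * (m : ℤ))) := by
  obtain ⟨h1, h2⟩ := Ld_over hq hD hW hR hm ht1 ht (z := t + m) (by omega) h hA hl
  exact ⟨fun h3 h4 => by omega, fun h3 => (h2 h3).2⟩

/-- The event `K` is local. -/
theorem K_loc (hW : Wn q κ R) (hR : (m : ℤ) + 1 ≤ R) (ht : t < n) :
    Loc (D ∩ Bq (q (κ : ZMod n)) (4 * (m : ℤ))) ((NS q D κ t m).indicator (1 : Cfg → ℝ)) := by
  intro ω ω' h
  exact NS_loc hq hD hW (by omega) hR ht ω ω' fun v hv => h v (by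
    obtain ⟨h1, h2⟩ := mem_inter.1 hv
    exact mem_inter.2 ⟨h2, bq_mn (by omega) h1⟩)

end poly

/-- The event `H` is local. -/
theorem H_loc : Loc (D ∩ Bq (q (κ : ZMod n)) (4 * (m : ℤ)))
    ((Ld q D κ t m c).indicator (1 : Cfg → ℝ)) := by
  rw [inter_comm]
  exact Ld_loc q D κ t m c

/-- **The probabilities.** -/
theorem k3 (hc1 : 0 < c1) (hL : Lnd Q q D η κ t m c c1) :
    Pr Q D η (NS q D κ t m) ≤ c1⁻¹ * Pr Q D η (Ld q D κ t m c) := by
  have h := hL (fun _ => 1) (fun _ => zero_le_one) fun _ _ _ => rfl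
  simp only [one_mul] at h
  unfold Pr
  rw [inv_mul_eq_div, le_div_iff₀ hc1, mul_comm]
  exact h

end Vale.Agent.P167.N.QL
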