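import Vale.Agent.P167.N.QL.Mom
import Vale.Agent.P167.N.H975.LkG

/-!
# P167, the range `0 < q < 1`, block Q-LAM: upper and lower bounds for regular data

`PD.e`: the mean value of a local factor. `up_pd`: the value of the functional and the mean value of the
product of the local factors are at most a constant times the product of the mean values of the local
factors; `low_pd`: lower bound.
-/

set_option autoImplicit false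

namespace Vale.Agent.P167.N.QL

open Finset Filter Vale.Agent.P167.BR Vale.Agent.P167.FK
open Vale.Agent.P167.E6 (IsPolygon Encloses)
open Vale.Agent.P167.FKA (Loc Ex_mono Ex_congr Ex_const Ex_mul_left Ex_nonneg)
open Vale.Agent.P167.H718 (Dob)
open Vale.Agent.P167.H718.Lam (Ex_eta)
open Vale.Agent.P167.H542.Q (cB)
open Vale.Agent.P167.H365.NQ (XW)
open Vale.Agent.P167.H192.Q (SRSW)
open Vale.Agent.P167.H975 (TX TX_loc)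
open Vale.Agent.P167.H167.Q (MxA)
open Vale.Agent.P167.N.H167.Q (Reg Bd3)
open Vale.Agent.P167.H945.L (floor_half)
open Vale.Agent.P167.N.AW (Sw Wl PT Kil ExtI Lc up_gen l_gen)

variable {θ β : ℝ} {P : PD} {n ms : ℕ} {r r' Λ : ℤ} {η : Cfg} {σ R b B c0 : ℝ} {KE : ℕ → ℤ}
  {CE : ℕ → ℝ} {JP JZ : Finset ℕ}

/-- The mean value of the local factor at the centre with the index `j`. -/
noncomputable def PD.e (θ β : ℝ) (P : PD) (η : Cfg) (r : ℤ) (j : ℕ) : ℝ :=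
  Ex (2 * Real.cos θ) P.D η (TX (wP θ β P.q P.D P.k P.ρ) P.D (P.q (j : ZMod P.N)) r)

/-- The value does not depend on the boundary condition. -/
theorem PD.e_eta (hq : IsPolygon P.q) (hD : Encloses P.q P.D) (hk : P.k ≤ P.N) {η η' : Cfg}
    (hη : Dob η P.D P.q P.k) (hη' : Dob η' P.D P.q P.k) (hQ : 0 < 2 * Real.cos θ) (j : ℕ) :
    P.e θ β η r j = P.e θ β η' r j :=
  Ex_eta hq hD hk hη hη' hQ fun ω ω' h => TX_loc _ _ _ _ ω ω' fun v hv => h v (mem_inter.1 hv).2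

/-- The product over the centres as sites. -/
theorem prod_e (hq : IsPolygon P.q) (hN : P.Near) (η : Cfg) (r : ℤ) :
    ∏ c ∈ P.C, Ex (2 * Real.cos θ) P.D η (TX (wP θ β P.q P.D P.k P.ρ) P.D c r) =
      ∏ j ∈ P.J, P.e θ β η r j :=
  prod_image hq hN.lt fun c => Ex (2 * Real.cos θ) P.D η (TX (wP θ β P.q P.D P.k P.ρ) P.D c r)

/-- **Mixing at the centres.** -/
theorem mx_cen {Q : ℝ} {K : ℝ} (hK : ∀ (D : Finset (ℤ × ℤ)) (η : Cfg) (x : ℤ × ℤ) (r R : ℤ),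
      Bd3 D η x R → 1 ≤ r → K * r ≤ R → MxA Q D η x r R (1 / 2))
    (hP : P.Rg n σ R ms η) {r ℓ : ℤ} (hr : 1 ≤ r) (hℓ : 1 ≤ ℓ) (hℓσ : ℓ ≤ ⌊σ * n⌋)
    (hKr : K * r ≤ ℓ) {c : ℤ × ℤ} (hc : c ∈ P.C) : MxA Q P.D η c r ℓ (1 / 2) := by
  obtain ⟨j, hj, rfl⟩ := mem_C.1 hc
  exact hK _ _ _ _ _ (hP.reg.bd _ (H718.q_mem_sites hP.ok.poly hP.ok.enc _) ℓ hℓ hℓσ) hr hKr

/-- **The upper bound and the factorisation.** -/
theorem up_pd (h0 : 0 < θ) (h1 : Ang θ) (hβ : Real.cos (θ / 2 + β) = Real.sin θ)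
    (hR : RSW (2 * Real.cos θ)) (hSR : SRSW (2 * Real.cos θ)) (R : ℝ) (ms : ℕ) (KE : ℕ → ℤ)
    (hC : Cs σ b B c0 Λ CE) :
    ∃ ρ₁ : ℝ, 0 < ρ₁ ∧ ∀ ρ : ℝ, 0 < ρ → ρ ≤ ρ₁ → ∃ (C : ℝ) (n₀ : ℕ), 0 < C ∧ ∀ n : ℕ, n₀ ≤ n →
      ∀ (P : PD) (η₀ : Cfg) (JP JZ : Finset ℕ), P.Rg n σ R ms η₀ →
      P.Lk θ β b B c0 Λ KE CE η₀ JP JZ ⌊σ * n⌋ →
      (∀ j ∈ P.J, ∀ ω, 0 ≤ TX (wP θ β P.q P.D P.k P.ρ) P.D (P.q (j : ZMod P.N)) ⌊ρ * n⌋ ω) ∧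
      ∀ η : Cfg, Dob η P.D P.q P.k →
        Ex (2 * Real.cos θ) P.D η (fun ω => |XW P.D (wP θ β P.q P.D P.k P.ρ) ω|) ≤
          C * ∏ j ∈ P.J, P.e θ β η ⌊ρ * n⌋ j ∧
        |VP θ β P| ≤ C * ∏ j ∈ P.J, P.e θ β η ⌊ρ * n⌋ j ∧
        Ex (2 * Real.cos θ) P.D η (fun ω => |TPq θ β P ⌊ρ * n⌋ ω|) ≤
          C * ∏ j ∈ P.J, P.e θ β η ⌊ρ * n⌋ j ∧
        ∏ j ∈ P.J, P.e θ β η ⌊ρ * n⌋ j ≤
          C * Ex (2 * Real.cos θ) P.D η (fun ω => |TPq θ β P ⌊ρ * n⌋ ω|) := by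
  classical
  have hQ : Kit (2 * Real.cos θ) := h1.kit
  have hQ0 : 0 < 2 * Real.cos θ := hQ.pos
  have hΛ := hC.L1
  have hΛ' : (1 : ℝ) ≤ Λ := by exact_mod_cast hΛ
  have hσ := hC.sp
  have hm0 : 0 < min 1 σ := lt_min one_pos hσ
  obtain ⟨K, hK1, hK⟩ := N.H975.mx_ratio hQ hR hSR (ε := 1 / 2) (by norm_num)
  obtain ⟨ρ₀, hρ₀⟩ : ∃ ρ₀ : ℝ, ρ₀ = min 1 σ / (16 * (Λ + 4)) := ⟨_, rfl⟩
  have hρ₀0 : 0 < ρ₀ := by rw [hρ₀]; positivity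
  have hW0 : 16 * ((Λ + 4 : ℤ) : ℝ) * ρ₀ ≤ min 1 σ := by
    rw [hρ₀]
    push_cast
    field_simp
    exact le_rfl
  have hm1 := min_le_left 1 σ
  have hm2 := min_le_right 1 σ
  obtain ⟨n₁, hn₁⟩ := exists_rad (W := Λ + 4) (by omega) hρ₀0 (hW0.trans hm1) (hW0.trans hm2)
  refine ⟨ρ₀ / (2 * K), by positivity, fun ρ hρ hρ1 => ?_⟩
  rw [le_div_iff₀ (by positivity)] at hρ1
  have hρρ : ρ ≤ ρ₀ := by nlinarith
  have hW : 16 * ((Λ + 4 : ℤ) : ℝ) * ρ ≤ min 1 σ :=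
    le_trans (mul_le_mul_of_nonneg_left hρρ (by push_cast; positivity)) hW0
  obtain ⟨n₂, hn₂⟩ := exists_rad (W := Λ + 4) (by omega) hρ (hW.trans hm1) (hW.trans hm2)
  have hρσ : 16 * ρ < σ := by
    push_cast at hW
    nlinarith
  obtain ⟨C, n₃, hCp, HU⟩ := up_gen hQ hR ms (one_le_cB h0 h1) hC.cp hC.c1 hC.bp hC.b1
    hC.B1 (Rd := |R|) (σ := σ) (abs_nonneg R) hΛ KE CE hC.C1 hρ hρρ hρσ
  obtain ⟨n₄, hn₄⟩ := exists_nat_ge (2 / ρ₀)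
  refine ⟨C, max (max n₁ n₂) (max n₃ n₄), hCp, fun n hn P η₀ JP JZ hP hL => ?_⟩
  have hnn : (0 : ℝ) ≤ n := Nat.cast_nonneg _
  have g1 : n₁ ≤ n := (le_max_left _ _).trans ((le_max_left _ _).trans hn)
  have g2 : n₂ ≤ n := (le_max_right _ _).trans ((le_max_left _ _).trans hn)
  have g3 : n₃ ≤ n := (le_max_left _ _).trans ((le_max_right _ _).trans hn)
  have g4 : n₄ ≤ n := (le_max_right _ _).trans ((le_max_right _ _).trans hn)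
  obtain ⟨r1, r2, r3, r4⟩ := hn₂ n g2
  obtain ⟨s1, s2, s3, s4⟩ := hn₁ n g1
  have hq := hP.ok.poly
  have hD := hP.ok.enc
  have hN := hP.ok.near
  have h4s : 4 * ⌊ρ₀ * (n : ℝ)⌋ ≤ (Λ + 4) * ⌊ρ₀ * (n : ℝ)⌋ := by nlinarith
  have hρn2 : 2 ≤ ρ₀ * (n : ℝ) := by
    have h3 : (n₄ : ℝ) ≤ n := by exact_mod_cast g4
    have h4 := hn₄.trans h3
    rw [div_le_iff₀ hρ₀0] at h4
    linarith
  have hKr : K * (⌊ρ * (n : ℝ)⌋ : ℝ) ≤ (⌊ρ₀ * (n : ℝ)⌋ : ℝ) := by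
    have h3 := Int.floor_le (ρ * (n : ℝ))
    have h4 : K * (⌊ρ * (n : ℝ)⌋ : ℝ) ≤ K * (ρ * n) :=
      mul_le_mul_of_nonneg_left h3 (by linarith)
    have h5 := floor_half (x := ρ₀ * (n : ℝ)) (by linarith)
    have h6 : ρ * (2 * K) * n ≤ ρ₀ * n := mul_le_mul_of_nonneg_right hρ1 hnn
    linarith
  obtain ⟨I, hLc⟩ := (hL.mono r4).lc hP (by omega) hΛ r2 r3
  obtain ⟨x₀, hx₀⟩ := hP.dia
  have hcard : (JP.image (fun j : ℕ => P.q (j : ZMod P.N)) ∪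
      JZ.image (fun j : ℕ => P.q (j : ZMod P.N))).card ≤ ms := by
    rw [hL.C_eq]
    exact card_C_le.trans hP.card
  have hsw : Sw (cB θ)⁻¹ ⌊ρ₀ * n⌋ ⌊σ * n⌋ P.D (JP.image (fun j : ℕ => P.q (j : ZMod P.N)) ∪
      JZ.image (fun j : ℕ => P.q (j : ZMod P.N))) (wP θ β P.q P.D P.k P.ρ) η₀ := by
    rw [hL.C_eq]
    exact hP.sw h0 h1 hβ (by omega) (by omega)
  have key := HU n g3 (D := P.D) (w := wP θ β P.q P.D P.k P.ρ) (η := η₀) _ _ x₀ I hsw hcard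
    (fun v hv => (hx₀ v hv).trans (mul_le_mul_of_nonneg_right (le_abs_self R) hnn)) hLc
    (by
      rw [hL.C_eq]
      exact fun c hc => mx_cen hK hP r1 s1 s4 hKr hc)
  have hpos : ∀ ω, 0 ≤ TPq θ β P ⌊ρ * n⌋ ω := fun ω => by
    have h3 := hLc.pnonneg hC.cp.le hC.bp.le r1 ω
    rw [hL.C_eq, PT_C hq hN] at h3
    exact h3
  have hPT : PT (wP θ β P.q P.D P.k P.ρ) P.D (JP.image (fun j : ℕ => P.q (j : ZMod P.N)) ∪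
      JZ.image (fun j : ℕ => P.q (j : ZMod P.N))) ⌊ρ * n⌋ = TPq θ β P ⌊ρ * n⌋ := by
    rw [hL.C_eq]
    exact funext fun ω => PT_C hq hN _ ω
  rw [hPT, hL.C_eq, prod_e hq hN] at key
  refine ⟨fun j hj ω => ?_, fun η hη => ?_⟩
  · exact hLc.nonneg hC.cp.le hC.bp.le r1 le_rfl (by rw [hL.C_eq]; exact mem_C.2 ⟨j, hj, rfl⟩) ω
  · obtain ⟨k1, k2, k3, k4⟩ := key
    have e0 : ∀ ω, |TPq θ β P ⌊ρ * n⌋ ω| = TPq θ β P ⌊ρ * n⌋ ω := fun ω =>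
      abs_of_nonneg (hpos ω)
    simp only [e0]
    have hloc : ∀ ω ω' : Cfg, (∀ v ∈ P.D, ω v = ω' v) →
        TPq θ β P ⌊ρ * n⌋ ω = TPq θ β P ⌊ρ * n⌋ ω' := fun ω ω' h =>
      TPq_congr fun j _ v _ hv => h v hv
    have hXl : ∀ ω ω' : Cfg, (∀ v ∈ P.D, ω v = ω' v) →
        |XW P.D (wP θ β P.q P.D P.k P.ρ) ω| = |XW P.D (wP θ β P.q P.D P.k P.ρ) ω'| := by
      intro ω ω' h
      unfold XW
      rw [pcs_congr h]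
    have e1 : ∏ j ∈ P.J, P.e θ β η ⌊ρ * n⌋ j = ∏ j ∈ P.J, P.e θ β η₀ ⌊ρ * n⌋ j :=
      prod_congr rfl fun j _ => P.e_eta hq hD hP.le hη hP.dob hQ0 j
    rw [e1, Ex_eta hq hD hP.le hη hP.dob hQ0 hloc, Ex_eta hq hD hP.le hη hP.dob hQ0 hXl]
    refine ⟨k2, ?_, k3, k4⟩
    have hs := h1.sin_pos
    have hc := h1.cos_pos
    rw [← VP_ex' hq hD hs hc hβ hP.le hP.dob]
    refine le_trans ?_ k2
    exact FKA.abs_Ex_le hQ0 _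

/-- **The lower bound.** The test function `H` (given after the radius `⌊ε n⌋`) excludes the small
weights, and has a positive conditional probability. -/
theorem low_pd (h0 : 0 < θ) (h1 : Ang θ) (hβ : Real.cos (θ / 2 + β) = Real.sin θ)
    (hR : RSW (2 * Real.cos θ)) (hSR : SRSW (2 * Real.cos θ)) (R : ℝ) (ms : ℕ) {c₁ : ℝ}
    (hc₁ : 0 < c₁) (hσ : 0 < σ) (hb : 0 < b) (hb1 : b ≤ 1) (hB : 1 ≤ B) :
    ∃ ρ₁ : ℝ, 0 < ρ₁ ∧ ∀ ρ : ℝ, 0 < ρ → ρ ≤ ρ₁ → ∃ ε : ℝ, 0 < ε ∧ ε ≤ ρ ∧ ∀ c₂ : ℝ, 0 < c₂ →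
    ∃ (c : ℝ) (n₀ : ℕ), 0 < c ∧ ∀ n : ℕ, n₀ ≤ n → ∀ (P : PD) (η : Cfg) (JP JZ : Finset ℕ),
      P.Rg n σ R ms η → JP ∪ JZ = P.J → Disjoint JP JZ →
      (∀ j ∈ JP, ∀ ω : Cfg, ∀ A ∈ pcs ω P.D,
        (∀ e ∈ A, hdv e ∈ Bq (P.q (j : ZMod P.N)) ⌊σ * n⌋) → c₁ ≤ wP θ β P.q P.D P.k P.ρ A) →
      (∀ j ∈ JZ, ∃ I : ℤ → Cfg → ℝ,
        Kil b B (wP θ β P.q P.D P.k P.ρ) P.D (P.q (j : ZMod P.N)) I ⌊σ * n⌋) →
      (∀ ω, 0 ≤ XW P.D (wP θ β P.q P.D P.k P.ρ) ω) →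
      ∀ H : Cfg → ℝ, (∀ ω, 0 ≤ H ω ∧ H ω ≤ 1) →
      (∀ ω, H ω ≠ 0 →
        (∏ j ∈ JZ, TX (wP θ β P.q P.D P.k P.ρ) P.D (P.q (j : ZMod P.N)) ⌊ε * n⌋ ω) ≠ 0 →
        ∀ A ∈ pcs ω P.D, c₁ ≤ wP θ β P.q P.D P.k P.ρ A) →
      (∀ F : Cfg → ℝ, (∀ ω, 0 ≤ F ω) →
        Loc (P.D ∩ JP.biUnion fun j => Bq (P.q (j : ZMod P.N)) ⌊ε * n⌋) F →
        c₂ * Ex (2 * Real.cos θ) P.D η (fun ω => F ω *
            ∏ j ∈ JZ, TX (wP θ β P.q P.D P.k P.ρ) P.D (P.q (j : ZMod P.N)) ⌊ε * n⌋ ω) ≤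
          Ex (2 * Real.cos θ) P.D η (fun ω => F ω *
            (∏ j ∈ JZ, TX (wP θ β P.q P.D P.k P.ρ) P.D (P.q (j : ZMod P.N)) ⌊ε * n⌋ ω) * H ω)) →
      ∀ η' : Cfg, Dob η' P.D P.q P.k → c * ∏ j ∈ P.J, P.e θ β η' ⌊ρ * n⌋ j ≤ VP θ β P := by
  classical
  have hQ : Kit (2 * Real.cos θ) := h1.kit
  have hQ0 : 0 < 2 * Real.cos θ := hQ.pos
  have hm0 : 0 < min 1 σ := lt_min one_pos hσ
  obtain ⟨K, hK1, hK⟩ := N.H975.mx_ratio hQ hR hSR (ε := 1 / 2) (by norm_num)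
  obtain ⟨ρ₀, hρ₀⟩ : ∃ ρ₀ : ℝ, ρ₀ = min 1 σ / 100 := ⟨_, rfl⟩
  have hρ₀0 : 0 < ρ₀ := by rw [hρ₀]; positivity
  have hm1 := min_le_left 1 σ
  have hm2 := min_le_right 1 σ
  have hW0 : 16 * ((1 : ℤ) : ℝ) * ρ₀ ≤ min 1 σ := by
    rw [hρ₀]
    push_cast
    linarith
  have h100 : 100 * ρ₀ ≤ σ := by rw [hρ₀]; linarith
  obtain ⟨n₁, hn₁⟩ := exists_rad (W := 1) le_rfl hρ₀0 (hW0.trans hm1) (hW0.trans hm2)
  refine ⟨ρ₀, hρ₀0, fun ρ hρ hρρ => ?_⟩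
  obtain ⟨ε, hε, hερ, HL⟩ := l_gen hQ hR ms (one_le_cB h0 h1) hc₁ hb hb1 hB (Rd := |R|)
    (abs_nonneg R) hρ₀0 h100 (Km := K) (by linarith) hρ hρρ
  refine ⟨ε, hε, hερ, fun c₂ hc₂ => ?_⟩
  obtain ⟨c, n₂, hc, HL⟩ := HL c₂ hc₂
  refine ⟨c, max n₁ n₂, hc, fun n hn P η JP JZ hP hun hdis hpos hkil hXW H hH hH1 hH2 η' hη' => ?_⟩
  have hnn : (0 : ℝ) ≤ n := Nat.cast_nonneg _
  obtain ⟨s1, s2, s3, s4⟩ := hn₁ n ((le_max_left _ _).trans hn)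
  rw [one_mul] at s2 s3
  have hq := hP.ok.poly
  have hD := hP.ok.enc
  have hN := hP.ok.near
  have hltP : ∀ j ∈ JP, j < P.N := fun j hj => hN.lt j (by rw [← hun]; exact mem_union_left _ hj)
  have hltZ : ∀ j ∈ JZ, j < P.N := fun j hj => hN.lt j (by rw [← hun]; exact mem_union_right _ hj)
  have hCe : JP.image (fun j : ℕ => P.q (j : ZMod P.N)) ∪
      JZ.image (fun j : ℕ => P.q (j : ZMod P.N)) = P.C := by
    unfold PD.C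
    rw [← image_union, hun]
  have hZe : ∀ ω, PT (wP θ β P.q P.D P.k P.ρ) P.D
      (JZ.image (fun j : ℕ => P.q (j : ZMod P.N))) ⌊ε * n⌋ ω =
      ∏ j ∈ JZ, TX (wP θ β P.q P.D P.k P.ρ) P.D (P.q (j : ZMod P.N)) ⌊ε * n⌋ ω := fun ω =>
    PT_image hq hltZ _ ω
  obtain ⟨x₀, hx₀⟩ := hP.dia
  have key := HL n ((le_max_right _ _).trans hn) (D := P.D) (w := wP θ β P.q P.D P.k P.ρ)
    (η := η) (JP.image (fun j : ℕ => P.q (j : ZMod P.N)))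
    (JZ.image (fun j : ℕ => P.q (j : ZMod P.N))) x₀
    (by
      rw [hCe]
      exact hP.sw h0 h1 hβ (by omega) (by omega))
    (disj_image hq hltP hltZ hdis)
    (by
      rw [hCe]
      exact card_C_le.trans hP.card)
    (fun v hv => (hx₀ v hv).trans (mul_le_mul_of_nonneg_right (le_abs_self R) hnn))
    (by
      rw [hCe]
      exact fun c hc r hr hKr => mx_cen hK hP hr s1 s4 hKr hc)
    (by
      intro c hc ω A hA hA'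
      obtain ⟨j, hj, rfl⟩ := mem_image.1 hc
      exact hpos j hj ω A hA fun e he => H601.S2.Bq_sub s4 (hA' e he))
    (by
      intro c hc
      obtain ⟨j, hj, rfl⟩ := mem_image.1 hc
      obtain ⟨I, hI⟩ := hkil j hj
      exact ⟨I, hI.mono s4⟩)
    hXW H hH
    (by
      intro ω hω hT
      rw [hZe] at hT
      exact hH1 ω hω hT)
    (by
      intro F hF hFl
      have h3 := hH2 F hF (by
        have e : P.D ∩ (JP.image (fun j : ℕ => P.q (j : ZMod P.N))).biUnion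
            (fun c => Bq c ⌊ε * n⌋) = P.D ∩ JP.biUnion fun j =>
              Bq (P.q (j : ZMod P.N)) ⌊ε * n⌋ := by
          rw [image_biUnion]
        rw [← e]
        exact hFl)
      simp only [hZe]
      exact h3)
  rw [hCe, prod_e hq hN, VP_ex' hq hD h1.sin_pos h1.cos_pos hβ hP.le hP.dob] at key
  have e1 : ∏ j ∈ P.J, P.e θ β η' ⌊ρ * n⌋ j = ∏ j ∈ P.J, P.e θ β η ⌊ρ * n⌋ j :=
    prod_congr rfl fun j _ => P.e_eta hq hD hP.le hη' hP.dob hQ0 j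
  rw [e1]
  exact key

/-- Local data if all the weights around the centres are positive. -/
theorem lk_pos (h : ∀ j ∈ P.J, ∀ ω : Cfg, ∀ A ∈ pcs ω P.D,
    (∀ e ∈ A, hdv e ∈ Bq (P.q (j : ZMod P.N)) r) → c0 ≤ wP θ β P.q P.D P.k P.ρ A) :
    P.Lk θ β b B c0 Λ KE CE η P.J ∅ r :=
  ⟨union_empty _, disjoint_empty_right _, h, fun j hj => absurd hj (notMem_empty j)⟩

/-- **The lower bound if all the weights are at least `c₁`.** -/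
theorem low_all (h0 : 0 < θ) (h1 : Ang θ) (hβ : Real.cos (θ / 2 + β) = Real.sin θ)
    (hR : RSW (2 * Real.cos θ)) (hSR : SRSW (2 * Real.cos θ)) (R : ℝ) (ms : ℕ) {c₁ : ℝ}
    (hc₁ : 0 < c₁) (hσ : 0 < σ) :
    ∃ ρ₁ : ℝ, 0 < ρ₁ ∧ ∀ ρ : ℝ, 0 < ρ → ρ ≤ ρ₁ →
    ∃ (c : ℝ) (n₀ : ℕ), 0 < c ∧ ∀ n : ℕ, n₀ ≤ n → ∀ (P : PD) (η : Cfg),
      P.Rg n σ R ms η →
      (∀ ω : Cfg, ∀ A ∈ pcs ω P.D, c₁ ≤ wP θ β P.q P.D P.k P.ρ A) →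
      ∀ η' : Cfg, Dob η' P.D P.q P.k → c * ∏ j ∈ P.J, P.e θ β η' ⌊ρ * n⌋ j ≤ VP θ β P := by
  obtain ⟨ρ₁, hρ₁, H⟩ := low_pd h0 h1 hβ hR hSR R ms hc₁ hσ one_pos le_rfl le_rfl
  refine ⟨ρ₁, hρ₁, fun ρ hρ hρ1 => ?_⟩
  obtain ⟨ε, -, -, H⟩ := H ρ hρ hρ1
  obtain ⟨c, n₀, hc, H⟩ := H 1 one_pos
  refine ⟨c, n₀, hc, fun n hn P η hP hw η' hη' => ?_⟩
  refine H n hn P η P.J ∅ hP (union_empty _) (disjoint_empty_right _)
    (fun j _ ω A hA _ => hw ω A hA) (fun j hj => absurd hj (notMem_empty j)) (fun ω => ?_)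
    (fun _ => 1) (fun _ => ⟨zero_le_one, le_rfl⟩) (fun ω _ _ A hA => hw ω A hA) (fun F hF _ => ?_)
    η' hη'
  · exact prod_nonneg fun A hA => hc₁.le.trans (hw ω A hA)
  · simp only [prod_empty, mul_one, one_mul]
    exact le_rfl

end Vale.Agent.P167.N.QL
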