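import Vale.Agent.P167.N.QL.Sp3
import Vale.Agent.P167.N.QL.UL

/-!
# P167, the range `0 < q < 1`, block Q-LAM: local positivity and comparison at a centre

`Win`: index windows. `pos_of`: the weights of the pieces in the box of a centre are positive if the
phase differences in the index window are allowed. `e_same`: local factors with the same phase
differences in the window.
-/

set_option autoImplicit false

namespace Vale.Agent.P167.N.QL

open Finset Filter Vale.Agent.P167.BR Vale.Agent.P167.FK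
open Vale.Agent.P167.E6 (IsPolygon Encloses face dir)
open Vale.Agent.P167.H718 (Dob rc IsCl)
open Vale.Agent.P167.H601.LG (feet nm_be nm_tri' nm_comm nm_of_Bq)
open Vale.Agent.P167.H975 (TX)
open Vale.Agent.P167.QX (wB lo hi)

variable {θ β : ℝ} {N k n c : ℕ} {q : ZMod N → ℤ × ℤ} {D : Finset (ℤ × ℤ)} {ω : Cfg}
  {A : Finset Ed} {ρ ρ' : ℕ → ℝ} {r : ℤ}

/-- The index window of the centre with the index `c`. -/
def Win (N c : ℕ) (W : ℤ) (x : ℕ) : Prop := |(x : ℤ) - c| ≤ W ∨ (N : ℤ) - |(x : ℤ) - c| ≤ W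

/-- The feet of a strand in a box are in the index window. -/
theorem feet_win (hG : GeoP n N q) (hq : IsPolygon q) (hD : Encloses q D)
    (hA : A ∈ pcs ω D) (hl : ¬ IsLp D A) (hc : c ≤ N) (hr : 3 * (r + 1) < n)
    (hd : ∀ e ∈ A, hdv e ∈ Bq (q (c : ZMod N)) r) :
    Win N c (2 * (r + 1)) (lo q A) ∧ Win N c (2 * (r + 1)) (hi q A) := by
  obtain ⟨h1, h2, h3, h4⟩ := feet hq hD hA hl
  have key : ∀ x : ℕ, x < N → be q (x : ZMod N) ∈ A → Win N c (2 * (r + 1)) x := by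
    intro x hx hxA
    refine hG.near hx.le hc hr ?_
    have e1 := nm_be (q := q) (x : ZMod N)
    rw [nm_comm] at e1
    have k1 := nm_tri' (q (x : ZMod N)) (hdv (be q (x : ZMod N))) (q (c : ZMod N))
    have k2 := nm_of_Bq (hd _ hxA)
    omega
  exact ⟨key _ (h1.trans h2) h3, key _ h2 h4⟩

/-- **Local positivity.** -/
theorem pos_of (h0 : 0 < θ) (h1 : θ < Real.pi / 2) (hG : GeoP n N q) (hq : IsPolygon q)
    (hD : Encloses q D) (hc : c ≤ N) (hr : 3 * (r + 1) < n)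
    (H : ∀ x y : ℕ, x < y → y < N → Win N c (2 * (r + 1)) x → Win N c (2 * (r + 1)) y →
      (Even ((q (x : ZMod N)).1 + (q (x : ZMod N)).2) ↔
        ¬ Even ((q (y : ZMod N)).1 + (q (y : ZMod N)).2)) → SgA θ β q k x y (ρ y - ρ x)) :
    ∀ ω : Cfg, ∀ A ∈ pcs ω D, (∀ e ∈ A, hdv e ∈ Bq (q (c : ZMod N)) r) →
      wl θ ≤ wP θ β q D k ρ A := by
  intro ω A hA hAr
  refine wP_ge h0 h1 hq hD hA fun hl => ?_
  obtain ⟨h3, h4⟩ := feet_win hG hq hD hA hl hc hr hAr
  obtain ⟨h5, h6, -, -⟩ := feet hq hD hA hl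
  exact H _ _ h5 h6 h3 h4 (feet_par hq hD hA hl)

/-- Global positivity. -/
theorem pos_all (h0 : 0 < θ) (h1 : θ < Real.pi / 2) (hq : IsPolygon q) (hD : Encloses q D)
    (H : ∀ x y : ℕ, x < y → y < N → (Even ((q (x : ZMod N)).1 + (q (x : ZMod N)).2) ↔
        ¬ Even ((q (y : ZMod N)).1 + (q (y : ZMod N)).2)) → SgA θ β q k x y (ρ y - ρ x)) :
    ∀ ω : Cfg, ∀ A ∈ pcs ω D, wl θ ≤ wP θ β q D k ρ A := by
  intro ω A hA
  refine wP_ge h0 h1 hq hD hA fun hl => ?_
  obtain ⟨h5, h6, -, -⟩ := feet hq hD hA hl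
  exact H _ _ h5 h6 (feet_par hq hD hA hl)

/-- The weights depend on the phase differences only. -/
theorem wP_same (hq : IsPolygon q) (hD : Encloses q D) (hA : A ∈ pcs ω D)
    (H : ¬ IsLp D A → ρ (hi q A) - ρ (lo q A) = ρ' (hi q A) - ρ' (lo q A)) (hc : Real.cos θ ≠ 0) :
    wP θ β q D k ρ A = wP θ β q D k ρ' A := by
  by_cases hl : IsLp D A
  · rw [wP_lp hq hD hA hl hc, wP_lp hq hD hA hl hc]
  · unfold wP
    rw [H hl]

/-- **Local factors with the same phase differences.** -/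
theorem TX_same (hG : GeoP n N q) (hq : IsPolygon q) (hD : Encloses q D) (hc : c ≤ N)
    (hcos : Real.cos θ ≠ 0) (hr : 3 * (r + 1) < n)
    (H : ∀ x y : ℕ, x < y → y < N → Win N c (2 * (r + 1)) x → Win N c (2 * (r + 1)) y →
      ρ y - ρ x = ρ' y - ρ' x) (ω : Cfg) :
    TX (wP θ β q D k ρ) D (q (c : ZMod N)) r ω = TX (wP θ β q D k ρ') D (q (c : ZMod N)) r ω := by
  classical
  unfold TX
  refine prod_congr rfl fun A hA => ?_
  rw [mem_filter] at hA
  refine wP_same hq hD hA.1 (fun hl => ?_) hcos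
  obtain ⟨h3, h4⟩ := feet_win hG hq hD hA.1 hl hc hr hA.2
  obtain ⟨h5, h6, -, -⟩ := feet hq hD hA.1 hl
  exact H _ _ h5 h6 h3 h4

/-- A centre without phase differences. -/
theorem TX_one (hG : GeoP n N q) (hq : IsPolygon q) (hD : Encloses q D) (hc : c ≤ N)
    (hcos : Real.cos θ ≠ 0) (hsin : Real.sin θ ≠ 0) (hβ : Real.cos (θ / 2 + β) = Real.sin θ)
    (hr : 3 * (r + 1) < n)
    (H : ∀ x y : ℕ, x < y → y < N → Win N c (2 * (r + 1)) x → Win N c (2 * (r + 1)) y →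
      ρ y = ρ x) (ω : Cfg) : TX (wP θ β q D k ρ) D (q (c : ZMod N)) r ω = 1 := by
  classical
  unfold TX
  refine prod_eq_one fun A hA => ?_
  rw [mem_filter] at hA
  by_cases hl : IsLp D A
  · exact wP_lp hq hD hA.1 hl hcos
  obtain ⟨h3, h4⟩ := feet_win hG hq hD hA.1 hl hc hr hA.2
  obtain ⟨h5, h6, -, -⟩ := feet hq hD hA.1 hl
  exact wP_one hsin hcos hβ (H _ _ h5 h6 h3 h4)

/-! ### the same polygon with other phases and centres -/

/-- Other phases and centres. -/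
def PD.wr (P : PD) (ρ : ℕ → ℝ) (J : Finset ℕ) : PD := ⟨P.N, P.q, P.D, P.k, ρ, J⟩

section

variable {P : PD} {η : Cfg} {J J' : Finset ℕ}

theorem e_wrJ (r : ℤ) (j : ℕ) : (P.wr ρ J).e θ β η r j = (P.wr ρ J').e θ β η r j := rfl

/-- **The same mean values** for phases with the same differences in the window. -/
theorem e_same (hG : GeoP n P.N P.q) (hq : IsPolygon P.q) (hD : Encloses P.q P.D) (hc : c ≤ P.N)
    (hcos : Real.cos θ ≠ 0) (hr : 3 * (r + 1) < n)
    (H : ∀ x y : ℕ, x < y → y < P.N → Win P.N c (2 * (r + 1)) x → Win P.N c (2 * (r + 1)) y →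
      ρ y - ρ x = ρ' y - ρ' x) :
    (P.wr ρ J).e θ β η r c = (P.wr ρ' J').e θ β η r c := by
  unfold PD.e
  congr 1
  funext ω
  exact TX_same hG hq hD hc hcos hr H ω

theorem e_eqD (hq : IsPolygon P.q) (hD : Encloses P.q P.D) (hcos : Real.cos θ ≠ 0)
    (H : EqD P.N ρ ρ') : (P.wr ρ J).e θ β η r c = (P.wr ρ' J').e θ β η r c := by
  classical
  unfold PD.e
  congr 1
  funext ω
  unfold TX
  refine prod_congr rfl fun A hA => ?_
  rw [mem_filter] at hA
  refine wP_same hq hD hA.1 (fun hl => ?_) hcos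
  obtain ⟨h5, h6, -, -⟩ := feet hq hD hA.1 hl
  exact H _ _ (h5.trans h6) h6

theorem e_one (hQ : 0 < 2 * Real.cos θ) (hG : GeoP n P.N P.q) (hq : IsPolygon P.q)
    (hD : Encloses P.q P.D) (hc : c ≤ P.N)
    (hcos : Real.cos θ ≠ 0) (hsin : Real.sin θ ≠ 0) (hβ : Real.cos (θ / 2 + β) = Real.sin θ)
    (hr : 3 * (r + 1) < n)
    (H : ∀ x y : ℕ, x < y → y < P.N → Win P.N c (2 * (r + 1)) x → Win P.N c (2 * (r + 1)) y →
      ρ y = ρ x) : (P.wr ρ J).e θ β η r c = 1 := by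
  unfold PD.e
  have e : TX (wP θ β (P.wr ρ J).q (P.wr ρ J).D (P.wr ρ J).k (P.wr ρ J).ρ) (P.wr ρ J).D
      ((P.wr ρ J).q (c : ZMod (P.wr ρ J).N)) r = fun _ => 1 := by
    funext ω
    exact TX_one hG hq hD hc hcos hsin hβ hr H ω
  rw [e]
  exact FKA.Ex_const hQ 1

end

end Vale.Agent.P167.N.QL
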