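import Vale.Agent.P167.N.QL.Al9

/-!
# P167, the range `0 < q < 1`, block Q-LAM: assembly, the inequality for the L shape
-/

set_option autoImplicit false

namespace Vale.Agent.P167.N.QL

open Finset Filter Vale.Agent.P167.BR Vale.Agent.P167.FK
open Vale.Agent.P167.E6 (IsPolygon Encloses face dir)
open Vale.Agent.P167.H718 (Dob rc IsCl)
open Vale.Agent.P167.H192.Q (SRSW)
open Vale.Agent.P167.H975 (TX)

variable {θ β : ℝ} {η : Cfg} {r : ℤ} {J J' : Finset ℕ} {n z i a' c d N : ℕ} {v : ℝ}
  {L L' : List (ℕ × ℝ)} {a : ℤ × ℤ} {b : Bool}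

theorem prod_lsJ (hn : 0 < n) (f : ℕ → ℝ) :
    ∏ j ∈ lsJ n, f j = f 0 * f (3 * n) * f (5 * n) * f (7 * n) * f (9 * n) * f (11 * n) *
      f (15 * n) := by
  unfold lsJ
  repeat rw [prod_insert (by simp only [mem_insert, mem_singleton]; omega)]
  rw [prod_singleton]
  ring

theorem WB.const (h : WB d N L) {j : ℕ} (hj : j ≤ d) : stp L j = stp L 0 := by
  have h1 := sub_of_inc (ρ := stp L) (ρ' := fun _ => 0) (Nat.zero_le j) fun i h2 h3 => by
    rw [h.inc h2 (Or.inl (by omega)), sub_self]
  rw [sub_self] at h1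
  linarith

theorem WB.const' (h : WB d N L) {j : ℕ} (hj : N ≤ j + d) (hjN : j < N) (hd : 2 * d < N) :
    stp L j = stp L (N - 1) := by
  have h1 := sub_of_inc (ρ := stp L) (ρ' := fun _ => 0) (by omega : j ≤ N - 1) fun i h2 h3 => by
    rw [h.inc (by omega) (Or.inr (by omega)), sub_self]
  rw [sub_self] at h1
  linarith

/-- The mean value of the local factor on the L shape. -/
noncomputable def lE (θ : ℝ) (b : Bool) (n : ℕ) (a : ℤ × ℤ) (ρ : ℕ → ℝ) (η : Cfg) (r : ℤ)
    (j : ℕ) : ℝ := (lsP b n a ρ ∅).e θ (bt θ) η r j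

section

variable (hn : 12000 ≤ n) (hG : GeoP (2 * n) (8 * (2 * n)) (lsq n a)) (hcos : 0 < Real.cos θ)
  (hsin : Real.sin θ ≠ 0) (hr : 2 * (r + 1) ≤ ((n / 2 : ℕ) : ℤ))

include hn hG hcos hr

theorem ls_mid (hc : 3 * n ≤ c) (hc2 : c ≤ 15 * n) (h : WL (n / 2) c L) (h' : WL (n / 2) c L')
    (he : stI L c = stI L' c) : lE θ b n a (stp L) η r c = lE θ b n a (stp L') η r c := by
  have hn0 : 0 < n := by omega
  refine e_mid (P := lsP b n a (fun _ => 0) ∅) hG (ls_poly hn0 a) (ls_encl hn0 a) hcos
    (by push_cast at hr ⊢; omega) hr (by omega) (by omega) ?_ h h' he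
  show c + n / 2 < 8 * (2 * n)
  omega

theorem ls_bas (h : WB (n / 2) (8 * (2 * n)) L) (h' : WB (n / 2) (8 * (2 * n)) L')
    (he : tot L = tot L') : lE θ b n a (stp L) η r 0 = lE θ b n a (stp L') η r 0 := by
  have hn0 : 0 < n := by omega
  refine e_base (P := lsP b n a (fun _ => 0) ∅) hG (ls_poly hn0 a) (ls_encl hn0 a) hcos
    (by push_cast at hr ⊢; omega) hr (by omega) ?_ h h' he
  show 2 * (n / 2) < 8 * (2 * n)
  omega

include hsin in
theorem ls_non (hc : 3 * n ≤ c) (hc2 : c ≤ 15 * n) (h : WL (n / 2) c L)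
    (he : stI L c = 0) : lE θ b n a (stp L) η r c = 1 := by
  have hn0 : 0 < n := by omega
  refine e_none (P := lsP b n a (fun _ => 0) ∅) hG (ls_poly hn0 a) (ls_encl hn0 a) hcos
    (by push_cast at hr ⊢; omega) hr hsin (cos_bt θ) (by omega) (by omega) ?_ h he
  show c + n / 2 < 8 * (2 * n)
  omega

include hsin in
/-- The product for the natural functional. -/
theorem pr_lR (c : Bool) :
    ∏ j ∈ lsJ n, (lsP b n a (lR θ n c) (lsJ n)).e θ (bt θ) η r j =
      lE θ b n a (lR θ n c) η r 0 * (lE θ b n a (lR θ n c) η r (7 * n) *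
        (lE θ b n a (lR θ n c) η r (3 * n) * lE θ b n a (lR θ n c) η r (5 * n) *
          lE θ b n a (lR θ n c) η r (9 * n) * lE θ b n a (lR θ n c) η r (11 * n))) := by
  have e1 : lE θ b n a (lR θ n c) η r (15 * n) = 1 := by
    unfold lR
    cases c
    · exact ls_non hn hG hcos hsin hr (by omega) (by omega)
        (((((WL.nil.cons (by omega)).cons (by omega)).cons (by unfold rz; simp; omega)).cons
          (by omega)).cons (by omega)) (by
          repeat first | rw [stI_hit rfl] | rw [stI_skip (by unfold rz; simp; omega)] |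
            rw [stI_skip (by omega)]
          rfl)
    · exact ls_non hn hG hcos hsin hr (by omega) (by omega)
        (((((WL.nil.cons (by omega)).cons (by omega)).cons (by unfold rz; simp; omega)).cons
          (by omega)).cons (by omega)) (by
          repeat first | rw [stI_hit rfl] | rw [stI_skip (by unfold rz; simp; omega)] |
            rw [stI_skip (by omega)]
          rfl)
  rw [prod_lsJ (by omega)]
  show lE θ b n a (lR θ n c) η r 0 * lE θ b n a (lR θ n c) η r (3 * n) *
    lE θ b n a (lR θ n c) η r (5 * n) * lE θ b n a (lR θ n c) η r (7 * n) *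
    lE θ b n a (lR θ n c) η r (9 * n) * lE θ b n a (lR θ n c) η r (11 * n) *
    lE θ b n a (lR θ n c) η r (15 * n) = _
  rw [e1]
  ring

include hsin in
/-- The product for the image. -/
theorem pr_lI (c c' : Bool) :
    ∏ j ∈ lsJ n, (lsP b n a (lI θ n c) (lsJ n)).e θ (bt θ) η r j =
      lE θ b n a (lR θ n c') η r 0 * (lE θ b n a (lI θ n c) η r (7 * n) *
        lE θ b n a (lI θ n c) η r (15 * n)) := by
  have e0 : lE θ b n a (lI θ n c) η r 0 = lE θ b n a (lR θ n c') η r 0 := by
    unfold lI lR
    refine ls_bas hn hG hcos hr ?_ ?_ ?_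
    · cases c
      · exact (WB.nil.cons (by omega)).cons (by omega)
      · exact ((WB.nil.cons (by omega)).cons (by omega)).cons (by omega)
    · unfold rz
      cases c'
      · exact (((((WB.nil.cons (by omega)).cons (by omega)).cons (by simp; omega)).cons
          (by omega)).cons (by omega))
      · exact (((((WB.nil.cons (by omega)).cons (by omega)).cons (by simp; omega)).cons
          (by omega)).cons (by omega))
    · cases c
      · simp only [tot_cons, tot_nil, Bool.false_eq_true, if_false]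
        ring
      · simp only [tot_cons, tot_nil, if_true]
        ring
  have e1 : ∀ j, j = 3 * n ∨ j = 5 * n ∨ j = 9 * n ∨ j = 11 * n →
      lE θ b n a (lI θ n c) η r j = 1 := by
    intro j hj
    unfold lI
    refine ls_non hn hG hcos hsin hr (by omega) (by omega) ?_ ?_
    · cases c
      · exact (WL.nil.cons (by omega)).cons (by omega)
      · exact ((WL.nil.cons (by omega)).cons (by omega)).cons (by omega)
    · cases c
      · simp only [Bool.false_eq_true, if_false]
        repeat rw [stI_skip (by omega)]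
        rfl
      · simp only [if_true]
        repeat rw [stI_skip (by omega)]
        rfl
  rw [prod_lsJ (by omega)]
  show lE θ b n a (lI θ n c) η r 0 * lE θ b n a (lI θ n c) η r (3 * n) *
    lE θ b n a (lI θ n c) η r (5 * n) * lE θ b n a (lI θ n c) η r (7 * n) *
    lE θ b n a (lI θ n c) η r (9 * n) * lE θ b n a (lI θ n c) η r (11 * n) *
    lE θ b n a (lI θ n c) η r (15 * n) = _
  rw [e0, e1 _ (Or.inl rfl), e1 _ (Or.inr (Or.inl rfl)), e1 _ (Or.inr (Or.inr (Or.inl rfl))),
    e1 _ (Or.inr (Or.inr (Or.inr rfl)))]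
  ring

end

/-! ### positive centres -/

section pc

variable (h0 : 0 < θ) (h1 : θ < Real.pi / 2) (hn : 12000 ≤ n)
  (hG : GeoP (2 * n) (8 * (2 * n)) (lsq n a)) (hr : 2 * (r + 1) ≤ ((n / 2 : ℕ) : ℤ))
include h0 h1 hn hG hr

theorem ls_pc_mid (hc : 3 * n ≤ c) (hc2 : c ≤ 15 * n)
    (hL : WL (n / 2) c L) (hv : -θ ≤ stI L c) (hv' : stI L c ≤ 0) :
    PC θ β (lsq n a) (lsD n a) (lsK b n) (stp L) (wl θ) (lsq n a (c : ZMod (8 * (2 * n)))) r :=
  pc_mid h0 h1 hG (ls_poly (by omega) a) (ls_encl (by omega) a) (by push_cast at hr ⊢; omega) hr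
    (by omega) (by omega) (by
      unfold lsK
      cases b
      · left; simp only [Bool.false_eq_true, if_false]; omega
      · right; simp only [if_true]; omega) hv hv' fun _ h2 h3 h4 => hL.inc h2 h3 h4

theorem ls_pc_base (hL : WB (n / 2) (8 * (2 * n)) L) (hv : -θ ≤ tot L) (hv' : tot L ≤ 0) :
    PC θ β (lsq n a) (lsD n a) (lsK b n) (stp L) (wl θ)
      (lsq n a ((0 : ℕ) : ZMod (8 * (2 * n)))) r := by
  rw [Nat.cast_zero]
  have ht := hL.tot (by omega) (by omega)
  refine pc_fw h0 h1 hG (ls_poly (by omega) a) (ls_encl (by omega) a)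
    (by push_cast at hr ⊢; omega) hr ?_ (by omega) (fun i hi j hj _ => ?_)
    (fun i hi j hj hi' hj' _ => ?_) fun i hi j hj hj' => ?_
  · unfold lsK
    cases b
    · right; simp
    · left; simp
  · rw [hL.const hi, hL.const hj, sub_self]
    exact ⟨by linarith, le_rfl⟩
  · rw [hL.const' hi' hi (by omega), hL.const' hj' hj (by omega), sub_self]
    exact ⟨by linarith, le_rfl⟩
  · rw [hL.const hi, hL.const' hj' hj (by omega), ht]
    exact ⟨hv, hv'⟩

/-- The centres of the natural functional on the L shape off the reflex corner. -/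
theorem pc_lR (c : Bool) {j : ℕ} (hj : j ∈ lsJ n) (hj7 : j ≠ 7 * n) :
    PC θ β (lsq n a) (lsD n a) (lsK b n) (lR θ n c) (wl θ)
      (lsq n a (j : ZMod (8 * (2 * n)))) r := by
  have hz : rz n c = 7 * n ∨ rz n c = 7 * n + 1 := by
    unfold rz
    cases c
    · left; simp
    · right; simp
  unfold lR
  unfold lsJ at hj
  simp only [mem_insert, mem_singleton] at hj
  rcases hj with rfl | rfl | rfl | rfl | rfl | rfl | rfl
  · exact ls_pc_base h0 h1 hn hG hr (((((WB.nil.cons (by omega)).cons (by omega)).cons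
      (by omega)).cons (by omega)).cons (by omega)) (by simp only [tot_cons, tot_nil]; linarith)
        (by simp only [tot_cons, tot_nil]; linarith)
  · have e : stI [(3 * n, -(θ / 2)), (5 * n, -(θ / 2)), (rz n c, θ), (9 * n, -(θ / 2)),
        (11 * n, -(θ / 2))] (3 * n) = -(θ / 2) + 0 := by
      repeat first | rw [stI_hit rfl] | rw [stI_skip (by omega)]
      rfl
    exact ls_pc_mid h0 h1 hn hG hr (by omega) (by omega)
      (((((WL.nil.cons (by omega)).cons (by omega)).cons (by omega)).cons (by omega)).cons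
        (by omega)) (by rw [e]; linarith) (by rw [e]; linarith)
  · have e : stI [(3 * n, -(θ / 2)), (5 * n, -(θ / 2)), (rz n c, θ), (9 * n, -(θ / 2)),
        (11 * n, -(θ / 2))] (5 * n) = -(θ / 2) + 0 := by
      repeat first | rw [stI_hit rfl] | rw [stI_skip (by omega)]
      rfl
    exact ls_pc_mid h0 h1 hn hG hr (by omega) (by omega)
      (((((WL.nil.cons (by omega)).cons (by omega)).cons (by omega)).cons (by omega)).cons
        (by omega)) (by rw [e]; linarith) (by rw [e]; linarith)
  · exact absurd rfl hj7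
  · have e : stI [(3 * n, -(θ / 2)), (5 * n, -(θ / 2)), (rz n c, θ), (9 * n, -(θ / 2)),
        (11 * n, -(θ / 2))] (9 * n) = -(θ / 2) + 0 := by
      repeat first | rw [stI_hit rfl] | rw [stI_skip (by omega)]
      rfl
    exact ls_pc_mid h0 h1 hn hG hr (by omega) (by omega)
      (((((WL.nil.cons (by omega)).cons (by omega)).cons (by omega)).cons (by omega)).cons
        (by omega)) (by rw [e]; linarith) (by rw [e]; linarith)
  · have e : stI [(3 * n, -(θ / 2)), (5 * n, -(θ / 2)), (rz n c, θ), (9 * n, -(θ / 2)),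
        (11 * n, -(θ / 2))] (11 * n) = -(θ / 2) + 0 := by
      repeat first | rw [stI_hit rfl] | rw [stI_skip (by omega)]
      rfl
    exact ls_pc_mid h0 h1 hn hG hr (by omega) (by omega)
      (((((WL.nil.cons (by omega)).cons (by omega)).cons (by omega)).cons (by omega)).cons
        (by omega)) (by rw [e]; linarith) (by rw [e]; linarith)
  · have e : stI [(3 * n, -(θ / 2)), (5 * n, -(θ / 2)), (rz n c, θ), (9 * n, -(θ / 2)),
        (11 * n, -(θ / 2))] (15 * n) = 0 := by
      repeat first | rw [stI_hit rfl] | rw [stI_skip (by omega)]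
      rfl
    exact ls_pc_mid h0 h1 hn hG hr (by omega) (by omega)
      (((((WL.nil.cons (by omega)).cons (by omega)).cons (by omega)).cons (by omega)).cons
        (by omega)) (by rw [e]; linarith) (by rw [e])

end pc

/-! ### the reflex corner -/

theorem lsK_cases (b : Bool) (n : ℕ) : (b = false ∧ lsK b n = 8 * (2 * n)) ∨ (b = true ∧ lsK b n = 0) := by
  unfold lsK
  cases b
  · left; simp
  · right; simp

/-- The window at the reflex corner. -/
theorem ls_win (hn : 0 < n) : WinI (n / 2) (8 * (2 * n)) (lsT n) (7 * n) (-1) := by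
  have e : jB (8 * (2 * n)) (7 * n) = 7 * n := by
    unfold jB
    rw [if_neg (by omega)]
  have e1 : ∀ i, 7 * n ≤ i → i < 9 * n → lsT n i = 1 := fun i h1 h2 => by
    rw [lsT_eq hn (by omega), if_neg (by omega), if_neg (by omega), if_neg (by omega),
      if_pos (by omega)]
  have e2 : ∀ i, 5 * n ≤ i → i < 7 * n → lsT n i = 2 := fun i h1 h2 => by
    rw [lsT_eq hn (by omega), if_neg (by omega), if_neg (by omega), if_pos (by omega)]
  refine ⟨by omega, ?_, ?_, ?_⟩
  · rw [e]
    refine ⟨fun i h1 h2 => ?_, fun i h1 h2 => ?_⟩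
    · rw [e1 i h1 (by omega), e1 (7 * n) le_rfl (by omega)]
    · rw [e2 i (by omega) h2, e2 (7 * n - 1) (by omega) (by omega)]
  · rw [e]
    omega
  · rw [e, e1 (7 * n) le_rfl (by omega), e2 (7 * n - 1) (by omega) (by omega)]
    norm_num

/-- The number of the charged site at the reflex corner. -/
theorem ls_rI (hn : 0 < n) (b p : Bool) :
    rI (lsq n (ev p)) (lsK b n) (7 * n) = rz n (b == p) := by
  have h := ls_par hn (ev p) (7 * n)
  have h2 : Even ((lsq n (ev p) ((7 * n : ℕ) : ZMod (8 * (2 * n)))).1 +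
      (lsq n (ev p) ((7 * n : ℕ) : ZMod (8 * (2 * n)))).2) ↔ p = false := by
    rw [h]
    unfold ev
    cases p
    · simp only [Bool.false_eq_true, if_false, iff_true]
      rw [Int.even_iff]
      push_cast
      omega
    · simp only [if_true, Bool.true_eq_false, iff_false]
      rw [Int.even_iff]
      push_cast
      omega
  unfold rI rz
  rcases lsK_cases b n with ⟨rfl, hk⟩ | ⟨rfl, hk⟩ <;> rw [hk]
  · cases p
    · rw [if_pos (iff_of_true (by omega) (h2.2 rfl)), if_pos (by decide)]
    · rw [if_neg (fun h' => absurd (h2.1 (h'.1 (by omega))) (by decide)), if_neg (by decide)]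
  · cases p
    · rw [if_neg (fun h' => absurd (h'.2 (h2.2 rfl)) (by omega)), if_neg (by decide)]
    · rw [if_pos (iff_of_false (by omega) (fun h' => absurd (h2.1 h') (by decide))),
        if_pos (by decide)]

theorem lR_inc (c : Bool) (hi : 7 * n < i + n / 2) (hi' : i ≤ 7 * n + n / 2)
    (h0 : 0 < i) : lR θ n c i - lR θ n c (i - 1) = if i = rz n c then θ else 0 := by
  have hz : rz n c = 7 * n ∨ rz n c = 7 * n + 1 := by
    unfold rz
    cases c
    · left; simp
    · right; simp
  unfold lR
  rw [stp_inc _ h0, stI_skip (by omega), stI_skip (by omega)]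
  by_cases h : i = rz n c
  · rw [if_pos h, stI_hit h.symm, stI_skip (by omega), stI_skip (by omega), stI_nil, add_zero]
  · rw [if_neg h, stI_skip (fun h' => h h'.symm), stI_skip (by omega), stI_skip (by omega), stI_nil]

end Vale.Agent.P167.N.QL
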