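import Vale.Agent.P167.N.QL.Al10

/-!
# P167, the range `0 < q < 1`, block Q-LAM: assembly, the inequality for the L shape (2)
-/

set_option autoImplicit false

namespace Vale.Agent.P167.N.QL

open Finset Filter Vale.Agent.P167.BR Vale.Agent.P167.FK
open Vale.Agent.P167.E6 (IsPolygon Encloses face dir)
open Vale.Agent.P167.H718 (Dob rc IsCl)
open Vale.Agent.P167.H192.Q (SRSW)
open Vale.Agent.P167.H975 (TX)

variable {θ : ℝ} {n : ℕ} {a : ℤ × ℤ} {b c : Bool}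

theorem near_lI (hn : 0 < n) : (lsP b n a (lI θ n c) (lsJ n)).Near := by
  unfold lI
  refine near_of EqD.rfl ?_ ?_ ?_ ?_
  · show ∀ j ∈ lsJ n, j < 8 * (2 * n)
    unfold lsJ
    simp only [mem_insert, mem_singleton]
    omega
  · show 0 ∈ lsJ n
    unfold lsJ
    simp
  · show ∀ x ∈ _, ∃ i ∈ lsJ n, _
    unfold lsJ
    cases c
    · simp only [Bool.false_eq_true, if_false, List.mem_cons, List.not_mem_nil, or_false]
      rintro x (rfl | rfl)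
      · exact ⟨7 * n, by simp, by simp⟩
      · exact ⟨15 * n, by simp, by simp⟩
    · simp only [if_true, List.mem_cons, List.not_mem_nil, or_false]
      rintro x (rfl | rfl | rfl)
      · exact ⟨7 * n, by simp, by simp⟩
      · refine ⟨7 * n, by simp, ?_⟩
        push_cast
        rw [abs_le]
        constructor <;> linarith
      · exact ⟨15 * n, by simp, by simp⟩
  · intro h1 h2
    exact (lsK_out h1 h2).elim

/-- The parity of the reflex corner. -/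
theorem ls_par7 (hn : 0 < n) (p : Bool) :
    Even ((lsq n (ev p) ((7 * n : ℕ) : ZMod (8 * (2 * n)))).1 +
      (lsq n (ev p) ((7 * n : ℕ) : ZMod (8 * (2 * n)))).2) ↔ p = false := by
  rw [ls_par hn (ev p) (7 * n)]
  unfold ev
  cases p
  · simp only [Bool.false_eq_true, if_false, iff_true]
    rw [Int.even_iff]
    push_cast
    omega
  · simp only [if_true, Bool.true_eq_false, iff_false]
    rw [Int.even_iff]
    push_cast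
    omega

/-- The weights of the images are positive. -/
theorem ls_pos (h0 : 0 < θ) (h1 : θ < Real.pi / 2) (hn : 0 < n) (b p : Bool) :
    ∀ ω : Cfg, ∀ A ∈ pcs ω (lsD n (ev p)),
      wl θ ≤ wP θ (bt θ) (lsq n (ev p)) (lsD n (ev p)) (lsK b n) (lI θ n (b == !p)) A := by
  refine pos_all h0 h1 (ls_poly hn _) (ls_encl hn _) fun x y hxy hy hp => ?_
  refine sg_li h0 hn hxy b _ (fun hc => ?_) hy hp
  rw [ls_par7 hn p]
  revert hc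
  cases b <;> cases p <;> decide

/-! ### the values -/

section

variable (θ) (b : Bool) (n : ℕ) (η : Bool → Cfg) (r : ℤ) (p : Bool)

/-- The reflex corner, image. -/
noncomputable def lB : ℝ := lE θ b n (ev p) (lI θ n (b == !p)) (η p) r (7 * n)

/-- The convex corner, image. -/
noncomputable def lA1 : ℝ := lE θ b n (ev p) (lI θ n (b == !p)) (η p) r (15 * n)

/-- The reflex corner, natural. -/
noncomputable def lZ : ℝ := lE θ b n (ev p) (lR θ n (b == p)) (η p) r (7 * n)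

/-- The convex corners, natural. -/
noncomputable def lA4 : ℝ :=
  lE θ b n (ev p) (lR θ n (b == p)) (η p) r (3 * n) * lE θ b n (ev p) (lR θ n (b == p)) (η p) r (5 * n) *
    lE θ b n (ev p) (lR θ n (b == p)) (η p) r (9 * n) *
    lE θ b n (ev p) (lR θ n (b == p)) (η p) r (11 * n)

end

theorem fl_W {W : ℤ} (hW : 1 ≤ W) (hn : 12000 ≤ n) :
    ⌊(1 / (200 * W) : ℝ) * n⌋ ≤ ⌊(1 / 200 : ℝ) * n⌋ ∧
      W * ⌊(1 / (200 * W) : ℝ) * n⌋ ≤ ((n / 100 : ℕ) : ℤ) := by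
  have hW' : (1 : ℝ) ≤ W := by exact_mod_cast hW
  have h1 : (⌊(1 / (200 * W) : ℝ) * n⌋ : ℝ) ≤ 1 / (200 * W) * n := Int.floor_le _
  refine ⟨Int.floor_le_floor (mul_le_mul_of_nonneg_right ?_ (Nat.cast_nonneg n)),
    le_trans (Int.le_floor.2 ?_) (fl200 hn)⟩
  · exact div_le_div_of_nonneg_left zero_le_one (by norm_num) (by linarith)
  · push_cast
    calc (W : ℝ) * ⌊(1 / (200 * W) : ℝ) * n⌋ ≤ W * (1 / (200 * W) * n) :=
          mul_le_mul_of_nonneg_left h1 (by linarith)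
      _ = 1 / 200 * n := by
          field_simp

theorem fl_W1 {W : ℤ} (hW : 1 ≤ W) (hn : 200 * W.toNat ≤ n) :
    1 ≤ ⌊(1 / (200 * W) : ℝ) * n⌋ := by
  rw [Int.le_floor]
  have hW' : (1 : ℝ) ≤ W := by exact_mod_cast hW
  have h1 : (200 : ℤ) * W ≤ n := by
    have h2 := Int.toNat_of_nonneg (by omega : 0 ≤ W)
    omega
  have h2 : (200 : ℝ) * W ≤ n := by exact_mod_cast h1
  rw [Int.cast_one, one_div, inv_mul_eq_div, le_div_iff₀ (by positivity), one_mul]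
  exact h2

/-- The upper bound, absolute values. -/
theorem up_abs {β σ b B c0 : ℝ} {Λ : ℤ} {CE : ℕ → ℝ} (h0 : 0 < θ) (h1 : Ang θ)
    (hβ : Real.cos (θ / 2 + β) = Real.sin θ)
    (hR : RSW (2 * Real.cos θ)) (hSR : SRSW (2 * Real.cos θ)) (R : ℝ) (ms : ℕ) (KE : ℕ → ℤ)
    (hC : Cs σ b B c0 Λ CE) :
    ∃ ρ₁ : ℝ, 0 < ρ₁ ∧ ∀ ρ : ℝ, 0 < ρ → ρ ≤ ρ₁ → ∃ (C : ℝ) (n₀ : ℕ), 0 < C ∧ ∀ n : ℕ, n₀ ≤ n →
      ∀ (P : PD) (η₀ : Cfg), P.Rg n σ R ms η₀ →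
      (∀ j ∈ P.J, PC θ β P.q P.D P.k P.ρ c0 (P.q (j : ZMod P.N)) ⌊σ * n⌋ ∨
        KC θ β P.q P.D P.k P.ρ η₀ b B Λ KE CE (P.q (j : ZMod P.N)) ⌊σ * n⌋) →
      ∀ η : Cfg, Dob η P.D P.q P.k → (∀ j ∈ P.J, 0 ≤ P.e θ β η ⌊ρ * n⌋ j) ∧
        Ex (2 * Real.cos θ) P.D η (fun ω => |TPq θ β P ⌊ρ * n⌋ ω|) ≤
          C * ∏ j ∈ P.J, P.e θ β η ⌊ρ * n⌋ j ∧
        |VP θ β P| ≤ C * ∏ j ∈ P.J, P.e θ β η ⌊ρ * n⌋ j := by
  obtain ⟨ρ₁, hρ₁, H⟩ := up_pd h0 h1 hβ hR hSR R ms KE hC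
  refine ⟨ρ₁, hρ₁, fun ρ hρ hρ1 => ?_⟩
  obtain ⟨C, n₀, hCp, H⟩ := H ρ hρ hρ1
  refine ⟨C, n₀, hCp, fun n hn P η₀ hP hj η hη => ?_⟩
  obtain ⟨JP, JZ, hL⟩ := lk_of hj
  obtain ⟨k1, k2⟩ := H n hn P η₀ JP JZ hP hL
  obtain ⟨-, k3, k4, -⟩ := k2 η hη
  exact ⟨fun j hj => e_nonneg h1.kit.pos (k1 j hj), k4, k3⟩

/-- **The upper bound for the natural functional on the L shape.** -/
theorem ls_up (h0 : 0 < θ) (h1 : Ang θ) (hR : RSW (2 * Real.cos θ))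
    (hS : SRSW (2 * Real.cos θ)) :
    ∃ ρ₁ : ℝ, 0 < ρ₁ ∧ ∀ ρ : ℝ, 0 < ρ → ρ ≤ ρ₁ → ∃ (C : ℝ) (n₀ : ℕ), 0 < C ∧ ∀ n : ℕ, n₀ ≤ n →
      ∀ (b p : Bool) (η : Cfg), Dob η (lsD n (ev p)) (lsq n (ev p)) (lsK b n) →
        (∀ j ∈ lsJ n, 0 ≤ (lsP b n (ev p) (lR θ n (b == p)) (lsJ n)).e θ (bt θ) η ⌊ρ * n⌋ j) ∧
        |VP θ (bt θ) (lsP b n (ev p) (lR θ n (b == p)) (lsJ n))| ≤
          C * ∏ j ∈ lsJ n, (lsP b n (ev p) (lR θ n (b == p)) (lsJ n)).e θ (bt θ) η ⌊ρ * n⌋ j := by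
  have hw := wl_pos h0 h1.lt
  obtain ⟨b₀, B, Λ, W, KE, CE, hK, HK⟩ := kc_refl h1 hR
  have hW' : (1 : ℝ) ≤ W := by exact_mod_cast hK.W1
  obtain ⟨ρ₁, hρ₁, H⟩ := up_abs (σ := 1 / (200 * W)) (b := b₀) (B := B) (c0 := wl θ) (Λ := Λ)
    (CE := CE) h0 h1 (cos_bt θ) hR hS lsR 7 KE
    ⟨by positivity, hK.bp, hK.b1, hK.B1, hw, wl_le_one θ, hK.L1, hK.C1⟩
  refine ⟨ρ₁, hρ₁, fun ρ hρ hρ1 => ?_⟩
  obtain ⟨C, n₀, hC, H⟩ := H ρ hρ hρ1
  refine ⟨C, max n₀ (max 12000 (200 * W.toNat)), hC, fun n hn b p η hη => ?_⟩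
  have hn1 : 12000 ≤ n := (le_max_left _ _).trans ((le_max_right _ _).trans hn)
  have hn2 : 200 * W.toNat ≤ n := (le_max_right _ _).trans ((le_max_right _ _).trans hn)
  have hn0 : 0 < n := by omega
  obtain ⟨η₀, hL⟩ := ls_lkD hn0 b (ev p)
  obtain ⟨f1, f2⟩ := fl_W hK.W1 hn1
  have f3 := fl_W1 hK.W1 hn2
  have f4 := fl200 hn1
  have h3 : n / 100 ≤ n / 2 := by omega
  have h4 : 50 * (n / 100) + 2 ≤ n / 2 ∨ n / 100 + 120 ≤ n / 2 := by omega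
  have hr : 2 * (⌊(1 / (200 * W) : ℝ) * n⌋ + 1) ≤ ((n / 2 : ℕ) : ℤ) := by
    have := f1.trans f4
    push_cast at this ⊢
    omega
  have hk : ∀ j, 3 * n ≤ j → j ≤ 15 * n → j + n / 2 < lsK b n ∨ lsK b n + n / 2 ≤ j := by
    intro j h5 h6
    unfold lsK
    cases b
    · left; simp only [Bool.false_eq_true, if_false]; omega
    · right; simp only [if_true]; omega
  obtain ⟨k1, -, k2⟩ := H n ((le_max_left _ _).trans hn) (lsP b n (ev p) (lR θ n (b == p)) (lsJ n))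
    η₀ ((ls_Rg hn1 hL (near_l hn0)).mono (div_le_div_of_nonneg_left zero_le_one (by norm_num)
      (by linarith))) (by
    intro j hj
    change j ∈ lsJ n at hj
    by_cases h7 : j = 7 * n
    · right
      subst h7
      refine HK hL (cos_bt θ) (ls_win hn0) (by omega) (by
        show 7 * n + n / 2 < 8 * (2 * n)
        omega) (Or.inl fun h => lsK_out h.1 h.2)
        (hk _ (by omega) (by omega)) (fun i h5 h6 h7 => ?_) ?_ ?_ ?_ f3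
      · show lR θ n (b == p) i - lR θ n (b == p) (i - 1) =
          if i = rI (lsq n (ev p)) (lsK b n) (7 * n) then θ else 0
        rw [lR_inc _ h5 h6 h7, ls_rI hn0 b p]
      · push_cast at f2 ⊢
        omega
      · push_cast at f2 ⊢
        omega
      · push_cast at f2 ⊢
        omega
    · left
      exact pc_lR h0 h1.lt hn1 hL.geo hr _ hj h7) η hη
  exact ⟨k1, k2⟩

/-- **The bounds for the image on the L shape.** -/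
theorem ls_low (h0 : 0 < θ) (h1 : Ang θ) (hR : RSW (2 * Real.cos θ))
    (hS : SRSW (2 * Real.cos θ)) :
    ∃ ρ₁ : ℝ, 0 < ρ₁ ∧ ∀ ρ : ℝ, 0 < ρ → ρ ≤ ρ₁ → ∃ (C : ℝ) (n₀ : ℕ), 0 < C ∧ ∀ n : ℕ, n₀ ≤ n →
      ∀ (b p : Bool) (η : Cfg), Dob η (lsD n (ev p)) (lsq n (ev p)) (lsK b n) →
        ∏ j ∈ lsJ n, (lsP b n (ev p) (lI θ n (b == !p)) (lsJ n)).e θ (bt θ) η ⌊ρ * n⌋ j ≤
          C * VP θ (bt θ) (lsP b n (ev p) (lI θ n (b == !p)) (lsJ n)) := by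
  obtain ⟨ρ₁, hρ₁, H1⟩ := bd_all (σ := 1 / 200) h0 h1 (cos_bt θ) hR hS lsR 7 (by norm_num)
  refine ⟨ρ₁, hρ₁, fun ρ hρ hρ1 => ?_⟩
  obtain ⟨C, n₀, hC, H⟩ := H1 ρ hρ hρ1
  refine ⟨C, max n₀ 12000, hC, fun n hn b p η hη => ?_⟩
  have hn1 := (le_max_right _ _).trans hn
  have hn0 : 0 < n := by omega
  obtain ⟨η₀, hL⟩ := ls_lkD hn0 b (ev p)
  exact (H n ((le_max_left _ _).trans hn) (lsP b n (ev p) _ (lsJ n)) η₀
    (ls_Rg hn1 hL (near_lI hn0)) (ls_pos h0 h1.lt hn0 b p) η hη).2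

/-- The algebra. -/
theorem two_alg {C₁ C₂ x1 x2 B1 B2 Z1 Z2 V1 V2 V3 V4 : ℝ} (hC₂ : 0 < C₂) (b1 : 0 < x1)
    (b2 : 0 < x2) (b3 : 0 < B1) (b4 : 0 < B2) (z1 : 0 ≤ Z1) (z2 : 0 ≤ Z2) (v2 : 0 ≤ V2)
    (hid : V2 * V1 = V3 * V4) (e1 : x1 * B1 ≤ C₂ * V2) (e2 : x2 * B2 ≤ C₂ * V1)
    (e3 : |V3| ≤ C₁ * (x1 * Z1)) (e4 : |V4| ≤ C₁ * (x2 * Z2)) (hC₁ : 0 ≤ C₁) :
    B1 * B2 ≤ C₂ ^ 2 * C₁ ^ 2 * (Z1 * Z2) := by
  have key : (x1 * x2) * (B1 * B2) ≤ (x1 * x2) * (C₂ ^ 2 * C₁ ^ 2 * (Z1 * Z2)) := by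
    calc (x1 * x2) * (B1 * B2) = (x1 * B1) * (x2 * B2) := by ring
      _ ≤ (C₂ * V2) * (C₂ * V1) :=
          mul_le_mul e1 e2 (mul_pos b2 b4).le (mul_nonneg hC₂.le v2)
      _ = C₂ ^ 2 * (V3 * V4) := by rw [← hid]; ring
      _ ≤ C₂ ^ 2 * ((C₁ * (x1 * Z1)) * (C₁ * (x2 * Z2))) := by
          refine mul_le_mul_of_nonneg_left ?_ (by positivity)
          refine (le_abs_self _).trans ?_
          rw [abs_mul]
          exact mul_le_mul e3 e4 (abs_nonneg _) (by positivity)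
      _ = _ := by ring
  exact le_of_mul_le_mul_left key (mul_pos b1 b2)

/-- **The inequality of the L shape.** -/
theorem ls_ineq (h0 : 0 < θ) (h1 : Ang θ) (hR : RSW (2 * Real.cos θ))
    (hS : SRSW (2 * Real.cos θ)) :
    ∃ ρ₁ : ℝ, 0 < ρ₁ ∧ ∀ ρ : ℝ, 0 < ρ → ρ ≤ ρ₁ → ∃ (C : ℝ) (n₀ : ℕ), 0 < C ∧ ∀ n : ℕ, n₀ ≤ n →
      ∀ (b : Bool) (η : Bool → Cfg),
        (∀ p, Dob (η p) (lsD n (ev p)) (lsq n (ev p)) (lsK b n)) → ∀ p : Bool,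
        (lB θ b n η ⌊ρ * n⌋ p * lB θ b n η ⌊ρ * n⌋ (!p)) *
            (lA1 θ b n η ⌊ρ * n⌋ p * lA1 θ b n η ⌊ρ * n⌋ (!p)) ≤
          C * ((lZ θ b n η ⌊ρ * n⌋ p * lZ θ b n η ⌊ρ * n⌋ (!p)) *
            (lA4 θ b n η ⌊ρ * n⌋ p * lA4 θ b n η ⌊ρ * n⌋ (!p))) := by
  obtain ⟨ρ₁, hρ₁, H1⟩ := ls_up h0 h1 hR hS
  obtain ⟨ρ₂, hρ₂, H2⟩ := ls_low h0 h1 hR hS
  refine ⟨min (min ρ₁ ρ₂) (1 / 200), by positivity, fun ρ hρ hρ' => ?_⟩
  obtain ⟨C₁, n₁, hC₁, H1⟩ := H1 ρ hρ (hρ'.trans ((min_le_left _ _).trans (min_le_left _ _)))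
  obtain ⟨C₂, n₂, hC₂, H2⟩ := H2 ρ hρ (hρ'.trans ((min_le_left _ _).trans (min_le_right _ _)))
  have hρ200 : ρ ≤ 1 / 200 := hρ'.trans (min_le_right _ _)
  refine ⟨C₂ ^ 2 * C₁ ^ 2, max (max n₁ n₂) 12000, by positivity, fun n hn b η hη p => ?_⟩
  have g1 : n₁ ≤ n := le_trans (le_trans (le_max_left _ _) (le_max_left _ _)) hn
  have g2 : n₂ ≤ n := le_trans (le_trans (le_max_right _ _) (le_max_left _ _)) hn
  have g5 : 12000 ≤ n := le_trans (le_max_right _ _) hn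
  have hn0 : 0 < n := by omega
  have hr := rad_le hρ200 g5
  obtain ⟨r, hr'⟩ : ∃ r : ℤ, r = ⌊ρ * (n : ℝ)⌋ := ⟨_, rfl⟩
  have hs := h1.sin_pos
  have hc := h1.cos_pos
  have hgeo : ∀ p : Bool, GeoP (2 * n) (8 * (2 * n)) (lsq n (ev p)) := fun p => by
    obtain ⟨η₀, hL⟩ := ls_lkD hn0 b (ev p)
    exact hL.geo
  have hwl := wl_pos h0 h1.lt
  -- the base
  have hbase : ∀ p, 0 < lE θ b n (ev p) (lR θ n (b == p)) (η p) r 0 := fun p =>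
    e_pos (P := lsP b n (ev p) (lR θ n (b == p)) ∅) h1.kit.pos hwl
      (pc_lR h0 h1.lt g5 (hgeo p) (by rw [hr']; exact hr) _ (by unfold lsJ; simp) (by omega))
  have hB : ∀ p, 0 < lB θ b n η r p := fun p =>
    e_pos (P := lsP b n (ev p) (lI θ n (b == !p)) ∅) h1.kit.pos hwl
      fun ω A hA _ => ls_pos h0 h1.lt hn0 b p ω A hA
  have hA1 : ∀ p, 0 < lA1 θ b n η r p := fun p =>
    e_pos (P := lsP b n (ev p) (lI θ n (b == !p)) ∅) h1.kit.pos hwl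
      fun ω A hA _ => ls_pos h0 h1.lt hn0 b p ω A hA
  have hN : ∀ p, 0 ≤ lZ θ b n η r p * lA4 θ b n η r p ∧
      |VP θ (bt θ) (lsP b n (ev p) (lR θ n (b == p)) (lsJ n))| ≤ C₁ *
        (lE θ b n (ev p) (lR θ n (b == p)) (η p) r 0 * (lZ θ b n η r p * lA4 θ b n η r p)) := by
    intro p
    obtain ⟨k1, k2⟩ := H1 n g1 b p (η p) (hη p)
    have k3 := prod_nonneg k1
    rw [pr_lR g5 (hgeo p) hc hs.ne' hr, ← hr'] at k2 k3
    exact ⟨nonneg_of_mul_nonneg_right k3 (hbase p), k2⟩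
  have hI : ∀ p, lE θ b n (ev p) (lR θ n (b == p)) (η p) r 0 * (lB θ b n η r p * lA1 θ b n η r p) ≤
      C₂ * VP θ (bt θ) (lsP b n (ev p) (lI θ n (b == !p)) (lsJ n)) := by
    intro p
    have k1 := H2 n g2 b p (η p) (hη p)
    rwa [pr_lI g5 (hgeo p) hc hs.ne' hr _ (b == p), ← hr'] at k1
  have hVI : ∀ p, 0 ≤ VP θ (bt θ) (lsP b n (ev p) (lI θ n (b == !p)) (lsJ n)) := fun p => by
    have h2 := hI p
    have h3 := mul_pos (hbase p) (mul_pos (hB p) (hA1 p))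
    by_contra hcon
    push Not at hcon
    nlinarith
  have hid : VP θ (bt θ) (lsP b n (ev (!p)) (lI θ n (b == p)) (lsJ n)) *
      VP θ (bt θ) (lsP b n (ev p) (lI θ n (b == !p)) (lsJ n)) =
      VP θ (bt θ) (lsP b n (ev p) (lR θ n (b == p)) (lsJ n)) *
        VP θ (bt θ) (lsP b n (ev (!p)) (lR θ n (b == !p)) (lsJ n)) := by
    have h := ls_two hs hc hn0 b p (lR θ n (b == p)) (lR θ n (b == !p)) (lsJ n) (lsJ n) (lsJ n)
      (lsJ n)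
    have k1 : ∀ a c, VP θ (bt θ) (lsP b n a (imR θ (lsT n) (lsK b n) (lR θ n c)) (lsJ n)) =
        VP θ (bt θ) (lsP b n a (lI θ n c) (lsJ n)) := fun a c => VP_eqD (im_l hn0 b c)
    rwa [k1, k1] at h
  rw [← hr']
  have e2 := hI (!p)
  have e8 := hVI (!p)
  rw [Bool.not_not] at e2 e8
  refine (le_of_eq (by ring)).trans ((two_alg hC₂ (hbase p) (hbase (!p))
    (mul_pos (hB p) (hA1 p)) (mul_pos (hB (!p)) (hA1 (!p))) (hN p).1 (hN (!p)).1 (hVI p)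
    (by rw [mul_comm]; exact hid) (hI p) e2 (hN p).2 (hN (!p)).2 hC₁.le).trans (le_of_eq (by ring)))

end Vale.Agent.P167.N.QL
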