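import Vale.Agent.P167.N.QL.Al11

/-!
# P167, the range `0 < q < 1`, block Q-LAM: assembly, the inequality D0
-/

set_option autoImplicit false

namespace Vale.Agent.P167.N.QL

open Finset Filter Vale.Agent.P167.BR Vale.Agent.P167.FK
open Vale.Agent.P167.E6 (IsPolygon Encloses face dir)
open Vale.Agent.P167.H718 (Dob rc IsCl)
open Vale.Agent.P167.H192.Q (SRSW)
open Vale.Agent.P167.H975 (TX)

variable {θ : ℝ} {n : ℕ} {a : ℤ × ℤ} {r : ℤ}

/-- The centres of the image of D0 off the junction. -/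
theorem pc_d0 (h0 : 0 < θ) (h1 : θ < Real.pi / 2) (h6 : Real.pi / 3 < θ) (hn : 12000 ≤ n)
    (hG : GeoP (2 * n) (4 * (2 * n)) (dsq n a)) (hr : 2 * (r + 1) ≤ ((n / 2 : ℕ) : ℤ)) {j : ℕ}
    (hj : j ∈ dsJ n) (hj4 : j ≠ 4 * n) :
    PC θ (bt θ) (dsq n a) (dsD n a) (4 * n) (d0I θ n) (wl θ)
      (dsq n a (j : ZMod (4 * (2 * n)))) r := by
  unfold d0I
  unfold dsJ at hj
  simp only [mem_insert, mem_singleton] at hj
  rcases hj with rfl | rfl | rfl | rfl | rfl | rfl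
  · exact ds_pc_base h0 h1 hn hG hr (((((WB.nil.cons (by omega)).cons (by omega)).cons
      (by omega)).cons (by omega)).cons (by omega)) (abs_bt (by simp only [tot_cons, tot_nil]; linarith)
        (by simp only [tot_cons, tot_nil]; linarith))
  · have e : stI [(j, -(θ / 2)), (3 * j, -(θ / 2)), (4 * j, Real.pi - θ), (5 * j, -(θ / 2)),
        (7 * j, -(θ / 2))] j = -(θ / 2) + 0 := by
      repeat first | rw [stI_hit rfl] | rw [stI_skip (by omega)]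
      rfl
    exact ds_pc_mid h0 h1 hn hG hr (by omega) (by omega) (by omega)
      (((((WL.nil.cons (by omega)).cons (by omega)).cons (by omega)).cons (by omega)).cons (by omega))
      (by rw [e]; linarith) (by rw [e]; linarith)
  · have e : stI [(n, -(θ / 2)), (3 * n, -(θ / 2)), (4 * n, Real.pi - θ), (5 * n, -(θ / 2)),
        (7 * n, -(θ / 2))] (3 * n) = -(θ / 2) + 0 := by
      repeat first | rw [stI_hit rfl] | rw [stI_skip (by omega)]
      rfl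
    exact ds_pc_mid h0 h1 hn hG hr (by omega) (by omega) (by omega)
      (((((WL.nil.cons (by omega)).cons (by omega)).cons (by omega)).cons (by omega)).cons (by omega))
      (by rw [e]; linarith) (by rw [e]; linarith)
  · exact absurd rfl hj4
  · have e : stI [(n, -(θ / 2)), (3 * n, -(θ / 2)), (4 * n, Real.pi - θ), (5 * n, -(θ / 2)),
        (7 * n, -(θ / 2))] (5 * n) = -(θ / 2) + 0 := by
      repeat first | rw [stI_hit rfl] | rw [stI_skip (by omega)]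
      rfl
    exact ds_pc_mid h0 h1 hn hG hr (by omega) (by omega) (by omega)
      (((((WL.nil.cons (by omega)).cons (by omega)).cons (by omega)).cons (by omega)).cons (by omega))
      (by rw [e]; linarith) (by rw [e]; linarith)
  · have e : stI [(n, -(θ / 2)), (3 * n, -(θ / 2)), (4 * n, Real.pi - θ), (5 * n, -(θ / 2)),
        (7 * n, -(θ / 2))] (7 * n) = -(θ / 2) + 0 := by
      repeat first | rw [stI_hit rfl] | rw [stI_skip (by omega)]
      rfl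
    exact ds_pc_mid h0 h1 hn hG hr (by omega) (by omega) (by omega)
      (((((WL.nil.cons (by omega)).cons (by omega)).cons (by omega)).cons (by omega)).cons (by omega))
      (by rw [e]; linarith) (by rw [e]; linarith)

/-- The window at the junction. -/
theorem ds_win4 (hn : 0 < n) : WinI (n / 2) (4 * (2 * n)) (dsT n) (4 * n) 0 := by
  have e : jB (4 * (2 * n)) (4 * n) = 4 * n := by
    unfold jB
    rw [if_neg (by omega)]
  have e1 : ∀ i, 3 * n ≤ i → i < 5 * n → dsT n i = dsT n (4 * n) := fun i h1 h2 => by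
    rw [dsT_eq hn (by omega), dsT_eq hn (by omega)]
    repeat first | rw [if_pos (by omega)] | rw [if_neg (by omega)]
  refine ⟨by omega, ?_, ?_, ?_⟩
  · rw [e]
    refine ⟨fun i h1 h2 => ?_, fun i h1 h2 => ?_⟩
    · rw [e1 i (by omega) (by omega)]
    · rw [e1 i (by omega) (by omega), e1 (4 * n - 1) (by omega) (by omega)]
  · rw [e]
    omega
  · rw [e, e1 (4 * n - 1) (by omega) (by omega)]
    norm_num

theorem d0_inc {i : ℕ} (hi : 4 * n < i + n / 2) (hi' : i ≤ 4 * n + n / 2)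
    (h0 : 0 < i) : d0I θ n i - d0I θ n (i - 1) = if i = 4 * n then Real.pi - θ else 0 := by
  unfold d0I
  rw [stp_inc _ h0, stI_skip (by omega), stI_skip (by omega)]
  by_cases h : i = 4 * n
  · rw [if_pos h, stI_hit h.symm, stI_skip (by omega), stI_skip (by omega), stI_nil, add_zero]
  · rw [if_neg h, stI_skip (fun h' => h h'.symm), stI_skip (by omega), stI_skip (by omega), stI_nil]

theorem near_dz0 (hn : 0 < n) : (dsP n a (d0I θ n) (dsJ n)).Near := by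
  refine near_stp hn (Subset.refl _) (dsJ_lt hn) ?_
  unfold dsJ
  simp

/-- The mean values of the image of D0 are nonnegative. -/
theorem d0_nn (h0 : 0 < θ) (h1 : Ang θ) (hR : RSW (2 * Real.cos θ))
    (hS : SRSW (2 * Real.cos θ)) :
    ∃ ρ₁ : ℝ, 0 < ρ₁ ∧ ∀ ρ : ℝ, 0 < ρ → ρ ≤ ρ₁ → ∃ n₀ : ℕ, ∀ n : ℕ, n₀ ≤ n →
      ∀ (p : Bool) (η : Cfg), Dob η (dsD n (ev p)) (dsq n (ev p)) (4 * n) →
        ∀ j ∈ dsJ n, 0 ≤ dE θ n (ev p) (d0I θ n) η ⌊ρ * n⌋ j := by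
  have hw := wl_pos h0 h1.lt
  obtain ⟨b₀, B, Λ, W, KE, CE, hK, HK⟩ := kc_jun h1 hR
  have hW' : (1 : ℝ) ≤ W := by exact_mod_cast hK.W1
  obtain ⟨ρ₁, hρ₁, H⟩ := up_abs (σ := 1 / (200 * W)) (b := b₀) (B := B) (c0 := wl θ) (Λ := Λ)
    (CE := CE) h0 h1 (cos_bt θ) hR hS dsR 7 KE
    ⟨by positivity, hK.bp, hK.b1, hK.B1, hw, wl_le_one θ, hK.L1, hK.C1⟩
  refine ⟨ρ₁, hρ₁, fun ρ hρ hρ1 => ?_⟩
  obtain ⟨C, n₀, hC, H⟩ := H ρ hρ hρ1
  refine ⟨max n₀ (max 12000 (200 * W.toNat)), fun n hn p η hη => ?_⟩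
  have hn1 : 12000 ≤ n := (le_max_left _ _).trans ((le_max_right _ _).trans hn)
  have hn2 : 200 * W.toNat ≤ n := (le_max_right _ _).trans ((le_max_right _ _).trans hn)
  have hn0 : 0 < n := by omega
  obtain ⟨η₀, hL⟩ := ds_lkD hn1 (ev p)
  obtain ⟨f1, f2⟩ := fl_W hK.W1 hn1
  have f3 := fl_W1 hK.W1 hn2
  have f4 := fl200 hn1
  have hr : 2 * (⌊(1 / (200 * W) : ℝ) * n⌋ + 1) ≤ ((n / 2 : ℕ) : ℤ) := by
    have := f1.trans f4
    push_cast at this ⊢
    omega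
  obtain ⟨k1, -⟩ := H n ((le_max_left _ _).trans hn) (dsP n (ev p) (d0I θ n) (dsJ n))
    η₀ ((ds_Rg hn1 hL (near_dz0 hn0) (Or.inl rfl)).mono
      (div_le_div_of_nonneg_left zero_le_one (by norm_num) (by linarith))) (by
    intro j hj
    change j ∈ dsJ n at hj
    by_cases h7 : j = 4 * n
    · right
      subst h7
      refine HK hL (cos_bt θ) (ds_win4 hn0) (by
        show 0 < 4 * n
        omega) (by
        show 4 * n + n / 2 < 4 * (2 * n)
        omega) (by omega) (fun i h5 h6 h7 h8 => ?_) ?_ ?_ ?_ ?_ f3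
      · show d0I θ n i = d0I θ n (i - 1)
        have h9 := d0_inc (θ := θ) h5 h6 h7
        rw [if_neg (show ¬ i = 4 * n from h8)] at h9
        linarith
      · show Real.cos (θ / 2 + bt θ + (d0I θ n (4 * n) - d0I θ n (4 * n - 1))) = 0
        rw [d0_inc (by omega) (by omega) (by omega), if_pos rfl]
        unfold bt
        have : θ / 2 + (θ - Real.pi) / 2 + (Real.pi - θ) = Real.pi / 2 := by ring
        rw [this, Real.cos_pi_div_two]
      · push_cast at f2 ⊢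
        omega
      · push_cast at f2 ⊢
        omega
      · push_cast at f2 ⊢
        omega
    · left
      exact pc_d0 h0 h1.lt h1.gt hn1 hL.geo hr hj h7) η hη
  exact k1

theorem one_alg {c X Y V W : ℝ} (hc : 0 < c) (hX : 0 ≤ X) (hY : 0 ≤ Y) (h1 : c * X ≤ V)
    (h2 : c * Y ≤ W) (h : V * W = 1) : X * Y ≤ (c ^ 2)⁻¹ := by
  have hV : 0 ≤ V := le_trans (by positivity) h1
  have key : (c * X) * (c * Y) ≤ 1 := by
    rw [← h]
    exact mul_le_mul h1 h2 (by positivity) hV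
  rw [← one_div, le_div_iff₀ (by positivity)]
  refine le_trans (le_of_eq ?_) key
  ring

/-- **The inequality D0.** -/
theorem d0_ineq (h0 : 0 < θ) (h1 : Ang θ) (hR : RSW (2 * Real.cos θ))
    (hS : SRSW (2 * Real.cos θ)) :
    ∃ ρ₁ : ℝ, 0 < ρ₁ ∧ ∀ ρ : ℝ, 0 < ρ → ρ ≤ ρ₁ → ∃ (C : ℝ) (n₀ : ℕ), 0 < C ∧ ∀ n : ℕ, n₀ ≤ n →
      ∀ η : Bool → Cfg, (∀ p, Dob (η p) (dsD n (ev p)) (dsq n (ev p)) (4 * n)) → ∀ p : Bool,
        0 ≤ dJ θ n η ⌊ρ * n⌋ p (d0I θ n) ∧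
        (dJ θ n η ⌊ρ * n⌋ p (d0I θ n) * dJ θ n η ⌊ρ * n⌋ (!p) (d0I θ n)) *
          ((dF θ n η ⌊ρ * n⌋ p * dF θ n η ⌊ρ * n⌋ (!p)) *
            (dG θ n η ⌊ρ * n⌋ p * dG θ n η ⌊ρ * n⌋ (!p))) ≤ C := by
  obtain ⟨ρ₁, hρ₁, H1⟩ := d0_nn h0 h1 hR hS
  obtain ⟨ρ₂, hρ₂, H2⟩ := low_d0 h0 h1 hR hS
  refine ⟨min (min ρ₁ ρ₂) (1 / 200), by positivity, fun ρ hρ hρ' => ?_⟩
  obtain ⟨n₁, H1⟩ := H1 ρ hρ (hρ'.trans ((min_le_left _ _).trans (min_le_left _ _)))
  obtain ⟨c₂, n₂, hc₂, H2⟩ := H2 ρ hρ (hρ'.trans ((min_le_left _ _).trans (min_le_right _ _)))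
  have hρ200 : ρ ≤ 1 / 200 := hρ'.trans (min_le_right _ _)
  refine ⟨(c₂ ^ 2)⁻¹, max (max n₁ n₂) 12000, by positivity, fun n hn η hη p => ?_⟩
  have g1 : n₁ ≤ n := le_trans (le_trans (le_max_left _ _) (le_max_left _ _)) hn
  have g2 : n₂ ≤ n := le_trans (le_trans (le_max_right _ _) (le_max_left _ _)) hn
  have g5 : 12000 ≤ n := le_trans (le_max_right _ _) hn
  have hn0 : 0 < n := by omega
  have hr := rad_le hρ200 g5
  obtain ⟨r, hr'⟩ : ∃ r : ℤ, r = ⌊ρ * (n : ℝ)⌋ := ⟨_, rfl⟩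
  have hs := h1.sin_pos
  have hc := h1.cos_pos
  have hgeo : ∀ p : Bool, GeoP (2 * n) (4 * (2 * n)) (dsq n (ev p)) := fun p => by
    obtain ⟨η₀, hL⟩ := ds_lkD g5 (ev p)
    exact hL.geo
  rw [← hr'] at hr ⊢
  have P3 : DSp θ n (fwR θ n) := Or.inr (Or.inr (Or.inl rfl))
  have P4 : DSp θ n (fwI θ n) := Or.inr (Or.inr (Or.inr rfl))
  have pos : ∀ (φ : ℕ → ℝ), DSp θ n φ → ∀ (p : Bool) (j : ℕ), 0 < dE θ n (ev p) φ (η p) r j :=
    fun φ hφ p j => dE_pos_of h0 h1 hφ hn0 _ _ _ _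
  have hF : ∀ p, 0 < dF θ n η r p := fun p => mul_pos (pos _ P3 p _) (pos _ P3 p _)
  have hG : ∀ p, 0 < dG θ n η r p := fun p => mul_pos (pos _ P4 p _) (pos _ P4 p _)
  have hJ : ∀ p, 0 ≤ dJ θ n η r p (d0I θ n) := fun p => by
    have h := H1 n g1 p (η p) (hη p)
    rw [← hr'] at h
    exact mul_nonneg (h 0 (by unfold dsJ; simp)) (h (4 * n) (by unfold dsJ; simp))
  have hV : ∀ p, c₂ * (dJ θ n η r p (d0I θ n) * (dF θ n η r p * dG θ n η r p)) ≤
      VP θ (bt θ) (dsP n (ev p) (d0I θ n) (dsJ n)) := fun p => by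
    have h := H2 n g2 p (η p) (hη p)
    rw [← hr', pr_d0I g5 (hgeo p) hc hr] at h
    refine le_trans (le_of_eq ?_) h
    unfold dJ dF dG
    ring
  have hid : VP θ (bt θ) (dsP n (ev (!p)) (d0I θ n) (dsJ n)) *
      VP θ (bt θ) (dsP n (ev p) (d0I θ n) (dsJ n)) = 1 := by
    have h := ds_two hs hc hn0 p (fun _ => 0) (fun _ => 0) (dsJ n) (dsJ n) (dsJ n) (dsJ n)
    have k1 : ∀ a, VP θ (bt θ) (dsP n a (imR θ (dsT n) (4 * n) fun _ => 0) (dsJ n)) =
        VP θ (bt θ) (dsP n a (d0I θ n) (dsJ n)) := fun a => VP_eqD (im_d0 hn0)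
    have k2 : ∀ a, VP θ (bt θ) (dsP n a (fun _ => 0) (dsJ n)) = 1 := fun a =>
      VP_zero (ds_poly hn0 a) (ds_encl hn0 a) hs hc (cos_bt θ) _
    rwa [k1, k1, k2, k2, one_mul] at h
  have n2 : 0 ≤ dJ θ n η r (!p) (d0I θ n) * (dF θ n η r (!p) * dG θ n η r (!p)) :=
    mul_nonneg (hJ (!p)) (mul_pos (hF (!p)) (hG (!p))).le
  have n1 : 0 ≤ dJ θ n η r p (d0I θ n) * (dF θ n η r p * dG θ n η r p) :=
    mul_nonneg (hJ p) (mul_pos (hF p) (hG p)).le
  exact ⟨hJ p, (le_of_eq (by ring)).trans (one_alg hc₂ n1 n2 (hV p) (hV (!p))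
    ((mul_comm _ _).trans hid))⟩

end Vale.Agent.P167.N.QL
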