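import Vale.Agent.P167.N.QL.LkZ

/-!
# P167, the range `0 < q < 1`, block Q-LAM (LK): construction of `PhW`

`phW_jun`: the junctions agree. `PhW.of_jumps`: the phases agree if their jumps agree. `PhW.rc`,
`PhW.sub`: the phases of the parity images.
-/

set_option autoImplicit false

namespace Vale.Agent.P167.N.QL

open Finset Vale.Agent.P167 Vale.Agent.P167.BR
open Vale.Agent.P167.H718 (rc)

variable {N k N' k' : ℕ} {q : ZMod N → ℤ × ℤ} {q' : ZMod N' → ℤ × ℤ} {D D' : Finset (ℤ × ℤ)}
  {η η' : Cfg} {θ β : ℝ} {ρ ρ' ρ₁ ρ₁' : ℕ → ℝ} {τ τ' : ℕ → ℤ} {m m' : ℤ}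
  {j j' d n n' L L' : ℕ}

/-- Both indices are in the interior, far from the base, or both are the base. -/
def MB (d N j N' j' : ℕ) : Prop :=
  (0 < j ∧ d ≤ j ∧ j + d < N ∧ 0 < j' ∧ d ≤ j' ∧ j' + d < N') ∨
    (j = 0 ∧ j' = 0 ∧ 2 * d < N ∧ 2 * d < N')

/-- The junctions agree. -/
theorem phW_jun (h : LkD n N q D k τ L m η) (h' : LkD n' N' q' D' k' τ' L' m' η')
    (hty : cty N k j = cty N' k' j') (hF : FarI N k L j) (hF' : FarI N' k' L' j') (hd : d < L)
    (hd' : d < L') (hM : MB d N j N' j') :
    PhW d N k j (fun _ => 0) N' k' j' (fun _ => 0) := by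
  have s1 := h.ksep
  have s2 := h'.ksep
  have s3 := h.kle
  have s4 := h'.kle
  unfold FarI at hF hF'
  rcases hM with ⟨a1, a2, a3, a4, a5, a6⟩ | ⟨rfl, rfl, a1, a2⟩
  · refine Or.inl ⟨a1, a4, a2, a3, a5, a6, fun i h1 h2 => ?_, fun _ _ _ => rfl⟩
    unfold cty at hty
    split_ifs at hty <;> omega
  · refine Or.inr ⟨rfl, rfl, a1, a2, fun i h1 => ?_, fun i h1 h2 => ?_, fun _ _ => rfl,
      fun _ _ _ => rfl⟩
    · unfold cty at hty
      split_ifs at hty <;> omega
    · unfold cty at hty
      split_ifs at hty <;> omega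

/-- The phases agree if their jumps agree (and, for the base, their total variations). -/
theorem PhW.of_jumps (h : PhW d N k j ρ₁ N' k' j' ρ₁')
    (hJ : 0 < j → ∀ i, j < i + d → i ≤ j + d → 0 < i →
      ρ' (i + j' - j) - ρ' (i + j' - j - 1) = ρ i - ρ (i - 1))
    (hB : j = 0 → (∀ i, 0 < i → i ≤ d → ρ' i - ρ' (i - 1) = ρ i - ρ (i - 1)) ∧
      (∀ i < N, N < i + d → ρ' (i + N' - N) - ρ' (i + N' - N - 1) = ρ i - ρ (i - 1)) ∧
      ρ' (N' - 1) - ρ' 0 = ρ (N - 1) - ρ 0) :
    PhW d N k j ρ N' k' j' ρ' := by
  rcases h with h | ⟨rfl, rfl, h⟩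
  · left
    have h0 := h.pos
    have h0' := h.pos'
    have h1 := h.le
    have h2 := h.lt
    have h3 := h.le'
    have h4 := h.lt'
    have hJ := hJ h0
    refine ⟨h0, h0', h1, h2, h3, h4, h.jun, ?_⟩
    -- upwards
    have up : ∀ x ≤ d, ρ' (j' + x) - ρ' j' = ρ (j + x) - ρ j := by
      intro x
      induction x with
      | zero => intro _; simp
      | succ x ih =>
        intro hx
        have e1 := ih (by omega)
        have e2 := hJ (j + x + 1) (by omega) (by omega) (by omega)
        rw [show j + x + 1 + j' - j = j' + (x + 1) by omega,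
          show j' + (x + 1) - 1 = j' + x by omega, show j + x + 1 - 1 = j + x by omega] at e2
        rw [show j + (x + 1) = j + x + 1 by omega]
        linarith
    have dn : ∀ x ≤ d, ρ' (j' - x) - ρ' j' = ρ (j - x) - ρ j := by
      intro x
      induction x with
      | zero => intro _; simp
      | succ x ih =>
        intro hx
        have e1 := ih (by omega)
        have e2 := hJ (j - x) (by omega) (by omega) (by omega)
        rw [show j - x + j' - j = j' - x by omega,
          show j' - x - 1 = j' - (x + 1) by omega, show j - x - 1 = j - (x + 1) by omega] at e2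
        linarith
    intro i h5 h6
    rcases le_total j i with h7 | h7
    · have e := up (i - j) (by omega)
      rwa [show j' + (i - j) = i + j' - j by omega, show j + (i - j) = i by omega] at e
    · have e := dn (j - i) (by omega)
      rwa [show j' - (j - i) = i + j' - j by omega, show j - (j - i) = i by omega] at e
  · right
    obtain ⟨b1, b2, b3⟩ := hB rfl
    have h1 := h.lt
    have h2 := h.lt'
    refine ⟨rfl, rfl, h1, h2, h.jun, h.jun', ?_, ?_⟩
    · intro i
      induction i with
      | zero => intro _; simp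
      | succ x ih =>
        intro hx
        have e1 := ih (by omega)
        have e2 := b1 (x + 1) (by omega) hx
        rw [Nat.add_sub_cancel] at e2
        linarith
    · have dn : ∀ x, x + 1 ≤ d → ρ' (N' - 1 - x) - ρ' 0 = ρ (N - 1 - x) - ρ 0 := by
        intro x
        induction x with
        | zero => intro _; exact b3
        | succ x ih =>
          intro hx
          have e1 := ih (by omega)
          have e2 := b2 (N - 1 - x) (by omega) (by omega)
          rw [show N - 1 - x + N' - N = N' - 1 - x by omega,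
            show N' - 1 - x - 1 = N' - 1 - (x + 1) by omega,
            show N - 1 - x - 1 = N - 1 - (x + 1) by omega] at e2
          linarith
      intro i h5 h6
      have e := dn (N - 1 - i) (by omega)
      rwa [show N' - 1 - (N - 1 - i) = i + N' - N by omega,
        show N - 1 - (N - 1 - i) = i by omega] at e

/-- Differences of the phases. -/
theorem PhW.sub (h : PhW d N k j ρ N' k' j' ρ') (h₁ : PhW d N k j ρ₁ N' k' j' ρ₁') :
    PhW d N k j (fun i => ρ₁ i - ρ i) N' k' j' (fun i => ρ₁' i - ρ' i) := by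
  rcases h with h | ⟨rfl, rfl, h⟩
  · rcases h₁ with h₁ | ⟨h0, -, -⟩
    · refine Or.inl ⟨h.pos, h.pos', h.le, h.lt, h.le', h.lt', h.jun, fun i a b => ?_⟩
      have e1 := h.ph i a b
      have e2 := h₁.ph i a b
      linarith
    · have := h.pos
      omega
  · rcases h₁ with h₁ | ⟨-, -, h₁⟩
    · have := h₁.pos
      omega
    · refine Or.inr ⟨rfl, rfl, h.lt, h.lt', h.jun, h.jun', fun i a => ?_, fun i a b => ?_⟩
      · have e1 := h.ph i a
        have e2 := h₁.ph i a
        linarith
      · have e1 := h.ph' i a b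
        have e2 := h₁.ph' i a b
        linarith

/-- The phases of the parity image of the zero functional. -/
theorem PhW.rc (h : PhW d N k j ρ N' k' j' ρ') (g : LkD n N q D k τ L m η)
    (g' : LkD n' N' q' D' k' τ' L' m' η') (hI : SameI d N k q τ j N' k' q' τ' j') :
    PhW d N k j (rc θ β τ k) N' k' j' (rc θ β τ' k') := by
  have hs := hI.str
  have hs' := hI.str'
  have ht := hI.turn
  have key : ∀ a b a' b' : ℕ, (a' < k' ↔ a < k) → (b' < k' ↔ b < k) → τ' a' - τ' b' = τ a - τ b →
      H718.rc θ β τ' k' a' - H718.rc θ β τ' k' b' = H718.rc θ β τ k a - H718.rc θ β τ k b := by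
    intro a b a' b' h1 h2 h3
    have h3' : (τ' a' : ℝ) - τ' b' = τ a - τ b := by exact_mod_cast h3
    unfold H718.rc
    simp only [h1, h2]
    linear_combination (-(θ / 2)) * h3'
  rcases h with h | ⟨rfl, rfl, h⟩
  · obtain ⟨e1, e2⟩ := h.jnj
    rw [e1] at hs ht
    rw [e2] at hs' ht
    refine Or.inl ⟨h.pos, h.pos', h.le, h.lt, h.le', h.lt', h.jun, fun i a b => ?_⟩
    have h5 := h.jun j (by omega) (by omega)
    rw [show j + j' - j = j' by omega] at h5
    have b1 := h.le
    have b2 := h.le'
    have b3 := h.pos'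
    refine key _ _ _ _ (h.jun i a b) h5 ?_
    rcases le_or_gt j i with h7 | h7
    · rw [hs.1 i h7 b, hs'.1 (i + j' - j) (by omega) (by omega)]
      ring
    · rw [hs.2 i a h7, hs'.2 (i + j' - j) (by omega) (by omega)]
      linarith
  · have e1 : jB N 0 = N := rfl
    have e2 : jB N' 0 = N' := rfl
    rw [e1] at hs ht
    rw [e2] at hs' ht
    have p := g.per 0
    have p' := g'.per 0
    rw [zero_add] at p p'
    refine Or.inr ⟨rfl, rfl, h.lt, h.lt', h.jun, h.jun', fun i a => ?_, fun i a b => ?_⟩
    · refine key _ _ _ _ (h.jun i a) (h.jun 0 (by omega)) ?_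
      have f1 := hs.1 (i + N) (by omega) (by omega)
      have f2 := hs'.1 (i + N') (by omega) (by omega)
      rw [g.per, p] at f1
      rw [g'.per, p'] at f2
      omega
    · refine key _ _ _ _ (h.jun' i a b) (h.jun 0 (by omega)) ?_
      have b1 := h.lt
      have b2 := h.lt'
      have f1 := hs.2 i (by omega) a
      have f2 := hs'.2 (i + N' - N) (by omega) (by omega)
      omega

end Vale.Agent.P167.N.QL
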