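import Vale.Agent.P167.N.QL.Al12
import Vale.Agent.P167.N.QL.LkR

/-!
# P167, the range `0 < q < 1`, block Q-LAM: assembly, types of centres and their comparison
-/

set_option autoImplicit false

namespace Vale.Agent.P167.N.QL

open Finset Filter Vale.Agent.P167.BR Vale.Agent.P167.FK
open Vale.Agent.P167.E6 (IsPolygon Encloses face dir)
open Vale.Agent.P167.H718 (Dob rc IsCl)
open Vale.Agent.P167.H192.Q (SRSW)
open Vale.Agent.P167.H975 (TX)

variable {θ β : ℝ} {P P' : PD} {τ τ' : ℕ → ℤ} {n n' d d' L L' j j' : ℕ} {t : ℤ} {w ev : Bool}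
  {f : ℤ → ℝ} {r R m m' : ℤ} {η η' η₀ η₀' : Cfg}

/-- **The type of an interior centre**: the turn, the kind of the arc, the parity of the site, the
increments of the phases. -/
structure CM (d : ℕ) (P : PD) (τ : ℕ → ℤ) (L j : ℕ) (t : ℤ) (w ev : Bool) (f : ℤ → ℝ) : Prop where
  win : WinI d P.N τ j t
  pos : 0 < j
  lt : j + d < P.N
  jk : j + d < P.k ∨ P.k + d ≤ j
  far : FarI P.N P.k L j
  wi : P.k ≤ j ↔ w = true
  par : Even ((P.q (j : ZMod P.N)).1 + (P.q (j : ZMod P.N)).2) ↔ ev = true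
  inc : ∀ i, j < i + d → i ≤ j + d → 0 < i → P.ρ i - P.ρ (i - 1) = f ((i : ℤ) - j)

theorem WinI.mn {N : ℕ} (h : WinI d N τ j t) (hd : d' ≤ d) : WinI d' N τ j t :=
  ⟨h.lt, h.str.mono hd, hd.trans h.le, h.turn⟩

theorem CM.mono (h : CM d P τ L j t w ev f) (hd : d' ≤ d) : CM d' P τ L j t w ev f := by
  have h1 := h.lt
  have h2 := h.jk
  exact ⟨h.win.mn hd, h.pos, by omega, by omega, h.far, h.wi, h.par,
    fun i h3 h4 h5 => h.inc i (by omega) (by omega) h5⟩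

theorem CM.cty (h : CM d P τ L j t w ev f) (hd : 0 < d) :
    cty P.N P.k j = if w = true then 1 else 0 := by
  have h1 := h.wi
  have h2 := h.jk
  have h3 := h.pos
  unfold QL.cty
  by_cases hw : w = true
  · rw [if_pos hw]
    have h4 := h1.2 hw
    split_ifs <;> omega
  · rw [if_neg hw]
    have h4 : ¬ P.k ≤ j := fun h => hw (h1.1 h)
    split_ifs <;> omega

theorem CM.same (h : CM d P τ L j t w ev f) (h' : CM d P' τ' L' j' t w ev f) (hd : 0 < d) :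
    SameI d P.N P.k P.q τ j P'.N P'.k P'.q τ' j' :=
  ⟨h.win.lt, h'.win.lt, h.win.str, h'.win.str, h.win.le, h'.win.le, by rw [h.win.turn, h'.win.turn],
    h.par.trans h'.par.symm, (h.cty hd).trans (h'.cty hd).symm⟩

theorem CM.ph (h : CM d P τ L j t w ev f) (h' : CM d P' τ' L' j' t w ev f) (hd : 0 < d) :
    PhW d P.N P.k j P.ρ P'.N P'.k j' P'.ρ := by
  have h1 := h.pos
  have h2 := h'.pos
  have h3 := h.lt
  have h4 := h'.lt
  have e1 : jB P.N j = j := by unfold jB; rw [if_neg (by omega)]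
  have e2 : jB P'.N j' = j' := by unfold jB; rw [if_neg (by omega)]
  have h5 := h.win.le
  have h6 := h'.win.le
  rw [e1] at h5
  rw [e2] at h6
  have h7 := h.jk
  have h8 := h'.jk
  have h9 := h.wi
  have h10 := h'.wi
  have h11 : P.k ≤ j ↔ P'.k ≤ j' := h9.trans h10.symm
  refine PhW.of_jumps (ρ₁ := fun _ => 0) (ρ₁' := fun _ => 0)
    (Or.inl ⟨h1, h2, h5, h3, h6, h4, fun i h12 h13 => ?_, fun _ _ _ => rfl⟩)
    (fun _ i h12 h13 h14 => ?_) fun h0 => by omega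
  · constructor <;> intro h14 <;> omega
  · rw [h.inc i h12 h13 h14, h'.inc (i + j' - j) (by omega) (by omega) (by omega)]
    congr 1
    omega

/-- Nonnegative local factors. -/
def TN (θ β : ℝ) (P : PD) (j : ℕ) (r : ℤ) : Prop :=
  ∀ ω, 0 ≤ TX (wP θ β P.q P.D P.k P.ρ) P.D (P.q (j : ZMod P.N)) r ω

theorem TN.abs (h : TN θ β P j r) :
    Ex (2 * Real.cos θ) P.D η (fun ω => |TX (wP θ β P.q P.D P.k P.ρ) P.D (P.q (j : ZMod P.N)) r ω|) =
      P.e θ β η r j := by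
  unfold PD.e
  congr 1
  funext ω
  exact abs_of_nonneg (h ω)

theorem TN.nn (hQ : 0 < 2 * Real.cos θ) (h : TN θ β P j r) : 0 ≤ P.e θ β η r j :=
  e_nonneg hQ h

theorem TN.of_pc {c0 : ℝ} (h0 : 0 < c0)
    (h : PC θ β P.q P.D P.k P.ρ c0 (P.q (j : ZMod P.N)) r) : TN θ β P j r :=
  fun ω => (TX_pos' h0 h ω).le

theorem TN.of_kc {b B : ℝ} {Λ : ℤ} {KE : ℕ → ℤ} {CE : ℕ → ℝ} {r₀ : ℤ} (hb : 0 < b)
    (h : KC θ β P.q P.D P.k P.ρ η b B Λ KE CE (P.q (j : ZMod P.N)) r₀) (hr : 1 ≤ r) (hr0 : r ≤ r₀) :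
    TN θ β P j r := by
  obtain ⟨I, h1, -⟩ := h
  exact fun ω => (mul_nonneg hb.le (h1.nn (by omega) hr0 ω).1).trans (h1.low r ω (by omega) hr0)

/-- **The comparison of interior centres.** -/
theorem cmp_mid (h1 : Ang θ) (hR : RSW (2 * Real.cos θ)) (hS : SRSW (2 * Real.cos θ)) : ∃ K : ℝ, 1 ≤ K ∧
    ∀ {β : ℝ} {P P' : PD} {τ τ' : ℕ → ℤ} {n n' d L L' j j' : ℕ} {t : ℤ} {w ev : Bool}
      {f : ℤ → ℝ} {r R m m' : ℤ} {η₀ η₀' : Cfg},
      LkD n P.N P.q P.D P.k τ L m η₀ → LkD n' P'.N P'.q P'.D P'.k τ' L' m' η₀' →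
      CM d P τ L j t w ev f → CM d P' τ' L' j' t w ev f →
      3 * (R + 1) < n → 3 * (R + 1) < n' → 2 * (R + 1) ≤ d → R ≤ m → R ≤ m' → 1 ≤ r → K * r ≤ R →
      TN θ β P j r → TN θ β P' j' r →
      ∀ {η η' : Cfg}, Dob η P.D P.q P.k → Dob η' P'.D P'.q P'.k →
      P.e θ β η r j ≤ 2 * P'.e θ β η' r j' := by
  obtain ⟨K, hK, H⟩ := lkP h1.kit hR hS
  refine ⟨K, hK, fun {β P P' τ τ' n n' d L L' j j' t w ev f r R m m' η₀ η₀'} g g' h h' a1 a2 a3 a4 a5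
    a6 a7 hT hT' {η η'} hη hη' => ?_⟩
  have hr' : (1 : ℝ) ≤ r := by exact_mod_cast a6
  have hR1 : 1 ≤ R := by
    have : (1 : ℝ) ≤ R := by nlinarith
    exact_mod_cast this
  have hd : 0 < d := by omega
  have key := (H g g' (h.same h' hd) h.far h'.far (h.ph h' hd) h1.cos_pos.ne' a1 a2 a3 a4 a5 a6 a7
    (θ := θ) (β := β) hη hη').1
  rwa [hT.abs, hT'.abs] at key

end Vale.Agent.P167.N.QL
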