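import Vale.Agent.P167.N.QL.Al13

/-!
# P167, the range `0 < q < 1`, block Q-LAM: assembly, types of the centres of the special polygons
-/

set_option autoImplicit false

namespace Vale.Agent.P167.N.QL

open Finset Filter Vale.Agent.P167.BR Vale.Agent.P167.FK
open Vale.Agent.P167.E6 (IsPolygon Encloses face dir)
open Vale.Agent.P167.H718 (Dob rc IsCl)
open Vale.Agent.P167.H192.Q (SRSW)
open Vale.Agent.P167.H975 (TX)

variable {θ β : ℝ} {τ : ℕ → ℤ} {n d N c z : ℕ} {t v v' : ℤ} {w e : Bool} {L : List (ℕ × ℝ)}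
  {J : Finset ℕ} {a : ℤ × ℤ} {x : ℝ}

theorem win_of (hc : 0 < c) (hcN : c < N) (hd : d ≤ c) (h1 : ∀ i, c ≤ i → i ≤ c + d → τ i = v)
    (h2 : ∀ i, c ≤ i + d → i < c → τ i = v') (hd0 : 0 < d) (ht : v - v' = t) : WinI d N τ c t := by
  have e : jB N c = c := by
    unfold jB
    rw [if_neg (by omega)]
  refine ⟨hcN, ?_, ?_, ?_⟩
  · rw [e]
    exact ⟨fun i h3 h4 => by rw [h1 i h3 h4, h1 c le_rfl (by omega)], fun i h3 h4 => by
      rw [h2 i h3 h4, h2 (c - 1) (by omega) (by omega)]⟩
  · rw [e]
    exact hd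
  · rw [e, h1 c le_rfl (by omega), h2 (c - 1) (by omega) (by omega), ht]

/-- One jump. -/
noncomputable def fo (x : ℝ) (i : ℤ) : ℝ := if i = 0 then x else 0

/-- The natural charge at a reflex corner. -/
noncomputable def fN (θ : ℝ) (c : Bool) (i : ℤ) : ℝ := if i = (if c then 1 else 0) then θ else 0

/-- The charges at a reflex corner, image. -/
noncomputable def fI (θ : ℝ) (c : Bool) (i : ℤ) : ℝ := (if i = 0 then θ / 2 else 0) - fN θ c i

theorem WL.fo (h : WL d c L) (hx : stI L c = x) (i : ℕ) (h1 : c < i + d) (h2 : i ≤ c + d)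
    (h3 : 0 < i) : stp L i - stp L (i - 1) = fo x ((i : ℤ) - c) := by
  rw [h.inc h1 h2 h3]
  unfold QL.fo
  by_cases hi : i = c
  · rw [if_pos hi, if_pos (by omega), hx]
  · rw [if_neg hi, if_neg (by omega)]

/-! ### the Dobrushin square -/

section ds

variable (hn : 12000 ≤ n)
include hn

theorem ds_win1 (hc : c = n ∨ c = 3 * n ∨ c = 5 * n ∨ c = 7 * n) :
    WinI (n / 2) (4 * (2 * n)) (dsT n) c 1 := by
  have hn0 : 0 < n := by omega
  rcases hc with rfl | rfl | rfl | rfl
  · refine win_of (v := 1) (v' := 0) (by omega) (by omega) (by omega) (fun i h1 h2 => ?_)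
      (fun i h1 h2 => ?_) (by omega) (by norm_num) <;> rw [dsT_eq hn0 (by omega)] <;>
      repeat first | rw [if_pos (by omega)] | rw [if_neg (by omega)]
  · refine win_of (v := 2) (v' := 1) (by omega) (by omega) (by omega) (fun i h1 h2 => ?_)
      (fun i h1 h2 => ?_) (by omega) (by norm_num) <;> rw [dsT_eq hn0 (by omega)] <;>
      repeat first | rw [if_pos (by omega)] | rw [if_neg (by omega)]
  · refine win_of (v := 3) (v' := 2) (by omega) (by omega) (by omega) (fun i h1 h2 => ?_)
      (fun i h1 h2 => ?_) (by omega) (by norm_num) <;> rw [dsT_eq hn0 (by omega)] <;>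
      repeat first | rw [if_pos (by omega)] | rw [if_neg (by omega)]
  · refine win_of (v := 4) (v' := 3) (by omega) (by omega) (by omega) (fun i h1 h2 => ?_)
      (fun i h1 h2 => ?_) (by omega) (by norm_num) <;> rw [dsT_eq hn0 (by omega)] <;>
      repeat first | rw [if_pos (by omega)] | rw [if_neg (by omega)]

theorem ds_win0 (hz : (2 * n ≤ z ∧ z ≤ 2 * n + 1) ∨ (6 * n ≤ z ∧ z ≤ 6 * n + 1)) :
    WinI (n / 2) (4 * (2 * n)) (dsT n) z 0 := by
  have hn0 : 0 < n := by omega
  rcases hz with hz | hz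
  · refine win_of (v := 1) (v' := 1) (by omega) (by omega) (by omega) (fun i h1 h2 => ?_)
      (fun i h1 h2 => ?_) (by omega) (by norm_num) <;> rw [dsT_eq hn0 (by omega)] <;>
      repeat first | rw [if_pos (by omega)] | rw [if_neg (by omega)]
  · refine win_of (v := 3) (v' := 3) (by omega) (by omega) (by omega) (fun i h1 h2 => ?_)
      (fun i h1 h2 => ?_) (by omega) (by norm_num) <;> rw [dsT_eq hn0 (by omega)] <;>
      repeat first | rw [if_pos (by omega)] | rw [if_neg (by omega)]

theorem ds_CM (hw : WinI (n / 2) (4 * (2 * n)) (dsT n) c t) (h1 : n ≤ c) (h2 : c ≤ 7 * n)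
    (h3 : c + n ≤ 4 * n ∨ 5 * n ≤ c) (h4 : 4 * n ≤ c ↔ w = true)
    (h5 : Even ((dsq n a (c : ZMod (4 * (2 * n)))).1 + (dsq n a (c : ZMod (4 * (2 * n)))).2) ↔
      e = true) (hL : WL (n / 2) c L) (hx : stI L c = x) :
    CM (n / 2) (dsP n a (stp L) J) (dsT n) n c t w e (fo x) where
  win := hw
  pos := by omega
  lt := by
    show c + n / 2 < 4 * (2 * n)
    omega
  jk := by
    show c + n / 2 < 4 * n ∨ 4 * n + n / 2 ≤ c
    omega
  far := by
    right
    show (c = 0 ∨ (n ≤ c ∧ c + n ≤ 4 * (2 * n))) ∧ (c = 4 * n ∨ c + n ≤ 4 * n ∨ 4 * n + n ≤ c)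
    omega
  wi := h4
  par := h5
  inc := hL.fo hx

theorem ds_parc (hc : c = n ∨ c = 3 * n ∨ c = 5 * n ∨ c = 7 * n) (p : Bool) :
    Even ((dsq n (ev p) (c : ZMod (4 * (2 * n)))).1 + (dsq n (ev p) (c : ZMod (4 * (2 * n)))).2) ↔
      (!p) = true := by
  rw [ds_par (by omega)]
  unfold ev
  cases p
  · simp only [Bool.false_eq_true, if_false, Bool.not_false, iff_true]
    rw [Int.even_iff]
    push_cast
    omega
  · simp only [if_true, Bool.not_true, Bool.false_eq_true, iff_false]
    rw [Int.even_iff]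
    push_cast
    omega

theorem cm_fwR (hc : c = n ∨ c = 3 * n) (p : Bool) :
    CM (n / 2) (dsP n (ev p) (fwR θ n) J) (dsT n) n c 1 false (!p) (fo (-(θ / 2))) := by
  have hc' : c = n ∨ c = 3 * n ∨ c = 5 * n ∨ c = 7 * n := by tauto
  unfold fwR
  refine ds_CM hn (ds_win1 hn hc') (by omega) (by omega) (by omega) ?_ (ds_parc hn hc' p)
    (((WL.nil.cons (by omega)).cons (by omega)).cons (by omega)) ?_
  · simp only [Bool.false_eq_true, iff_false]
    omega
  · rcases hc with rfl | rfl <;>
      repeat first | rw [stI_hit rfl] | rw [stI_skip (by omega)] | rw [stI_nil] | rw [add_zero]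

theorem cm_fwI (hc : c = 5 * n ∨ c = 7 * n) (p : Bool) :
    CM (n / 2) (dsP n (ev p) (fwI θ n) J) (dsT n) n c 1 true (!p) (fo (-(θ / 2))) := by
  have hc' : c = n ∨ c = 3 * n ∨ c = 5 * n ∨ c = 7 * n := by tauto
  unfold fwI
  refine ds_CM hn (ds_win1 hn hc') (by omega) (by omega) (by omega) ?_ (ds_parc hn hc' p)
    (((WL.nil.cons (by omega)).cons (by omega)).cons (by omega)) ?_
  · simp only [iff_true]
    omega
  · rcases hc with rfl | rfl <;>
      repeat first | rw [stI_hit rfl] | rw [stI_skip (by omega)] | rw [stI_nil] | rw [add_zero]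

theorem cm_r2fR (hz : 2 * n ≤ z ∧ z ≤ 2 * n + 1)
    (he : Even ((dsq n a (z : ZMod (4 * (2 * n)))).1 + (dsq n a (z : ZMod (4 * (2 * n)))).2)) :
    CM (n / 2) (dsP n a (r2fR θ n z) J) (dsT n) n z 0 false true (fo (-θ)) := by
  unfold r2fR
  refine ds_CM hn (ds_win0 hn (Or.inl hz)) (by omega) (by omega) (by omega) ?_ (by simp only [he])
    ((((WL.nil.cons (by omega)).cons (by omega)).cons (by omega)).cons (by omega)) ?_
  · simp only [Bool.false_eq_true, iff_false]
    omega
  · repeat first | rw [stI_hit rfl] | rw [stI_skip (by omega)] | rw [stI_nil] | rw [add_zero]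

theorem cm_r2fI (hz : 2 * n ≤ z ∧ z ≤ 2 * n + 1)
    (he : ¬ Even ((dsq n a (z : ZMod (4 * (2 * n)))).1 + (dsq n a (z : ZMod (4 * (2 * n)))).2)) :
    CM (n / 2) (dsP n a (r2fI θ n z) J) (dsT n) n z 0 false false (fo θ) := by
  unfold r2fI
  refine ds_CM hn (ds_win0 hn (Or.inl hz)) (by omega) (by omega) (by omega) ?_ (by simp [he])
    ((((WL.nil.cons (by omega)).cons (by omega)).cons (by omega)).cons (by omega)) ?_
  · simp only [Bool.false_eq_true, iff_false]
    omega
  · repeat first | rw [stI_hit rfl] | rw [stI_skip (by omega)] | rw [stI_nil] | rw [add_zero]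

theorem cm_r2wR (hz : 6 * n ≤ z ∧ z ≤ 6 * n + 1)
    (he : ¬ Even ((dsq n a (z : ZMod (4 * (2 * n)))).1 + (dsq n a (z : ZMod (4 * (2 * n)))).2)) :
    CM (n / 2) (dsP n a (r2wR θ n z) J) (dsT n) n z 0 true false (fo (-θ)) := by
  unfold r2wR
  refine ds_CM hn (ds_win0 hn (Or.inr hz)) (by omega) (by omega) (by omega) ?_ (by simp [he])
    ((((WL.nil.cons (by omega)).cons (by omega)).cons (by omega)).cons (by omega)) ?_
  · simp only [iff_true]
    omega
  · repeat first | rw [stI_hit rfl] | rw [stI_skip (by omega)] | rw [stI_nil] | rw [add_zero]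

theorem cm_r2wI (hz : 6 * n ≤ z ∧ z ≤ 6 * n + 1)
    (he : Even ((dsq n a (z : ZMod (4 * (2 * n)))).1 + (dsq n a (z : ZMod (4 * (2 * n)))).2)) :
    CM (n / 2) (dsP n a (r2wI θ n z) J) (dsT n) n z 0 true true (fo θ) := by
  unfold r2wI
  refine ds_CM hn (ds_win0 hn (Or.inr hz)) (by omega) (by omega) (by omega) ?_ (by simp [he])
    ((((WL.nil.cons (by omega)).cons (by omega)).cons (by omega)).cons (by omega)) ?_
  · simp only [iff_true]
    omega
  · repeat first | rw [stI_hit rfl] | rw [stI_skip (by omega)] | rw [stI_nil] | rw [add_zero]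

end ds

/-! ### the L shape -/

section ls

variable {b : Bool} (hn : 12000 ≤ n)
include hn

theorem ls_win1 (hc : c = 3 * n ∨ c = 5 * n ∨ c = 9 * n ∨ c = 11 * n ∨ c = 15 * n) :
    WinI (n / 2) (8 * (2 * n)) (lsT n) c 1 := by
  have hn0 : 0 < n := by omega
  rcases hc with rfl | rfl | rfl | rfl | rfl
  · refine win_of (v := 1) (v' := 0) (by omega) (by omega) (by omega) (fun i h1 h2 => ?_)
      (fun i h1 h2 => ?_) (by omega) (by norm_num) <;> rw [lsT_eq hn0 (by omega)] <;>
      repeat first | rw [if_pos (by omega)] | rw [if_neg (by omega)]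
  · refine win_of (v := 2) (v' := 1) (by omega) (by omega) (by omega) (fun i h1 h2 => ?_)
      (fun i h1 h2 => ?_) (by omega) (by norm_num) <;> rw [lsT_eq hn0 (by omega)] <;>
      repeat first | rw [if_pos (by omega)] | rw [if_neg (by omega)]
  · refine win_of (v := 2) (v' := 1) (by omega) (by omega) (by omega) (fun i h1 h2 => ?_)
      (fun i h1 h2 => ?_) (by omega) (by norm_num) <;> rw [lsT_eq hn0 (by omega)] <;>
      repeat first | rw [if_pos (by omega)] | rw [if_neg (by omega)]
  · refine win_of (v := 3) (v' := 2) (by omega) (by omega) (by omega) (fun i h1 h2 => ?_)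
      (fun i h1 h2 => ?_) (by omega) (by norm_num) <;> rw [lsT_eq hn0 (by omega)] <;>
      repeat first | rw [if_pos (by omega)] | rw [if_neg (by omega)]
  · refine win_of (v := 4) (v' := 3) (by omega) (by omega) (by omega) (fun i h1 h2 => ?_)
      (fun i h1 h2 => ?_) (by omega) (by norm_num) <;> rw [lsT_eq hn0 (by omega)] <;>
      repeat first | rw [if_pos (by omega)] | rw [if_neg (by omega)]

omit hn in
theorem lsK_wi (h1 : 0 < c) (h2 : c < 8 * (2 * n)) : lsK b n ≤ c ↔ b = true := by
  unfold lsK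
  cases b
  · simp only [Bool.false_eq_true, if_false, iff_false]
    omega
  · simp

theorem ls_parc (hc : c = 3 * n ∨ c = 5 * n ∨ c = 7 * n ∨ c = 9 * n ∨ c = 11 * n ∨ c = 15 * n)
    (p : Bool) :
    Even ((lsq n (ev p) (c : ZMod (8 * (2 * n)))).1 + (lsq n (ev p) (c : ZMod (8 * (2 * n)))).2) ↔
      (!p) = true := by
  rw [ls_par (by omega)]
  unfold ev
  cases p
  · simp only [Bool.false_eq_true, if_false, Bool.not_false, iff_true]
    rw [Int.even_iff]
    push_cast
    omega
  · simp only [if_true, Bool.not_true, Bool.false_eq_true, iff_false]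
    rw [Int.even_iff]
    push_cast
    omega

theorem ls_CM {ρ : ℕ → ℝ} {f : ℤ → ℝ} (hw : WinI (n / 2) (8 * (2 * n)) (lsT n) c t) (h1 : 3 * n ≤ c)
    (h2 : c ≤ 15 * n)
    (h5 : Even ((lsq n a (c : ZMod (8 * (2 * n)))).1 + (lsq n a (c : ZMod (8 * (2 * n)))).2) ↔
      e = true)
    (hf : ∀ i, c < i + n / 2 → i ≤ c + n / 2 → 0 < i → ρ i - ρ (i - 1) = f ((i : ℤ) - c)) :
    CM (n / 2) (lsP b n a ρ J) (lsT n) n c t b e f where
  win := hw
  pos := by omega
  lt := by
    show c + n / 2 < 8 * (2 * n)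
    omega
  jk := by
    show c + n / 2 < lsK b n ∨ lsK b n + n / 2 ≤ c
    unfold lsK
    cases b
    · left; simp only [Bool.false_eq_true, if_false]; omega
    · right; simp only [if_true]; omega
  far := Or.inl fun h => lsK_out h.1 h.2
  wi := lsK_wi (by omega) (by omega)
  par := h5
  inc := hf

/-- The convex corners, natural. -/
theorem cm_lR (hc : c = 3 * n ∨ c = 5 * n ∨ c = 9 * n ∨ c = 11 * n) (c' p : Bool) :
    CM (n / 2) (lsP b n (ev p) (lR θ n c') J) (lsT n) n c 1 b (!p) (fo (-(θ / 2))) := by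
  have hz : rz n c' = 7 * n ∨ rz n c' = 7 * n + 1 := by
    unfold rz
    cases c'
    · left; simp
    · right; simp
  refine ls_CM hn (ls_win1 hn (by tauto)) (by omega) (by omega) (ls_parc hn (by tauto) p) ?_
  unfold lR
  refine (((((WL.nil.cons (by omega)).cons (by omega)).cons (by omega)).cons (by omega)).cons
    (by omega)).fo ?_
  rcases hc with rfl | rfl | rfl | rfl <;>
    repeat first | rw [stI_hit rfl] | rw [stI_skip (by omega)] | rw [stI_nil] | rw [add_zero]

/-- The convex corner, image. -/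
theorem cm_lI (c' p : Bool) :
    CM (n / 2) (lsP b n (ev p) (lI θ n c') J) (lsT n) n (15 * n) 1 b (!p) (fo (-(θ / 2))) := by
  refine ls_CM hn (ls_win1 hn (by tauto)) (by omega) (by omega) (ls_parc hn (by tauto) p) ?_
  unfold lI
  cases c'
  · simp only [Bool.false_eq_true, if_false]
    refine ((WL.nil.cons (by omega)).cons (by omega)).fo ?_
    repeat first | rw [stI_hit rfl] | rw [stI_skip (by omega)] | rw [stI_nil] | rw [add_zero]
  · simp only [if_true]
    refine (((WL.nil.cons (by omega)).cons (by omega)).cons (by omega)).fo ?_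
    repeat first | rw [stI_hit rfl] | rw [stI_skip (by omega)] | rw [stI_nil] | rw [add_zero]

/-- The reflex corner, natural. -/
theorem cm_lZ (c' p : Bool) :
    CM (n / 2) (lsP b n (ev p) (lR θ n c') J) (lsT n) n (7 * n) (-1) b (!p) (fN θ c') := by
  refine ls_CM hn (ls_win (by omega)) (by omega) (by omega) (ls_parc hn (by tauto) p)
    fun i h1 h2 h3 => ?_
  rw [lR_inc _ h1 h2 h3]
  unfold fN rz
  cases c'
  · simp only [Bool.false_eq_true, if_false]
    by_cases h : i = 7 * n
    · rw [if_pos h, if_pos (by omega)]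
    · rw [if_neg h, if_neg (by omega)]
  · simp only [if_true]
    by_cases h : i = 7 * n + 1
    · rw [if_pos h, if_pos (by omega)]
    · rw [if_neg h, if_neg (by omega)]

/-- The reflex corner, image. -/
theorem cm_lB (c' p : Bool) :
    CM (n / 2) (lsP b n (ev p) (lI θ n c') J) (lsT n) n (7 * n) (-1) b (!p) (fI θ c') := by
  refine ls_CM hn (ls_win (by omega)) (by omega) (by omega) (ls_parc hn (by tauto) p)
    fun i h1 h2 h3 => ?_
  unfold lI fI fN
  cases c'
  · simp only [Bool.false_eq_true, if_false]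
    rw [stp_inc _ h3]
    by_cases h : i = 7 * n
    · rw [if_pos (by omega), if_pos (by omega), stI_hit h.symm, stI_skip (by omega), stI_nil]
      ring
    · rw [if_neg (by omega), if_neg (by omega), stI_skip (by omega), stI_skip (by omega), stI_nil,
        sub_zero]
  · simp only [if_true]
    rw [stp_inc _ h3]
    by_cases h : i = 7 * n
    · rw [if_pos (by omega), if_neg (by omega), stI_hit h.symm, stI_skip (by omega),
        stI_skip (by omega), stI_nil]
      ring
    · by_cases h' : i = 7 * n + 1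
      · rw [if_neg (by omega), if_pos (by omega), stI_skip (by omega), stI_hit h'.symm,
          stI_skip (by omega), stI_nil]
        ring
      · rw [if_neg (by omega), if_neg (by omega), stI_skip (by omega), stI_skip (by omega),
          stI_skip (by omega), stI_nil, sub_zero]

end ls

end Vale.Agent.P167.N.QL
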