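import Vale.Agent.P167.N.QL.Al14

/-!
# P167, the range `0 < q < 1`, block Q-LAM: assembly, base and junction; the scales
-/

set_option autoImplicit false

namespace Vale.Agent.P167.N.QL

open Finset Filter Vale.Agent.P167.BR Vale.Agent.P167.FK
open Vale.Agent.P167.E6 (IsPolygon Encloses face dir)
open Vale.Agent.P167.H718 (Dob rc IsCl)
open Vale.Agent.P167.H192.Q (SRSW)
open Vale.Agent.P167.H975 (TX)

variable {θ β : ℝ} {P P' : PD} {τ τ' : ℕ → ℤ} {n n' d d' L L' j j' : ℕ} {t : ℤ} {w e : Bool}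
  {f : ℤ → ℝ} {r R m m' : ℤ} {η η' η₀ η₀' : Cfg} {T v : ℝ}

/-- The base of Dobrushin data, total phase `T`. -/
structure CB (d : ℕ) (P : PD) (τ : ℕ → ℤ) (L : ℕ) (e : Bool) (T : ℝ) : Prop where
  win : WinI d P.N τ 0 0
  lt : 2 * d < P.N
  k0 : d < P.k
  kN : P.k + d < P.N
  far : FarI P.N P.k L 0
  par : Even ((P.q 0).1 + (P.q 0).2) ↔ e = true
  ph : ∀ i ≤ d, P.ρ i = P.ρ 0
  phN : ∀ i < P.N, P.N ≤ i + d → P.ρ i = P.ρ 0 + T

/-- The junction, jump `v` of the phases. -/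
structure CJ (d : ℕ) (P : PD) (τ : ℕ → ℤ) (L : ℕ) (e : Bool) (v : ℝ) : Prop where
  win : WinI d P.N τ P.k 0
  k0 : 0 < P.k
  kN : P.k + d < P.N
  far : FarI P.N P.k L P.k
  par : Even ((P.q (P.k : ZMod P.N)).1 + (P.q (P.k : ZMod P.N)).2) ↔ e = true
  inc : ∀ i, P.k < i + d → i ≤ P.k + d → 0 < i → P.ρ i - P.ρ (i - 1) = if i = P.k then v else 0

theorem CB.mono (h : CB d P τ L e T) (hd : d' ≤ d) : CB d' P τ L e T := by
  have h1 := h.lt
  have h2 := h.k0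
  have h3 := h.kN
  exact ⟨h.win.mn hd, by omega, by omega, by omega, h.far, h.par, fun i hi => h.ph i (by omega),
    fun i h4 h5 => h.phN i h4 (by omega)⟩

theorem CJ.mono (h : CJ d P τ L e v) (hd : d' ≤ d) : CJ d' P τ L e v := by
  have h3 := h.kN
  exact ⟨h.win.mn hd, h.k0, by omega, h.far, h.par, fun i h4 h5 => h.inc i (by omega) (by omega)⟩

theorem CB.same (h : CB d P τ L e T) (h' : CB d P' τ' L' e T) :
    SameI d P.N P.k P.q τ 0 P'.N P'.k P'.q τ' 0 := by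
  have h1 := h.k0
  have h2 := h.kN
  have h1' := h'.k0
  have h2' := h'.kN
  have p1 := h.par
  have p2 := h'.par
  rw [← Nat.cast_zero] at p1 p2
  refine ⟨h.win.lt, h'.win.lt, h.win.str, h'.win.str, h.win.le, h'.win.le,
    by rw [h.win.turn, h'.win.turn], p1.trans p2.symm, ?_⟩
  have key : ∀ N k : ℕ, d < k → k + d < N → cty N k 0 = 3 := fun N k h3 h4 => by
    unfold cty
    rw [if_pos (by omega), if_neg (by omega), if_pos rfl]
  rw [key _ _ h1 h2, key _ _ h1' h2']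

theorem CJ.same (h : CJ d P τ L e v) (h' : CJ d P' τ' L' e v) :
    SameI d P.N P.k P.q τ P.k P'.N P'.k P'.q τ' P'.k := by
  have h1 := h.k0
  have h2 := h.kN
  have h1' := h'.k0
  have h2' := h'.kN
  refine ⟨h.win.lt, h'.win.lt, h.win.str, h'.win.str, h.win.le, h'.win.le,
    by rw [h.win.turn, h'.win.turn], h.par.trans h'.par.symm, ?_⟩
  have key : ∀ N k : ℕ, 0 < k → k + d < N → cty N k k = 2 := fun N k h3 h4 => by
    unfold cty
    rw [if_pos (by omega), if_pos rfl]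
  rw [key _ _ h1 h2, key _ _ h1' h2']

theorem CB.phw (h : CB d P τ L e T) (h' : CB d P' τ' L' e T) :
    PhW d P.N P.k 0 P.ρ P'.N P'.k 0 P'.ρ := by
  have h1 := h.k0
  have h2 := h.kN
  have h1' := h'.k0
  have h2' := h'.kN
  refine Or.inr ⟨rfl, rfl, h.lt, h'.lt, fun i hi => by omega, fun i h3 h4 => by omega,
    fun i hi => ?_, fun i h3 h4 => ?_⟩
  · rw [h.ph i hi, h'.ph i hi, sub_self, sub_self]
  · rw [h.phN i h3 h4, h'.phN (i + P'.N - P.N) (by omega) (by omega)]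
    ring

theorem CJ.phw (h : CJ d P τ L e v) (h' : CJ d P' τ' L' e v) :
    PhW d P.N P.k P.k P.ρ P'.N P'.k P'.k P'.ρ := by
  have h1 := h.k0
  have h2 := h.kN
  have h1' := h'.k0
  have h2' := h'.kN
  have e1 : jB P.N P.k = P.k := by unfold jB; rw [if_neg (by omega)]
  have e2 : jB P'.N P'.k = P'.k := by unfold jB; rw [if_neg (by omega)]
  have h5 := h.win.le
  have h6 := h'.win.le
  rw [e1] at h5
  rw [e2] at h6
  refine PhW.of_jumps (ρ₁ := fun _ => 0) (ρ₁' := fun _ => 0)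
    (Or.inl ⟨h1, h1', h5, h2, h6, h2', fun i h12 h13 => by omega, fun _ _ _ => rfl⟩)
    (fun _ i h12 h13 h14 => ?_) fun h0 => by omega
  rw [h.inc i h12 h13 h14, h'.inc (i + P'.k - P.k) (by omega) (by omega) (by omega)]
  by_cases hi : i = P.k
  · rw [if_pos hi, if_pos (by omega)]
  · rw [if_neg hi, if_neg (by omega)]

/-- **The comparison of bases and junctions.** -/
theorem cmp_bj (h1 : Ang θ) (hR : RSW (2 * Real.cos θ)) (hS : SRSW (2 * Real.cos θ)) : ∃ K : ℝ, 1 ≤ K ∧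
    ∀ {β : ℝ} {P P' : PD} {τ τ' : ℕ → ℤ} {n n' d L L' : ℕ} {e : Bool}
      {r R m m' : ℤ} {η₀ η₀' : Cfg},
      LkD n P.N P.q P.D P.k τ L m η₀ → LkD n' P'.N P'.q P'.D P'.k τ' L' m' η₀' →
      3 * (R + 1) < n → 3 * (R + 1) < n' → 2 * (R + 1) ≤ d → R ≤ m → R ≤ m' → 1 ≤ r → K * r ≤ R →
      ∀ {η η' : Cfg}, Dob η P.D P.q P.k → Dob η' P'.D P'.q P'.k →
      (∀ T : ℝ, CB d P τ L e T → CB d P' τ' L' e T → TN θ β P 0 r → TN θ β P' 0 r →
        P.e θ β η r 0 ≤ 2 * P'.e θ β η' r 0) ∧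
      (∀ v : ℝ, CJ d P τ L e v → CJ d P' τ' L' e v → TN θ β P P.k r → TN θ β P' P'.k r →
        P.e θ β η r P.k ≤ 2 * P'.e θ β η' r P'.k) := by
  obtain ⟨K, hK, H⟩ := lkP h1.kit hR hS
  refine ⟨K, hK, fun {β P P' τ τ' n n' d L L' e r R m m' η₀ η₀'} g g' a1 a2 a3 a4 a5
    a6 a7 {η η'} hη hη' => ⟨fun T h h' hT hT' => ?_, fun v h h' hT hT' => ?_⟩⟩
  · have key := (H g g' (h.same h') h.far h'.far (h.phw h') h1.cos_pos.ne' a1 a2 a3 a4 a5 a6 a7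
      (θ := θ) (β := β) hη hη').1
    rwa [hT.abs, hT'.abs] at key
  · have key := (H g g' (h.same h') h.far h'.far (h.phw h') h1.cos_pos.ne' a1 a2 a3 a4 a5 a6 a7
      (θ := θ) (β := β) hη hη').1
    rwa [hT.abs, hT'.abs] at key

/-! ### the scales -/

/-- The scales of the comparisons. -/
structure Sca (c K : ℝ) (n : ℕ) (r R : ℤ) : Prop where
  r1 : 1 ≤ r
  K : K * r ≤ R
  d : 2 * (R + 1) ≤ ((⌊c * n⌋₊ : ℕ) : ℤ)
  m : R ≤ ⌊c * n⌋
  n3 : 3 * (R + 1) < (n : ℤ)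

theorem sca {c K : ℝ} (hc : 0 < c) (hc1 : c ≤ 1) (hK : 1 ≤ K) : ∃ ρ₁ : ℝ, 0 < ρ₁ ∧ ∀ ρ : ℝ, 0 < ρ →
    ρ ≤ ρ₁ → ∃ n₀ : ℕ, ∀ n : ℕ, n₀ ≤ n → Sca c K n ⌊ρ * n⌋ ⌊c / 8 * n⌋ := by
  refine ⟨c / (16 * K), by positivity, fun ρ hρ hρ1 => ?_⟩
  obtain ⟨n₀, hn₀⟩ := exists_nat_ge (max (1 / ρ) (16 / c))
  refine ⟨max n₀ 16, fun n hn => ?_⟩
  have hn0 : n₀ ≤ n := (le_max_left _ _).trans hn
  have hn0' : (n₀ : ℝ) ≤ n := by exact_mod_cast hn0
  have g1 : 1 / ρ ≤ n := (le_max_left _ _).trans (hn₀.trans hn0')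
  have g2 : 16 / c ≤ n := (le_max_right _ _).trans (hn₀.trans hn0')
  have g3 : (16 : ℝ) ≤ n := by exact_mod_cast (le_max_right _ _).trans hn
  have g1' : 1 ≤ ρ * n := by
    rw [div_le_iff₀ hρ] at g1
    linarith
  have g2' : 16 ≤ c * n := by
    rw [div_le_iff₀ hc] at g2
    linarith
  have g4 : ρ * n * (16 * K) ≤ c * n := by
    have h1 : ρ * (16 * K) ≤ c := by
      rw [le_div_iff₀ (by positivity)] at hρ1
      exact hρ1
    calc ρ * n * (16 * K) = ρ * (16 * K) * n := by ring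
      _ ≤ c * n := mul_le_mul_of_nonneg_right h1 (Nat.cast_nonneg n)
  have f1 : (⌊ρ * n⌋ : ℝ) ≤ ρ * n := Int.floor_le _
  have f2 : c / 8 * n < (⌊c / 8 * n⌋ : ℝ) + 1 := Int.lt_floor_add_one _
  have f3 : (⌊c / 8 * n⌋ : ℝ) ≤ c / 8 * n := Int.floor_le _
  have hK0 : 0 < K := by linarith
  have f4 : K * (⌊ρ * n⌋ : ℝ) ≤ K * (ρ * n) := mul_le_mul_of_nonneg_left f1 hK0.le
  refine ⟨?_, ?_, ?_, ?_, ?_⟩
  · rw [Int.le_floor]
    push_cast
    exact g1'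
  · have h1 : K * (ρ * n) ≤ c * n / 16 := by
      rw [le_div_iff₀ (by norm_num)]
      linarith
    linarith
  · have h1 : 2 * (⌊c / 8 * n⌋ + 1) ≤ ⌊c * n⌋ := by
      rw [Int.le_floor]
      push_cast
      linarith
    rw [Int.natCast_floor_eq_floor (by positivity)]
    exact h1
  · exact Int.floor_le_floor (by linarith)
  · have h1 : ((3 * (⌊c / 8 * n⌋ + 1) : ℤ) : ℝ) < ((n : ℤ) : ℝ) := by
      push_cast
      have : c * n ≤ 1 * n := mul_le_mul_of_nonneg_right hc1 (Nat.cast_nonneg n)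
      linarith
    exact_mod_cast h1

end Vale.Agent.P167.N.QL
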