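import Vale.Agent.P167.N.QL.Al7

/-!
# P167, the range `0 < q < 1`, block Q-LAM: assembly, bounds for the functionals on the Dobrushin square
-/

set_option autoImplicit false

namespace Vale.Agent.P167.N.QL

open Finset Filter Vale.Agent.P167.BR Vale.Agent.P167.FK
open Vale.Agent.P167.E6 (IsPolygon Encloses face dir)
open Vale.Agent.P167.H718 (Dob rc IsCl)
open Vale.Agent.P167.H192.Q (SRSW)
open Vale.Agent.P167.H975 (TX)

variable {θ : ℝ} {η : Cfg} {r : ℤ} {J J' : Finset ℕ} {n z i a' c : ℕ} {v : ℝ} {L L' : List (ℕ × ℝ)}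
  {a : ℤ × ℤ}

/-! ### positive centres -/

section pc

variable (h0 : 0 < θ) (h1 : θ < Real.pi / 2) (hn : 12000 ≤ n)
  (hG : GeoP (2 * n) (4 * (2 * n)) (dsq n a)) (hr : 2 * (r + 1) ≤ ((n / 2 : ℕ) : ℤ))
include h0 h1 hn hG hr

theorem ds_pc_mid (hc : n ≤ c) (hc2 : c ≤ 7 * n) (hk : c + n / 2 < 4 * n ∨ 4 * n + n / 2 ≤ c)
    (hL : WL (n / 2) c L) (hv : -θ ≤ stI L c) (hv' : stI L c ≤ 0) :
    PC θ (bt θ) (dsq n a) (dsD n a) (4 * n) (stp L) (wl θ) (dsq n a (c : ZMod (4 * (2 * n)))) r :=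
  pc_mid h0 h1 hG (ds_poly (by omega) a) (ds_encl (by omega) a) (by push_cast at hr ⊢; omega) hr
    (by omega) (by omega) hk hv hv' fun _ h2 h3 h4 => hL.inc h2 h3 h4

theorem ds_pc_jun (hL : WL (n / 2) (4 * n) L)
    (hv : |θ / 2 + bt θ + stI L (4 * n)| ≤ θ) :
    PC θ (bt θ) (dsq n a) (dsD n a) (4 * n) (stp L) (wl θ)
      (dsq n a ((4 * n : ℕ) : ZMod (4 * (2 * n)))) r :=
  pc_jun h0 h1 hG (ds_poly (by omega) a) (ds_encl (by omega) a) (by push_cast at hr ⊢; omega) hr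
    (by omega) (by omega) hv fun _ h2 h3 h4 => hL.inc h2 h3 h4

theorem ds_pc_base (hL : WB (n / 2) (4 * (2 * n)) L) (hv : |θ / 2 + bt θ + tot L| ≤ θ) :
    PC θ (bt θ) (dsq n a) (dsD n a) (4 * n) (stp L) (wl θ)
      (dsq n a ((0 : ℕ) : ZMod (4 * (2 * n)))) r := by
  rw [Nat.cast_zero]
  refine pc_base h0 h1 hG (ds_poly (by omega) a) (ds_encl (by omega) a)
    (by push_cast at hr ⊢; omega) hr (by omega) (by omega) ?_ (fun i h2 h3 => hL.inc h2 (Or.inl h3))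
    fun i h2 h3 => ?_
  · rw [hL.tot (by omega) (by omega)]
    exact hv
  · rcases Nat.eq_zero_or_pos i with rfl | hi
    · simp
    · exact hL.inc hi (Or.inr h3)

end pc

theorem abs_bt {θ x : ℝ} (h1 : -θ ≤ θ - Real.pi / 2 + x) (h2 : θ - Real.pi / 2 + x ≤ θ) :
    |θ / 2 + bt θ + x| ≤ θ := by
  unfold bt
  rw [abs_le]
  constructor <;> linarith

section r2

variable (h0 : 0 < θ) (h1 : θ < Real.pi / 2) (hn : 12000 ≤ n)
  (hG : GeoP (2 * n) (4 * (2 * n)) (dsq n a)) (hr : 2 * (r + 1) ≤ ((n / 2 : ℕ) : ℤ))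
include h0 h1 hn hG hr

/-- R2, `z` on the free arc: all centres are positive. -/
theorem pc_r2f (hz : 2 * n ≤ z ∧ z ≤ 2 * n + 1) {j : ℕ} (hj : j ∈ dsJz n z) :
    PC θ (bt θ) (dsq n a) (dsD n a) (4 * n) (r2fR θ n z) (wl θ)
      (dsq n a (j : ZMod (4 * (2 * n)))) r := by
  unfold r2fR
  unfold dsJz at hj
  simp only [mem_insert, mem_singleton] at hj
  rcases hj with rfl | rfl | rfl | rfl | rfl | rfl | rfl
  · exact ds_pc_base h0 h1 hn hG hr ((((WB.nil.cons (by omega)).cons (by omega)).cons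
      (by omega)).cons (by omega)) (abs_bt (by simp only [tot_cons, tot_nil]; linarith)
        (by simp only [tot_cons, tot_nil]; linarith))
  · have e : stI [(j, -(θ / 2)), (z, -θ), (3 * j, -(θ / 2)), (4 * j, Real.pi / 2)] j =
        -(θ / 2) + 0 := by
      repeat first | rw [stI_hit rfl] | rw [stI_skip (by omega)]
      rfl
    exact ds_pc_mid h0 h1 hn hG hr (by omega) (by omega) (by omega)
      ((((WL.nil.cons (by omega)).cons (by omega)).cons (by omega)).cons (by omega))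
      (by rw [e]; linarith) (by rw [e]; linarith)
  · have e : stI [(n, -(θ / 2)), (z, -θ), (3 * n, -(θ / 2)), (4 * n, Real.pi / 2)] (3 * n) =
        -(θ / 2) + 0 := by
      repeat first | rw [stI_hit rfl] | rw [stI_skip (by omega)]
      rfl
    exact ds_pc_mid h0 h1 hn hG hr (by omega) (by omega) (by omega)
      ((((WL.nil.cons (by omega)).cons (by omega)).cons (by omega)).cons (by omega))
      (by rw [e]; linarith) (by rw [e]; linarith)
  · have e : stI [(n, -(θ / 2)), (z, -θ), (3 * n, -(θ / 2)), (4 * n, Real.pi / 2)] (4 * n) =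
        Real.pi / 2 + 0 := by
      repeat first | rw [stI_hit rfl] | rw [stI_skip (by omega)]
      rfl
    exact ds_pc_jun h0 h1 hn hG hr
      ((((WL.nil.cons (by omega)).cons (by omega)).cons (by omega)).cons (by omega))
      (abs_bt (by rw [e]; linarith) (by rw [e]; linarith))
  · have e : stI [(n, -(θ / 2)), (z, -θ), (3 * n, -(θ / 2)), (4 * n, Real.pi / 2)] (5 * n) = 0 := by
      repeat first | rw [stI_hit rfl] | rw [stI_skip (by omega)]
      rfl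
    exact ds_pc_mid h0 h1 hn hG hr (by omega) (by omega) (by omega)
      ((((WL.nil.cons (by omega)).cons (by omega)).cons (by omega)).cons (by omega))
      (by rw [e]; linarith) (by rw [e])
  · have e : stI [(n, -(θ / 2)), (z, -θ), (3 * n, -(θ / 2)), (4 * n, Real.pi / 2)] (7 * n) = 0 := by
      repeat first | rw [stI_hit rfl] | rw [stI_skip (by omega)]
      rfl
    exact ds_pc_mid h0 h1 hn hG hr (by omega) (by omega) (by omega)
      ((((WL.nil.cons (by omega)).cons (by omega)).cons (by omega)).cons (by omega))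
      (by rw [e]; linarith) (by rw [e])
  · have e : stI [(n, -(θ / 2)), (j, -θ), (3 * n, -(θ / 2)), (4 * n, Real.pi / 2)] j = -θ + 0 := by
      repeat first | rw [stI_hit rfl] | rw [stI_skip (by omega)]
      rfl
    exact ds_pc_mid h0 h1 hn hG hr (by omega) (by omega) (by omega)
      ((((WL.nil.cons (by omega)).cons (by omega)).cons (by omega)).cons (by omega))
      (by rw [e]; linarith) (by rw [e]; linarith)

/-- R2, `z` on the wired arc: all centres are positive. -/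
theorem pc_r2w (hz : 6 * n ≤ z ∧ z ≤ 6 * n + 1) {j : ℕ} (hj : j ∈ dsJz n z) :
    PC θ (bt θ) (dsq n a) (dsD n a) (4 * n) (r2wR θ n z) (wl θ)
      (dsq n a (j : ZMod (4 * (2 * n)))) r := by
  unfold r2wR
  unfold dsJz at hj
  simp only [mem_insert, mem_singleton] at hj
  rcases hj with rfl | rfl | rfl | rfl | rfl | rfl | rfl
  · exact ds_pc_base h0 h1 hn hG hr ((((WB.nil.cons (by omega)).cons (by omega)).cons
      (by omega)).cons (by omega)) (abs_bt (by simp only [tot_cons, tot_nil]; linarith)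
        (by simp only [tot_cons, tot_nil]; linarith))
  · have e : stI [(4 * j, Real.pi / 2), (5 * j, -(θ / 2)), (z, -θ), (7 * j, -(θ / 2))] j = 0 := by
      repeat first | rw [stI_hit rfl] | rw [stI_skip (by omega)]
      rfl
    exact ds_pc_mid h0 h1 hn hG hr (by omega) (by omega) (by omega)
      ((((WL.nil.cons (by omega)).cons (by omega)).cons (by omega)).cons (by omega))
      (by rw [e]; linarith) (by rw [e])
  · have e : stI [(4 * n, Real.pi / 2), (5 * n, -(θ / 2)), (z, -θ), (7 * n, -(θ / 2))] (3 * n) =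
        0 := by
      repeat first | rw [stI_hit rfl] | rw [stI_skip (by omega)]
      rfl
    exact ds_pc_mid h0 h1 hn hG hr (by omega) (by omega) (by omega)
      ((((WL.nil.cons (by omega)).cons (by omega)).cons (by omega)).cons (by omega))
      (by rw [e]; linarith) (by rw [e])
  · have e : stI [(4 * n, Real.pi / 2), (5 * n, -(θ / 2)), (z, -θ), (7 * n, -(θ / 2))] (4 * n) =
        Real.pi / 2 + 0 := by
      repeat first | rw [stI_hit rfl] | rw [stI_skip (by omega)]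
      rfl
    exact ds_pc_jun h0 h1 hn hG hr
      ((((WL.nil.cons (by omega)).cons (by omega)).cons (by omega)).cons (by omega))
      (abs_bt (by rw [e]; linarith) (by rw [e]; linarith))
  · have e : stI [(4 * n, Real.pi / 2), (5 * n, -(θ / 2)), (z, -θ), (7 * n, -(θ / 2))] (5 * n) =
        -(θ / 2) + 0 := by
      repeat first | rw [stI_hit rfl] | rw [stI_skip (by omega)]
      rfl
    exact ds_pc_mid h0 h1 hn hG hr (by omega) (by omega) (by omega)
      ((((WL.nil.cons (by omega)).cons (by omega)).cons (by omega)).cons (by omega))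
      (by rw [e]; linarith) (by rw [e]; linarith)
  · have e : stI [(4 * n, Real.pi / 2), (5 * n, -(θ / 2)), (z, -θ), (7 * n, -(θ / 2))] (7 * n) =
        -(θ / 2) + 0 := by
      repeat first | rw [stI_hit rfl] | rw [stI_skip (by omega)]
      rfl
    exact ds_pc_mid h0 h1 hn hG hr (by omega) (by omega) (by omega)
      ((((WL.nil.cons (by omega)).cons (by omega)).cons (by omega)).cons (by omega))
      (by rw [e]; linarith) (by rw [e]; linarith)
  · have e : stI [(4 * n, Real.pi / 2), (5 * n, -(θ / 2)), (j, -θ), (7 * n, -(θ / 2))] j =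
        -θ + 0 := by
      repeat first | rw [stI_hit rfl] | rw [stI_skip (by omega)]
      rfl
    exact ds_pc_mid h0 h1 hn hG hr (by omega) (by omega) (by omega)
      ((((WL.nil.cons (by omega)).cons (by omega)).cons (by omega)).cons (by omega))
      (by rw [e]; linarith) (by rw [e]; linarith)

end r2

/-! ### the bounds -/

/-- The phases are next to the centres. -/
theorem near_stp (hn : 0 < n) (hJ : dsJ n ⊆ J) (hlt : ∀ j ∈ J, j < 4 * (2 * n))
    (hL : ∀ x ∈ L, x.1 ∈ J) : (dsP n a (stp L) J).Near := near_ds hn EqD.rfl hJ hlt hL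

theorem dsJ_lt (hn : 0 < n) : ∀ j ∈ dsJ n, j < 4 * (2 * n) := by
  unfold dsJ
  simp only [mem_insert, mem_singleton]
  omega

theorem dsJz_lt (hn : 1 < n)
    (hz : (2 * n ≤ z ∧ z ≤ 2 * n + 1) ∨ (6 * n ≤ z ∧ z ≤ 6 * n + 1)) :
    ∀ j ∈ dsJz n z, j < 4 * (2 * n) := by
  unfold dsJz
  simp only [mem_insert, mem_singleton]
  omega

/-- The functionals with positive weights on the Dobrushin square. -/
def DSp (θ : ℝ) (n : ℕ) (ρ : ℕ → ℝ) : Prop :=
  ρ = r1R θ n ∨ ρ = r1I θ n ∨ ρ = fwR θ n ∨ ρ = fwI θ n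

theorem DSp.near (hn : 0 < n) {ρ : ℕ → ℝ} (h : DSp θ n ρ) (a : ℤ × ℤ) :
    (dsP n a ρ (dsJ n)).Near := by
  rcases h with rfl | rfl | rfl | rfl
  · refine near_stp hn (Subset.refl _) (dsJ_lt hn) ?_
    unfold dsJ
    simp
  · refine near_stp hn (Subset.refl _) (dsJ_lt hn) ?_
    unfold dsJ
    simp
  · refine near_stp hn (Subset.refl _) (dsJ_lt hn) ?_
    unfold dsJ
    simp
  · refine near_stp hn (Subset.refl _) (dsJ_lt hn) ?_
    unfold dsJ
    simp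

theorem DSp.pos (h0 : 0 < θ) (h1 : θ < Real.pi / 2) (hn : 0 < n) {ρ : ℕ → ℝ} (h : DSp θ n ρ)
    (a : ℤ × ℤ) : ∀ ω : Cfg, ∀ A ∈ pcs ω (dsD n a), wl θ ≤ wP θ (bt θ) (dsq n a) (dsD n a) (4 * n) ρ A := by
  rcases h with rfl | rfl | rfl | rfl
  · exact pos_all h0 h1 (ds_poly hn a) (ds_encl hn a) fun x y hxy _ _ => sg_r1 h0 hn hxy
  · exact pos_all h0 h1 (ds_poly hn a) (ds_encl hn a) fun x y hxy _ _ => sg_r1i h0 hn hxy
  · exact pos_all h0 h1 (ds_poly hn a) (ds_encl hn a) fun x y hxy _ _ => sg_fw h0 hn hxy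
  · exact pos_all h0 h1 (ds_poly hn a) (ds_encl hn a) fun x y hxy _ _ => sg_fwi h0 hn hxy

/-- **The functionals with positive weights.** -/
theorem ds_bd_pos (h0 : 0 < θ) (h1 : Ang θ) (hR : RSW (2 * Real.cos θ))
    (hS : SRSW (2 * Real.cos θ)) :
    ∃ ρ₁ : ℝ, 0 < ρ₁ ∧ ∀ ρ : ℝ, 0 < ρ → ρ ≤ ρ₁ → ∃ (C : ℝ) (n₀ : ℕ), 0 < C ∧ ∀ n : ℕ, n₀ ≤ n →
      ∀ (a : ℤ × ℤ) (φ : ℕ → ℝ), DSp θ n φ → ∀ η : Cfg, Dob η (dsD n a) (dsq n a) (4 * n) →
        VP θ (bt θ) (dsP n a φ (dsJ n)) ≤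
          C * ∏ j ∈ dsJ n, (dsP n a φ (dsJ n)).e θ (bt θ) η ⌊ρ * n⌋ j ∧
        ∏ j ∈ dsJ n, (dsP n a φ (dsJ n)).e θ (bt θ) η ⌊ρ * n⌋ j ≤
          C * VP θ (bt θ) (dsP n a φ (dsJ n)) := by
  obtain ⟨ρ₁, hρ₁, H⟩ := bd_all (σ := 1 / 200) h0 h1 (cos_bt θ) hR hS dsR 7 (by norm_num)
  refine ⟨ρ₁, hρ₁, fun ρ hρ hρ1 => ?_⟩
  obtain ⟨C, n₀, hC, H⟩ := H ρ hρ hρ1
  refine ⟨C, max n₀ 12000, hC, fun n hn a φ hφ η hη => ?_⟩
  have hn1 := (le_max_right _ _).trans hn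
  obtain ⟨η₀, hL⟩ := ds_lkD hn1 a
  exact H n ((le_max_left _ _).trans hn) (dsP n a φ (dsJ n)) η₀
    (ds_Rg hn1 hL (hφ.near (by omega) a) (Or.inl rfl)) (hφ.pos h0 h1.lt (by omega) a) η hη

/-- **The upper bound for R2.** -/
theorem ds_up_r2 (h0 : 0 < θ) (h1 : Ang θ) (hR : RSW (2 * Real.cos θ))
    (hS : SRSW (2 * Real.cos θ)) :
    ∃ ρ₁ : ℝ, 0 < ρ₁ ∧ ∀ ρ : ℝ, 0 < ρ → ρ ≤ ρ₁ → ∃ (C : ℝ) (n₀ : ℕ), 0 < C ∧ ∀ n : ℕ, n₀ ≤ n →
      ∀ (a : ℤ × ℤ) (z : ℕ) (φ : ℕ → ℝ),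
        ((2 * n ≤ z ∧ z ≤ 2 * n + 1) ∧ φ = r2fR θ n z) ∨
          ((6 * n ≤ z ∧ z ≤ 6 * n + 1) ∧ φ = r2wR θ n z) →
        ∀ η : Cfg, Dob η (dsD n a) (dsq n a) (4 * n) →
        VP θ (bt θ) (dsP n a φ (dsJz n z)) ≤
          C * ∏ j ∈ dsJz n z, (dsP n a φ (dsJz n z)).e θ (bt θ) η ⌊ρ * n⌋ j := by
  have hw := wl_pos h0 h1.lt
  obtain ⟨ρ₁, hρ₁, H⟩ := up_lk (σ := 1 / 200) (b := 1) (B := 1) (c0 := wl θ) (Λ := 1)
    (CE := fun _ => 1) h0 h1 (cos_bt θ) hR hS dsR 7 (fun _ => 0)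
    ⟨by norm_num, one_pos, le_rfl, le_rfl, hw, wl_le_one θ, le_rfl, fun _ => le_rfl⟩
  refine ⟨ρ₁, hρ₁, fun ρ hρ hρ1 => ?_⟩
  obtain ⟨C, n₀, hC, H⟩ := H ρ hρ hρ1
  refine ⟨C, max n₀ 12000, hC, fun n hn a z φ hφ η hη => ?_⟩
  have hn1 := (le_max_right _ _).trans hn
  obtain ⟨η₀, hL⟩ := ds_lkD hn1 a
  have hfl := fl200 hn1
  have hr : 2 * (⌊(1 / 200 : ℝ) * n⌋ + 1) ≤ ((n / 2 : ℕ) : ℤ) := by
    have h3 : (n / 100 : ℕ) ≤ n / 100 := le_rfl
    push_cast at hfl ⊢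
    omega
  rcases hφ with ⟨hz, rfl⟩ | ⟨hz, rfl⟩
  · exact (H n ((le_max_left _ _).trans hn) (dsP n a _ (dsJz n z)) η₀
      (ds_Rg hn1 hL (near_r2f (by omega) (by omega)) (Or.inr ⟨z, Or.inl hz, rfl⟩))
      (fun j hj => Or.inl (pc_r2f h0 h1.lt hn1 hL.geo hr hz hj)) η hη).2.2
  · exact (H n ((le_max_left _ _).trans hn) (dsP n a _ (dsJz n z)) η₀
      (ds_Rg hn1 hL (near_r2w (by omega) (by omega)) (Or.inr ⟨z, Or.inr hz, rfl⟩))
      (fun j hj => Or.inl (pc_r2w h0 h1.lt hn1 hL.geo hr hz hj)) η hη).2.2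

end Vale.Agent.P167.N.QL
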