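import Vale.Agent.P167.N.QL.LkE
import Vale.Agent.P167.N.QL.Reg

/-!
# P167, the range `0 < q < 1`, block Q-LAM (LK): the families satisfy `LkD`

`lkD_X`: all the translates of the polygons of a family, with all small constants.
-/

set_option autoImplicit false

namespace Vale.Agent.P167.N.QL

open Finset Filter Topology Vale.Agent.P167 Vale.Agent.P167.BR
open Vale.Agent.P167.Enl
open Vale.Agent.P167.E6 (IsPolygon Encloses dir face)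
open Vale.Agent.P167.FK (Bq Good Ex RSW)
open Vale.Agent.P167.H825 (enl pdir)
open Vale.Agent.P167.H825.Q (Bc)
open Vale.Agent.P167.H718 (Dob poly_add encl_add bd_add)
open Vale.Agent.P167.H871 (Bd)
open Vale.Agent.P167.H542.Q (BD)
open Vale.Agent.P167.H760.Q (BaseQ)
open Vale.Agent.P167.H167.Q (Reg)

variable {S : CA.Dat} {θ β : ℝ}

/-- The contours agree. -/
theorem qN_cast {l n t : ℕ} [NeZero l] (hn : 0 < n) {p : ZMod l → ℤ × ℤ}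
    {q : ZMod (l * n) → ℤ × ℤ} (hs : ∀ j : ℕ, q (j : ZMod (l * n)) = PN p n (j + t)) :
    qN p n t = q := by
  have hN0 : NeZero (l * n) := ⟨Nat.mul_ne_zero (NeZero.ne l) hn.ne'⟩
  funext i
  have h1 := hs i.val
  rw [ZMod.natCast_zmod_val] at h1
  rw [h1]
  rfl

theorem lkD_cast {N l n t k L : ℕ} [NeZero l] (hn : 0 < n) (hN : N = l * n) {p : ZMod l → ℤ × ℤ}
    {q : ZMod N → ℤ × ℤ} (hs : ∀ j : ℕ, q (j : ZMod N) = PN p n (j + t))
    {D D' : Finset (ℤ × ℤ)} {τ : ℕ → ℤ} {a : ℤ × ℤ} {m : ℤ}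
    (hu : Bd (D : Set (ℤ × ℤ)) N (fun i => q (i : ZMod N)) τ 1)
    (key : Bd (D : Set (ℤ × ℤ)) (l * n) (fun i => qN p n t (i : ZMod (l * n))) τ 1 →
      ∃ η, LkD n (l * n) (fun i => qN p n t i + a) D' k τ L m η) :
    ∃ η, LkD n N (fun i => q i + a) D' k τ L m η := by
  subst hN
  obtain rfl := qN_cast hn hs
  exact key hu

/-- **The families satisfy `LkD`.** -/
theorem lkD_X (X : BD S θ β) {s : ℕ → ℕ} (hb : BaseQ X s) (hB : BcX X s) :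
    ∃ c₀ : ℝ, 0 < c₀ ∧ ∀ c : ℝ, 0 < c → c ≤ c₀ → ∀ᶠ n : ℕ in X.L, ∀ (a : ℤ × ℤ) (τ : ℕ → ℤ),
      Bd (S.D n : Set (ℤ × ℤ)) (X.N n) (fun i => X.q n (i : ZMod (X.N n))) τ 1 →
      ∃ η : Cfg, LkD n (X.N n) (fun i => X.q n i + a) ((S.D n).image (· + a)) (X.k n) τ
        ⌊c * n⌋₊ ⌊c / 100 * n⌋ η := by
  have hl : NeZero S.l := ⟨by have := S.poly.1; omega⟩
  have htp0 := S.tp0
  have htp1 := S.tp1
  have hc0 : 0 < min S.tp (1 - S.tp) := lt_min htp0 (by linarith)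
  have hlarge : ∀ A : ℝ, ∀ᶠ n : ℕ in X.L, A ≤ n := fun A => X.le
    ((eventually_ge_atTop ⌈A⌉₊).mono fun n hn => (Nat.le_ceil A).trans (by exact_mod_cast hn))
  have hfw : ∀ c : ℝ, 0 < c → c ≤ min S.tp (1 - S.tp) / 2 →
      (∀ᶠ n in X.L, X.k n = 0 ∨ X.k n = X.N n) → ∀ᶠ n : ℕ in X.L, ∀ (a : ℤ × ℤ) (τ : ℕ → ℤ),
      Bd (S.D n : Set (ℤ × ℤ)) (X.N n) (fun i => X.q n (i : ZMod (X.N n))) τ 1 →
      ∃ η : Cfg, LkD n (X.N n) (fun i => X.q n i + a) ((S.D n).image (· + a)) (X.k n) τ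
        ⌊c * n⌋₊ ⌊c / 100 * n⌋ η := by
    intro c hc hcc hk
    filter_upwards [pos_X X hb, hk, hlarge 2] with n hp hk hn2 a τ hu
    obtain ⟨h1, h3, h4, h5⟩ := hp
    have hm : 2 * ⌊c / 100 * (n : ℝ)⌋ + 1 ≤ n := by
      have h6 := Int.floor_le (c / 100 * (n : ℝ))
      have h7 := min_le_left S.tp (1 - S.tp)
      have : ((2 * ⌊c / 100 * (n : ℝ)⌋ + 1 : ℤ) : ℝ) ≤ (n : ℤ) := by
        push_cast
        nlinarith
      exact_mod_cast this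
    exact lkD_cast h1 h4 h5 hu fun hu => lkD_fw S.poly S.enc h1 hm (by rw [← h4]; exact hk) hu
  refine ⟨min S.tp (1 - S.tp) / 2, by positivity, fun c hc hcc => ?_⟩
  rcases hB with hk | hk | ⟨hs, ia, hi0, hil, hk⟩
  · exact hfw c hc hcc (hk.mono fun n h => Or.inr h)
  · exact hfw c hc hcc (hk.mono fun n h => Or.inl h)
  · filter_upwards [pos_X X hb, hk, hlarge (100 / c), hlarge (1000 / c)] with n hp hk hn2 hn3 a τ hu
    obtain ⟨h1, h3, h4, h5⟩ := hp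
    rw [hs n, add_zero] at h3 h5
    have h6 := min_le_left S.tp (1 - S.tp)
    have h7 := min_le_right S.tp (1 - S.tp)
    have hn0 : (0 : ℝ) < n := by exact_mod_cast h1
    rw [div_le_iff₀ hc] at hn2 hn3
    have f1 : (⌊c * n⌋₊ : ℝ) ≤ c * n := Nat.floor_le (by positivity)
    have f2 : c * n < (⌊c * n⌋₊ : ℝ) + 1 := Nat.lt_floor_add_one _
    have f3 : (⌊S.tp * n⌋₊ : ℝ) ≤ S.tp * n := Nat.floor_le (by positivity)
    have f4 : S.tp * n < (⌊S.tp * n⌋₊ : ℝ) + 1 := Nat.lt_floor_add_one _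
    have f5 := Int.floor_le (c / 100 * (n : ℝ))
    have f6 := Int.lt_floor_add_one (c / 100 * (n : ℝ))
    have g1 : ⌊c * (n : ℝ)⌋₊ ≤ ⌊S.tp * n⌋₊ := Nat.floor_le_floor (by nlinarith)
    have g2 : ⌊S.tp * (n : ℝ)⌋₊ + ⌊c * n⌋₊ ≤ n := by
      have : ((⌊S.tp * (n : ℝ)⌋₊ + ⌊c * n⌋₊ : ℕ) : ℝ) ≤ n := by
        push_cast
        nlinarith
      exact_mod_cast this
    have g5 : 1 ≤ ⌊c / 100 * (n : ℝ)⌋ := by
      refine Int.le_floor.2 ?_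
      push_cast
      nlinarith
    have g6 : 4 * (9 * (2 * ⌊c / 100 * (n : ℝ)⌋ + 3) + (2 * ⌊c / 100 * (n : ℝ)⌋ + 3)) <
        (⌊c * n⌋₊ : ℤ) := by
      have : ((4 * (9 * (2 * ⌊c / 100 * (n : ℝ)⌋ + 3) + (2 * ⌊c / 100 * (n : ℝ)⌋ + 3)) : ℤ) : ℝ) <
          ((⌊c * n⌋₊ : ℤ) : ℝ) := by
        push_cast
        nlinarith
      exact_mod_cast this
    refine lkD_cast h1 h4 h5 hu fun hu => ?_
    have key := lkD_dob (a := a) S.poly S.enc hi0 hil g1 g2 g1 g2 g5 g6 hu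
    rw [hk]
    have h8 : n ≤ ia * n := Nat.le_mul_of_pos_left n hi0
    rwa [show ia * n + ⌊S.tp * (n : ℝ)⌋₊ - ⌊S.tp * (n : ℝ)⌋₊ = ia * n by omega] at key

end Vale.Agent.P167.N.QL
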