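import Vale.Agent.P167.N.QL.LocA
import Vale.Agent.P167.N.QL.LkN
import Vale.Agent.P167.N.QL.Al8

/-!
# P167, the range `0 < q < 1`, block Q-LAM: the local data of the families

`IA`: the image of the natural functional on the translate by `b`. `na_loc`, `ia_loc`: at the scale `n`,
every centre is positive or killed. `loc_all_of`: the families, one set of constants.
-/

set_option autoImplicit false

namespace Vale.Agent.P167.N.QL

open Finset Filter Vale.Agent.P167.BR Vale.Agent.P167.FK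
open Vale.Agent.P167.E6 (IsPolygon Encloses dir face)
open Vale.Agent.P167.H825 (enl pdir)
open Vale.Agent.P167.H718 (Dob rc poly_add encl_add bd_add)
open Vale.Agent.P167.H871 (Bd)
open Vale.Agent.P167.H542.Q (BD)
open Vale.Agent.P167.H760.Q (BaseQ JunQ pb q_pos)

/-! ### the kinds of killed centres -/

/-- A killed flat site (`kc_flat`). -/
def LFlat (θ b B : ℝ) (Λ W : ℤ) (KE : ℕ → ℤ) (CE : ℕ → ℝ) : Prop :=
  ∀ {N k n d L j : ℕ} {q : ZMod N → ℤ × ℤ} {D : Finset (ℤ × ℤ)}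
      {τ : ℕ → ℤ} {m r : ℤ} {η : Cfg} {ρ : ℕ → ℝ} {β : ℝ}, LkD n N q D k τ L m η →
      Real.cos (θ / 2 + β) = Real.sin θ →
      WinI d N τ j 0 → 0 < j → j + d < N → FarI N k L j → (j + d < k ∨ k + d ≤ j) →
      (Even ((q (j : ZMod N)).1 + (q (j : ZMod N)).2) ↔ k ≤ j) →
      (∀ i, j < i + d → i ≤ j + d → 0 < i → ρ i - ρ (i - 1) = if i = j then θ else 0) →
      W * r ≤ n → W * r ≤ d → W * r ≤ m → 1 ≤ r →
      KC θ β q D k ρ η b B Λ KE CE (q (j : ZMod N)) r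

/-- A killed reflex corner (`kc_refl`). -/
def LRefl (θ b B : ℝ) (Λ W : ℤ) (KE : ℕ → ℤ) (CE : ℕ → ℝ) : Prop :=
  ∀ {N k n d L j : ℕ} {q : ZMod N → ℤ × ℤ} {D : Finset (ℤ × ℤ)}
      {τ : ℕ → ℤ} {m r : ℤ} {η : Cfg} {ρ : ℕ → ℝ} {β : ℝ}, LkD n N q D k τ L m η →
      Real.cos (θ / 2 + β) = Real.sin θ →
      WinI d N τ j (-1) → 0 < j → j + d < N → FarI N k L j → (j + d < k ∨ k + d ≤ j) →
      (∀ i, j < i + d → i ≤ j + d → 0 < i → ρ i - ρ (i - 1) = if i = rI q k j then θ else 0) →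
      W * r ≤ n → W * r ≤ d → W * r ≤ m → 1 ≤ r →
      KC θ β q D k ρ η b B Λ KE CE (q (j : ZMod N)) r

/-- A killed base (`kc_base`). -/
def LBase (θ b B : ℝ) (Λ W : ℤ) (KE : ℕ → ℤ) (CE : ℕ → ℝ) : Prop :=
  ∀ {N k n d L : ℕ} {q : ZMod N → ℤ × ℤ} {D : Finset (ℤ × ℤ)}
      {τ : ℕ → ℤ} {m r : ℤ} {η : Cfg} {ρ : ℕ → ℝ} {β : ℝ}, LkD n N q D k τ L m η →
      Real.cos (θ / 2 + β) = Real.sin θ →
      WinI d N τ 0 0 → 2 * d < N → (k = 0 ∨ k = N) →
      (Even ((q 0).1 + (q 0).2) ↔ k = 0) →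
      (∀ i ≤ d, ρ i = ρ 0) → (∀ i < N, N ≤ i + d → ρ i = ρ 0 - 2 * θ) →
      W * r ≤ n → W * r ≤ d → W * r ≤ m → 1 ≤ r →
      KC θ β q D k ρ η b B Λ KE CE (q 0) r

/-- A killed base with the charge `θ` at the index `1` (`kc_base1`). -/
def LBase1 (θ b B : ℝ) (Λ W : ℤ) (KE : ℕ → ℤ) (CE : ℕ → ℝ) : Prop :=
  ∀ {N k n d L : ℕ} {q : ZMod N → ℤ × ℤ} {D : Finset (ℤ × ℤ)}
      {τ : ℕ → ℤ} {m r : ℤ} {η : Cfg} {ρ : ℕ → ℝ} {β : ℝ}, LkD n N q D k τ L m η →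
      Real.cos (θ / 2 + β) = Real.sin θ →
      WinI d N τ 0 0 → 2 * d < N → (k = 0 ∨ k = N) →
      (Even ((q 0).1 + (q 0).2) ↔ k ≠ 0) →
      (∀ i, 1 ≤ i → i ≤ d → ρ i = ρ 0 + θ) → (∀ i < N, N ≤ i + d → ρ i = ρ 0 - θ) →
      W * r ≤ n → W * r ≤ d → W * r ≤ m → 1 ≤ r →
      KC θ β q D k ρ η b B Λ KE CE (q 0) r

/-- A killed junction (`kc_jun`). -/
def LJun (θ b B : ℝ) (Λ W : ℤ) (KE : ℕ → ℤ) (CE : ℕ → ℝ) : Prop :=
  ∀ {N k n d L : ℕ} {q : ZMod N → ℤ × ℤ} {D : Finset (ℤ × ℤ)}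
      {τ : ℕ → ℤ} {m r : ℤ} {η : Cfg} {ρ : ℕ → ℝ} {β : ℝ}, LkD n N q D k τ L m η →
      Real.cos (θ / 2 + β) = Real.sin θ →
      WinI d N τ k 0 → 0 < k → k + d < N → d < L →
      (∀ i, k < i + d → i ≤ k + d → 0 < i → i ≠ k → ρ i = ρ (i - 1)) →
      Real.cos (θ / 2 + β + (ρ k - ρ (k - 1))) = 0 →
      W * r ≤ n → W * r ≤ d → W * r ≤ m → 1 ≤ r →
      KC θ β q D k ρ η b B Λ KE CE (q (k : ZMod N)) r

/-- All the kinds of killed centres, the same constants. -/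
structure LAll (θ b B : ℝ) (Λ W : ℤ) (KE : ℕ → ℤ) (CE : ℕ → ℝ) : Prop where
  kc : Kc b B Λ W CE
  flat : LFlat θ b B Λ W KE CE
  refl : LRefl θ b B Λ W KE CE
  base : LBase θ b B Λ W KE CE
  base1 : LBase1 θ b B Λ W KE CE
  jun : LJun θ b B Λ W KE CE

section mono

variable {θ b B b' B' : ℝ} {Λ W Λ' W' : ℤ} {KE KE' : ℕ → ℤ} {CE CE' : ℕ → ℝ}

theorem W_mono {W W' r x : ℤ} (hW : W ≤ W') (hr : 1 ≤ r) (h : W' * r ≤ x) : W * r ≤ x :=
  (mul_le_mul_of_nonneg_right hW (by omega)).trans h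

theorem LFlat.mono (hQ : 0 < 2 * Real.cos θ) (h : LFlat θ b B Λ W KE CE) (hb : b' ≤ b)
    (hB : B ≤ B') (hΛ : Λ ≤ Λ') (hW : W ≤ W') (hK : ∀ E, KE E ≤ KE' E) (hC : ∀ E, CE E ≤ CE' E) :
    LFlat θ b' B' Λ' W' KE' CE' := by
  intro N k n d L j q D τ m r η ρ β a1 a2 a3 a4 a5 a6 a7 a8 a9 a10 a11 a12 a13
  exact KC.mono hQ (h a1 a2 a3 a4 a5 a6 a7 a8 a9 (W_mono hW a13 a10) (W_mono hW a13 a11)
    (W_mono hW a13 a12) a13) hb hB hΛ hK hC le_rfl

theorem LRefl.mono (hQ : 0 < 2 * Real.cos θ) (h : LRefl θ b B Λ W KE CE) (hb : b' ≤ b)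
    (hB : B ≤ B') (hΛ : Λ ≤ Λ') (hW : W ≤ W') (hK : ∀ E, KE E ≤ KE' E) (hC : ∀ E, CE E ≤ CE' E) :
    LRefl θ b' B' Λ' W' KE' CE' := by
  intro N k n d L j q D τ m r η ρ β a1 a2 a3 a4 a5 a6 a7 a9 a10 a11 a12 a13
  exact KC.mono hQ (h a1 a2 a3 a4 a5 a6 a7 a9 (W_mono hW a13 a10) (W_mono hW a13 a11)
    (W_mono hW a13 a12) a13) hb hB hΛ hK hC le_rfl

theorem LBase.mono (hQ : 0 < 2 * Real.cos θ) (h : LBase θ b B Λ W KE CE) (hb : b' ≤ b)
    (hB : B ≤ B') (hΛ : Λ ≤ Λ') (hW : W ≤ W') (hK : ∀ E, KE E ≤ KE' E) (hC : ∀ E, CE E ≤ CE' E) :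
    LBase θ b' B' Λ' W' KE' CE' := by
  intro N k n d L q D τ m r η ρ β a1 a2 a3 a4 a5 a6 a7 a9 a10 a11 a12 a13
  exact KC.mono hQ (h a1 a2 a3 a4 a5 a6 a7 a9 (W_mono hW a13 a10) (W_mono hW a13 a11)
    (W_mono hW a13 a12) a13) hb hB hΛ hK hC le_rfl

theorem LBase1.mono (hQ : 0 < 2 * Real.cos θ) (h : LBase1 θ b B Λ W KE CE) (hb : b' ≤ b)
    (hB : B ≤ B') (hΛ : Λ ≤ Λ') (hW : W ≤ W') (hK : ∀ E, KE E ≤ KE' E) (hC : ∀ E, CE E ≤ CE' E) :
    LBase1 θ b' B' Λ' W' KE' CE' := by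
  intro N k n d L q D τ m r η ρ β a1 a2 a3 a4 a5 a6 a7 a9 a10 a11 a12 a13
  exact KC.mono hQ (h a1 a2 a3 a4 a5 a6 a7 a9 (W_mono hW a13 a10) (W_mono hW a13 a11)
    (W_mono hW a13 a12) a13) hb hB hΛ hK hC le_rfl

theorem LJun.mono (hQ : 0 < 2 * Real.cos θ) (h : LJun θ b B Λ W KE CE) (hb : b' ≤ b)
    (hB : B ≤ B') (hΛ : Λ ≤ Λ') (hW : W ≤ W') (hK : ∀ E, KE E ≤ KE' E) (hC : ∀ E, CE E ≤ CE' E) :
    LJun θ b' B' Λ' W' KE' CE' := by
  intro N k n d L q D τ m r η ρ β a1 a2 a3 a4 a5 a6 a7 a9 a10 a11 a12 a13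
  exact KC.mono hQ (h a1 a2 a3 a4 a5 a6 a7 a9 (W_mono hW a13 a10) (W_mono hW a13 a11)
    (W_mono hW a13 a12) a13) hb hB hΛ hK hC le_rfl

end mono

theorem max5 {α : Type*} [LinearOrder α] (a b c d e : α) :
    a ≤ max a (max b (max c (max d e))) ∧ b ≤ max a (max b (max c (max d e))) ∧
    c ≤ max a (max b (max c (max d e))) ∧ d ≤ max a (max b (max c (max d e))) ∧
    e ≤ max a (max b (max c (max d e))) := by
  simp only [le_max_iff, le_refl, true_or, or_true, and_self]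

theorem min5 {α : Type*} [LinearOrder α] (a b c d e : α) :
    min a (min b (min c (min d e))) ≤ a ∧ min a (min b (min c (min d e))) ≤ b ∧
    min a (min b (min c (min d e))) ≤ c ∧ min a (min b (min c (min d e))) ≤ d ∧
    min a (min b (min c (min d e))) ≤ e := by
  simp only [min_le_iff, le_refl, true_or, or_true, and_self]

/-- **One set of constants.** -/
theorem lall_of {θ : ℝ} (hQ : 0 < 2 * Real.cos θ)
    (h1 : ∃ (b B : ℝ) (Λ W : ℤ) (KE : ℕ → ℤ) (CE : ℕ → ℝ), Kc b B Λ W CE ∧ LFlat θ b B Λ W KE CE)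
    (h2 : ∃ (b B : ℝ) (Λ W : ℤ) (KE : ℕ → ℤ) (CE : ℕ → ℝ), Kc b B Λ W CE ∧ LRefl θ b B Λ W KE CE)
    (h3 : ∃ (b B : ℝ) (Λ W : ℤ) (KE : ℕ → ℤ) (CE : ℕ → ℝ), Kc b B Λ W CE ∧ LBase θ b B Λ W KE CE)
    (h4 : ∃ (b B : ℝ) (Λ W : ℤ) (KE : ℕ → ℤ) (CE : ℕ → ℝ), Kc b B Λ W CE ∧ LBase1 θ b B Λ W KE CE)
    (h5 : ∃ (b B : ℝ) (Λ W : ℤ) (KE : ℕ → ℤ) (CE : ℕ → ℝ), Kc b B Λ W CE ∧ LJun θ b B Λ W KE CE) :
    ∃ (b B : ℝ) (Λ W : ℤ) (KE : ℕ → ℤ) (CE : ℕ → ℝ), LAll θ b B Λ W KE CE := by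
  obtain ⟨b1, B1, Λ1, W1, K1, C1, k1, h1⟩ := h1
  obtain ⟨b2, B2, Λ2, W2, K2, C2, k2, h2⟩ := h2
  obtain ⟨b3, B3, Λ3, W3, K3, C3, k3, h3⟩ := h3
  obtain ⟨b4, B4, Λ4, W4, K4, C4, k4, h4⟩ := h4
  obtain ⟨b5, B5, Λ5, W5, K5, C5, k5, h5⟩ := h5
  obtain ⟨m1, m2, m3, m4, m5⟩ := min5 b1 b2 b3 b4 b5
  obtain ⟨p1, p2, p3, p4, p5⟩ := max5 B1 B2 B3 B4 B5
  obtain ⟨l1, l2, l3, l4, l5⟩ := max5 Λ1 Λ2 Λ3 Λ4 Λ5
  obtain ⟨w1, w2, w3, w4, w5⟩ := max5 W1 W2 W3 W4 W5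
  have kk := fun E => max5 (K1 E) (K2 E) (K3 E) (K4 E) (K5 E)
  have cc := fun E => max5 (C1 E) (C2 E) (C3 E) (C4 E) (C5 E)
  refine ⟨_, _, _, _, fun E => max (K1 E) (max (K2 E) (max (K3 E) (max (K4 E) (K5 E)))),
    fun E => max (C1 E) (max (C2 E) (max (C3 E) (max (C4 E) (C5 E)))), ?_,
    h1.mono hQ m1 p1 l1 w1 (fun E => (kk E).1) (fun E => (cc E).1),
    h2.mono hQ m2 p2 l2 w2 (fun E => (kk E).2.1) (fun E => (cc E).2.1),
    h3.mono hQ m3 p3 l3 w3 (fun E => (kk E).2.2.1) (fun E => (cc E).2.2.1),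
    h4.mono hQ m4 p4 l4 w4 (fun E => (kk E).2.2.2.1) (fun E => (cc E).2.2.2.1),
    h5.mono hQ m5 p5 l5 w5 (fun E => (kk E).2.2.2.2) (fun E => (cc E).2.2.2.2)⟩
  exact ⟨lt_min k1.bp (lt_min k2.bp (lt_min k3.bp (lt_min k4.bp k5.bp))), m1.trans k1.b1,
    k1.B1.trans p1, k1.L1.trans l1, k1.W1.trans w1, fun E => (k1.C1 E).trans (cc E).1⟩

/-! ### the centres -/

theorem ids_cases {S : CA.Dat} {Rs ja : Finset ℕ} {a : ℕ × Fin 3} (ha : a ∈ ids S Rs ja) :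
    (∃ i ∈ Tn S, a = (i, 0)) ∨ (∃ i ∈ Rs, a = (i, 1)) ∨ a = (0, 2) ∨ ∃ i ∈ ja, a = (i, 2) := by
  unfold ids at ha
  rw [mem_union, mem_union, mem_insert, mem_image, mem_image, mem_image] at ha
  rcases ha with (⟨i, hi, rfl⟩ | ⟨i, hi, rfl⟩) | rfl | ⟨i, hi, rfl⟩
  · exact Or.inl ⟨i, hi, rfl⟩
  · exact Or.inr (Or.inl ⟨i, hi, rfl⟩)
  · exact Or.inr (Or.inr (Or.inl rfl))
  · exact Or.inr (Or.inr (Or.inr ⟨i, hi, rfl⟩))

/-- The parity on two translates. -/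
theorem par_ab {a b : ℤ × ℤ} (h : ¬ (Even (a.1 + a.2) ↔ Even (b.1 + b.2))) (z : ℤ × ℤ) :
    Even ((z + a).1 + (z + a).2) ↔ ¬ Even ((z + b).1 + (z + b).2) := by
  simp only [Prod.fst_add, Prod.snd_add]
  rw [Int.even_iff, Int.even_iff] at h
  rw [Int.even_iff, Int.even_iff]
  omega

variable {S : CA.Dat} {θ β : ℝ}

/-- **The image of the natural functional on the translate by `b`**, on the translate by `a`. -/
noncomputable def IA (X : BD S θ β) (s : ℕ → ℕ) (e : ℝ) (ja : Finset ℕ) (n : ℕ) (τ : ℕ → ℤ)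
    (a b : ℤ × ℤ) (x : Bool) : PD :=
  ⟨X.N n, fun i => X.q n i + a, (S.D n).image (· + a), X.k n,
    fun j => rc θ β τ (X.k n) j -
      phA θ (fun i => X.q n i + b) (X.k n) ((Rf S).image fun i => i * n - t0 S s n) (me e n) x j,
    (ids S (Rf S) ja).image (jn (fun i => X.q n i + b) (X.k n) (t0 S s n) (me e n) n)⟩

theorem IA_eq (X : BD S θ β) (s : ℕ → ℕ) (e : ℝ) (ja : Finset ℕ) (n : ℕ) (τ : ℕ → ℤ)
    (b c : ℤ × ℤ) (x : Bool) : IA X s e ja n τ (b + c) b x =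
      imP θ β (NA X s e ja n b x).q (NA X s e ja n b x).D (NA X s e ja n b x).k
        (NA X s e ja n b x).ρ (NA X s e ja n b x).J τ c := by
  unfold IA imP NA
  simp only [add_assoc, image_image, Function.comp_def]

section fix

variable {X : BD S θ β} {s : ℕ → ℕ} {e C : ℝ} {Rs ja : Finset ℕ} {n d L : ℕ} {τ : ℕ → ℤ}
  {N' : ℕ} {q' : ZMod N' → ℤ × ℤ}

theorem Sc.farI (H : Sc X s e Rs ja C n) (he : 0 < e) (he1 : 2 * e ≤ S.tp)
    (he2 : e ≤ 1 - S.tp) (hRs : Rs ⊆ Tn S) (hbig : 8 * (C + 1) < e * n)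
    (hL : L ≤ ⌊e / 2 * n⌋₊) {a : ℕ × Fin 3} (ha : a ∈ ids S Rs ja) (h2 : a.2 ≠ 2) :
    FarI (X.N n) (X.k n) L (jn q' (X.k n) (t0 S s n) (me e n) n a) := by
  have h1 := H.mid he he1 he2 hRs hbig q' ha (fun h => h2 (by rw [h]))
  have h3 := H.sid he he1 he2 hRs hbig q' ha h2
  right
  constructor
  · right
    omega
  · right
    omega

/-- The good parity at the compensating charges. -/
theorem Sc.par_z {a : ℤ × ℤ} {i : ℕ} (H : Sc X s e Rs ja C n) (he : 0 < e) (he1 : 2 * e ≤ S.tp)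
    (he2 : e ≤ 1 - S.tp) (hRs : Rs ⊆ Tn S) (hbig : 8 * (C + 1) < e * n) (hi : i ∈ Rs) :
    let q' : ZMod (X.N n) → ℤ × ℤ := fun i => X.q n i + a
    let z := rI q' (X.k n) (i * n - t0 S s n) + me e n
    Even ((q' (z : ZMod (X.N n))).1 + (q' (z : ZMod (X.N n))).2) ↔ z < X.k n := by
  intro q' z
  have hq : IsPolygon q' := poly_add H.poly a
  have h1 : GdR q' (X.k n) (rI q' (X.k n) (i * n - t0 S s n)) :=
    rI_gd hq ((H.sep_img he he1 he2 hRs).2 _ (mem_image_of_mem _ hi))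
  unfold GdR at h1
  have h2 := H.side_z q' he he1 he2 hRs hbig hi
  rw [par_nat hq] at h1 ⊢
  have h3 : me e n % 2 = 1 := by
    unfold me
    omega
  obtain ⟨m, hm⟩ : ∃ m, m = me e n := ⟨_, rfl⟩
  obtain ⟨r, hr⟩ : ∃ r, r = rI q' (X.k n) (i * n - t0 S s n) := ⟨_, rfl⟩
  have hz : z = r + m := by rw [hr, hm]
  rw [← hr] at h1
  rw [← hr, ← hm] at h2
  rw [← hm] at h3
  rw [hz]
  rw [Int.even_iff] at h1 ⊢
  push_cast
  omega

end fix

/-- The junction is a centre. -/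
theorem Sc.near_k' {X : BD S θ β} {s : ℕ → ℕ} {e C : ℝ} {Rs ja : Finset ℕ} {n N' : ℕ}
    (H : Sc X s e Rs ja C n) (q' : ZMod N' → ℤ × ℤ) {j : ℕ} (h0 : 0 < j) (hN : j < X.N n)
    (h : j = X.k n) : ∃ i ∈ JT S s e Rs ja q' (X.k n) n, |(i : ℤ) - j| ≤ 2 := by
  rcases H.jun with ⟨-, h1 | h1⟩ | ⟨ia, h1, h2, h3⟩
  · omega
  · omega
  · refine ⟨X.k n, mem_JTk _ _ _ (i := ia) (by rw [h1]; simp) h2, ?_⟩
    rw [h, sub_self, abs_zero]
    norm_num

/-- **The geometry of the images.** -/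
theorem Sc.ok_ia {X : BD S θ β} {s : ℕ → ℕ} {e C : ℝ} {ja : Finset ℕ} {n : ℕ} {τ : ℕ → ℤ}
    (H : Sc X s e (Rf S) ja C n) (he : 0 < e) (he1 : 2 * e ≤ S.tp) (he2 : e ≤ 1 - S.tp)
    (hbig : 8 * (C + 1) < e * n)
    (hτ : Bd (S.D n : Set (ℤ × ℤ)) (X.N n) (fun i => X.q n (i : ZMod (X.N n))) τ 1)
    (a b' : ℤ × ℤ) (x : Bool) : (IA X s e ja n τ a b' x).Ok n ⌊e / 2 * n⌋₊ := by
  refine ⟨poly_add H.poly a, encl_add H.enc a, ?_,
    ⟨fun j hj => H.ltT he he1 (Rf_sub S) hbig _ hj, mem_JT0 _ _ _, ?_⟩, ?_⟩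
  · exact geoP_enl (a := a) S.poly S.enc H.n0 (poly_add H.poly a) (encl_add H.enc a)
  · intro j h0 hN h
    have hN' : j < X.N n := hN
    by_cases hk : j = X.k n
    · exact H.near_k' (fun i => X.q n i + b') h0 hN' hk
    rcases h with h | h
    · by_cases hr : phA θ (fun i => X.q n i + b') (X.k n)
          ((Rf S).image fun i => i * n - t0 S s n) (me e n) x j ≠
        phA θ (fun i => X.q n i + b') (X.k n)
          ((Rf S).image fun i => i * n - t0 S s n) (me e n) x (j - 1)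
      · exact phA_near (ja := ja) (Rf_sub S) h0 hr
      · push Not at hr
        have hτj : τ j ≠ τ (j - 1) := by
          intro h2
          apply h
          show rc θ β τ (X.k n) j - phA θ (fun i => X.q n i + b') (X.k n)
              ((Rf S).image fun i => i * n - t0 S s n) (me e n) x j =
            rc θ β τ (X.k n) (j - 1) - phA θ (fun i => X.q n i + b') (X.k n)
              ((Rf S).image fun i => i * n - t0 S s n) (me e n) x (j - 1)
          rw [hr]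
          congr 1
          have h3 := rc_inc (θ := θ) (β := β) (k := X.k n) (τ := τ) h0
          rw [if_neg hk, h2, sub_self, Int.cast_zero, mul_zero, sub_zero] at h3
          exact sub_eq_zero.1 h3
        obtain ⟨i, hi, h3, -, -⟩ := H.turn_id hτ h0 hN' hτj
        refine ⟨i * n - t0 S s n, mem_JTc _ _ _ hi, ?_⟩
        rw [← h3, sub_self, abs_zero]
        norm_num
    · exact absurd h hk
  · intro i hi j hj hij
    exact H.sepT he he1 he2 (Rf_sub S) hbig _ hi hj hij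

section loc

variable {X : BD S θ (bt θ)} {s : ℕ → ℕ} {e C : ℝ} {ja : Finset ℕ} {n d L : ℕ} {τ : ℕ → ℤ}
  {a b' : ℤ × ℤ} {m r : ℤ} {η : Cfg} {x : Bool} {b B : ℝ} {Λ W : ℤ} {KE : ℕ → ℤ} {CE : ℕ → ℝ}

/-- **The natural functionals**: every centre is positive or killed. -/
theorem na_loc (h1 : Ang θ) (hA : LAll θ b B Λ W KE CE) (H : Sc X s e (Rf S) ja C n)
    (he : 0 < e) (he1 : 2 * e ≤ S.tp) (he2 : e ≤ 1 - S.tp) (hbig : 8 * (C + 1) < e * n)
    (hL : LkD n (X.N n) (fun i => X.q n i + a) ((S.D n).image (· + a)) (X.k n) τ L m η)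
    (hτ : Bd (S.D n : Set (ℤ × ℤ)) (X.N n) (fun i => X.q n (i : ZMod (X.N n))) τ 1)
    (hd : d + 3 ≤ ⌊e / 2 * n⌋₊) (hLe : L ≤ ⌊e / 2 * n⌋₊) (r1 : 1 ≤ r) (r2 : 3 * (r + 1) < n)
    (r3 : 2 * (r + 1) ≤ d) (r4 : W * r ≤ n) (r5 : W * r ≤ d) (r6 : W * r ≤ m)
    (hx : XOk (X.N n) (X.k n) (fun i => X.q n i + a) x) : ∀ j ∈ (NA X s e ja n a x).J,
      PC θ (bt θ) (NA X s e ja n a x).q (NA X s e ja n a x).D (NA X s e ja n a x).k
        (NA X s e ja n a x).ρ (wl θ)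
        ((NA X s e ja n a x).q (j : ZMod (NA X s e ja n a x).N)) r ∨
      KC θ (bt θ) (NA X s e ja n a x).q (NA X s e ja n a x).D (NA X s e ja n a x).k
        (NA X s e ja n a x).ρ η b B Λ KE CE
        ((NA X s e ja n a x).q (j : ZMod (NA X s e ja n a x).N)) r := by
  intro j hj
  have h0 := h1.pos
  have hlt := h1.lt
  have hgt := h1.gt
  have hLl := H.L_le he1
  have hn0 := H.n0
  have hR := Rf_sub S
  obtain ⟨q', hq'⟩ : ∃ q' : ZMod (X.N n) → ℤ × ℤ, q' = fun i => X.q n i + a := ⟨_, rfl⟩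
  show PC θ (bt θ) (fun i => X.q n i + a) ((S.D n).image (· + a)) (X.k n)
      (phA θ (fun i => X.q n i + a) (X.k n) ((Rf S).image fun i => i * n - t0 S s n) (me e n) x)
      (wl θ) ((fun i => X.q n i + a) (j : ZMod (X.N n))) r ∨
    KC θ (bt θ) (fun i => X.q n i + a) ((S.D n).image (· + a)) (X.k n)
      (phA θ (fun i => X.q n i + a) (X.k n) ((Rf S).image fun i => i * n - t0 S s n) (me e n) x)
      η b B Λ KE CE ((fun i => X.q n i + a) (j : ZMod (X.N n))) r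
  rw [← hq'] at hL hx ⊢
  have hG := hL.geo
  have hq := hL.poly
  have hD := hL.enc
  have hJ : j ∈ (ids S (Rf S) ja).image (jn q' (X.k n) (t0 S s n) (me e n) n) := by
    rw [hq']
    exact hj
  obtain ⟨c, hc, rfl⟩ := mem_image.1 hJ
  rcases ids_cases hc with ⟨i, hi, rfl⟩ | ⟨i, hi, rfl⟩ | rfl | ⟨i, hi, rfl⟩
  · -- corners
    have hm := H.mid he he1 he2 hR hbig q' hc (fun h => by simp at h)
    have hs := H.sid he he1 he2 hR hbig q' hc (by simp)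
    have hF := H.farI (q' := q') (L := L) he he1 he2 hR hbig hLe hc (by simp)
    rw [jn_c] at hm hs hF ⊢
    by_cases hi' : i ∈ Rf S
    · right
      exact hA.refl hL (cos_bt θ) (H.win_r he he1 he2 hR hbig hτ hd hi') (by omega) (by omega) hF
        (by omega) (fun l l1 l2 l3 => H.phA_r q' he he1 he2 hR hbig hd hi' l3 l1.le l2) r4 r5 r6 r1
    · left
      exact pc_mid h0 hlt hG hq hD r2 r3 (by omega) (by omega) (by omega) (v := 0) (by linarith)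
        le_rfl (fun l l1 l2 l3 => by
          rw [H.phA_c q' he he1 he2 hR hbig hd hi hi' l3 l1.le l2]
          split_ifs <;> rfl)
  · -- compensating charges
    left
    have hm := H.mid he he1 he2 hR hbig q' hc (fun h => by simp at h)
    have hs := H.sid he he1 he2 hR hbig q' hc (by simp)
    rw [jn_z] at hm hs ⊢
    exact pc_mid h0 hlt hG hq hD r2 r3 (by omega) (by omega) (by omega) (v := -θ) le_rfl
      (by linarith) (fun l l1 l2 l3 => H.phA_z q' he he1 he2 hR hbig hd hi l3 l1.le l2)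
  · -- the base
    left
    rw [jn_0, Nat.cast_zero]
    rcases H.k_cases he he1 he2 hR hbig with hk | ⟨k1, k2, k3, k4, -⟩
    · refine pc_fw h0 hlt hG hq hD r2 r3 hk (by omega) (fun i hi l hl hil => ?_)
        (fun i hi l hl hiN hlN hil => ?_) (fun i hi l hl hlN => ?_)
      · rw [H.phA_b q' he he1 he2 hR hbig hd (Or.inl hi),
          H.phA_b q' he he1 he2 hR hbig hd (Or.inl hl)]
        by_cases hxx : x = true
        · rcases Nat.eq_zero_or_pos i with rfl | hi0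
          · rw [if_neg (show ¬ (x = true ∧ 1 ≤ 0) by omega)]
            split_ifs <;> constructor <;> linarith
          · rw [if_pos (⟨hxx, by omega⟩ : x = true ∧ 1 ≤ l),
              if_pos (⟨hxx, by omega⟩ : x = true ∧ 1 ≤ i)]
            constructor <;> linarith
        · rw [if_neg (fun h => hxx h.1), if_neg (fun h => hxx h.1)]
          constructor <;> linarith
      · rw [H.phA_b q' he he1 he2 hR hbig hd (Or.inr hiN),
          H.phA_b q' he he1 he2 hR hbig hd (Or.inr hlN)]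
        by_cases hxx : x = true
        · rw [if_pos ⟨hxx, by omega⟩, if_pos ⟨hxx, by omega⟩]
          constructor <;> linarith
        · rw [if_neg (fun h => hxx h.1), if_neg (fun h => hxx h.1)]
          constructor <;> linarith
      · rw [H.phA_b q' he he1 he2 hR hbig hd (Or.inl hi),
          H.phA_b q' he he1 he2 hR hbig hd (Or.inr hlN)]
        by_cases hxx : x = true
        · rw [if_pos (⟨hxx, by omega⟩ : x = true ∧ 1 ≤ l)]
          split_ifs <;> constructor <;> linarith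
        · rw [if_neg (fun h => hxx h.1), if_neg (fun h => hxx h.1)]
          constructor <;> linarith
    · have hxf : x = false := by
        rcases hx with ⟨h | h, -⟩ | ⟨-, -, h⟩
        · omega
        · omega
        · exact h
      have e0 : ∀ i, i ≤ d ∨ X.N n ≤ i + d → phA θ q' (X.k n)
          ((Rf S).image fun i => i * n - t0 S s n) (me e n) x i = 0 := fun i hi => by
        rw [H.phA_b q' he he1 he2 hR hbig hd hi, if_neg (fun h => by
          rw [hxf] at h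
          exact absurd h.1 (by decide))]
      refine pc_base h0 hlt hG hq hD r2 r3 (by omega) (by omega) ?_ (fun i i1 i2 => ?_)
        (fun i i1 i2 => ?_)
      · rw [e0 _ (Or.inr (by omega)), e0 0 (Or.inl (by omega))]
        exact abs_bt (by linarith) (by linarith)
      · rw [e0 i (Or.inl i2), e0 (i - 1) (Or.inl (by omega)), sub_zero]
      · rw [e0 i (Or.inr (by omega)), e0 (i - 1) (Or.inr (by omega)), sub_zero]
  · -- the junction
    left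
    have hi0 := (H.ja_lt i hi).1
    have hm := H.mid he he1 he2 hR hbig q' hc (fun h => by simp at h; omega)
    rw [jn_k _ _ _ _ _ _ hi0] at hm ⊢
    exact pc_jun h0 hlt hG hq hD r2 r3 (by omega) (by omega) (v := 0)
      (abs_bt (by linarith) (by linarith)) (fun l l1 l2 l3 => by
        rw [H.phA_k q' he he1 he2 hR hbig hd hi l3 l1.le l2]
        split_ifs <;> rfl)

/-- **The images**: every centre is positive or killed. -/
theorem ia_loc (h1 : Ang θ) (hA : LAll θ b B Λ W KE CE) (H : Sc X s e (Rf S) ja C n)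
    (he : 0 < e) (he1 : 2 * e ≤ S.tp) (he2 : e ≤ 1 - S.tp) (hbig : 8 * (C + 1) < e * n)
    (hL : LkD n (X.N n) (fun i => X.q n i + a) ((S.D n).image (· + a)) (X.k n) τ L m η)
    (hτ : Bd (S.D n : Set (ℤ × ℤ)) (X.N n) (fun i => X.q n (i : ZMod (X.N n))) τ 1)
    (hd : d + 3 ≤ ⌊e / 2 * n⌋₊) (hLe : L ≤ ⌊e / 2 * n⌋₊) (hdL : d < L) (r1 : 1 ≤ r)
    (r2 : 3 * (r + 1) < n) (r3 : 2 * (r + 1) ≤ d) (r4 : W * r ≤ n) (r5 : W * r ≤ d)
    (r6 : W * r ≤ m) (hab : ¬ (Even (a.1 + a.2) ↔ Even (b'.1 + b'.2)))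
    (hx : XOk (X.N n) (X.k n) (fun i => X.q n i + b') x) : ∀ j ∈ (IA X s e ja n τ a b' x).J,
      PC θ (bt θ) (IA X s e ja n τ a b' x).q (IA X s e ja n τ a b' x).D
        (IA X s e ja n τ a b' x).k (IA X s e ja n τ a b' x).ρ (wl θ)
        ((IA X s e ja n τ a b' x).q (j : ZMod (IA X s e ja n τ a b' x).N)) r ∨
      KC θ (bt θ) (IA X s e ja n τ a b' x).q (IA X s e ja n τ a b' x).D
        (IA X s e ja n τ a b' x).k (IA X s e ja n τ a b' x).ρ η b B Λ KE CE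
        ((IA X s e ja n τ a b' x).q (j : ZMod (IA X s e ja n τ a b' x).N)) r := by
  intro j hj
  have h0 := h1.pos
  have hlt := h1.lt
  have hgt := h1.gt
  have hLl := H.L_le he1
  have hn0 := H.n0
  have hR := Rf_sub S
  obtain ⟨qa, hqa⟩ : ∃ qa : ZMod (X.N n) → ℤ × ℤ, qa = fun i => X.q n i + a := ⟨_, rfl⟩
  obtain ⟨q', hq'⟩ : ∃ q' : ZMod (X.N n) → ℤ × ℤ, q' = fun i => X.q n i + b' := ⟨_, rfl⟩
  show PC θ (bt θ) (fun i => X.q n i + a) ((S.D n).image (· + a)) (X.k n)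
      (fun j => rc θ (bt θ) τ (X.k n) j - phA θ (fun i => X.q n i + b') (X.k n)
        ((Rf S).image fun i => i * n - t0 S s n) (me e n) x j)
      (wl θ) ((fun i => X.q n i + a) (j : ZMod (X.N n))) r ∨
    KC θ (bt θ) (fun i => X.q n i + a) ((S.D n).image (· + a)) (X.k n)
      (fun j => rc θ (bt θ) τ (X.k n) j - phA θ (fun i => X.q n i + b') (X.k n)
        ((Rf S).image fun i => i * n - t0 S s n) (me e n) x j)
      η b B Λ KE CE ((fun i => X.q n i + a) (j : ZMod (X.N n))) r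
  have hpz : ∀ i ∈ Rf S, (Even ((q' ((rI q' (X.k n) (i * n - t0 S s n) + me e n : ℕ) :
      ZMod (X.N n))).1 + (q' ((rI q' (X.k n) (i * n - t0 S s n) + me e n : ℕ) :
      ZMod (X.N n))).2) ↔ rI q' (X.k n) (i * n - t0 S s n) + me e n < X.k n) := fun i hi => by
    have h5 := H.par_z (a := b') he he1 he2 hR hbig hi
    simp only at h5
    rw [hq']
    exact h5
  have hpar : ∀ i : ZMod (X.N n), Even ((qa i).1 + (qa i).2) ↔ ¬ Even ((q' i).1 + (q' i).2) := by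
    intro i
    rw [hqa, hq']
    exact par_ab hab _
  rw [← hqa] at hL
  rw [← hq'] at hx
  rw [← hq', ← hqa]
  have hG := hL.geo
  have hq := hL.poly
  have hD := hL.enc
  have hJ : j ∈ (ids S (Rf S) ja).image (jn q' (X.k n) (t0 S s n) (me e n) n) := by
    rw [hq']
    exact hj
  obtain ⟨c, hc, rfl⟩ := mem_image.1 hJ
  obtain ⟨ρ, hρ⟩ : ∃ ρ : ℕ → ℝ, ρ = fun j => rc θ (bt θ) τ (X.k n) j - phA θ q' (X.k n)
      ((Rf S).image fun i => i * n - t0 S s n) (me e n) x j := ⟨_, rfl⟩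
  have hinc : ∀ l, ρ l - ρ (l - 1) = (rc θ (bt θ) τ (X.k n) l - rc θ (bt θ) τ (X.k n) (l - 1)) -
      (phA θ q' (X.k n) ((Rf S).image fun i => i * n - t0 S s n) (me e n) x l -
        phA θ q' (X.k n) ((Rf S).image fun i => i * n - t0 S s n) (me e n) x (l - 1)) := by
    intro l
    rw [hρ]
    ring
  rw [← hρ]
  rcases ids_cases hc with ⟨i, hi, rfl⟩ | ⟨i, hi, rfl⟩ | rfl | ⟨i, hi, rfl⟩
  · -- corners
    left
    have hm := H.mid he he1 he2 hR hbig q' hc (fun h => by simp at h)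
    have hs := H.sid he he1 he2 hR hbig q' hc (by simp)
    have hrc : ∀ l, i * n - t0 S s n < l + d → l ≤ i * n - t0 S s n + d → 0 < l →
        rc θ (bt θ) τ (X.k n) l - rc θ (bt θ) τ (X.k n) (l - 1) =
          if l = i * n - t0 S s n then -(θ / 2 * ((τ (i * n - t0 S s n) -
            τ (i * n - t0 S s n - 1) : ℤ) : ℝ)) else 0 := by
      intro l l1 l2 l3
      have h5 := H.rc_w q' (θ' := θ) (β' := bt θ) he he1 he2 hR hbig hτ hd hc (by simp) l3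
        (by rw [jn_c]; exact l1.le) (by rw [jn_c]; exact l2)
      rw [jn_c] at h5
      exact h5
    rw [jn_c] at hm hs ⊢
    rw [H.turn_c hτ hi] at hrc
    by_cases hi' : i ∈ Rf S
    · rw [tn_of_Rf hi'] at hrc
      refine pc_refl h0 hlt hG hq hD r2 r3 (by omega) (by omega) (by omega) ?_
      by_cases hr : ((i * n - t0 S s n) < X.k n ↔
        Even ((q' ((i * n - t0 S s n : ℕ) : ZMod (X.N n))).1 +
          (q' ((i * n - t0 S s n : ℕ) : ZMod (X.N n))).2))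
      · right
        have hrI : rI q' (X.k n) (i * n - t0 S s n) = i * n - t0 S s n + 1 := by
          unfold rI
          rw [if_pos hr]
        constructor
        · rw [hpar, ← hr]
          exact not_lt
        · intro l l1 l2 l3
          rw [hinc, hrc l l1 l2 l3, H.phA_r q' he he1 he2 hR hbig hd hi' l3 l1.le l2, hrI]
          push_cast
          split_ifs <;> ring
      · left
        have hrI : rI q' (X.k n) (i * n - t0 S s n) = i * n - t0 S s n := by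
          unfold rI
          rw [if_neg hr]
        intro l l1 l2 l3
        rw [hinc, hrc l l1 l2 l3, H.phA_r q' he he1 he2 hR hbig hd hi' l3 l1.le l2, hrI]
        push_cast
        split_ifs <;> ring
    · rw [tn_of_Tn hi hi'] at hrc
      refine pc_mid h0 hlt hG hq hD r2 r3 (by omega) (by omega) (by omega) (v := -(θ / 2))
        (by linarith) (by linarith) (fun l l1 l2 l3 => ?_)
      rw [hinc, hrc l l1 l2 l3, H.phA_c q' he he1 he2 hR hbig hd hi hi' l3 l1.le l2]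
      push_cast
      split_ifs <;> ring
  · -- compensating charges
    right
    have hm := H.mid he he1 he2 hR hbig q' hc (fun h => by simp at h)
    have hs := H.sid he he1 he2 hR hbig q' hc (by simp)
    have hF := H.farI (q' := q') (L := L) he he1 he2 hR hbig hLe hc (by simp)
    have ht := H.turn_0 q' he he1 he2 hR hbig hτ hd hc (fun h => by simp at h) (by simp)
    rw [jn_z] at hm hs hF ht ⊢
    refine hA.flat hL (cos_bt θ) (H.win_z q' he he1 he2 hR hbig hτ hd hi) (by omega) (by omega) hF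
      (by omega) ?_ (fun l l1 l2 l3 => ?_) r4 r5 r6 r1
    · rw [hpar, hpz i hi]
      exact not_lt
    · have h5 := H.rc_w q' (θ' := θ) (β' := bt θ) he he1 he2 hR hbig hτ hd hc (by simp) l3
        (by rw [jn_z]; exact l1.le) (by rw [jn_z]; exact l2)
      rw [jn_z, ht] at h5
      rw [hinc, h5, H.phA_z q' he he1 he2 hR hbig hd hi l3 l1.le l2]
      push_cast
      split_ifs <;> ring
  · -- the base
    rw [jn_0, Nat.cast_zero]
    have hW0 := H.win_0 he he1 he2 hR hbig hτ hd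
    have hp0 := hpar 0
    have hA0 : ∀ i, i ≤ d ∨ X.N n ≤ i + d → phA θ q' (X.k n)
        ((Rf S).image fun i => i * n - t0 S s n) (me e n) x i =
          if x = true ∧ 1 ≤ i then -θ else 0 := fun i hi =>
      H.phA_b q' he he1 he2 hR hbig hd hi
    have hr0 : ∀ i, i ≤ d → rc θ (bt θ) τ (X.k n) i = rc θ (bt θ) τ (X.k n) 0 := fun i hi =>
      H.rc_b0 he he1 he2 hR hbig hτ hd hi
    have hrN : ∀ i, i < X.N n → X.N n ≤ i + d → rc θ (bt θ) τ (X.k n) i =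
        rc θ (bt θ) τ (X.k n) 0 + (if 0 < X.k n ∧ X.k n < X.N n then -(2 * bt θ) else 0) - 2 * θ :=
      fun i hi hi' => H.rc_bN he he1 he2 hR hbig hτ hd hi hi'
    rcases H.k_cases he he1 he2 hR hbig with hk | ⟨k1, k2, k3, k4, -⟩
    · right
      have hxk : x = true ↔ (Even ((q' 0).1 + (q' 0).2) ↔ X.k n = 0) := by
        rcases hx with ⟨-, h⟩ | ⟨h5, h6, -⟩
        · exact h
        · omega
      have hkk : ¬ (0 < X.k n ∧ X.k n < X.N n) := by omega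
      by_cases hxx : x = true
      · refine hA.base1 hL (cos_bt θ) hW0 (by omega) hk ?_ (fun i i1 i2 => ?_)
          (fun i i1 i2 => ?_) r4 r5 r6 r1
        · rw [hp0, hxk.1 hxx]
        · rw [hρ]
          simp only
          rw [hA0 i (Or.inl i2), hA0 0 (Or.inl (by omega)), hr0 i i2, if_pos ⟨hxx, i1⟩,
            if_neg (by omega)]
          ring
        · rw [hρ]
          simp only
          rw [hA0 i (Or.inr i2), hA0 0 (Or.inl (by omega)), hrN i i1 i2, if_neg hkk,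
            if_pos (⟨hxx, by omega⟩ : x = true ∧ 1 ≤ i),
            if_neg (show ¬ (x = true ∧ 1 ≤ 0) by omega)]
          ring
      · refine hA.base hL (cos_bt θ) hW0 (by omega) hk ?_ (fun i i1 => ?_)
          (fun i i1 i2 => ?_) r4 r5 r6 r1
        · rw [hp0]
          have h5 : ¬ (Even ((q' 0).1 + (q' 0).2) ↔ X.k n = 0) := fun h => hxx (hxk.2 h)
          by_cases h6 : Even ((q' 0).1 + (q' 0).2)
          · exact iff_of_false (not_not.2 h6) (fun h7 => h5 (iff_of_true h6 h7))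
          · exact iff_of_true h6 (by
              by_contra h7
              exact h5 (iff_of_false h6 h7))
        · rw [hρ]
          simp only
          rw [hA0 i (Or.inl i1), hA0 0 (Or.inl (by omega)), hr0 i i1, if_neg (fun h => hxx h.1),
            if_neg (fun h => hxx h.1)]
        · rw [hρ]
          simp only
          rw [hA0 i (Or.inr i2), hA0 0 (Or.inl (by omega)), hrN i i1 i2, if_neg hkk,
            if_neg (fun h => hxx h.1), if_neg (fun h => hxx h.1)]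
          ring
    · left
      have hxf : x = false := by
        rcases hx with ⟨h | h, -⟩ | ⟨-, -, h⟩
        · omega
        · omega
        · exact h
      have e0 : ∀ i, i ≤ d ∨ X.N n ≤ i + d → phA θ q' (X.k n)
          ((Rf S).image fun i => i * n - t0 S s n) (me e n) x i = 0 := fun i hi => by
        rw [hA0 i hi, if_neg (fun h => by
          rw [hxf] at h
          exact absurd h.1 (by decide))]
      refine pc_base h0 hlt hG hq hD r2 r3 (by omega) (by omega) ?_ (fun i i1 i2 => ?_)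
        (fun i i1 i2 => ?_)
      · rw [hρ]
        simp only
        rw [e0 _ (Or.inr (by omega)), e0 0 (Or.inl (by omega)), hrN _ (by omega) (by omega),
          if_pos ⟨k1, k2⟩]
        have e1 : rc θ (bt θ) τ (X.k n) 0 + -(2 * bt θ) - 2 * θ - 0 -
            (rc θ (bt θ) τ (X.k n) 0 - 0) = Real.pi - 3 * θ := by
          unfold bt
          ring
        rw [e1]
        exact abs_bt (by linarith) (by linarith)
      · rw [hinc, e0 i (Or.inl i2), e0 (i - 1) (Or.inl (by omega)), hr0 i i2,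
          hr0 (i - 1) (by omega)]
        ring
      · rw [hinc, e0 i (Or.inr (by omega)), e0 (i - 1) (Or.inr (by omega)),
          hrN i i1 (by omega), hrN (i - 1) (by omega) (by omega)]
        ring
  · -- the junction
    right
    have hi0 := (H.ja_lt i hi).1
    have hm := H.mid he he1 he2 hR hbig q' hc (fun h => by simp at h; omega)
    rw [jn_k _ _ _ _ _ _ hi0] at hm ⊢
    have hrk : ∀ l, X.k n < l + d → l ≤ X.k n + d → 0 < l → ρ l - ρ (l - 1) =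
        if l = X.k n then -(2 * bt θ) else 0 := by
      intro l l1 l2 l3
      rw [hinc, H.rc_k he he1 he2 hR hbig hτ hd hi l3 l1.le l2,
        H.phA_k q' he he1 he2 hR hbig hd hi l3 l1.le l2, sub_zero]
    refine hA.jun hL (cos_bt θ) (H.win_k he he1 he2 hR hbig hτ hd hi) (by omega) (by omega) hdL
      (fun l l1 l2 l3 l4 => ?_) ?_ r4 r5 r6 r1
    · have h5 := hrk l l1 l2 l3
      rw [if_neg l4] at h5
      linarith
    · rw [hrk (X.k n) (by omega) (by omega) (by omega), if_pos rfl]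
      have e1 : θ / 2 + bt θ + -(2 * bt θ) = Real.pi / 2 := by
        unfold bt
        ring
      rw [e1, Real.cos_pi_div_two]

end loc

/-! ### the families -/

/-- The numbers. -/
theorem loc_num {c e : ℝ} {W : ℤ} (hc : 0 < c) (he : 0 < e) (hce : c ≤ e / 4) (hc1 : c ≤ 1)
    (hW : 1 ≤ W) : ∃ A : ℝ, ∀ n : ℕ, A ≤ n →
      1 ≤ ⌊c / (400 * W) * n⌋ ∧ 3 * (⌊c / (400 * W) * n⌋ + 1) < (n : ℤ) ∧
      2 * (⌊c / (400 * W) * n⌋ + 1) ≤ ((⌊c / 2 * n⌋₊ : ℕ) : ℤ) ∧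
      W * ⌊c / (400 * W) * n⌋ ≤ (n : ℤ) ∧
      W * ⌊c / (400 * W) * n⌋ ≤ ((⌊c / 2 * n⌋₊ : ℕ) : ℤ) ∧
      W * ⌊c / (400 * W) * n⌋ ≤ ⌊c / 100 * n⌋ ∧ ⌊c / (400 * W) * n⌋ ≤ ⌊c / 100 * n⌋ ∧
      ⌊c / 2 * n⌋₊ + 3 ≤ ⌊e / 2 * n⌋₊ ∧ ⌊c * n⌋₊ ≤ ⌊e / 2 * n⌋₊ ∧ ⌊c / 2 * n⌋₊ < ⌊c * n⌋₊ ∧
      ⌊c / (400 * W) * n⌋₊ ≤ ⌊e / 2 * n⌋₊ := by
  have hW' : (1 : ℝ) ≤ W := by exact_mod_cast hW
  refine ⟨max (400 * W / c) (16 / e) + 400 / c + 8, fun n hn => ?_⟩
  have e1 := le_max_left (400 * (W : ℝ) / c) (16 / e)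
  have e2 := le_max_right (400 * (W : ℝ) / c) (16 / e)
  have hp1 : 0 < 400 / c := by positivity
  have hp2 : 0 < 400 * (W : ℝ) / c := by positivity
  have f1 : 400 * (W : ℝ) / c ≤ n := by linarith
  have f2 : 16 / e ≤ n := by linarith
  have f3 : 400 / c ≤ n := by linarith
  have f4 : (8 : ℝ) ≤ n := by linarith
  rw [div_le_iff₀ hc] at f1 f3
  rw [div_le_iff₀ he] at f2
  have hn0 : (0 : ℝ) < n := by linarith
  have hcn : c * n ≤ e / 4 * n := mul_le_mul_of_nonneg_right hce hn0.le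
  have hc1n : c * n ≤ 1 * n := mul_le_mul_of_nonneg_right hc1 hn0.le
  obtain ⟨y, hy⟩ : ∃ y : ℝ, y = c / (400 * W) * n := ⟨_, rfl⟩
  have hy1 : W * y = c / 400 * n := by
    rw [hy]
    field_simp
  have hyW : y ≤ W * y := le_mul_of_one_le_left (by rw [hy]; positivity) hW'
  have hy0 : 0 ≤ y := by rw [hy]; positivity
  have hy2 : 1 ≤ y := by
    rw [hy, div_mul_eq_mul_div, le_div_iff₀ (by positivity), one_mul]
    linarith
  rw [← hy]
  have g1 : ((⌊y⌋ : ℤ) : ℝ) ≤ y := Int.floor_le _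
  have g2 : (W : ℝ) * ((⌊y⌋ : ℤ) : ℝ) ≤ W * y := mul_le_mul_of_nonneg_left g1 (by linarith)
  have g3 : c / 2 * n < ⌊c / 2 * (n : ℝ)⌋₊ + 1 := Nat.lt_floor_add_one _
  have g3' : (⌊c / 2 * (n : ℝ)⌋₊ : ℝ) ≤ c / 2 * n := Nat.floor_le (by positivity)
  have g4 : c / 100 * n < ⌊c / 100 * (n : ℝ)⌋ + 1 := Int.lt_floor_add_one _
  have g5 : e / 2 * n < ⌊e / 2 * (n : ℝ)⌋₊ + 1 := Nat.lt_floor_add_one _
  have g6 : c * n < ⌊c * (n : ℝ)⌋₊ + 1 := Nat.lt_floor_add_one _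
  refine ⟨?_, ?_, ?_, ?_, ?_, ?_, ?_, ?_, ?_, ?_, ?_⟩
  · rw [Int.le_floor]
    push_cast
    exact hy2
  · have : ((3 * (⌊y⌋ + 1) : ℤ) : ℝ) < ((n : ℤ) : ℝ) := by
      push_cast
      linarith
    exact_mod_cast this
  · have : ((2 * (⌊y⌋ + 1) : ℤ) : ℝ) ≤ ((⌊c / 2 * (n : ℝ)⌋₊ : ℤ) : ℝ) := by
      push_cast
      linarith
    exact_mod_cast this
  · have : ((W * ⌊y⌋ : ℤ) : ℝ) ≤ ((n : ℤ) : ℝ) := by
      push_cast
      linarith
    exact_mod_cast this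
  · have : ((W * ⌊y⌋ : ℤ) : ℝ) ≤ ((⌊c / 2 * (n : ℝ)⌋₊ : ℤ) : ℝ) := by
      push_cast
      linarith
    exact_mod_cast this
  · rw [Int.le_floor]
    push_cast
    linarith
  · refine Int.floor_le_floor ?_
    linarith
  · have : ((⌊c / 2 * (n : ℝ)⌋₊ + 3 : ℕ) : ℝ) < ((⌊e / 2 * (n : ℝ)⌋₊ + 1 : ℕ) : ℝ) := by
      push_cast
      linarith
    have h2 : ⌊c / 2 * (n : ℝ)⌋₊ + 3 < ⌊e / 2 * (n : ℝ)⌋₊ + 1 := by exact_mod_cast this
    omega
  · refine Nat.floor_le_floor ?_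
    linarith
  · have : ((⌊c / 2 * (n : ℝ)⌋₊ + 1 : ℕ) : ℝ) < ((⌊c * (n : ℝ)⌋₊ + 1 : ℕ) : ℝ) := by
      push_cast
      linarith
    have h2 : ⌊c / 2 * (n : ℝ)⌋₊ + 1 < ⌊c * (n : ℝ)⌋₊ + 1 := by exact_mod_cast this
    omega
  · refine Nat.floor_le_floor ?_
    linarith

/-- **The local data of the families**, all translates, one set of constants. -/
theorem loc_all_of (h1 : Ang θ) {b B : ℝ} {Λ W : ℤ} {KE : ℕ → ℤ} {CE : ℕ → ℝ}
    (hA : LAll θ b B Λ W KE CE) (X : BD S θ (bt θ)) {s : ℕ → ℕ} (hb : BaseQ X s)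
    (hB : BcX X s) {e : ℝ} (he : 0 < e) (he1 : 2 * e ≤ S.tp) (he2 : e ≤ 1 - S.tp)
    {ja : Finset ℕ} (hj : JunP X ja) :
    ∃ (c σ R : ℝ), 0 < c ∧ 0 < R ∧ Cs σ b B (wl θ) Λ CE ∧ ∀ᶠ n : ℕ in X.L,
      ∀ (a : ℤ × ℤ) (τ : ℕ → ℤ),
      Bd (S.D n : Set (ℤ × ℤ)) (X.N n) (fun i => X.q n (i : ZMod (X.N n))) τ 1 →
      ∃ η : Cfg, LkD n (X.N n) (fun i => X.q n i + a) ((S.D n).image (· + a)) (X.k n) τ
        ⌊c * n⌋₊ ⌊c / 100 * n⌋ η ∧
      (∀ x : Bool, XOk (X.N n) (X.k n) (fun i => X.q n i + a) x →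
        (NA X s e ja n a x).Rg n σ R (ids S (Rf S) ja).card η ∧
        ∀ j ∈ (NA X s e ja n a x).J,
          PC θ (bt θ) (NA X s e ja n a x).q (NA X s e ja n a x).D (NA X s e ja n a x).k
            (NA X s e ja n a x).ρ (wl θ)
            ((NA X s e ja n a x).q (j : ZMod (NA X s e ja n a x).N)) ⌊σ * n⌋ ∨
          KC θ (bt θ) (NA X s e ja n a x).q (NA X s e ja n a x).D (NA X s e ja n a x).k
            (NA X s e ja n a x).ρ η b B Λ KE CE
            ((NA X s e ja n a x).q (j : ZMod (NA X s e ja n a x).N)) ⌊σ * n⌋) ∧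
      (∀ (b' : ℤ × ℤ) (x : Bool), ¬ (Even (a.1 + a.2) ↔ Even (b'.1 + b'.2)) →
        XOk (X.N n) (X.k n) (fun i => X.q n i + b') x →
        (IA X s e ja n τ a b' x).Rg n σ R (ids S (Rf S) ja).card η ∧
        ∀ j ∈ (IA X s e ja n τ a b' x).J,
          PC θ (bt θ) (IA X s e ja n τ a b' x).q (IA X s e ja n τ a b' x).D
            (IA X s e ja n τ a b' x).k (IA X s e ja n τ a b' x).ρ (wl θ)
            ((IA X s e ja n τ a b' x).q (j : ZMod (IA X s e ja n τ a b' x).N)) ⌊σ * n⌋ ∨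
          KC θ (bt θ) (IA X s e ja n τ a b' x).q (IA X s e ja n τ a b' x).D
            (IA X s e ja n τ a b' x).k (IA X s e ja n τ a b' x).ρ η b B Λ KE CE
            ((IA X s e ja n τ a b' x).q (j : ZMod (IA X s e ja n τ a b' x).N)) ⌊σ * n⌋) := by
  obtain ⟨c₀, hc₀, hLk⟩ := lkD_X X hb hB
  obtain ⟨c, hc⟩ : ∃ c, c = min c₀ (min (e / 4) 1) := ⟨_, rfl⟩
  have hc0 : 0 < c := by
    rw [hc]
    exact lt_min hc₀ (lt_min (by positivity) one_pos)
  have hcc : c ≤ c₀ := by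
    rw [hc]
    exact min_le_left _ _
  have hce : c ≤ e / 4 := by
    rw [hc]
    exact (min_le_right _ _).trans (min_le_left _ _)
  have hc1 : c ≤ 1 := by
    rw [hc]
    exact (min_le_right _ _).trans (min_le_right _ _)
  obtain ⟨A, hnum⟩ := loc_num hc0 he hce hc1 hA.kc.W1
  obtain ⟨C, hC⟩ := exists_sc' X hb he (Rf_sub S) hj 8
  have hlarge : ∀ A : ℝ, ∀ᶠ n : ℕ in X.L, A ≤ n := fun A => X.le
    ((eventually_ge_atTop ⌈A⌉₊).mono fun n hn => (Nat.le_ceil A).trans (by exact_mod_cast hn))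
  have hW' : (1 : ℝ) ≤ W := by exact_mod_cast hA.kc.W1
  have hnm : (0 : ℤ) ≤ ∑ w ∈ S.Q, nm w := sum_nonneg fun w _ => H825.Reg.nm_nn w
  refine ⟨c, c / (400 * W), ((∑ w ∈ S.Q, nm w : ℤ) + 1 : ℝ), hc0, ?_,
    ⟨by positivity, hA.kc.bp, hA.kc.b1, hA.kc.B1, wl_pos h1.pos h1.lt, wl_le_one θ, hA.kc.L1,
      hA.kc.C1⟩, ?_⟩
  · have : (0 : ℝ) ≤ (∑ w ∈ S.Q, nm w : ℤ) := by exact_mod_cast hnm
    linarith
  filter_upwards [hLk c hc0 hcc, hC, hlarge A] with n n1 n2 n3 a τ hτ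
  obtain ⟨u1, u2, u3, u4, u5, u6, u7, u8, u9, u10, u11⟩ := hnum n n3
  obtain ⟨η, hη⟩ := n1 a τ hτ
  refine ⟨η, hη, fun x hx => ⟨?_, ?_⟩, fun b' x hab hx => ⟨?_, ?_⟩⟩
  · have hok := n2.1.ok_na he he1 he2 n2.2 a x
    exact rg_of_lkD hη n2.1.n0 le_rfl ⟨a, fun v hv => enl_dia (Q := S.Q) hv⟩ hok.near
      (hok.sep.mono u11) card_image_le u7
  · exact na_loc h1 hA n2.1 he he1 he2 n2.2 hη hτ u8 u9 u1 u2 u3 u4 u5 u6 hx
  · have hok := n2.1.ok_ia he he1 he2 n2.2 hτ a b' x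
    exact rg_of_lkD hη n2.1.n0 le_rfl ⟨a, fun v hv => enl_dia (Q := S.Q) hv⟩ hok.near
      (hok.sep.mono u11) card_image_le u7
  · exact ia_loc h1 hA n2.1 he he1 he2 n2.2 hη hτ u8 u9 u10 u1 u2 u3 u4 u5 u6 hab hx

end Vale.Agent.P167.N.QL
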