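import Vale.Agent.P167.N.QL.Al15
import Vale.Agent.P167.N.QL.Loc

/-!
# P167, the range `0 < q < 1`, block Q-LAM: assembly, the reference values
-/

set_option autoImplicit false

namespace Vale.Agent.P167.N.QL

open Finset Filter Vale.Agent.P167.BR Vale.Agent.P167.FK
open Vale.Agent.P167.E6 (IsPolygon Encloses face dir)
open Vale.Agent.P167.H718 (Dob rc IsCl)
open Vale.Agent.P167.H192.Q (SRSW)
open Vale.Agent.P167.H975 (TX)

variable {θ : ℝ} {n : ℕ} {r : ℤ}

/-! ### indices -/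

/-- The index of the charge on a side of the Dobrushin square. -/
def zi (w : Bool) (n : ℕ) : ℕ := if w then 6 * n + (n + 1) % 2 else 2 * n + n % 2

theorem zi_f (n : ℕ) : 2 * n ≤ zi false n ∧ zi false n ≤ 2 * n + 1 := by
  unfold zi
  simp only [Bool.false_eq_true, if_false]
  omega

theorem zi_w (n : ℕ) : 6 * n ≤ zi true n ∧ zi true n ≤ 6 * n + 1 := by
  unfold zi
  simp only [if_true]
  omega

/-- The parity of the site of the charge. -/
theorem zi_par (hn : 0 < n) (w p : Bool) : Even ((dsq n (ev p) (zi w n : ZMod (4 * (2 * n)))).1 +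
    (dsq n (ev p) (zi w n : ZMod (4 * (2 * n)))).2) ↔ (w == p) = true := by
  rw [ds_par hn]
  unfold ev zi
  cases w <;> cases p
  · simp only [Bool.false_eq_true, if_false, beq_self_eq_true, iff_true]
    rw [Int.even_iff]
    push_cast
    omega
  · simp only [Bool.false_eq_true, if_false, if_true]
    have : (false == true) = false := by decide
    rw [this]
    simp only [Bool.false_eq_true, iff_false]
    rw [Int.even_iff]
    push_cast
    omega
  · simp only [Bool.false_eq_true, if_false, if_true]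
    have : (true == false) = false := by decide
    rw [this]
    simp only [Bool.false_eq_true, iff_false]
    rw [Int.even_iff]
    push_cast
    omega
  · simp only [if_true, beq_self_eq_true, iff_true]
    rw [Int.even_iff]
    push_cast
    omega

/-- The translate of the Dobrushin square with a given parity of the base. -/
def pe (n : ℕ) (e : Bool) : Bool := if n % 2 = 0 then !e else e

theorem pe_not (n : ℕ) (e : Bool) : pe n (!e) = !(pe n e) := by
  unfold pe
  split_ifs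
  · rfl
  · rfl

theorem pe_par (hn : 0 < n) (e : Bool) {j : ℕ} (hj : j = 0 ∨ j = 4 * n) :
    Even ((dsq n (ev (pe n e)) (j : ZMod (4 * (2 * n)))).1 +
      (dsq n (ev (pe n e)) (j : ZMod (4 * (2 * n)))).2) ↔ e = true := by
  rw [ds_par hn]
  unfold ev pe
  by_cases h : n % 2 = 0
  · simp only [h, if_true]
    cases e
    · simp only [Bool.not_false, if_true, Bool.false_eq_true, iff_false]
      rw [Int.even_iff]
      push_cast
      omega
    · simp only [Bool.not_true, Bool.false_eq_true, if_false, iff_true]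
      rw [Int.even_iff]
      push_cast
      omega
  · simp only [h, if_false]
    cases e
    · simp only [Bool.false_eq_true, if_false, iff_false]
      rw [Int.even_iff]
      push_cast
      omega
    · simp only [if_true, iff_true]
      rw [Int.even_iff]
      push_cast
      omega

/-! ### the data -/

/-- The convex corner. -/
noncomputable def qA (θ : ℝ) (n : ℕ) (w p : Bool) : PD :=
  dsP n (ev p) (if w then fwI θ n else fwR θ n) ∅

/-- The index of the convex corner. -/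
def jA (n : ℕ) (w : Bool) : ℕ := if w then 5 * n else n

/-- The other convex corner. -/
def jA' (n : ℕ) (w : Bool) : ℕ := if w then 7 * n else 3 * n

/-- The charge `-θ` at a flat site. -/
noncomputable def qζ (θ : ℝ) (n : ℕ) (w : Bool) : PD :=
  dsP n (ev false) (if w then r2wR θ n (zi true n) else r2fR θ n (zi false n)) ∅

/-- The charge `θ` at a flat site. -/
noncomputable def qb (θ : ℝ) (n : ℕ) (w : Bool) : PD :=
  dsP n (ev true) (if w then r2wI θ n (zi true n) else r2fI θ n (zi false n)) ∅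

/-- Base and junction. -/
noncomputable def qD (θ : ℝ) (n : ℕ) (e : Bool) : PD := dsP n (ev (pe n e)) (d0I θ n) ∅

/-- The reflex corner, natural. -/
noncomputable def qZ (θ : ℝ) (n : ℕ) (w p : Bool) : PD := lsP w n (ev p) (lR θ n (w == p)) ∅

/-- The reflex corner, image. -/
noncomputable def qB (θ : ℝ) (n : ℕ) (w p : Bool) : PD := lsP w n (ev p) (lI θ n (w == !p)) ∅

section types

variable (hn : 12000 ≤ n)
include hn

theorem cm_qA (w p : Bool) : CM (n / 2) (qA θ n w p) (dsT n) n (jA n w) 1 w (!p) (fo (-(θ / 2))) := by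
  unfold qA jA
  cases w
  · exact cm_fwR hn (Or.inl rfl) p
  · exact cm_fwI hn (Or.inl rfl) p

theorem cm_qA' (w p : Bool) : CM (n / 2) (qA θ n w p) (dsT n) n (jA' n w) 1 w (!p)
    (fo (-(θ / 2))) := by
  unfold qA jA'
  cases w
  · exact cm_fwR hn (Or.inr rfl) p
  · exact cm_fwI hn (Or.inr rfl) p

theorem cm_qζ (w : Bool) : CM (n / 2) (qζ θ n w) (dsT n) n (zi w n) 0 w (!w) (fo (-θ)) := by
  unfold qζ
  cases w
  · exact cm_r2fR hn (zi_f n) ((zi_par (by omega) false false).2 rfl)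
  · exact cm_r2wR hn (zi_w n) fun h => absurd ((zi_par (by omega) true false).1 h) (by decide)

theorem cm_qb (w : Bool) : CM (n / 2) (qb θ n w) (dsT n) n (zi w n) 0 w w (fo θ) := by
  unfold qb
  cases w
  · exact cm_r2fI hn (zi_f n) fun h => absurd ((zi_par (by omega) false true).1 h) (by decide)
  · exact cm_r2wI hn (zi_w n) ((zi_par (by omega) true true).2 rfl)

theorem cm_qZ (w p : Bool) : CM (n / 2) (qZ θ n w p) (lsT n) n (7 * n) (-1) w (!p)
    (fN θ (w == p)) := cm_lZ hn _ p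

theorem cm_qB (w p : Bool) : CM (n / 2) (qB θ n w p) (lsT n) n (7 * n) (-1) w (!p)
    (fI θ (w == !p)) := cm_lB hn _ p

theorem cb_qD (e : Bool) : CB (n / 2) (qD θ n e) (dsT n) n e (Real.pi - 3 * θ) := by
  have hn0 : 0 < n := by omega
  have hWB : WB (n / 2) (4 * (2 * n)) [(n, -(θ / 2)), (3 * n, -(θ / 2)), (4 * n, Real.pi - θ),
      (5 * n, -(θ / 2)), (7 * n, -(θ / 2))] :=
    ((((WB.nil.cons (by omega)).cons (by omega)).cons (by omega)).cons (by omega)).cons (by omega)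
  have htot := hWB.tot (by omega) (by omega)
  have e8 : jB (4 * (2 * n)) 0 = 8 * n := by
    unfold jB
    rw [if_pos rfl]
    omega
  refine ⟨⟨?_, ?_, ?_, ?_⟩, ?_, ?_, ?_, ?_, ?_, fun i hi => hWB.const hi, fun i hi hi' => ?_⟩
  · show 0 < 4 * (2 * n)
    omega
  · show Str (dsT n) (jB (4 * (2 * n)) 0) (n / 2)
    rw [e8]
    refine ⟨fun i h1 h2 => ?_, fun i h1 h2 => ?_⟩
    · rw [dsT_eq hn0 (by omega), dsT_eq hn0 (by omega)]
      repeat first | rw [if_pos (by omega)] | rw [if_neg (by omega)]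
    · rw [dsT_eq hn0 (by omega), dsT_eq hn0 (by omega)]
      repeat first | rw [if_pos (by omega)] | rw [if_neg (by omega)]
  · show n / 2 ≤ jB (4 * (2 * n)) 0
    rw [e8]
    omega
  · show dsT n (jB (4 * (2 * n)) 0) - dsT n (jB (4 * (2 * n)) 0 - 1) = 0
    rw [e8, dsT_eq hn0 (by omega), dsT_eq hn0 (by omega)]
    repeat first | rw [if_pos (by omega)] | rw [if_neg (by omega)]
    norm_num
  · show 2 * (n / 2) < 4 * (2 * n)
    omega
  · show n / 2 < 4 * n
    omega
  · show 4 * n + n / 2 < 4 * (2 * n)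
    omega
  · right
    show (0 = 0 ∨ (n ≤ 0 ∧ 0 + n ≤ 4 * (2 * n))) ∧ (0 = 4 * n ∨ 0 + n ≤ 4 * n ∨ 4 * n + n ≤ 0)
    omega
  · have h := pe_par hn0 e (Or.inl rfl)
    rw [Nat.cast_zero] at h
    exact h
  · show stp _ i = stp _ 0 + _
    rw [hWB.const' hi' hi (by omega)]
    simp only [tot_cons, tot_nil] at htot
    linarith

theorem cj_qD (e : Bool) : CJ (n / 2) (qD θ n e) (dsT n) n e (Real.pi - θ) := by
  have hn0 : 0 < n := by omega
  refine ⟨ds_win4 hn0, ?_, ?_, ?_, pe_par hn0 e (Or.inr rfl), fun i h1 h2 h3 => d0_inc h1 h2 h3⟩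
  · show 0 < 4 * n
    omega
  · show 4 * n + n / 2 < 4 * (2 * n)
    omega
  · right
    show (4 * n = 0 ∨ (n ≤ 4 * n ∧ 4 * n + n ≤ 4 * (2 * n))) ∧
      (4 * n = 4 * n ∨ 4 * n + n ≤ 4 * n ∨ 4 * n + n ≤ 4 * n)
    omega

end types

/-! ### nonnegative local factors -/

section tn

variable (h0 : 0 < θ) (h1 : Ang θ) (hn : 12000 ≤ n)
include h0 h1 hn

theorem tn_qA (w p : Bool) (j : ℕ) : TN θ (bt θ) (qA θ n w p) j r := by
  have P3 : DSp θ n (fwR θ n) := Or.inr (Or.inr (Or.inl rfl))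
  have P4 : DSp θ n (fwI θ n) := Or.inr (Or.inr (Or.inr rfl))
  unfold qA
  cases w
  · exact TN.of_pc (wl_pos h0 h1.lt) fun ω A hA _ => P3.pos h0 h1.lt (by omega) _ ω A hA
  · exact TN.of_pc (wl_pos h0 h1.lt) fun ω A hA _ => P4.pos h0 h1.lt (by omega) _ ω A hA

theorem tn_qB (w p : Bool) (j : ℕ) : TN θ (bt θ) (qB θ n w p) j r :=
  TN.of_pc (wl_pos h0 h1.lt) fun ω A hA _ => ls_pos h0 h1.lt (by omega) w p ω A hA

theorem pc_qζ (hr : 2 * (r + 1) ≤ ((n / 2 : ℕ) : ℤ)) (w : Bool) :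
    PC θ (bt θ) (qζ θ n w).q (qζ θ n w).D (qζ θ n w).k (qζ θ n w).ρ (wl θ)
      ((qζ θ n w).q (zi w n : ZMod (qζ θ n w).N)) r := by
  obtain ⟨η₀, hL⟩ := ds_lkD hn (ev false)
  unfold qζ
  cases w
  · exact pc_r2f h0 h1.lt hn hL.geo hr (zi_f n) (by unfold dsJz; simp)
  · exact pc_r2w h0 h1.lt hn hL.geo hr (zi_w n) (by unfold dsJz; simp)

theorem tn_qζ (hr : 2 * (r + 1) ≤ ((n / 2 : ℕ) : ℤ)) (w : Bool) :
    TN θ (bt θ) (qζ θ n w) (zi w n) r := TN.of_pc (wl_pos h0 h1.lt) (pc_qζ h0 h1 hn hr w)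

end tn

/-- The killed centres of the reference data. -/
theorem tn_kill (h0 : 0 < θ) (h1 : Ang θ) {b B : ℝ} {Λ W : ℤ} {KE : ℕ → ℤ} {CE : ℕ → ℝ}
    (hA : LAll θ b B Λ W KE CE) (hn : 12000 ≤ n) (hr : 1 ≤ r) (hW : W * r ≤ ((n / 100 : ℕ) : ℤ)) :
    (∀ w p, TN θ (bt θ) (qZ θ n w p) (7 * n) r) ∧ (∀ w, TN θ (bt θ) (qb θ n w) (zi w n) r) ∧
    ∀ e, TN θ (bt θ) (qD θ n e) 0 r ∧ TN θ (bt θ) (qD θ n e) (4 * n) r := by
  have hr1 : 2 * (r + 1) ≤ ((n / 2 : ℕ) : ℤ) := by
    have h2 : 1 * r ≤ W * r := mul_le_mul_of_nonneg_right hA.kc.W1 (by omega)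
    push_cast at hW ⊢
    omega
  have hr2 : r ≤ ((n / 100 : ℕ) : ℤ) := by
    have h2 : 1 * r ≤ W * r := mul_le_mul_of_nonneg_right hA.kc.W1 (by omega)
    omega
  have w1 : W * r ≤ ((2 * n : ℕ) : ℤ) := by push_cast at hW ⊢; omega
  have w2 : W * r ≤ ((n / 2 : ℕ) : ℤ) := by push_cast at hW ⊢; omega
  have w3 : W * r ≤ ((n - 1 : ℕ) : ℤ) := by push_cast at hW ⊢; omega
  refine ⟨fun w p => ?_, fun w => ?_, fun e => ⟨?_, ?_⟩⟩
  · obtain ⟨η₀, hL⟩ := ls_lkD (n := n) (by omega) w (ev p)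
    have hc := cm_qZ (θ := θ) hn w p
    refine TN.of_kc hA.kc.bp (r₀ := r) (η := η₀) (hA.refl hL (cos_bt θ) hc.win hc.pos hc.lt hc.far hc.jk
      (fun i a1 a2 a3 => ?_) w1 w2 w3 hr) hr le_rfl
    show lR θ n (w == p) i - lR θ n (w == p) (i - 1) =
      if i = rI (lsq n (ev p)) (lsK w n) (7 * n) then θ else 0
    rw [lR_inc _ a1 a2 a3, ls_rI (by omega) w p]
  · obtain ⟨η₀, hL⟩ := ds_lkD hn (ev true)
    have hc := cm_qb (θ := θ) hn w
    refine TN.of_kc hA.kc.bp (r₀ := r) (η := η₀) (hA.flat hL (cos_bt θ) hc.win hc.pos hc.lt hc.far hc.jk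
      (hc.par.trans hc.wi.symm) (fun i a1 a2 a3 => ?_) w1 w2 hW hr) hr le_rfl
    rw [hc.inc i a1 a2 a3]
    unfold fo
    by_cases h : i = zi w n
    · rw [if_pos h, if_pos (by omega)]
    · rw [if_neg h, if_neg (by omega)]
  · obtain ⟨η₀, hL⟩ := ds_lkD hn (ev (pe n e))
    exact TN.of_pc (wl_pos h0 h1.lt) (pc_d0 h0 h1.lt h1.gt hn hL.geo hr1 (j := 0)
      (by unfold dsJ; simp) (by omega))
  · obtain ⟨η₀, hL⟩ := ds_lkD hn (ev (pe n e))
    have hc := cj_qD (θ := θ) hn e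
    refine TN.of_kc hA.kc.bp (r₀ := r) (η := η₀) (hA.jun hL (cos_bt θ) hc.win hc.k0 hc.kN (by omega)
      (fun i a1 a2 a3 a4 => ?_) ?_ w1 w2 hW hr) hr le_rfl
    · have h5 := hc.inc i a1 a2 a3
      rw [if_neg a4] at h5
      linarith
    · rw [hc.inc _ (by
        show 4 * n < 4 * n + n / 2
        omega) (by
        show 4 * n ≤ 4 * n + n / 2
        omega) hc.k0, if_pos rfl]
      unfold bt
      have : θ / 2 + (θ - Real.pi) / 2 + (Real.pi - θ) = Real.pi / 2 := by ring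
      rw [this, Real.cos_pi_div_two]

end Vale.Agent.P167.N.QL
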