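import Vale.Agent.P167.N.QL.Al16

/-!
# P167, the range `0 < q < 1`, block Q-LAM: assembly, the reference values and their inequalities
-/

set_option autoImplicit false

namespace Vale.Agent.P167.N.QL

open Finset Filter Vale.Agent.P167.BR Vale.Agent.P167.FK
open Vale.Agent.P167.E6 (IsPolygon Encloses face dir)
open Vale.Agent.P167.H718 (Dob rc IsCl)
open Vale.Agent.P167.H192.Q (SRSW)
open Vale.Agent.P167.H975 (TX)

variable {θ : ℝ}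

/-! ### real numbers -/

theorem pair_ge {x y x' y' : ℝ} (hx : 0 < x) (hy : 0 < y) (h : x ≤ 2 * x') (h' : y ≤ 2 * y') :
    (x * y) ^ 2 ≤ 4 * ((x * x') * (y * y')) := by
  have h1 : x * y ≤ (2 * x') * (2 * y') := mul_le_mul h h' hy.le (by linarith)
  calc (x * y) ^ 2 = (x * y) * (x * y) := by ring
    _ ≤ (x * y) * ((2 * x') * (2 * y')) := mul_le_mul_of_nonneg_left h1 (by positivity)
    _ = _ := by ring

theorem pair_le {x y x' y' : ℝ} (hx : 0 < x) (hy : 0 < y) (hy' : 0 < y') (h : x' ≤ 2 * x)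
    (h' : y' ≤ 2 * y) : (x * x') * (y * y') ≤ 4 * (x * y) ^ 2 := by
  have h1 : x' * y' ≤ (2 * x) * (2 * y) := mul_le_mul h h' hy'.le (by linarith)
  calc (x * x') * (y * y') = (x * y) * (x' * y') := by ring
    _ ≤ (x * y) * ((2 * x) * (2 * y)) := mul_le_mul_of_nonneg_left h1 (by positivity)
    _ = _ := by ring

/-- Comparison of the products of two corners. -/
theorem corner_alg {x y x' y' u v u' v' C : ℝ} (hC : 0 < C) (hx : 0 < x) (hy : 0 < y)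
    (hu : 0 < u) (hv : 0 < v) (hv' : 0 < v') (h1 : x ≤ 2 * x') (h2 : y ≤ 2 * y')
    (h3 : u' ≤ 2 * u) (h4 : v' ≤ 2 * v) (h : (x * x') * (y * y') ≤ C * ((u * u') * (v * v'))) :
    x * y ≤ 4 * (C + 1) * (u * v) := by
  have k1 := pair_ge hx hy h1 h2
  have k2 := pair_le hu hv hv' h3 h4
  have k3 : (x * y) ^ 2 ≤ (4 * (C + 1) * (u * v)) ^ 2 := by
    calc (x * y) ^ 2 ≤ 4 * ((x * x') * (y * y')) := k1
      _ ≤ 4 * (C * ((u * u') * (v * v'))) := by linarith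
      _ ≤ 4 * (C * (4 * (u * v) ^ 2)) :=
          mul_le_mul_of_nonneg_left (mul_le_mul_of_nonneg_left k2 hC.le) (by norm_num)
      _ = 16 * C * (u * v) ^ 2 := by ring
      _ ≤ 16 * (C + 1) ^ 2 * (u * v) ^ 2 := by
          refine mul_le_mul_of_nonneg_right ?_ (by positivity)
          nlinarith
      _ = _ := by ring
  exact (abs_le_of_sq_le_sq' k3 (by positivity)).2

/-- The reflex corner. -/
theorem refl_alg {B B' a a' Z Z' q q' A A' C Pi K : ℝ} (hC : 0 < C) (hB : 0 < B) (hB' : 0 < B')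
    (hZ : 0 ≤ Z) (hZ' : 0 ≤ Z') (hA : 0 < A) (hA' : 0 < A') (hq' : 0 ≤ q')
    (h1 : A ≤ 2 * a) (h2 : A' ≤ 2 * a') (h3 : q ≤ 16 * A ^ 4) (h4 : q' ≤ 16 * A' ^ 4)
    (hP : A * A' ≤ K * Pi) (h : (B * B') * (a * a') ≤ C * ((Z * Z') * (q * q'))) :
    0 < Z ∧ 0 < Z' ∧ B * B' ≤ 1024 * C * K ^ 3 * (Z * Z') * Pi ^ 3 := by
  have ha : 0 < a := by linarith
  have ha' : 0 < a' := by linarith
  have hpos : 0 < C * ((Z * Z') * (q * q')) := lt_of_lt_of_le (by positivity) h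
  have hZZ : 0 < Z * Z' := by
    rcases (mul_nonneg hZ hZ').eq_or_lt with h5 | h5
    · rw [← h5, zero_mul, mul_zero] at hpos
      exact absurd hpos (lt_irrefl _)
    · exact h5
  have hZp : 0 < Z := by
    rcases hZ.eq_or_lt with h5 | h5
    · rw [← h5, zero_mul] at hZZ
      exact absurd hZZ (lt_irrefl _)
    · exact h5
  have hZp' : 0 < Z' := by
    rcases hZ'.eq_or_lt with h5 | h5
    · rw [← h5, mul_zero] at hZZ
      exact absurd hZZ (lt_irrefl _)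
    · exact h5
  refine ⟨hZp, hZp', ?_⟩
  have k1 : A * A' ≤ 4 * (a * a') := by
    calc A * A' ≤ (2 * a) * (2 * a') := mul_le_mul h1 h2 hA'.le (by linarith)
      _ = _ := by ring
  have k2 : q * q' ≤ 256 * (A * A') ^ 4 := by
    calc q * q' ≤ (16 * A ^ 4) * (16 * A' ^ 4) := mul_le_mul h3 h4 hq' (by positivity)
      _ = _ := by ring
  have k3 : (B * B') * (A * A') ≤ 1024 * C * (Z * Z') * (A * A') ^ 3 * (A * A') := by
    calc (B * B') * (A * A') ≤ (B * B') * (4 * (a * a')) :=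
          mul_le_mul_of_nonneg_left k1 (by positivity)
      _ = 4 * ((B * B') * (a * a')) := by ring
      _ ≤ 4 * (C * ((Z * Z') * (q * q'))) := by linarith
      _ ≤ 4 * (C * ((Z * Z') * (256 * (A * A') ^ 4))) := by
          refine mul_le_mul_of_nonneg_left (mul_le_mul_of_nonneg_left
            (mul_le_mul_of_nonneg_left k2 hZZ.le) hC.le) (by norm_num)
      _ = _ := by ring
  have k4 := le_of_mul_le_mul_right k3 (mul_pos hA hA')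
  calc B * B' ≤ 1024 * C * (Z * Z') * (A * A') ^ 3 := k4
    _ ≤ 1024 * C * (Z * Z') * (K * Pi) ^ 3 :=
        mul_le_mul_of_nonneg_left (pow_le_pow_left₀ (by positivity) hP 3) (by positivity)
    _ = _ := by ring

/-- The charge at a flat site. -/
theorem flat_alg {b ζ C X Pi K : ℝ} (hb : 0 ≤ b) (hK : 0 ≤ K) (h : b * X ≤ C * ζ)
    (hX : Pi ^ 2 ≤ K * X) : b * Pi ^ 2 ≤ K * C * ζ := by
  calc b * Pi ^ 2 ≤ b * (K * X) := mul_le_mul_of_nonneg_left hX hb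
    _ = K * (b * X) := by ring
    _ ≤ K * (C * ζ) := mul_le_mul_of_nonneg_left h hK
    _ = _ := by ring

/-- Base and junction. -/
theorem dob_alg {D X Y C Pi K : ℝ} (hD : 0 ≤ D) (hK : 0 ≤ K)
    (h : D * (X * Y) ≤ C) (hX : Pi ^ 2 ≤ 4 * X) (hYP : Pi ^ 2 ≤ K * Y) :
    D * Pi ^ 4 ≤ 4 * K * C := by
  have h1 : Pi ^ 2 * Pi ^ 2 ≤ (4 * X) * (K * Y) :=
    mul_le_mul hX hYP (by positivity) (le_trans (by positivity) hX)
  calc D * Pi ^ 4 = D * (Pi ^ 2 * Pi ^ 2) := by ring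
    _ ≤ D * ((4 * X) * (K * Y)) := mul_le_mul_of_nonneg_left h1 hD
    _ = 4 * K * (D * (X * Y)) := by ring
    _ ≤ 4 * K * C := mul_le_mul_of_nonneg_left h (by positivity)

/-! ### data at a scale -/

/-- Data with a regular configuration outside, at the scale `n`. -/
structure GD (c : ℝ) (n : ℕ) (P : PD) (τ : ℕ → ℤ) (L : ℕ) (η : Cfg) : Prop where
  ex : ∃ (n₁ : ℕ) (m : ℤ) (η₀ : Cfg), n ≤ n₁ ∧ ⌊c * n⌋ ≤ m ∧
    LkD n₁ P.N P.q P.D P.k τ L m η₀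
  dob : Dob η P.D P.q P.k

/-- **The comparisons at the scale `n`.** -/
theorem cmp_ref (h1 : Ang θ) (hR : RSW (2 * Real.cos θ)) (hS : SRSW (2 * Real.cos θ)) {c : ℝ}
    (hc : 0 < c) (hc1 : c ≤ 1) :
    ∃ ρ₁ : ℝ, 0 < ρ₁ ∧ ∀ ρ : ℝ, 0 < ρ → ρ ≤ ρ₁ → ∃ n₀ : ℕ, ∀ n : ℕ, n₀ ≤ n →
      ∀ {β : ℝ} {P P' : PD} {τ τ' : ℕ → ℤ} {L L' : ℕ} {η η' : Cfg}, GD c n P τ L η →
      GD c n P' τ' L' η' →
      (∀ {j j' : ℕ} {t : ℤ} {w e : Bool} {f : ℤ → ℝ}, CM ⌊c * n⌋₊ P τ L j t w e f →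
        CM ⌊c * n⌋₊ P' τ' L' j' t w e f → TN θ β P j ⌊ρ * n⌋ → TN θ β P' j' ⌊ρ * n⌋ →
        P.e θ β η ⌊ρ * n⌋ j ≤ 2 * P'.e θ β η' ⌊ρ * n⌋ j') ∧
      (∀ {e : Bool} {T : ℝ}, CB ⌊c * n⌋₊ P τ L e T → CB ⌊c * n⌋₊ P' τ' L' e T →
        TN θ β P 0 ⌊ρ * n⌋ → TN θ β P' 0 ⌊ρ * n⌋ →
        P.e θ β η ⌊ρ * n⌋ 0 ≤ 2 * P'.e θ β η' ⌊ρ * n⌋ 0) ∧
      (∀ {e : Bool} {v : ℝ}, CJ ⌊c * n⌋₊ P τ L e v → CJ ⌊c * n⌋₊ P' τ' L' e v →
        TN θ β P P.k ⌊ρ * n⌋ → TN θ β P' P'.k ⌊ρ * n⌋ →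
        P.e θ β η ⌊ρ * n⌋ P.k ≤ 2 * P'.e θ β η' ⌊ρ * n⌋ P'.k) := by
  obtain ⟨K₁, hK₁, H₁⟩ := cmp_mid h1 hR hS
  obtain ⟨K₂, hK₂, H₂⟩ := cmp_bj h1 hR hS
  obtain ⟨ρ₁, hρ₁, s1⟩ := sca hc hc1 hK₁
  obtain ⟨ρ₂, hρ₂, s2⟩ := sca hc hc1 hK₂
  refine ⟨min ρ₁ ρ₂, lt_min hρ₁ hρ₂, fun ρ hρ hρ' => ?_⟩
  obtain ⟨n₁, s1⟩ := s1 ρ hρ (hρ'.trans (min_le_left _ _))
  obtain ⟨n₂, s2⟩ := s2 ρ hρ (hρ'.trans (min_le_right _ _))
  refine ⟨max n₁ n₂, fun n hn {β P P' τ τ' L L' η η'} g g' => ?_⟩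
  have k1 := s1 n ((le_max_left _ _).trans hn)
  have k2 := s2 n ((le_max_right _ _).trans hn)
  obtain ⟨m₁, m, η₀, a1, a2, a3⟩ := g.ex
  obtain ⟨m₁', m', η₀', a1', a2', a3'⟩ := g'.ex
  have n3 := k1.n3
  refine ⟨fun {j j' t w e f} h h' hT hT' => ?_, fun {e T} h h' hT hT' => ?_,
    fun {e v} h h' hT hT' => ?_⟩
  · exact H₁ a3 a3' h h' (by omega) (by omega) k1.d (k1.m.trans a2) (k1.m.trans a2') k1.r1 k1.K
      hT hT' g.dob g'.dob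
  · exact (H₂ a3 a3' (by omega) (by omega) k2.d (k2.m.trans a2) (k2.m.trans a2') k2.r1 k2.K
      g.dob g'.dob).1 T h h' hT hT'
  · exact (H₂ a3 a3' (by omega) (by omega) k2.d (k2.m.trans a2) (k2.m.trans a2') k2.r1 k2.K
      g.dob g'.dob).2 v h h' hT hT'

/-- The Dobrushin square. -/
theorem gd_ds {c : ℝ} (hc1 : c ≤ 1 / 200) {n : ℕ} (hn : 12000 ≤ n) {a : ℤ × ℤ} {ρ : ℕ → ℝ}
    {J : Finset ℕ} {η : Cfg} (hη : Dob η (dsD n a) (dsq n a) (4 * n)) :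
    GD c n (dsP n a ρ J) (dsT n) n η := by
  obtain ⟨η₀, hL⟩ := ds_lkD hn a
  exact ⟨⟨2 * n, ((n / 100 : ℕ) : ℤ), η₀, by omega, (Int.floor_le_floor
    (mul_le_mul_of_nonneg_right hc1 (Nat.cast_nonneg n))).trans (fl200 hn), hL⟩, hη⟩

/-- The L shape. -/
theorem gd_ls {c : ℝ} (hc1 : c ≤ 1 / 200) {n : ℕ} (hn : 12000 ≤ n) {b : Bool} {a : ℤ × ℤ}
    {ρ : ℕ → ℝ} {J : Finset ℕ} {η : Cfg} (hη : Dob η (lsD n a) (lsq n a) (lsK b n)) :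
    GD c n (lsP b n a ρ J) (lsT n) n η := by
  obtain ⟨η₀, hL⟩ := ls_lkD (by omega : 0 < n) b a
  refine ⟨⟨2 * n, ((n - 1 : ℕ) : ℤ), η₀, by omega, (Int.floor_le_floor
    (mul_le_mul_of_nonneg_right hc1 (Nat.cast_nonneg n))).trans ((fl200 hn).trans ?_), hL⟩, hη⟩
  push_cast
  omega

theorem fl_half {c : ℝ} (hc1 : c ≤ 1 / 200) {n : ℕ} (hn : 12000 ≤ n) : ⌊c * (n : ℝ)⌋₊ ≤ n / 2 := by
  have h1 : ⌊c * (n : ℝ)⌋₊ ≤ ⌊(1 / 200 : ℝ) * n⌋₊ :=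
    Nat.floor_le_floor (mul_le_mul_of_nonneg_right hc1 (Nat.cast_nonneg n))
  have h2 := fl200 hn
  rw [← Int.natCast_floor_eq_floor (by positivity)] at h2
  omega

end Vale.Agent.P167.N.QL
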