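import Vale.Agent.P167.N.QL.KcF
import Vale.Agent.P167.H601.M.Win

/-!
# P167, the range `0 < q < 1`, block Q-LAM: killed flat sites

* `flT_win`, `flT_next`: the domain is flat around a site with a flat index window and around the next
  site; `wn_win`, `wn_baseK`: the windows of `K3`.
* `kil_arm`, `arm2`: the indicator of an arm which starts next to the centre.
* `kc_base`, `kc_base1`: the bases of the free and wired polygons are killed centres.
-/

set_option autoImplicit false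

namespace Vale.Agent.P167.N.QL

open Finset Vale.Agent.P167 Vale.Agent.P167.BR Vale.Agent.P167.FK
open Relation (ReflTransGen)
open Vale.Agent.P167.E6 (IsPolygon Encloses face dir)
open Vale.Agent.P167.FKA (Loc)
open Vale.Agent.P167.H760 (Tr)
open Vale.Agent.P167.H975 (TX qr qr_poly qr_encl qr_base)
open Vale.Agent.P167.H632 (cs pr)
open Vale.Agent.P167.H192.TA (Pw)
open Vale.Agent.P167.H601.S2 (Off)
open Vale.Agent.P167.H433 (Arm Up FlT ext_flT extI_flat noArm_congr arm_anti isC_cor)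
open Vale.Agent.P167.H871 (IsC)
open Vale.Agent.P167.N.AW (Kil ExtI)

variable {N k n d L j e s : ℕ} {q : ZMod N → ℤ × ℤ} {D : Finset (ℤ × ℤ)} {τ : ℕ → ℤ} {m r R : ℤ}
  {η ω : Cfg} {ρ : ℕ → ℝ} {θ β : ℝ}

theorem WinI.mono (h : WinI d N τ j 0) (he : e ≤ d) : WinI e N τ j 0 :=
  ⟨h.lt, h.str.mono he, he.trans h.le, h.turn⟩

/-- In the frame the polygon is a horizontal segment in the window. -/
theorem flat_path (h : LkD n N q D k τ L m η) (hw : WinI d N τ j 0) :
    ∃ s : Fin 4, Rt (mvT (q (j : ZMod N)) (q (j : ZMod N)) s) s ∧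
      ∀ i ≤ 2 * d, pq (mvT (q (j : ZMod N)) (q (j : ZMod N)) s) q ((jB N j - d + i : ℕ) : ZMod N) =
        ((pq (mvT (q (j : ZMod N)) (q (j : ZMod N)) s) q (jB N j : ZMod N)).1 + ((i : ℤ) - d),
          (pq (mvT (q (j : ZMod N)) (q (j : ZMod N)) s) q (jB N j : ZMod N)).2) := by
  obtain ⟨s, hs⟩ : ∃ s : Fin 4, (τ (jB N j)) % 4 = (s.val : ℤ) := by
    have h1 : (τ (jB N j)) % 4 = 0 ∨ (τ (jB N j)) % 4 = 1 ∨ (τ (jB N j)) % 4 = 2 ∨
      (τ (jB N j)) % 4 = 3 := by omega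
    rcases h1 with h1 | h1 | h1 | h1
    · exact ⟨0, h1⟩
    · exact ⟨1, h1⟩
    · exact ⟨2, h1⟩
    · exact ⟨3, h1⟩
  have hT : Rt (mvT (q (j : ZMod N)) (q (j : ZMod N)) s) s := rt_mvT Iff.rfl s
  refine ⟨s, hT, ?_⟩
  set T := mvT (q (j : ZMod N)) (q (j : ZMod N)) s
  have hst := fun i => hT.step h.step i
  have hv : Top.vec (τ (jB N j) - (s.val : ℤ)) = (1, 0) := by
    have e1 : Top.vec (τ (jB N j) - (s.val : ℤ)) = Top.vec 0 := Top.vec_congr (by omega)
    rw [e1]
    rfl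
  have hv' : Top.vec (τ (jB N j - 1) - (s.val : ℤ)) = (1, 0) := by
    have := hw.turn
    rw [← hv, show τ (jB N j - 1) = τ (jB N j) by omega]
  intro i hi
  rcases le_total i d with h1 | h1
  · obtain ⟨x, rfl⟩ := Nat.exists_eq_add_of_le h1
    have hle := hw.le
    rw [show jB N j - (i + x) + i = jB N j - x by omega,
      str_L (τ := fun i => τ i - (s.val : ℤ)) hst x (by omega) fun a b c => by
        show τ a - _ = τ _ - _
        rw [hw.str.2 a (by omega) c], hv']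
    ext
    · simp [sub_eq_add_neg]
    · simp
  · obtain ⟨x, rfl⟩ := Nat.exists_eq_add_of_le h1
    have hle := hw.le
    rw [show jB N j - d + (d + x) = jB N j + x by omega,
      str_R (τ := fun i => τ i - (s.val : ℤ)) hst x fun a b c => by
        show τ a - _ = τ _ - _
        rw [hw.str.1 a b (by omega)], hv]
    ext
    · simp
    · simp

/-- **The domain is flat around the site**, and around the next one, in the same frame. -/
theorem flT_win' (h : LkD n N q D k τ L m η) (hw : WinI d N τ j 0) (hR : 1 ≤ R)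
    (h3 : 3 * (R + 1) < n) (hd : 2 * (R + 1) ≤ d) :
    FlT D (q (j : ZMod N)) R ∧ FlT D (q (j + 1 : ZMod N)) (R - 1) := by
  obtain ⟨s, hT, hp⟩ := flat_path h hw
  set T := mvT (q (j : ZMod N)) (q (j : ZMod N)) s
  have hN : 0 < N := by have := hw.lt; omega
  have : NeZero N := ⟨hN.ne'⟩
  have hU : Up (T.pre D) (pq T q (jB N j : ZMod N)) R := by
    intro v hv
    have key := H601.M.dom_flat (R := R - 1) (hT.encl h.enc) (J := jB N j) (d := d) (by omega)
      (by omega) hp (fun i hi => near_winP (geoP_pq T h.geo) (jn_le hw.lt) hw.le h3 hd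
        (by rw [show R - 1 + 2 = R + 1 by ring] at hi; exact hi)) (by omega) v
    rw [show R - 1 + 1 = R by ring] at key
    exact key hv
  have e0 : pq T q (jB N j : ZMod N) = pq T q (j : ZMod N) := by
    unfold pq
    rw [jn_cast q j]
  rw [e0] at hU hp
  refine ⟨⟨T, pq T q (j : ZMod N), hT.o, S_pq T q _, hU⟩,
    ⟨T, pq T q (j + 1 : ZMod N), hT.o, S_pq T q _, ?_⟩⟩
  have e1 : pq T q (j + 1 : ZMod N) = ((pq T q (j : ZMod N)).1 + 1, (pq T q (j : ZMod N)).2) := by
    have h1 := hp (d + 1) (by omega)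
    have hle := hw.le
    rw [show jB N j - d + (d + 1) = jB N j + 1 by omega, Nat.cast_add, Nat.cast_one] at h1
    have e2 : ((jB N j : ℕ) : ZMod N) = (j : ZMod N) := by
      unfold jB
      split_ifs with h
      · rw [ZMod.natCast_self, h, Nat.cast_zero]
      · rfl
    rw [e2] at h1
    rw [h1]
    ext
    · push_cast; ring
    · rfl
  rw [e1]
  intro v hv
  rw [hU v (by
    rw [mBq] at hv ⊢
    dsimp only at hv
    omega)]

theorem flT_win (h : LkD n N q D k τ L m η) (hw : WinI d N τ j 0) (hR : 1 ≤ R)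
    (h3 : 3 * (R + 1) < n) (hd : 2 * (R + 1) ≤ d) : FlT D (q (j : ZMod N)) R :=
  (flT_win' h hw hR h3 hd).1

/-! ### the windows -/

theorem wn_of {q' : ZMod N → ℤ × ℤ} {κ : ℕ} {w : ℤ × ℤ} (hN : 0 < N)
    (hw : ∀ a : ℤ, nm (a • w) = |a|) (h1 : e < κ) (h2 : κ + e < N) (hR : R ≤ e)
    (hpath : ∀ i ≤ 2 * e, q' ((κ - e + i : ℕ) : ZMod N) = q' (κ : ZMod N) + ((i : ℤ) - e) • w)
    (hnear : ∀ i : ZMod N, nm (q' i - q' (κ : ZMod N)) ≤ R →
      ∃ m ≤ 2 * e, i = ((κ - e + m : ℕ) : ZMod N)) : Wn q' κ R := by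
  have key : ∀ i ≤ 2 * e, nm (q' ((κ - e + i : ℕ) : ZMod N) - q' (κ : ZMod N)) = |(i : ℤ) - e| := by
    intro i hi
    rw [hpath i hi, add_sub_cancel_left, hw]
  refine ⟨by omega, by omega, fun z hz hzR => ?_, fun z hz hzR => ?_⟩
  · have hzR' := hzR
    rw [abs_le] at hzR
    have h3 := key (z + e - κ) (by omega)
    rw [show κ - e + (z + e - κ) = z by omega] at h3
    rw [h3]
    congr 1
    omega
  · by_contra hcon
    push Not at hcon
    obtain ⟨i, hi, h3⟩ := hnear _ hcon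
    have h4 := key i hi
    rw [← h3] at h4
    have h5 : (z : ℕ) ≡ κ - e + i [MOD N] := (ZMod.natCast_eq_natCast_iff _ _ _).1 h3
    have h6 : z = κ - e + i := by
      rcases Nat.lt_or_ge z N with h7 | h7
      · have h8 := h5
        unfold Nat.ModEq at h8
        rw [Nat.mod_eq_of_lt h7, Nat.mod_eq_of_lt (by omega)] at h8
        exact h8
      · have h8 : z = N := le_antisymm hz h7
        subst h8
        unfold Nat.ModEq at h5
        rw [Nat.mod_self, Nat.mod_eq_of_lt (by omega)] at h5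
        omega
    rw [h4] at hcon
    rcases abs_cases ((z : ℤ) - κ) with ⟨a1, a2⟩ | ⟨a1, a2⟩ <;>
      rcases abs_cases ((i : ℤ) - e) with ⟨b1, b2⟩ | ⟨b1, b2⟩ <;> omega

theorem nm_vec (a t : ℤ) : nm (a • Top.vec t) = |a| := by
  obtain ⟨u, hu⟩ := exists_dir t
  rw [hu]
  unfold nm
  fin_cases u <;> simp [dir]

/-- The path in the window. -/
theorem path_win (h : LkD n N q D k τ L m η) (hw : WinI d N τ j 0) :
    ∀ i ≤ 2 * d, q ((jB N j - d + i : ℕ) : ZMod N) =
      q (j : ZMod N) + ((i : ℤ) - d) • Top.vec (τ (jB N j)) := by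
  intro i hi
  have hle := hw.le
  have hv' : Top.vec (τ (jB N j - 1)) = Top.vec (τ (jB N j)) := by
    have := hw.turn
    rw [show τ (jB N j - 1) = τ (jB N j) by omega]
  rcases le_total i d with h1 | h1
  · obtain ⟨x, rfl⟩ := Nat.exists_eq_add_of_le h1
    rw [show jB N j - (i + x) + i = jB N j - x by omega,
      str_L h.step x (by omega) fun a b c => hw.str.2 a (by omega) c, hv', jn_cast q j]
    push_cast
    rw [show (i : ℤ) - (i + x) = -x by ring, neg_smul, sub_eq_add_neg]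
  · obtain ⟨x, rfl⟩ := Nat.exists_eq_add_of_le h1
    rw [show jB N j - d + (d + x) = jB N j + x by omega,
      str_R h.step x fun a b c => hw.str.1 a b (by omega), jn_cast q j]
    push_cast
    rw [show (d : ℤ) + x - d = x by ring]

/-- **The window of the base.** -/
theorem wn_baseK (h : LkD n N q D k τ L m η) (hw : WinI d N τ 0 0) (hR0 : 1 ≤ R)
    (hN : 2 * d < N) (h3 : 3 * (R + 1) < n) (hd : 2 * (R + 1) < d) : Wn (qr q d) (N - d) R := by
  have hN' : 0 < N := by omega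
  have : NeZero N := ⟨hN'.ne'⟩
  have hj : jB N 0 = N := by
    unfold jB
    rw [if_pos rfl]
  have hw' := hw.mono (e := d - 1) (by omega)
  have hb : qr q d ((N - d : ℕ) : ZMod N) = q 0 := qr_base (by omega)
  refine wn_of (e := d - 1) hN' (fun a => nm_vec a (τ (jB N 0))) (by omega) (by omega) (by omega)
    (fun i hi => ?_) fun i hi => ?_
  · have := path_win h hw' i hi
    rw [hj, Nat.cast_zero] at this
    rw [hb, hj, ← this]
    show q (((N - d - (d - 1) + i : ℕ) : ZMod N) + (d : ZMod N)) = _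
    rw [← Nat.cast_add]
    congr 2
    omega
  · rw [hb] at hi
    have := near_winP h.geo (jn_le hw'.lt) hw'.le h3 (by omega) (i := i + (d : ZMod N)) (by
      rw [hj, ZMod.natCast_self]
      exact hi.trans (by omega))
    obtain ⟨x, hx, h4⟩ := this
    refine ⟨x, hx, ?_⟩
    rw [eq_comm, ← sub_eq_iff_eq_add] at h4
    rw [← h4, hj, sub_eq_iff_eq_add, ← Nat.cast_add]
    congr 1
    omega


/-! ### killed centres -/

/-- **The base of a free or wired polygon, the base is a site of the colour of the arc, total charge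
`-2θ`.** -/
theorem kc_base (h1 : Ang θ) (_hR : RSW (2 * Real.cos θ)) : ∃ (b B : ℝ) (Λ W : ℤ) (KE : ℕ → ℤ)
    (CE : ℕ → ℝ), Kc b B Λ W CE ∧ ∀ {N k n d L : ℕ} {q : ZMod N → ℤ × ℤ} {D : Finset (ℤ × ℤ)}
      {τ : ℕ → ℤ} {m r : ℤ} {η : Cfg} {ρ : ℕ → ℝ} {β : ℝ}, LkD n N q D k τ L m η →
      Real.cos (θ / 2 + β) = Real.sin θ →
      WinI d N τ 0 0 → 2 * d < N → (k = 0 ∨ k = N) →
      (Even ((q 0).1 + (q 0).2) ↔ k = 0) →
      (∀ i ≤ d, ρ i = ρ 0) → (∀ i < N, N ≤ i + d → ρ i = ρ 0 - 2 * θ) →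
      W * r ≤ n → W * r ≤ d → W * r ≤ m → 1 ≤ r →
      KC θ β q D k ρ η b B Λ KE CE (q 0) r := by
  have hQ := h1.kit.pos
  have hQ1 := h1.kit.lt
  have hE := fun E : ℕ => extI_flat hQ hQ1.le (NET.vrs hQ hQ1) E
  choose CE hCE1 hCE using hE
  refine ⟨1, 1, 1, 20, fun _ => 6, CE, ⟨one_pos, le_rfl, le_rfl, le_rfl, by norm_num, hCE1⟩, ?_⟩
  intro N k n d L q D τ m r η ρ β h hβ hw hN hk hp hρ0 hρN hWn hWd hWm hr
  have hW := wn_baseK (R := r + 1) h hw (by omega) hN (by omega) (by omega)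
  obtain ⟨c, hc⟩ := exists_pr (q 0)
  have hfl := flT_win h hw hr (by omega) (by omega)
  rw [Nat.cast_zero] at hfl
  have hb : qr q d ((N - d : ℕ) : ZMod N) = q 0 := qr_base (by omega)
  have hg : Gd N k c := by
    rw [Int.even_iff, hc] at hp
    cases c
    · left
      refine ⟨rfl, ?_⟩
      have : ¬ k = 0 := fun h' => absurd (hp.2 h') (by decide)
      omega
    · right
      exact ⟨rfl, hp.1 (by decide)⟩
  refine ⟨fun r ω => (Arm c D (q 0) r).indicator 1 ω, kil_arm fun r' ω g1 g2 => ?_,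
    fun E => hCE E h.reg.good hc hfl⟩
  rw [TX_b h.poly h.enc h1.sin_pos.ne' h1.cos_pos.ne' hβ (by omega) hW (by omega) (by omega)
    (by omega) hc hg (fun i hi => hρ0 i (by omega)) (fun i hi hi' => hρN i hi (by omega)),
    ns_arm (qr_poly h.poly d) (qr_encl h.enc d) hW (by omega) (by omega) (by omega)
      (by rw [hb]; exact hc), hb]

/-- The arm of `z'` in the box around `z`. -/
def Arm2 (e : Bool) (D : Finset (ℤ × ℤ)) (z z' : ℤ × ℤ) (r : ℤ) : Set Cfg :=
  {ω | ¬ NoArm e D (Bq z r) z' ω}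

/-- The steps of a path which meets squares of the box only. -/
theorem noArm_sub {e : Bool} {B B' : Finset (ℤ × ℤ)} {z : ℤ × ℤ} (h : B' ⊆ B)
    (hN : NoArm e D B' z ω) : NoArm e D B z ω := by
  intro s v hs hv
  refine h (hN s v ?_ hv)
  clear hv v
  have key : ∀ s, Pw (cs e ω ∩ ↑(D ∩ B)) z s → Pw (cs e ω ∩ ↑(D ∩ B')) z s := by
    intro s hs
    induction hs with
    | refl => exact ReflTransGen.refl
    | @tail u w _ h2 ih =>
      refine ih.tail ?_
      obtain ⟨s1, s2, s3, s4⟩ := h2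
      refine ⟨s1, s2, s3, mem_coe.2 (mem_inter.2 ⟨(mem_inter.1 (mem_coe.1 s4)).1, ?_⟩)⟩
      exact hN u _ ih (isC_cor.2 ⟨by dsimp only; omega, by dsimp only; omega⟩)
  exact key s hs

theorem noArm_congr2 {e : Bool} {B : Finset (ℤ × ℤ)} {z : ℤ × ℤ} {ω' : Cfg}
    (h : ∀ v ∈ D ∩ B, ω v = ω' v) : NoArm e D B z ω ↔ NoArm e D B z ω' := by
  have e1 : cs e ω ∩ (↑(D ∩ B) : Set (ℤ × ℤ)) = cs e ω' ∩ ↑(D ∩ B) := by
    ext v
    refine and_congr_left fun hv => ?_
    show ω v = e ↔ ω' v = e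
    rw [h v (mem_coe.1 hv)]
  unfold NoArm
  rw [e1]

theorem arm2_anti {e : Bool} {z z' : ℤ × ℤ} {r' : ℤ} (h : r' ≤ r) :
    Arm2 e D z z' r ⊆ Arm2 e D z z' r' := fun _ hω hN =>
  hω (noArm_sub (fun _ hv => bq_sub h hv) hN)

/-- **`ExtI` for the arm of the next site.** -/
theorem extI_two {Q : ℝ} {E : ℕ} {C : ℝ} (hC : 1 ≤ C) {e : Bool} {z z' : ℤ × ℤ}
    (hzz : nm (z' - z) ≤ 1)
    (h : ∀ {r' r'' : ℤ}, 6 ≤ r' → r' ≤ r'' → r'' ≤ r + 1 → r'' ≤ 2 * ((2 * E + 1 : ℕ) : ℤ) * r' →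
      ∀ F : Cfg → ℝ, (∀ ω, 0 ≤ F ω) → Off D (· ∈ Bq z' r'') F →
        Ex Q D η (fun ω => (Arm e D z' r').indicator 1 ω * F ω) ≤
          C * Ex Q D η (fun ω => (Arm e D z' r'').indicator 1 ω * F ω)) (hQ : 0 < Q) :
    ExtI Q D η (fun r ω => (Arm2 e D z z' r).indicator 1 ω) {z} 2 E 7 C r := by
  have hb1 : ∀ a : ℤ, Bq z a ⊆ Bq z' (a + 1) := by
    intro a v hv
    rw [nmle] at hzz
    simp only [Prod.fst_sub, Prod.snd_sub] at hzz
    rw [mBq] at *
    omega
  have hb2 : ∀ a : ℤ, Bq z' (a - 1) ⊆ Bq z a := by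
    intro a v hv
    rw [nmle] at hzz
    simp only [Prod.fst_sub, Prod.snd_sub] at hzz
    rw [mBq] at *
    omega
  refine ⟨by norm_num, fun r' ω _ _ => Set.indicator_nonneg (fun _ _ => zero_le_one) ω,
    fun r' r'' ω _ h2 _ => Set.indicator_le_indicator_of_subset (arm2_anti h2)
      (fun _ => zero_le_one) ω, fun r' _ _ ω ω' hω => ?_,
    fun r' r'' h1 _ h3 h4 h5 F hF0 hFo => ?_⟩
  · have h1 := noArm_congr2 (e := e) (D := D) (B := Bq z r') (z := z') (ω := ω) (ω' := ω')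
      fun v hv => hω v (by
        rw [singleton_biUnion]
        exact (mem_inter.1 hv).2)
    show (Arm2 e D z z' r').indicator (1 : Cfg → ℝ) ω = (Arm2 e D z z' r').indicator 1 ω'
    by_cases h2 : NoArm e D (Bq z r') z' ω
    · rw [Set.indicator_of_notMem (show ω ∉ Arm2 e D z z' r' from fun h3 => h3 h2),
        Set.indicator_of_notMem (show ω' ∉ Arm2 e D z z' r' from fun h3 => h3 (h1.1 h2))]
    · rw [Set.indicator_of_mem (show ω ∈ Arm2 e D z z' r' from h2),
        Set.indicator_of_mem (show ω' ∈ Arm2 e D z z' r' from fun h3 => h2 (h1.2 h3))]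
      rfl
  · have key := h (r' := r' - 1) (r'' := r'' + 1) (by omega) (by omega) (by omega) (by
      push_cast
      nlinarith) F hF0 fun ω ω' hω => hFo ω ω' fun v hv => hω v fun h6 => hv ⟨h6.1, z,
        mem_singleton_self z, by
          have h7 := h6.2
          rw [nmle] at hzz
          simp only [Prod.fst_sub, Prod.snd_sub] at hzz
          rw [mBq] at h7
          rw [nmle]
          simp only [Prod.fst_sub, Prod.snd_sub]
          omega⟩
    refine (FKA.Ex_mono hQ fun S _ => ?_).trans (key.trans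
      (mul_le_mul_of_nonneg_left (FKA.Ex_mono hQ fun S _ => ?_) (by linarith)))
    · have h10 : Arm2 e D z z' r' ⊆ Arm e D z' (r' - 1) := fun ω h8 h9 =>
        h8 (noArm_sub (hb2 r') h9)
      exact mul_le_mul_of_nonneg_right (Set.indicator_le_indicator_of_subset h10
        (fun _ => zero_le_one) _) (hF0 _)
    · have h10 : Arm e D z' (r'' + 1) ⊆ Arm2 e D z z' r'' := fun ω h8 h9 =>
        h8 (noArm_sub (hb1 r'') h9)
      exact mul_le_mul_of_nonneg_right (Set.indicator_le_indicator_of_subset h10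
        (fun _ => zero_le_one) _) (hF0 _)

/-- **The base of a free or wired polygon, the charge `θ` at the index `1`, total charge `-θ`.** -/
theorem kc_base1 (h1 : Ang θ) (_hR : RSW (2 * Real.cos θ)) : ∃ (b B : ℝ) (Λ W : ℤ) (KE : ℕ → ℤ)
    (CE : ℕ → ℝ), Kc b B Λ W CE ∧ ∀ {N k n d L : ℕ} {q : ZMod N → ℤ × ℤ} {D : Finset (ℤ × ℤ)}
      {τ : ℕ → ℤ} {m r : ℤ} {η : Cfg} {ρ : ℕ → ℝ} {β : ℝ}, LkD n N q D k τ L m η →
      Real.cos (θ / 2 + β) = Real.sin θ →
      WinI d N τ 0 0 → 2 * d < N → (k = 0 ∨ k = N) →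
      (Even ((q 0).1 + (q 0).2) ↔ k ≠ 0) →
      (∀ i, 1 ≤ i → i ≤ d → ρ i = ρ 0 + θ) → (∀ i < N, N ≤ i + d → ρ i = ρ 0 - θ) →
      W * r ≤ n → W * r ≤ d → W * r ≤ m → 1 ≤ r →
      KC θ β q D k ρ η b B Λ KE CE (q 0) r := by
  have hQ := h1.kit.pos
  have hQ1 := h1.kit.lt
  have hE := fun E : ℕ => ext_flT hQ hQ1.le (NET.vrs hQ hQ1) (2 * E + 1)
  choose CE hCE1 hCE using hE
  refine ⟨2 * Real.cos θ, 1, 2, 20, fun _ => 7, CE, ⟨hQ, hQ1.le, le_rfl, by norm_num, by norm_num,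
    hCE1⟩, ?_⟩
  intro N k n d L q D τ m r η ρ β h hβ hw hN hk hp hρ0 hρN hWn hWd hWm hr
  have hW := wn_baseK (R := r + 1) h hw (by omega) hN (by omega) (by omega)
  obtain ⟨c, hc⟩ := exists_pr (q 1)
  have hfl := (flT_win' (R := r + 2) h hw (by omega) (by omega) (by omega)).2
  rw [Nat.cast_zero, zero_add, show r + 2 - 1 = r + 1 by ring] at hfl
  have hb : qr q d ((N - d : ℕ) : ZMod N) = q 0 := qr_base (by omega)
  have hb1 : qr q d ((N - d + 1 : ℕ) : ZMod N) = q 1 := by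
    show q (((N - d + 1 : ℕ) : ZMod N) + (d : ZMod N)) = q 1
    rw [← Nat.cast_add, show N - d + 1 + d = N + 1 by omega, Nat.cast_add, ZMod.natCast_self,
      zero_add, Nat.cast_one]
  have hzz : nm (q 1 - q 0) ≤ 1 := by
    have := h.geo.lip 1 0
    simpa using this
  have hg : Gd N k c := by
    have h4 := Vale.Agent.P167.N.NET.par_next (c := c) h.poly (0 : ZMod N)
    rw [zero_add] at h4
    have h5 := h4.1 hc
    rw [Int.even_iff, h5] at hp
    cases c
    · left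
      refine ⟨rfl, ?_⟩
      have : k ≠ 0 := hp.1 (by decide)
      omega
    · right
      refine ⟨rfl, ?_⟩
      by_contra h'
      exact absurd (hp.2 h') (by decide)
  have hns : ∀ (r' : ℤ) (ω : Cfg), 1 ≤ r' → r' ≤ r →
      (NS (qr q d) D (N - d) (N - d + 1) r').indicator (1 : Cfg → ℝ) ω =
        (Arm2 c D (q 0) (q 1) r').indicator 1 ω := by
    intro r' ω g1 g2
    have h := ns_iff (ω := ω) (t := N - d + 1) (r := r') (qr_poly h.poly d) (qr_encl h.enc d) hW
      (by omega) (by omega) (by omega) (by rw [hb1]; exact hc)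
    rw [hb, hb1] at h
    by_cases h1 : ω ∈ NS (qr q d) D (N - d) (N - d + 1) r'
    · rw [Set.indicator_of_mem h1, Set.indicator_of_mem (show ω ∈ Arm2 c D _ _ r' from h.1 h1)]
    · rw [Set.indicator_of_notMem h1,
        Set.indicator_of_notMem fun h2 : ω ∈ Arm2 c D _ _ r' => h1 (h.2 h2)]
  refine ⟨fun r ω => (Arm2 c D (q 0) (q 1) r).indicator 1 ω, ?_,
    fun E => extI_two (hCE1 E) hzz (fun g1 g2 g3 g4 F hF0 hF => hCE E h.reg.good hc hfl g1 g2 g3
      (by exact_mod_cast g4) F hF0 hF) hQ⟩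
  have h01 : ∀ (r' : ℤ) (ω : Cfg), (Arm2 c D (q 0) (q 1) r').indicator (1 : Cfg → ℝ) ω = 0 ∨
      (Arm2 c D (q 0) (q 1) r').indicator (1 : Cfg → ℝ) ω = 1 := by
    intro r' ω
    by_cases hω : ω ∈ Arm2 c D (q 0) (q 1) r'
    · right
      rw [Set.indicator_of_mem hω]
      rfl
    · left
      rw [Set.indicator_of_notMem hω]
  have hTX : ∀ (r' : ℤ) (ω : Cfg), 1 ≤ r' → r' ≤ r →
      TX (wP θ β q D k ρ) D (q 0) r' ω = (Arm2 c D (q 0) (q 1) r').indicator 1 ω ∨
      TX (wP θ β q D k ρ) D (q 0) r' ω =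
        2 * Real.cos θ * (Arm2 c D (q 0) (q 1) r').indicator 1 ω := by
    intro r' ω g1 g2
    rw [← hns r' ω g1 g2]
    exact TX_c h.poly h.enc h1.sin_pos.ne' h1.cos_pos.ne' hβ (by omega) hW (by omega) (by omega)
      (by omega) hc hg (fun i hi hi' => hρ0 i hi (by omega)) (fun i hi hi' => hρN i hi (by omega))
  refine ⟨fun r' ω _ _ => h01 r' ω, fun r' r'' ω _ g2 _ =>
    Set.indicator_le_indicator_of_subset (arm2_anti g2) (fun _ => zero_le_one) ω,
    fun r' ω g1 g2 => ?_, fun r' ω g1 g2 => ?_⟩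
  · rcases hTX r' ω g1 g2 with h3 | h3 <;> rcases h01 r' ω with h4 | h4 <;> rw [h3, h4] <;>
      linarith
  · rcases hTX r' ω g1 g2 with h3 | h3 <;> rcases h01 r' ω with h4 | h4 <;> rw [h3, h4] <;>
      linarith

end Vale.Agent.P167.N.QL
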