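import Vale.Agent.P167.H852.Q.Y5e

/-!
# P167, the range `0 < q < 1`, block Q-LAM: Dobrushin functionals with boundary phases

One notion for the natural functionals with charges at boundary sites and for their parity images.
The boundary charges are given by boundary phases `ρ : ℕ → ℝ` (the charge at `q j` is
`ρ j - ρ (j - 1)`, `0 < j < N`); the natural functional with the phases `ρ` has the parity image with
the phases `rc - ρ`.

* `wP`: the weight of a piece without interior charge; `cP q ρ h`: interior charge `h` and phases `ρ`.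
* `imC_cP`: the parity image.
* `PD`: data of a functional (polygon, domain, junction, phases, centres of the boxes), `PD.Near`,
  `PD.Sep`, `TPq` (product of the local factors in the boxes), `VP` (value of the functional without
  interior charge).
-/

set_option autoImplicit false

namespace Vale.Agent.P167.N.QL

open Finset Filter Vale.Agent.P167.BR Vale.Agent.P167.FK
open Vale.Agent.P167.E6 (IsPolygon Encloses face dir)
open Vale.Agent.P167.H365.NQ (XW TW)
open Vale.Agent.P167.H718 (Dob wn wn' wn_eq IsCl rc gch mass_add mass_gch_loop mass_gch_strand imC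
  lam Ex_XW sum_image poly_add encl_add ZQ_stag_pos)
open Vale.Agent.P167.H871 (Bd)
open Vale.Agent.P167.H601.LG (Spe wJ GeoN SepL feet nm_be nm_tri' nm_comm nm_of_Bq one_le_diam
  be_notMem_lp)
open Vale.Agent.P167.H852.Q (cI TPs)
open Vale.Agent.P167.H975 (TX TX_loc)
open Vale.Agent.P167.QX (wB wB_zero lo hi stag ZQ)

variable {D : Finset (ℤ × ℤ)} {h : ℤ × ℤ → ℝ} {θ β : ℝ} {N k : ℕ} {r : ℤ} {q : ZMod N → ℤ × ℤ}
  {τ : ℕ → ℤ} {ρ ρ' : ℕ → ℝ} {ω : Cfg} {A : Finset Ed}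

/-! ### weights -/

/-- The weight of a piece: boundary phases `ρ`, no interior charge. -/
noncomputable def wP (θ β : ℝ) (q : ZMod N → ℤ × ℤ) (D : Finset (ℤ × ℤ)) (k : ℕ) (ρ : ℕ → ℝ)
    (A : Finset Ed) : ℝ :=
  wB θ β q D k A (ρ (hi q A) - ρ (lo q A))

/-- The interior charge `h` and the boundary phases `ρ`. -/
noncomputable def cP (q : ZMod N → ℤ × ℤ) (ρ : ℕ → ℝ) (h : ℤ × ℤ → ℝ) (z : ℤ × ℤ) : ℝ :=
  h z + gch q ρ z

theorem wJ_wP (θ β : ℝ) (q : ZMod N → ℤ × ℤ) (D : Finset (ℤ × ℤ)) (k : ℕ) (τ : ℕ → ℤ) :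
    wJ θ β q D k τ = wP θ β q D k (rc θ β τ k) := rfl

theorem cI_cP (θ β : ℝ) (τ : ℕ → ℤ) (q : ZMod N → ℤ × ℤ) (k : ℕ) (h : ℤ × ℤ → ℝ) :
    cI θ β τ q k h = cP q (rc θ β τ k) h := rfl

theorem gch_zero (q : ZMod N → ℤ × ℤ) (z : ℤ × ℤ) : gch q (fun _ => 0) z = 0 := by
  unfold gch
  refine sum_eq_zero fun j _ => ?_
  split_ifs <;> simp

theorem cP_zero (q : ZMod N → ℤ × ℤ) (h : ℤ × ℤ → ℝ) : cP q (fun _ => 0) h = h := by
  funext z
  unfold cP
  rw [gch_zero, add_zero]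

theorem cP_nil (q : ZMod N → ℤ × ℤ) (ρ : ℕ → ℝ) : cP q ρ (fun _ => 0) = gch q ρ := by
  funext z
  unfold cP
  rw [zero_add]

theorem gch_sub (q : ZMod N → ℤ × ℤ) (ρ ρ' : ℕ → ℝ) (z : ℤ × ℤ) :
    gch q (fun j => ρ j - ρ' j) z = gch q ρ z - gch q ρ' z := by
  unfold gch
  rw [← sum_sub_distrib]
  refine sum_congr rfl fun j _ => ?_
  split_ifs <;> ring

theorem gch_add (q : ZMod N → ℤ × ℤ) (ρ ρ' : ℕ → ℝ) (z : ℤ × ℤ) :
    gch q (fun j => ρ j + ρ' j) z = gch q ρ z + gch q ρ' z := by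
  unfold gch
  rw [← sum_add_distrib]
  refine sum_congr rfl fun j _ => ?_
  split_ifs <;> ring

theorem gch_tr (q : ZMod N → ℤ × ℤ) (ρ : ℕ → ℝ) (a z : ℤ × ℤ) :
    gch (fun i => q i + a) ρ z = gch q ρ (z - a) := by
  unfold gch
  refine sum_congr rfl fun j _ => ?_
  have e : (q (j : ZMod N) + a = z) = (q (j : ZMod N) = z - a) := by
    rw [eq_sub_iff_add_eq]
  simp only [e]

/-- **The parity image**: the phases `ρ` become `rc - ρ`. -/
theorem imC_cP (θ β : ℝ) (τ : ℕ → ℤ) (q : ZMod N → ℤ × ℤ) (k : ℕ) (a : ℤ × ℤ) (ρ : ℕ → ℝ)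
    (h : ℤ × ℤ → ℝ) :
    imC θ β τ q k a (cP q ρ h) =
      cP (fun i => q i + a) (fun j => rc θ β τ k j - ρ j) fun z => -h (z - a) := by
  funext z
  unfold imC cP
  rw [gch_sub, gch_tr q ρ]
  ring

/-- A charge at the boundary sites is given by boundary phases (the charge at the base `q 0` does not
matter). -/
theorem gch_of (hq : IsPolygon q) {g : ℤ × ℤ → ℝ}
    (hg : ∀ z, g z ≠ 0 → ∃ j : ℕ, 0 < j ∧ j < N ∧ q (j : ZMod N) = z) :
    gch q (fun j => ∑ i ∈ Ico 1 (j + 1), g (q (i : ZMod N))) = g := by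
  classical
  have hinj : ∀ i j : ℕ, i < N → j < N → q (i : ZMod N) = q (j : ZMod N) → i = j := by
    intro i j hi hj h
    have h1 := hq.2.1 h
    rw [ZMod.natCast_eq_natCast_iff'] at h1
    rwa [Nat.mod_eq_of_lt hi, Nat.mod_eq_of_lt hj] at h1
  have hd : ∀ j : ℕ, 0 < j → (∑ i ∈ Ico 1 (j + 1), g (q (i : ZMod N))) -
      ∑ i ∈ Ico 1 (j - 1 + 1), g (q (i : ZMod N)) = g (q (j : ZMod N)) := by
    intro j hj
    obtain ⟨m, rfl⟩ : ∃ m, j = m + 1 := ⟨j - 1, by omega⟩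
    rw [Nat.add_sub_cancel, sum_Ico_succ_top (by omega : 1 ≤ m + 1), add_sub_cancel_left]
  funext z
  unfold gch
  by_cases hz : g z = 0
  · rw [hz]
    refine sum_eq_zero fun j hj => ?_
    rw [mem_Ico] at hj
    split_ifs with h
    · rw [hd j (by omega), h, hz]
    · rfl
  · obtain ⟨j, hj0, hjN, hj⟩ := hg z hz
    rw [sum_eq_single_of_mem j (mem_Ico.2 ⟨by omega, hjN⟩)]
    · rw [if_pos hj, hd j hj0, hj]
    · intro i hi hij
      rw [mem_Ico] at hi
      rw [if_neg]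
      intro h
      exact hij (hinj i j hi.2 hjN (h.trans hj.symm))

section

variable (hq : IsPolygon q) (hD : Encloses q D)

include hq hD

theorem wP_lp (hA : A ∈ pcs ω D) (hl : IsLp D A) (hc : Real.cos θ ≠ 0) :
    wP θ β q D k ρ A = 1 := by
  have h1 : {z | z < N ∧ be q (z : ZMod N) ∈ A} = ∅ := by
    ext z
    simp only [Set.mem_ofPred_eq, Set.mem_empty_iff_false, iff_false, not_and]
    exact fun _ => be_notMem_lp hq hD hA hl _
  have h2 : lo q A = 0 := by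
    unfold lo
    rw [h1, Nat.sInf_empty]
  have h3 : hi q A = 0 := by
    unfold hi
    rw [h1]
    simp
  unfold wP wB
  rw [if_pos hl, h2, h3, sub_self, add_zero, div_self hc]

theorem mass_cP_lp (hA : A ∈ pcs ω D) (hl : IsLp D A) :
    mass D (q 0) (cP q ρ h) A = mass D (q 0) h A := by
  have e : mass D (q 0) (cP q ρ h) A = mass D (q 0) h A + mass D (q 0) (gch q ρ) A :=
    mass_add _ _ _ _ _
  rw [e, mass_gch_loop hq hD hA hl, add_zero]

theorem mass_cP_st (hA : A ∈ pcs ω D) (hl : ¬ IsLp D A) :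
    mass D (q 0) (cP q ρ h) A = mass D (q 0) h A + (ρ (hi q A) - ρ (lo q A)) := by
  have e : mass D (q 0) (cP q ρ h) A = mass D (q 0) h A + mass D (q 0) (gch q ρ) A :=
    mass_add _ _ _ _ _
  rw [e, mass_gch_strand hq hD hA hl]

/-- The mass of a piece without interior charge. -/
theorem mass_gch (hA : A ∈ pcs ω D) (hc : Real.cos θ ≠ 0) (hs : Real.sin θ ≠ 0)
    (hβ : Real.cos (θ / 2 + β) = Real.sin θ) :
    wB θ β q D k A (mass D (q 0) (gch q ρ) A) = wP θ β q D k ρ A := by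
  by_cases hl : IsLp D A
  · rw [mass_gch_loop hq hD hA hl, wB_zero hs hc hβ, wP_lp hq hD hA hl hc]
  · rw [mass_gch_strand hq hD hA hl]
    rfl

/-- Pieces without interior mass have the weight `wP`. -/
theorem wn_cP (h0 : 0 < θ) (h1 : θ < Real.pi / 2) (hβ : Real.cos (θ / 2 + β) = Real.sin θ)
    (hA : A ∈ pcs ω D) (hm : mass D (q 0) h A = 0) :
    wn θ β q D k (cP q ρ h) A = wP θ β q D k ρ A := by
  have hs : 0 < Real.sin θ := Real.sin_pos_of_pos_of_lt_pi h0 (by linarith [Real.pi_pos])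
  have hc : 0 < Real.cos θ := Real.cos_pos_of_mem_Ioo ⟨by linarith [Real.pi_pos], h1⟩
  rw [wn_eq hq hD hs.ne' hc hβ hA]
  by_cases hl : IsLp D A
  · rw [mass_cP_lp hq hD hA hl, hm, wB_zero hs.ne' hc.ne' hβ, wP_lp hq hD hA hl hc.ne']
  · rw [mass_cP_st hq hD hA hl, hm, zero_add]
    rfl

/-- Loops. -/
theorem wn_cP_lp (h0 : 0 < θ) (h1 : θ < Real.pi / 2) (hβ : Real.cos (θ / 2 + β) = Real.sin θ)
    (hA : A ∈ pcs ω D) (hl : IsLp D A) :
    wn θ β q D k (cP q ρ h) A = H562.wt θ (mass D (q 0) h A) := by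
  have hs : 0 < Real.sin θ := Real.sin_pos_of_pos_of_lt_pi h0 (by linarith [Real.pi_pos])
  have hc : 0 < Real.cos θ := Real.cos_pos_of_mem_Ioo ⟨by linarith [Real.pi_pos], h1⟩
  rw [wn_eq hq hD hs.ne' hc hβ hA, mass_cP_lp hq hD hA hl]
  unfold wB
  rw [if_pos hl]
  rfl

end

/-- Strands without phase difference are natural. -/
theorem wP_one (hs : Real.sin θ ≠ 0) (hc : Real.cos θ ≠ 0)
    (hβ : Real.cos (θ / 2 + β) = Real.sin θ) (hρ : ρ (hi q A) = ρ (lo q A)) :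
    wP θ β q D k ρ A = 1 := by
  unfold wP
  rw [hρ, sub_self, wB_zero hs hc hβ]

/-! ### data of a functional -/

/-- Data of a functional: polygon, domain, junction, boundary phases, centres of the boxes. -/
structure PD where
  /-- the number of the sides -/
  N : ℕ
  /-- the polygon -/
  q : ZMod N → ℤ × ℤ
  /-- the domain -/
  D : Finset (ℤ × ℤ)
  /-- the index of the junction -/
  k : ℕ
  /-- the boundary phases -/
  ρ : ℕ → ℝ
  /-- the indices of the centres of the boxes -/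
  J : Finset ℕ

/-- Every special index (jump of the phases, junction) is next to a centre, the base is a centre. -/
structure PD.Near (P : PD) : Prop where
  lt : ∀ j ∈ P.J, j < P.N
  zero : 0 ∈ P.J
  near : ∀ j, 0 < j → j < P.N → (P.ρ j ≠ P.ρ (j - 1) ∨ j = P.k) → ∃ i ∈ P.J, |(i : ℤ) - j| ≤ 2

/-- The centres have distance at least `L` along the polygon. -/
def PD.Sep (P : PD) (L : ℕ) : Prop := ∀ i ∈ P.J, ∀ j ∈ P.J, i < j → i + L ≤ j ∧ j + L ≤ i + P.N

/-- Near sites of `q` have near indices. -/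
structure GeoP (n N : ℕ) (q : ZMod N → ℤ × ℤ) : Prop where
  pos : 0 < n
  le : 3 * n ≤ N
  near : ∀ {x y : ℕ}, x ≤ N → y ≤ N → ∀ {d : ℤ}, 3 * d < n →
    nm (q (x : ZMod N) - q (y : ZMod N)) ≤ d →
    |(x : ℤ) - y| ≤ 2 * d ∨ (N : ℤ) - |(x : ℤ) - y| ≤ 2 * d
  lip : ∀ x y : ℕ, nm (q (x : ZMod N) - q (y : ZMod N)) ≤ |(x : ℤ) - y|

theorem geoP_of {n : ℕ} (H : GeoN n N q τ) : GeoP n N q := ⟨H.pos, H.le, H.near, H.lip⟩

/-- The piece `A` is in the box of radius `r` around a centre. -/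
def PD.In (P : PD) (r : ℤ) (A : Finset Ed) : Prop :=
  ∃ j ∈ P.J, ∀ e ∈ A, hdv e ∈ Bq (P.q (j : ZMod P.N)) r

/-- The product of the local factors in the boxes around the centres. -/
noncomputable def TPq (θ β : ℝ) (P : PD) (r : ℤ) (ω : Cfg) : ℝ :=
  ∏ j ∈ P.J, TX (wP θ β P.q P.D P.k P.ρ) P.D (P.q (j : ZMod P.N)) r ω

/-- The value of the functional without interior charge. -/
noncomputable def VP (θ β : ℝ) (P : PD) : ℝ :=
  ZQ θ P.q P.D (stag θ β P.q P.k) (gch P.q P.ρ) / ZQ θ P.q P.D (stag θ β P.q P.k) 0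

/-- The natural data. -/
def natP (q : ZMod N → ℤ × ℤ) (D : Finset (ℤ × ℤ)) (k : ℕ) (ρ : ℕ → ℝ) (J : Finset ℕ) : PD :=
  ⟨N, q, D, k, ρ, J⟩

/-- The data of the parity image. -/
noncomputable def imP (θ β : ℝ) (q : ZMod N → ℤ × ℤ) (D : Finset (ℤ × ℤ)) (k : ℕ) (ρ : ℕ → ℝ)
    (J : Finset ℕ) (τ : ℕ → ℤ) (a : ℤ × ℤ) : PD :=
  ⟨N, fun i => q i + a, D.image (· + a), k, fun j => rc θ β τ k j - ρ j, J⟩

open Classical in
/-- The old product of the local factors. -/
theorem TPs_eq (θ β : ℝ) (q : ZMod N → ℤ × ℤ) (D : Finset (ℤ × ℤ)) (k : ℕ) (τ : ℕ → ℤ) (r : ℤ) :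
    TPs θ β q D k τ r = TPq θ β ⟨N, q, D, k, rc θ β τ k, (range N).filter (Spe τ k)⟩ r := rfl

theorem TPq_congr {P : PD} {ω ω' : Cfg} (hw : ∀ j ∈ P.J, ∀ v ∈ Bq (P.q (j : ZMod P.N)) r,
    v ∈ P.D → ω v = ω' v) : TPq θ β P r ω = TPq θ β P r ω' := by
  classical
  unfold TPq
  refine prod_congr rfl fun j hj => ?_
  exact TX_loc _ _ _ _ ω ω' fun v hv => hw j hj v (mem_inter.1 hv).1 (mem_inter.1 hv).2

section

variable (hq : IsPolygon q) (hD : Encloses q D) (hs : 0 < Real.sin θ) (hc : 0 < Real.cos θ)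
  (hβ : Real.cos (θ / 2 + β) = Real.sin θ)

include hq hD hs hc hβ

/-- The value of a functional does not depend on the boundary condition. -/
theorem VP_ex {η : Cfg} (hk : k ≤ N) (hη : Dob η D q k) (J : Finset ℕ) :
    Ex (2 * Real.cos θ) D η (XW D (wn θ β q D k (gch q ρ))) = VP θ β (natP q D k ρ J) :=
  Ex_XW hq hD hs.ne' hc hβ hk hη _

theorem VP_zero (J : Finset ℕ) : VP θ β (natP q D k (fun _ => 0) J) = 1 := by
  have e : gch q (fun _ => 0) = 0 := funext fun z => gch_zero q z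
  unfold VP natP
  rw [e]
  exact div_self (ZQ_stag_pos hq hD hs.ne' hc hβ hs).ne'

omit hβ in
/-- The value of the parity image. -/
theorem VP_im {a : ℤ × ℤ} (ha : ¬ Even (a.1 + a.2))
    (hu : Bd (D : Set (ℤ × ℤ)) N (fun j => q (j : ZMod N)) τ 1)
    (hβ : Real.cos (θ / 2 + β) = Real.sin θ) (J : Finset ℕ) :
    VP θ β (imP θ β q D k ρ J τ a) = lam θ β q D k a * VP θ β (natP q D k ρ J) := by
  have e : gch (fun i => q i + a) (fun j => rc θ β τ k j - ρ j) =
      imC θ β τ q k a (gch q ρ) := by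
    have h1 := imC_cP θ β τ q k a ρ fun _ => 0
    rw [cP_nil] at h1
    rw [h1, neg_zero, cP_nil]
  unfold VP imP natP lam
  rw [e]
  show ZQ θ (fun i => q i + a) (D.image (· + a)) (stag θ β (fun i => q i + a) k) _ / _ = _
  rw [sum_image ha hq hD hu]
  have h1 := (ZQ_stag_pos (β := β) (k := k) hq hD hs.ne' hc hβ hs).ne'
  show _ / ZQ θ (fun i => q i + a) (D.image (· + a)) (stag θ β (fun i => q i + a) k) 0 = _
  field_simp

end

end Vale.Agent.P167.N.QL
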