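import Vale.Agent.P167.N.QL.K3
import Vale.Agent.P167.N.QL.Ph
import Vale.Agent.P167.N.AW.Sit
import Vale.Agent.P167.H975.LfB

/-!
# P167, the range `0 < q < 1`, block Q-LAM: the local factors of the killed centres

* `TX_o`: charge `+θ` at `q t` (a site of the colour of its arc): the local factor is the indicator of
  `NS q D κ t r`.
* `TX_b`: the base in a free or wired polygon, total charge `-2θ`.
* `TX_c`: the base with the charge `+θ` at `q 1`.
-/

set_option autoImplicit false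

namespace Vale.Agent.P167.N.QL

open Finset Relation
open Vale.Agent.P167 Vale.Agent.P167.BR Vale.Agent.P167.FK
open Vale.Agent.P167.E6 (IsPolygon Encloses)
open Vale.Agent.P167.H632 (cs pr)
open Vale.Agent.P167.H718 (IsXY IsCl Cl isCl_strand)
open Vale.Agent.P167.H975 (TX qr qr_poly qr_encl oldi xy_old qr_base)
open Vale.Agent.P167.QX (lo hi exists_xy lo_xy hi_xy wB wB_zero)
open Vale.Agent.P167.N.AW (Kil)

variable {N κ t k s : ℕ} {q : ZMod N → ℤ × ℤ} {D : Finset (ℤ × ℤ)} {ω : Cfg} {c : Bool} {x y : ℕ}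
  {A : Finset Ed} {r R : ℤ} {θ β : ℝ} {ρ : ℕ → ℝ}

/-- Phases without jumps. -/
theorem rho_eq (hxy : x ≤ y) (h : ∀ j, x < j → j ≤ y → ρ j = ρ (j - 1)) : ρ y = ρ x := by
  induction y, hxy using Nat.le_induction with
  | base => rfl
  | succ m hm ih =>
    rw [h (m + 1) (by omega) le_rfl, Nat.add_sub_cancel]
    exact ih fun j h1 h2 => h j h1 (by omega)

/-- The weight of a strand which is closed by its arc. -/
theorem wP_cl (hl : ¬ IsLp D A) (hk : ¬ (lo q A < k ∧ k ≤ hi q A)) (hc : IsCl D q k A) :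
    wP θ β q D k ρ A = Real.sin (2 * θ + (ρ (hi q A) - ρ (lo q A))) / Real.sin (2 * θ) := by
  unfold wP wB
  rw [if_neg hl, if_neg hk, if_pos hc]

/-- The weight of the other strands. -/
theorem wP_op (hl : ¬ IsLp D A) (hk : ¬ (lo q A < k ∧ k ≤ hi q A)) (hc : ¬ IsCl D q k A) :
    wP θ β q D k ρ A = Real.sin (θ - (ρ (hi q A) - ρ (lo q A))) / Real.sin θ := by
  unfold wP wB
  rw [if_neg hl, if_neg hk, if_neg hc]

section poly

variable (hq : IsPolygon q) (hD : Encloses q D) (hs : Real.sin θ ≠ 0) (hc : Real.cos θ ≠ 0)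
  (hβ : Real.cos (θ / 2 + β) = Real.sin θ)

include hq hD hs hc hβ

/-- **The charge `+θ` at a site of the colour of its arc.** -/
theorem TX_o (hW : Wn q κ R) (hr0 : 0 ≤ r) (hrR : r + 1 ≤ R) (ht0 : 0 < t) (ht : t < N)
    (hp : ((q (t : ZMod N)).1 + (q (t : ZMod N)).2) % 2 = pr c)
    (ho : (c = false ∧ (κ : ℤ) + R ≤ k) ∨ (c = true ∧ (k : ℤ) ≤ κ - R))
    (hρ : ∀ j : ℕ, (κ : ℤ) - R < j → (j : ℤ) ≤ κ + R → j ≠ t → ρ j = ρ (j - 1))
    (hρt : ρ t = ρ (t - 1) + θ) :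
    TX (wP θ β q D k ρ) D (q (κ : ZMod N)) r ω = (NS q D κ t r).indicator 1 ω := by
  classical
  -- the strands in the box
  have hno : ∀ A ∈ pcs ω D, ¬ IsLp D A → (∀ e ∈ A, hdv e ∈ Bq (q (κ : ZMod N)) r) →
      ((κ : ℤ) - r ≤ lo q A ∧ (hi q A : ℤ) + 1 ≤ κ + r) ∧ lo q A < hi q A ∧
        ¬ (lo q A < k ∧ k ≤ hi q A) := by
    intro A hA hl hin
    obtain ⟨x, y, hxy⟩ := exists_xy hq hD hA hl
    obtain ⟨⟨f1, f2⟩, f3, f4⟩ := feet_in hq hD hW (by omega) hA hxy hin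
    rw [lo_xy hq hD hA hxy, hi_xy hq hD hA hxy]
    have := hxy.ne
    rw [abs_le] at f1 f2 f3 f4
    push_cast at f2 f4
    rcases ho with ⟨-, ho⟩ | ⟨-, ho⟩ <;> omega
  by_cases hω : ω ∈ NS q D κ t r
  · rw [Set.indicator_of_mem hω, Pi.one_apply]
    unfold TX
    refine prod_eq_one fun A hA => ?_
    rw [mem_filter] at hA
    obtain ⟨hA, hin⟩ := hA
    by_cases hl : IsLp D A
    · exact wP_lp hq hD hA hl hc
    · obtain ⟨h1, h2, h3⟩ := hno A hA hl hin
      have h4 := hω A hA hl hin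
      refine wP_one hs hc hβ (rho_eq h2.le fun j j1 j2 => hρ j (by omega) (by omega) ?_)
      rintro rfl
      exact h4 ⟨j1, j2⟩
  · rw [Set.indicator_of_notMem hω]
    have hN := not_not.1 fun h => hω ((ns_iff hq hD hW hr0 hrR ht hp).2 h)
    obtain ⟨A, hA, x, y, hxy, h3, hl, hin⟩ := exists_zt hq hD hW (by omega) ht hp hN
    obtain ⟨h1, h2, h4⟩ := hno A hA hl hin
    unfold TX
    refine prod_eq_zero (i := A) (mem_filter.2 ⟨hA, hin⟩) ?_
    have elo := lo_xy hq hD hA hxy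
    have ehi := hi_xy hq hD hA hxy
    have hov : lo q A < t ∧ t ≤ hi q A := by
      rw [elo, ehi]
      cases c
      · simp only [Bool.false_eq_true, if_false] at h3
        omega
      · simp only [if_true] at h3
        omega
    have hcl : ¬ IsCl D q k A := by
      rw [isCl_strand hq hD hA hl hxy]
      unfold Cl
      rcases ho with ⟨rfl, ho⟩ | ⟨rfl, ho⟩
      · simp only [Bool.false_eq_true, if_false] at h3
        omega
      · simp only [if_true] at h3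
        omega
    rw [wP_op hl h4 hcl]
    have e1 : ρ (hi q A) = ρ t := rho_eq hov.2 fun j j1 j2 => hρ j (by omega) (by omega) (by omega)
    have e2 : ρ (t - 1) = ρ (lo q A) := rho_eq (by omega) fun j j1 j2 =>
      hρ j (by omega) (by omega) (by omega)
    rw [e1, hρt, e2, add_sub_cancel_left, sub_self, Real.sin_zero, zero_div]

end poly

/-- The two families: free with dual sites, wired with primal sites. -/
def Gd (N k : ℕ) (c : Bool) : Prop := (c = false ∧ N ≤ k) ∨ (c = true ∧ k = 0)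

theorem Gd.nk (h : Gd N k c) (hx : x < N) : ¬ (y < k ∧ k ≤ x) := by
  rcases h with ⟨-, h⟩ | ⟨-, h⟩ <;> omega

section base

variable (hq : IsPolygon q) (hD : Encloses q D) (hs : Real.sin θ ≠ 0) (hc : Real.cos θ ≠ 0)
  (hβ : Real.cos (θ / 2 + β) = Real.sin θ)

include hq hD

/-- The feet of a strand in the box around the base. -/
theorem feet_base (hsN : s < N) (hW : Wn (qr q s) (N - s) R) (hrR : r + 1 ≤ R)
    (hA : A ∈ pcs ω D) (hl : ¬ IsLp D A) (hin : ∀ e ∈ A, hdv e ∈ Bq (q 0) r) :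
    ∃ x' y', IsXY (qr q s) A x' y' ∧ IsXY q A (oldi N s x') (oldi N s y') ∧
      ((x' < N - s ∧ oldi N s x' = x' + s ∧ (N : ℤ) - r ≤ oldi N s x') ∨
        (N - s ≤ x' ∧ oldi N s x' = x' - (N - s) ∧ (oldi N s x' : ℤ) + 1 ≤ r)) ∧
      ((y' < N - s ∧ oldi N s y' = y' + s ∧ (N : ℤ) - r ≤ oldi N s y') ∨
        (N - s ≤ y' ∧ oldi N s y' = y' - (N - s) ∧ (oldi N s y' : ℤ) + 1 ≤ r)) := by
  obtain ⟨x', y', hxy⟩ := exists_xy (qr_poly hq s) (qr_encl hD s) hA hl
  have h1 := feet_in (qr_poly hq s) (qr_encl hD s) hW (r := r) (by omega) hA hxy (by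
    rw [qr_base hsN.le]
    exact hin)
  obtain ⟨⟨f1, f2⟩, f3, f4⟩ := h1
  rw [abs_le] at f1 f2 f3 f4
  push_cast [Nat.cast_sub hsN.le] at f1 f2 f3 f4
  have hx := hxy.1
  have hy := hxy.2.1
  refine ⟨x', y', hxy, xy_old hq hsN.le hxy, ?_, ?_⟩
  · unfold oldi
    by_cases h : x' < N - s
    · left
      rw [if_pos h]
      refine ⟨h, rfl, by push_cast; omega⟩
    · right
      rw [if_neg h]
      refine ⟨by omega, by omega, by omega⟩
  · unfold oldi
    by_cases h : y' < N - s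
    · left
      rw [if_pos h]
      refine ⟨h, rfl, by push_cast; omega⟩
    · right
      rw [if_neg h]
      refine ⟨by omega, by omega, by omega⟩

include hs hc hβ

/-- **The base**: no charge next to the base, total charge `-2θ`. -/
theorem TX_b (hsN : s < N) (hW : Wn (qr q s) (N - s) R) (hr0 : 0 ≤ r) (hrR : r + 1 ≤ R)
    (hRN : 2 * R < N)
    (hp : ((q 0).1 + (q 0).2) % 2 = pr c) (hk : Gd N k c)
    (hρ0 : ∀ j : ℕ, (j : ℤ) ≤ R → ρ j = ρ 0)
    (hρN : ∀ j : ℕ, j < N → (N : ℤ) - R ≤ j → ρ j = ρ 0 - 2 * θ) :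
    TX (wP θ β q D k ρ) D (q 0) r ω = (NS (qr q s) D (N - s) (N - s) r).indicator 1 ω := by
  classical
  have hb := qr_base (q := q) hsN.le
  have hsR : R ≤ s := by
    have := hW.lt
    push_cast [Nat.cast_sub hsN.le] at this
    omega
  have hpb : ((qr q s ((N - s : ℕ) : ZMod N)).1 + (qr q s ((N - s : ℕ) : ZMod N)).2) % 2 = pr c := by
    rw [hb]
    exact hp
  by_cases hω : ω ∈ NS (qr q s) D (N - s) (N - s) r
  · rw [Set.indicator_of_mem hω, Pi.one_apply]
    unfold TX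
    refine prod_eq_one fun A hA => ?_
    rw [mem_filter] at hA
    obtain ⟨hA, hin⟩ := hA
    by_cases hl : IsLp D A
    · exact wP_lp hq hD hA hl hc
    · obtain ⟨x', y', hxy', hxy, h1, h2⟩ := feet_base hq hD hsN hW hrR hA hl hin
      have h3 := hω A hA hl (by rw [hb]; exact hin)
      rw [lo_xy (qr_poly hq s) (qr_encl hD s) hA hxy', hi_xy (qr_poly hq s) (qr_encl hD s) hA hxy']
        at h3
      refine wP_one hs hc hβ ?_
      rw [lo_xy hq hD hA hxy, hi_xy hq hD hA hxy]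
      have hx := hxy.1
      have hy := hxy.2.1
      have hxyM : ∀ z, z = oldi N s x' ∨ z = oldi N s y' →
          (x' < N - s → y' < N - s → z < N ∧ (N : ℤ) - R ≤ z) ∧
          (N - s ≤ x' → N - s ≤ y' → (z : ℤ) ≤ R) := by
        rintro z (rfl | rfl) <;> omega
      have hmax := hxyM _ (max_choice (oldi N s x') (oldi N s y'))
      have hmin := hxyM _ (min_choice (oldi N s x') (oldi N s y'))
      rcases h1 with ⟨a1, a2, a3⟩ | ⟨a1, a2, a3⟩ <;> rcases h2 with ⟨b1, b2, b3⟩ | ⟨b1, b2, b3⟩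
      · rw [hρN (max _ _) (hmax.1 a1 b1).1 (hmax.1 a1 b1).2,
          hρN (min _ _) (hmin.1 a1 b1).1 (hmin.1 a1 b1).2]
      · omega
      · omega
      · rw [hρ0 (max _ _) (hmax.2 a1 b1), hρ0 (min _ _) (hmin.2 a1 b1)]
  · rw [Set.indicator_of_notMem hω]
    have hN := not_not.1 fun h => hω ((ns_iff (qr_poly hq s) (qr_encl hD s) hW hr0 hrR
      (by omega) hpb).2 h)
    obtain ⟨A, hA, x', y', hxy', h3, hl, hin⟩ := exists_zt (qr_poly hq s) (qr_encl hD s) hW
      (by omega) (by omega) hpb hN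
    rw [hb] at hin
    obtain ⟨x'', y'', hxy'', hxy, h1, h2⟩ := feet_base hq hD hsN hW hrR hA hl hin
    obtain ⟨rfl, rfl⟩ := hxy'.unique (qr_poly hq s) (qr_encl hD s) hA hxy''
    unfold TX
    refine prod_eq_zero (i := A) (mem_filter.2 ⟨hA, hin⟩) ?_
    have elo := lo_xy hq hD hA hxy
    have ehi := hi_xy hq hD hA hxy
    have hx := hxy.1
    have hy := hxy.2.1
    have key : IsCl D q k A ∧ (N : ℤ) - R ≤ hi q A ∧ hi q A < N ∧ (lo q A : ℤ) ≤ R := by
      rw [isCl_strand hq hD hA hl hxy, elo, ehi]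
      unfold Cl
      rcases hk with ⟨rfl, hk⟩ | ⟨rfl, hk⟩
      · simp only [Bool.false_eq_true, if_false] at h3
        rcases h1 with ⟨a1, a2, a3⟩ | ⟨a1, a2, a3⟩ <;> rcases h2 with ⟨b1, b2, b3⟩ | ⟨b1, b2, b3⟩ <;>
          omega
      · simp only [if_true] at h3
        rcases h1 with ⟨a1, a2, a3⟩ | ⟨a1, a2, a3⟩ <;> rcases h2 with ⟨b1, b2, b3⟩ | ⟨b1, b2, b3⟩ <;>
          omega
    rw [wP_cl hl (Gd.nk hk key.2.2.1) key.1, hρN _ key.2.2.1 key.2.1, hρ0 _ key.2.2.2]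
    have e : 2 * θ + (ρ 0 - 2 * θ - ρ 0) = 0 := by ring
    rw [e, Real.sin_zero, zero_div]

/-- The weights in the box around the base, charge `+θ` at `q 1`. -/
theorem wt_c (hsN : s < N) (hW : Wn (qr q s) (N - s) R) (hrR : r + 1 ≤ R) (hRN : 2 * R < N)
    (hp : ((q 1).1 + (q 1).2) % 2 = pr c) (hk : Gd N k c)
    (hρ0 : ∀ j : ℕ, 1 ≤ j → (j : ℤ) ≤ R → ρ j = ρ 0 + θ)
    (hρN : ∀ j : ℕ, j < N → (N : ℤ) - R ≤ j → ρ j = ρ 0 - θ)
    (hω : ω ∈ NS (qr q s) D (N - s) (N - s + 1) r) (hA : A ∈ pcs ω D)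
    (hin : ∀ e ∈ A, hdv e ∈ Bq (q 0) r) :
    wP θ β q D k ρ A = 1 ∨ (be q 0 ∈ A ∧ wP θ β q D k ρ A = 2 * Real.cos θ) := by
  classical
  have hb := qr_base (q := q) hsN.le
  by_cases hl : IsLp D A
  · exact Or.inl (wP_lp hq hD hA hl hc)
  · obtain ⟨x', y', hxy', hxy, h1, h2⟩ := feet_base hq hD hsN hW hrR hA hl hin
    have h3 := hω A hA hl (by rw [hb]; exact hin)
    rw [lo_xy (qr_poly hq s) (qr_encl hD s) hA hxy', hi_xy (qr_poly hq s) (qr_encl hD s) hA hxy']
      at h3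
    have hx := hxy.1
    have hy := hxy.2.1
    have elo := lo_xy hq hD hA hxy
    have ehi := hi_xy hq hD hA hxy
    -- parities
    have hp0 : Even ((q ((0 : ℕ) : ZMod N)).1 + (q ((0 : ℕ) : ZMod N)).2) ↔ c = false := by
      have h4 := Vale.Agent.P167.N.NET.par_next (c := c) hq ((0 : ℕ) : ZMod N)
      rw [Nat.cast_zero, zero_add] at h4
      have h5 := h4.1 hp
      rw [Int.even_iff, Nat.cast_zero, h5]
      cases c <;> decide
    have hne := hxy'.ne
    have hxyM : ∀ z, z = oldi N s x' ∨ z = oldi N s y' →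
        (x' < N - s → y' < N - s → z < N ∧ (N : ℤ) - R ≤ z) ∧
        (N - s ≤ x' → N - s ≤ y' → 1 ≤ z ∧ (z : ℤ) ≤ R) := by
      rintro z (rfl | rfl) <;> omega
    have hmax := hxyM _ (max_choice (oldi N s x') (oldi N s y'))
    have hmin := hxyM _ (min_choice (oldi N s x') (oldi N s y'))
    rcases h1 with ⟨a1, a2, a3⟩ | ⟨a1, a2, a3⟩ <;> rcases h2 with ⟨b1, b2, b3⟩ | ⟨b1, b2, b3⟩
    · left
      refine wP_one hs hc hβ ?_
      rw [elo, ehi, hρN (max _ _) (hmax.1 a1 b1).1 (hmax.1 a1 b1).2,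
          hρN (min _ _) (hmin.1 a1 b1).1 (hmin.1 a1 b1).2]
    · -- `x` is near `N`, `y = 0`
      have hy0 : oldi N s y' = 0 := by omega
      right
      have h4 := hxy.2.2.2.1
      have h5 := hxy.2.2.2.2.2
      rw [hy0] at h4 h5
      have h6 : c = true := by
        rcases Bool.eq_false_or_eq_true c with h | h
        · exact h
        · exact absurd (hp0.2 h) h5
      refine ⟨by rw [Nat.cast_zero] at h4; exact h4, ?_⟩
      have h7 : ¬ IsCl D q k A := by
        rw [isCl_strand hq hD hA hl hxy]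
        unfold Cl
        rcases hk with ⟨h, -⟩ | ⟨-, hk⟩
        · rw [h6] at h
          exact absurd h (by decide)
        · omega
      have h8 : lo q A = 0 := by rw [elo]; omega
      have h9 : hi q A = oldi N s x' := by rw [ehi]; omega
      rw [wP_op hl (by rw [h9]; exact Gd.nk hk hx) h7, h8, h9, hρN _ hx (by omega)]
      have e : θ - (ρ 0 - θ - ρ 0) = 2 * θ := by ring
      rw [e, Real.sin_two_mul]
      field_simp
    · have hx0 : oldi N s x' = 0 := by omega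
      right
      have h4 := hxy.2.2.1
      have h5 := hxy.2.2.2.2.1
      rw [hx0] at h4 h5
      have h6 : c = false := hp0.1 h5
      refine ⟨by rw [Nat.cast_zero] at h4; exact h4, ?_⟩
      have h7 : ¬ IsCl D q k A := by
        rw [isCl_strand hq hD hA hl hxy]
        unfold Cl
        rcases hk with ⟨-, hk⟩ | ⟨h, -⟩
        · omega
        · rw [h6] at h
          exact absurd h (by decide)
      have h8 : lo q A = 0 := by rw [elo]; omega
      have h9 : hi q A = oldi N s y' := by rw [ehi]; omega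
      rw [wP_op hl (by rw [h9]; exact Gd.nk hk hy) h7, h8, h9, hρN _ hy (by omega)]
      have e : θ - (ρ 0 - θ - ρ 0) = 2 * θ := by ring
      rw [e, Real.sin_two_mul]
      field_simp
    · left
      refine wP_one hs hc hβ ?_
      rw [elo, ehi, hρ0 (max _ _) (hmax.2 a1 b1).1 (hmax.2 a1 b1).2,
          hρ0 (min _ _) (hmin.2 a1 b1).1 (hmin.2 a1 b1).2]

/-- **The base with the charge `+θ` at `q 1`**, total charge `-θ`. -/
theorem TX_c (hsN : s < N) (hW : Wn (qr q s) (N - s) R) (hr0 : 1 ≤ r) (hrR : r + 1 ≤ R)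
    (hRN : 2 * R < N)
    (hp : ((q 1).1 + (q 1).2) % 2 = pr c) (hk : Gd N k c)
    (hρ0 : ∀ j : ℕ, 1 ≤ j → (j : ℤ) ≤ R → ρ j = ρ 0 + θ)
    (hρN : ∀ j : ℕ, j < N → (N : ℤ) - R ≤ j → ρ j = ρ 0 - θ) :
    TX (wP θ β q D k ρ) D (q 0) r ω = (NS (qr q s) D (N - s) (N - s + 1) r).indicator 1 ω ∨
    TX (wP θ β q D k ρ) D (q 0) r ω =
      2 * Real.cos θ * (NS (qr q s) D (N - s) (N - s + 1) r).indicator 1 ω := by
  classical
  have hb := qr_base (q := q) hsN.le
  have hsR : R ≤ s := by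
    have := hW.lt
    push_cast [Nat.cast_sub hsN.le] at this
    omega
  by_cases hω : ω ∈ NS (qr q s) D (N - s) (N - s + 1) r
  · rw [Set.indicator_of_mem hω, Pi.one_apply, mul_one]
    have key := fun (A : Finset Ed) (hA : A ∈ pcs ω D) (hin : ∀ e ∈ A, hdv e ∈ Bq (q 0) r) =>
      wt_c hq hD hs hc hβ (by omega) hW hrR hRN hp hk hρ0 hρN hω hA hin
    unfold TX
    by_cases hex : ∃ A ∈ (pcs ω D).filter (fun A => ∀ e ∈ A, hdv e ∈ Bq (q 0) r),
        wP θ β q D k ρ A ≠ 1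
    · right
      obtain ⟨A, hA, hne⟩ := hex
      have hA' := mem_filter.1 hA
      have h1 := (key A hA'.1 hA'.2).resolve_left hne
      rw [prod_eq_single_of_mem A hA, h1.2]
      intro A' hA'' hne'
      have h2 := mem_filter.1 hA''
      rcases key A' h2.1 h2.2 with h3 | ⟨h3, -⟩
      · exact h3
      · exact absurd (eq_of_mem h2.1 hA'.1 h3 h1.1) hne'
    · left
      push Not at hex
      exact prod_eq_one hex
  · rw [Set.indicator_of_notMem hω, mul_zero]
    left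
    have h1' : qr q s ((N - s + 1 : ℕ) : ZMod N) = q 1 := by
      show q (((N - s + 1 : ℕ) : ZMod N) + (s : ZMod N)) = q 1
      rw [← Nat.cast_add, show N - s + 1 + s = N + 1 by omega, Nat.cast_add, ZMod.natCast_self,
        zero_add, Nat.cast_one]
    have hpb : ((qr q s ((N - s + 1 : ℕ) : ZMod N)).1 +
        (qr q s ((N - s + 1 : ℕ) : ZMod N)).2) % 2 = pr c := by
      rw [h1']
      exact hp
    have hN := not_not.1 fun h => hω ((ns_iff (qr_poly hq s) (qr_encl hD s) hW (by omega) hrR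
      (by omega) hpb).2 h)
    obtain ⟨A, hA, x', y', hxy', h3, hl, hin⟩ := exists_zt (qr_poly hq s) (qr_encl hD s) hW
      (by omega) (by omega) hpb hN
    rw [hb] at hin
    obtain ⟨x'', y'', hxy'', hxy, h1, h2⟩ := feet_base hq hD (by omega) hW hrR hA hl hin
    obtain ⟨rfl, rfl⟩ := hxy'.unique (qr_poly hq s) (qr_encl hD s) hA hxy''
    unfold TX
    refine prod_eq_zero (i := A) (mem_filter.2 ⟨hA, hin⟩) ?_
    have elo := lo_xy hq hD hA hxy
    have ehi := hi_xy hq hD hA hxy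
    have hx := hxy.1
    have hy := hxy.2.1
    have key : (IsCl D q k A ∧ (N : ℤ) - R ≤ hi q A ∧ hi q A < N ∧ 1 ≤ lo q A ∧
        (lo q A : ℤ) ≤ R) ∨
        (¬ IsCl D q k A ∧ lo q A = 0 ∧ 1 ≤ hi q A ∧ hi q A < N ∧ (hi q A : ℤ) ≤ R) := by
      rw [isCl_strand hq hD hA hl hxy, elo, ehi]
      unfold Cl
      rcases hk with ⟨rfl, hk⟩ | ⟨rfl, hk⟩
      · simp only [Bool.false_eq_true, if_false] at h3
        rcases h1 with ⟨a1, a2, a3⟩ | ⟨a1, a2, a3⟩ <;> rcases h2 with ⟨b1, b2, b3⟩ | ⟨b1, b2, b3⟩ <;>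
          omega
      · simp only [if_true] at h3
        rcases h1 with ⟨a1, a2, a3⟩ | ⟨a1, a2, a3⟩ <;> rcases h2 with ⟨b1, b2, b3⟩ | ⟨b1, b2, b3⟩ <;>
          omega
    rcases key with ⟨k1, k2, k3, k4, k5⟩ | ⟨k1, k2, k3, k4, k5⟩
    · rw [wP_cl hl (Gd.nk hk k3) k1, hρN _ k3 k2, hρ0 _ k4 k5]
      have e : 2 * θ + (ρ 0 - θ - (ρ 0 + θ)) = 0 := by ring
      rw [e, Real.sin_zero, zero_div]
    · rw [wP_op hl (Gd.nk hk k4) k1, k2, hρ0 _ k3 k5]
      have e : θ - (ρ 0 + θ - ρ 0) = 0 := by ring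
      rw [e, Real.sin_zero, zero_div]

end base

/-! ### killed centres -/

/-- An indicator which decreases in the radius. -/
theorem kil_of_ind {w : Finset Ed → ℝ} {z : ℤ × ℤ} {b B : ℝ} {ℓ : ℤ} (κ' : ℕ) {q' : ZMod N → ℤ × ℤ}
    (hb1 : b ≤ 1) (hB1 : 1 ≤ B) {m : ℝ} (hbm : b ≤ m) (hmB : m ≤ B)
    (h : ∀ (r : ℤ) (ω : Cfg), 1 ≤ r → r ≤ ℓ →
      TX w D z r ω = (NS q' D κ' t r).indicator 1 ω ∨
      TX w D z r ω = m * (NS q' D κ' t r).indicator 1 ω) :
    Kil b B w D z (fun r => (NS q' D κ' t r).indicator (1 : Cfg → ℝ)) ℓ := by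
  have h01 : ∀ (r : ℤ) (ω : Cfg), (NS q' D κ' t r).indicator (1 : Cfg → ℝ) ω = 0 ∨
      (NS q' D κ' t r).indicator (1 : Cfg → ℝ) ω = 1 := by
    intro r ω
    by_cases hω : ω ∈ NS q' D κ' t r
    · right
      rw [Set.indicator_of_mem hω]
      rfl
    · left
      rw [Set.indicator_of_notMem hω]
  refine ⟨fun r ω _ _ => h01 r ω, fun r' r'' ω _ h2 _ => ?_, fun r ω h1 h2 => ?_,
    fun r ω h1 h2 => ?_⟩
  · by_cases hω : ω ∈ NS q' D κ' t r''
    · rw [Set.indicator_of_mem hω, Set.indicator_of_mem (NS_anti h2 hω)]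
    · rw [Set.indicator_of_notMem hω]
      rcases h01 r' ω with h3 | h3 <;> rw [h3]
      exact zero_le_one
  · rcases h r ω h1 h2 with h3 | h3 <;> rcases h01 r ω with h4 | h4 <;> rw [h3, h4] <;> linarith
  · rcases h r ω h1 h2 with h3 | h3 <;> rcases h01 r ω with h4 | h4 <;> rw [h3, h4] <;> linarith

end Vale.Agent.P167.N.QL
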