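import Vale.Agent.P167.N.QL.K7
import Vale.Agent.P167.N.QL.LkY
import Vale.Agent.P167.H433.ExtF

/-!
# P167, the range `0 < q < 1`, block Q-LAM: killed centres, every direction

`NS_T`, `jn_T`: transport of the events under rotations. `SW.rot`: the window in the frame. `land_g`: the
arm of a killed site is prolonged to the boundary. `extI_g`: `ExtI` for the indicators.
-/

set_option autoImplicit false

namespace Vale.Agent.P167.N.QL

open Finset Vale.Agent.P167 Vale.Agent.P167.BR Vale.Agent.P167.FK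
open Vale.Agent.P167.E6 (IsPolygon Encloses dir face)
open Vale.Agent.P167.QX (lo hi)
open Vale.Agent.P167.H871 (IsC)
open Vale.Agent.P167.H632 (cs pr pr_or pr_not)
open Vale.Agent.P167.H192.TA (Pw)
open Vale.Agent.P167.H760 (Tr)
open Vale.Agent.P167.H433 (pw_T par_pr)
open Vale.Agent.P167.N.NET (Ar Jn VRS)
open Vale.Agent.P167.N.AW (ExtI)
open Vale.Agent.P167.H601.S2 (Off)

variable {n n₀ κ t d : ℕ} {q : ZMod n → ℤ × ℤ} {D : Finset (ℤ × ℤ)} {ω ω' η : Cfg} {c b : Bool}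
  {v : ℤ × ℤ} {r r' R : ℤ} {Q : ℝ} {τ : ℕ → ℤ} {T : Tr} {s : Fin 4}

/-- **Transport of the events `NS`.** -/
theorem NS_T (hT : Rt T s) (hq : IsPolygon q) (κ t : ℕ) (r : ℤ) (ω : Cfg) :
    T.C ω ∈ NS q D κ t r ↔ ω ∈ NS (pq T q) (T.pre D) κ t r := by
  classical
  have h4 : pcs (T.C ω) D = (pcs ω (T.pre D)).image T.imE := by
    have := T.pcsT (ω := ω) (D := T.pre D)
    rwa [T.im_pre] at this
  have hc : q (κ : ZMod n) = T.S (pq T q (κ : ZMod n)) := (S_pq T q _).symm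
  constructor
  · intro h A hA hl hin
    have h5 := h (T.imE A) (by rw [h4]; exact mem_image_of_mem _ hA)
      (fun h' => hl ((isLp_pq hT.o).1 h')) (by rw [hc]; exact (in_T hT.o).2 hin)
    rwa [lo_pq hT hq, hi_pq hT hq] at h5
  · intro h A hA hl hin
    rw [h4, mem_image] at hA
    obtain ⟨A, hA, rfl⟩ := hA
    rw [hc, in_T hT.o] at hin
    rw [lo_pq hT hq, hi_pq hT hq]
    exact h A hA (fun h' => hl ((isLp_pq hT.o).2 h')) hin

theorem NS_ind_T (hT : Rt T s) (hq : IsPolygon q) (κ t : ℕ) (r : ℤ) (ω : Cfg) :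
    (NS q D κ t r).indicator (1 : Cfg → ℝ) (T.C ω) =
      (NS (pq T q) (T.pre D) κ t r).indicator 1 ω := by
  by_cases h : ω ∈ NS (pq T q) (T.pre D) κ t r
  · rw [Set.indicator_of_mem h, Set.indicator_of_mem ((NS_T hT hq _ _ _ _).2 h)]
    rfl
  · rw [Set.indicator_of_notMem h, Set.indicator_of_notMem fun h' => h ((NS_T hT hq _ _ _ _).1 h')]

/-- The arcs in the frame. -/
theorem Ar_T (ho : T.o = false) {x : ℤ × ℤ} {a a' : ℕ} :
    T.S x ∈ Ar q c a a' ↔ x ∈ Ar (pq T q) c a a' := by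
  unfold Ar
  constructor
  · rintro ⟨h1, k, h2, h3, h4⟩
    exact ⟨(par_pr ho).1 h1, k, h2, h3, by unfold pq; rw [h4, Equiv.symm_apply_apply]⟩
  · rintro ⟨h1, k, h2, h3, h4⟩
    exact ⟨(par_pr ho).2 h1, k, h2, h3, by rw [← h4, S_pq]⟩

/-- **Transport of the connections.** -/
theorem jn_T (ho : T.o = false) (z : ZMod n) (r : ℤ) (a a' m m' : ℕ) (ω : Cfg) :
    T.C ω ∈ Jn c ↑(Bq (q z) r ∩ D) (Ar q c a a') (Ar q c m m') ↔
      ω ∈ Jn c ↑(Bq (pq T q z) r ∩ T.pre D) (Ar (pq T q) c a a') (Ar (pq T q) c m m') := by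
  have e1 : {x | T.Q x ∈ cs c (T.C ω) ∩ (↑(Bq (q z) r ∩ D) : Set (ℤ × ℤ))} =
      cs c ω ∩ ↑(Bq (pq T q z) r ∩ T.pre D) := by
    ext x
    rw [Set.mem_ofPred_eq, Set.mem_inter_iff, Set.mem_inter_iff, mem_coe, mem_coe, mem_inter,
      mem_inter, T.mem_pre, ← S_pq T q z, bq_T]
    refine and_congr_left fun _ => ?_
    show T.C ω (T.Q x) = c ↔ ω x = c
    rw [T.C_apply, ho]
    rfl
  constructor
  · rintro ⟨u, hu, v, hv, h⟩
    obtain ⟨u, rfl⟩ := T.S.surjective u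
    obtain ⟨v, rfl⟩ := T.S.surjective v
    refine ⟨u, (Ar_T ho).1 hu, v, (Ar_T ho).1 hv, ?_⟩
    rw [pw_T ho, e1] at h
    exact h
  · rintro ⟨u, hu, v, hv, h⟩
    refine ⟨T.S u, (Ar_T ho).2 hu, T.S v, (Ar_T ho).2 hv, ?_⟩
    rw [pw_T ho, e1]
    exact h

theorem jn_ind_T (ho : T.o = false) (z : ZMod n) (r : ℤ) (a a' m m' : ℕ) (ω : Cfg) :
    (Jn c ↑(Bq (q z) r ∩ D) (Ar q c a a') (Ar q c m m')).indicator (1 : Cfg → ℝ) (T.C ω) =
      (Jn c ↑(Bq (pq T q z) r ∩ T.pre D) (Ar (pq T q) c a a') (Ar (pq T q) c m m')).indicator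
        1 ω := by
  by_cases h : ω ∈ Jn c ↑(Bq (pq T q z) r ∩ T.pre D) (Ar (pq T q) c a a') (Ar (pq T q) c m m')
  · rw [Set.indicator_of_mem h, Set.indicator_of_mem ((jn_T ho _ _ _ _ _ _ _).2 h)]
    rfl
  · rw [Set.indicator_of_notMem h,
      Set.indicator_of_notMem fun h' => h ((jn_T ho _ _ _ _ _ _ _).1 h')]

/-- **The window in the frame**: there is a rotation such that the outgoing leg has the direction
`0`. -/
theorem SW.rot (h : SW n₀ b q D τ κ d) : ∃ s : Fin 4, Rt (mvT (q (κ : ZMod n)) (q (κ : ZMod n)) s) s ∧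
    SW n₀ b (pq (mvT (q (κ : ZMod n)) (q (κ : ZMod n)) s) q)
      ((mvT (q (κ : ZMod n)) (q (κ : ZMod n)) s).pre D) (fun j => τ j - (s.val : ℤ)) κ d ∧
    Top.vec (τ κ - (s.val : ℤ)) = (1, 0) := by
  obtain ⟨s, hs⟩ := exists_dir (τ κ)
  have hT := rt_mvT (x := q (κ : ZMod n)) (y := q (κ : ZMod n)) Iff.rfl s
  refine ⟨s, hT, ⟨geoP_pq _ h.geo, hT.poly h.poly, hT.encl h.enc, fun j => hT.step h.step j,
    ⟨fun i h1 h2 => ?_, fun i h1 h2 => ?_⟩, h.le, h.lt, ?_⟩, ?_⟩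
  · show τ i - (s.val : ℤ) = τ κ - (s.val : ℤ)
    rw [h.str.1 i h1 h2]
  · show τ i - (s.val : ℤ) = τ (κ - 1) - (s.val : ℤ)
    rw [h.str.2 i h1 h2]
  · show τ κ - (s.val : ℤ) - (τ (κ - 1) - (s.val : ℤ)) = _
    rw [← h.turn]
    ring
  · rw [vec_rot _ _ _ hs, sub_self]
    rfl

/-- The window of indices, every direction. -/
theorem SW.wn (h : SW n₀ b q D τ κ d) (hR1 : 0 ≤ R) (hRd : 2 * (R + 1) < d)
    (h3 : 3 * (R + 1) < n₀) : Wn q κ R := by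
  obtain ⟨s, hT, hW, h0⟩ := h.rot
  have h4 := (hW.jn h0 hR1 hRd h3).wn
  refine ⟨h4.le, h4.lt, fun z hz hz' => ?_, fun z hz hz' => ?_⟩
  · have h5 := h4.near z hz hz'
    unfold pq at h5
    rwa [nm_pq] at h5
  · have h5 := h4.far z hz hz'
    unfold pq at h5
    rwa [nm_pq] at h5

/-- **The arm of a killed site is prolonged to the boundary**, every direction. -/
theorem land_g (hQ : 0 < Q) (hQ1 : Q ≤ 1) (hV : VRS Q) (M₀ : ℕ) : ∃ c1 : ℝ, 0 < c1 ∧ c1 ≤ 1 ∧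
    ∀ {n n₀ κ t d : ℕ} {q : ZMod n → ℤ × ℤ} {D : Finset (ℤ × ℤ)} {η : Cfg} {b c : Bool}
      {τ : ℕ → ℤ}, SW n₀ b q D τ κ d → Good η → κ ≤ t → t ≤ κ + 1 →
    ((q (t : ZMod n)).1 + (q (t : ZMod n)).2) % 2 = pr c →
    ∀ ρ L m e : ℕ, 64 ≤ ρ → L ≤ M₀ * ρ → 8 * L + 4 < d → 12 * L + 6 < n₀ →
    ρ + e ≤ m → m + e ≤ 2 * L →
    ∀ F : Cfg → ℝ, (∀ ω, 0 ≤ F ω) →
      (∀ ω ω' : Cfg, (∀ v, (v ∉ D ∨ 4 * (L : ℤ) < nm (v - q (κ : ZMod n)) ∨
        v ∈ Bq (q ((κ + m : ℕ) : ZMod n)) e) → ω v = ω' v) → F ω = F ω') →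
      c1 * Ex Q D η (fun ω => F ω * (NS q D κ t ρ).indicator 1 ω) ≤
        Ex Q D η (fun ω => F ω * (Jn c ↑(Bq (q (κ : ZMod n)) (4 * L) ∩ D) (Ar q c t t)
          (Ar q c (κ + 2 * L) (κ + 3 * L))).indicator 1 ω) := by
  obtain ⟨c1, hc1, hc11, H⟩ := ext_land hQ hQ1 hV M₀
  refine ⟨c1, hc1, hc11, ?_⟩
  intro n n₀ κ t d q D η b c τ hW hη hκt htκ htc ρ L m e h1 h2 h3 h4 h5 h6 F hF0 hF
  obtain ⟨s, hT, hW', h0⟩ := hW.rot
  set T := mvT (q (κ : ZMod n)) (q (κ : ZMod n)) s with hTd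
  have hJ : JN b (pq T q) (T.pre D) κ (4 * L + 1 : ℤ) :=
    hW'.jn h0 (by omega) (by omega) (by omega)
  have hη' : Good (T.Ci η) := T.good_T' (by rw [T.C_Ci]; exact hη)
  have htc' : ((pq T q (t : ZMod n)).1 + (pq T q (t : ZMod n)).2) % 2 = pr c := by
    rw [← par_pr hT.o, S_pq]
    exact htc
  have key := H (hT.poly hW.poly) (hT.encl hW.enc) hJ hη' hκt htκ htc' ρ L h1 (by omega) h2 le_rfl
    (fun ω => F (T.C ω)) (fun ω => hF0 _) (fun ω ω' hω => by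
      refine hF _ _ fun v hv => ?_
      obtain ⟨v, rfl⟩ := T.Q.surjective v
      rw [T.C_apply, T.C_apply]
      congr 1
      have k2 : ¬ (v ∈ tub b (pq T q (κ : ZMod n)) ρ (ρ / 2) ∨
          v ∈ tub2 (pq T q (κ : ZMod n)) ρ L) := by
        intro hcon
        obtain ⟨k3, k4, k5⟩ := hJ.tubs (by omega) (by omega) le_rfl hcon
        rcases hv with hv | hv | hv
        · exact hv (T.mem_pre.1 k3)
        · have k6 := H601.LG.nm_of_Bq (show T.Q v ∈ Bq (q (κ : ZMod n)) (4 * L) by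
            rw [← S_pq T q, bq_T]
            exact k4)
          omega
        · refine k5 m e h5 h6 ?_
          rw [← bq_T T, S_pq]
          exact hv
      exact hω v (fun h' => k2 (Or.inl h')) fun h' => k2 (Or.inr h'))
  rw [← T.Ex_pre Q D η, ← T.Ex_pre Q D η]
  simp only [NS_ind_T hT hW.poly, jn_ind_T hT.o]
  exact key

/-- **`ExtI` for the indicators of the killed centres**, every direction. -/
theorem extI_g (hQ : 0 < Q) (hQ1 : Q ≤ 1) (hV : VRS Q) (E : ℕ) : ∃ C : ℝ, 1 ≤ C ∧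
    ∀ {n n₀ κ t d : ℕ} {q : ZMod n → ℤ × ℤ} {D : Finset (ℤ × ℤ)} {η : Cfg} {b c : Bool}
      {τ : ℕ → ℤ}, SW n₀ b q D τ κ d → Good η → κ ≤ t → t ≤ κ + 1 →
    ((q (t : ZMod n)).1 + (q (t : ZMod n)).2) % 2 = pr c →
    ∀ r : ℤ, 8 * r + 4 < d → 12 * r + 6 < n₀ →
    ExtI Q D η (fun a => (NS q D κ t a).indicator 1) {q (κ : ZMod n)} 4 E 64 C r := by
  obtain ⟨c1, hc1, hc11, H⟩ := land_g hQ hQ1 hV (2 * E)
  refine ⟨c1⁻¹, (one_le_inv₀ hc1).2 hc11, ?_⟩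
  intro n n₀ κ t d q D η b c τ hW hη hκt htκ htc r hrd hrn
  refine ⟨by norm_num, fun r' ω _ _ => Set.indicator_nonneg (fun _ _ => zero_le_one) ω,
    fun r' r'' ω _ h2 _ => Set.indicator_le_indicator_of_subset (NS_anti h2)
      (fun _ => zero_le_one) ω, fun r' h1 h2 => ?_, fun r' r'' h1 _ h3 h4 h5 F hF0 hF => ?_⟩
  · have hWn := hW.wn (R := r' + 1) (by omega) (by omega) (by omega)
    intro ω ω' hω
    refine NS_loc hW.poly hW.enc hWn (by omega) le_rfl (by have := hW.lt; omega) ω ω' fun v hv => hω v ?_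
    rw [singleton_biUnion]
    exact (mem_inter.1 hv).1
  · obtain ⟨ρ, rfl⟩ : ∃ ρ : ℕ, r' = ρ := ⟨r'.toNat, by omega⟩
    obtain ⟨L, rfl⟩ : ∃ L : ℕ, r'' = L := ⟨r''.toNat, by omega⟩
    have hWn := hW.wn (R := L + 1) (by omega) (by omega) (by omega)
    have h6 : L ≤ 2 * E * ρ := by exact_mod_cast h5
    have key := H hW hη hκt htκ htc ρ L ρ 0 (by omega) h6 (by omega) (by omega) (by omega)
      (by omega) F hF0 (fun ω ω' hω => hF ω ω' fun v hv => hω v ?_)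
    · rw [inv_mul_eq_div, le_div_iff₀ hc1, mul_comm _ c1]
      simp only [mul_comm _ (F _)]
      refine key.trans (FKA.Ex_mono hQ fun S _ => mul_le_mul_of_nonneg_left ?_ (hF0 _))
      refine Set.indicator_le_indicator_of_subset ?_ (fun _ => zero_le_one) _
      intro ω hω
      exact ns_of_land hW.poly hW.enc hWn (by have := hW.lt; omega) (by omega) (by omega)
        (by have := hW.lt; omega) hω
    · by_contra hcon
      push Not at hcon
      refine hv ⟨hcon.1, q (κ : ZMod n), mem_singleton_self _, hcon.2.1⟩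

end Vale.Agent.P167.N.QL
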