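import Vale.Agent.P167.N.QL.In
import Vale.Agent.P167.N.QL.K8
import Vale.Agent.P167.N.QL.K4
import Vale.Agent.P167.N.NET.KitV

/-!
# P167, the range `0 < q < 1`, block Q-LAM: killed reflex corners

`kc_refl`: a reflex corner with the charge `θ` at the corner or at the next site.
-/

set_option autoImplicit false

namespace Vale.Agent.P167.N.QL

open Finset Vale.Agent.P167 Vale.Agent.P167.BR Vale.Agent.P167.FK
open Vale.Agent.P167.E6 (IsPolygon Encloses dir face)
open Vale.Agent.P167.H632 (cs pr)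
open Vale.Agent.P167.H975 (TX)
open Vale.Agent.P167.N.AW (Kil ExtI)

variable {θ : ℝ}

/-- The charged site has the colour of its arc. -/
theorem rI_col {N k j : ℕ} {q : ZMod N → ℤ × ℤ} (hq : IsPolygon q) (hk : j + 1 < k ∨ k ≤ j) :
    Even ((q ((rI q k j : ℕ) : ZMod N)).1 + (q ((rI q k j : ℕ) : ZMod N)).2) ↔ k ≤ j := by
  unfold rI
  split_ifs with h
  · have h1 : Even ((q ((j + 1 : ℕ) : ZMod N)).1 + (q ((j + 1 : ℕ) : ZMod N)).2) ↔
        ¬ Even ((q (j : ZMod N)).1 + (q (j : ZMod N)).2) := by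
      obtain ⟨s, hs⟩ := hq.2.2 (j : ZMod N)
      rw [Nat.cast_add, Nat.cast_one, hs, Int.even_iff, Int.even_iff]
      fin_cases s <;> simp [dir] <;> omega
    rw [h1, ← h]
    omega
  · by_cases h1 : Even ((q (j : ZMod N)).1 + (q (j : ZMod N)).2)
    · simp only [h1, iff_true, true_iff] at h ⊢
      omega
    · simp only [h1, iff_false, false_iff] at h ⊢
      omega

/-- **A reflex corner with the charge `θ` at the corner or at the next site.** -/
theorem kc_refl (h1 : Ang θ) (hR : RSW (2 * Real.cos θ)) : ∃ (b B : ℝ) (Λ W : ℤ) (KE : ℕ → ℤ)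
    (CE : ℕ → ℝ), Kc b B Λ W CE ∧ ∀ {N k n d L j : ℕ} {q : ZMod N → ℤ × ℤ} {D : Finset (ℤ × ℤ)}
      {τ : ℕ → ℤ} {m r : ℤ} {η : Cfg} {ρ : ℕ → ℝ} {β : ℝ}, LkD n N q D k τ L m η →
      Real.cos (θ / 2 + β) = Real.sin θ →
      WinI d N τ j (-1) → 0 < j → j + d < N → FarI N k L j → (j + d < k ∨ k + d ≤ j) →
      (∀ i, j < i + d → i ≤ j + d → 0 < i → ρ i - ρ (i - 1) = if i = rI q k j then θ else 0) →
      W * r ≤ n → W * r ≤ d → W * r ≤ m → 1 ≤ r →
      KC θ β q D k ρ η b B Λ KE CE (q (j : ZMod N)) r := by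
  have hQ := h1.kit.pos
  have hQ1 := h1.kit.lt
  have hE := fun E : ℕ => extI_g hQ hQ1.le (NET.vrs hQ hQ1) E
  choose CE hCE1 hCE using hE
  refine ⟨1, 1, 4, 20, fun _ => 64, CE, ⟨one_pos, le_rfl, le_rfl, by norm_num, by norm_num, hCE1⟩,
    ?_⟩
  intro N k n d L j q D τ m r η ρ β h hβ hw h0 hN _ hk hρ hWn hWd hWm hr
  have e : jB N j = j := by
    unfold jB
    rw [if_neg (by omega)]
  obtain ⟨-, w1, w2, w3⟩ := hw
  rw [e] at w1 w2 w3
  have hSW : SW n true q D τ j d :=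
    ⟨h.geo, h.poly, h.enc, h.step, w1, w2, hN.le, by rw [if_pos rfl]; exact w3⟩
  have hWj := hSW.wn (R := r + 1) (by omega) (by omega) (by omega)
  have hcol := rI_col (k := k) (j := j) h.poly (by omega)
  obtain ⟨t, ht⟩ : ∃ t, t = rI q k j := ⟨_, rfl⟩
  have ht' := rI_or q k j
  rw [← ht] at ht' hcol hρ
  obtain ⟨c, hc⟩ : ∃ c, ((q (t : ZMod N)).1 + (q (t : ZMod N)).2) % 2 = pr c := by
    rcases Int.emod_two_eq ((q (t : ZMod N)).1 + (q (t : ZMod N)).2) with h | h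
    · exact ⟨true, h⟩
    · exact ⟨false, h⟩
  have hco : (c = false ∧ (j : ℤ) + (r + 1) ≤ k) ∨ (c = true ∧ (k : ℤ) ≤ j - (r + 1)) := by
    rw [Int.even_iff, hc] at hcol
    cases c
    · left
      refine ⟨rfl, ?_⟩
      have : ¬ k ≤ j := fun h' => absurd (hcol.2 h') (by decide)
      omega
    · right
      refine ⟨rfl, ?_⟩
      have : k ≤ j := hcol.1 (by decide)
      omega
  have hρ' : ∀ i : ℕ, (j : ℤ) - (r + 1) < i → (i : ℤ) ≤ j + (r + 1) → i ≠ t → ρ i = ρ (i - 1) := by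
    intro i i1 i2 i3
    have h3 := hρ i (by omega) (by omega) (by omega)
    rw [if_neg i3] at h3
    linarith
  have hρj : ρ t = ρ (t - 1) + θ := by
    have h3 := hρ t (by omega) (by omega) (by omega)
    rw [if_pos rfl] at h3
    linarith
  refine ⟨fun r => (NS q D j t r).indicator 1, kil_of_ind (m := 1) j le_rfl le_rfl le_rfl le_rfl
    fun r' ω g1 g2 => Or.inl ?_, fun E => ?_⟩
  · exact TX_o h.poly h.enc h1.sin_pos.ne' h1.cos_pos.ne' hβ hWj (by omega) (by omega) (by omega)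
      (by omega) hc hco hρ' hρj
  · exact hCE E hSW h.reg.good (by omega) (by omega) hc r (by omega) (by omega)

end Vale.Agent.P167.N.QL
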