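import Vale.Agent.P167.N.QL.Loc
import Vale.Agent.P167.N.QL.KcR
import Vale.Agent.P167.N.QL.KcB
import Vale.Agent.P167.N.KitQ

/-!
# P167, the range `0 < q < 1`, block Q-LAM: the local data of the families, unconditional

`lall`: all the kinds of killed centres, one set of constants. `loc_all`. `loc_im`: the local data of
the images (`LocG`), `mom_im`: moments.
-/

set_option autoImplicit false

namespace Vale.Agent.P167.N.QL

open Finset Filter Vale.Agent.P167.BR Vale.Agent.P167.FK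
open Vale.Agent.P167.E6 (IsPolygon Encloses dir face)
open Vale.Agent.P167.H718 (Dob rc)
open Vale.Agent.P167.H871 (Bd)
open Vale.Agent.P167.H542.Q (BD)
open Vale.Agent.P167.H760.Q (BaseQ)

variable {θ : ℝ}

/-- **The killed centres.** -/
theorem lall (h1 : Ang θ) : ∃ (b B : ℝ) (Λ W : ℤ) (KE : ℕ → ℤ) (CE : ℕ → ℝ),
    LAll θ b B Λ W KE CE :=
  lall_of h1.kit.pos (kc_flat h1 h1.kit.rsw) (kc_refl h1 h1.kit.rsw) (kc_base h1 h1.kit.rsw)
    (kc_base1 h1 h1.kit.rsw) (kc_jun h1 h1.kit.rsw)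

variable {S : CA.Dat} {X : BD S θ (bt θ)} {s : ℕ → ℕ} {e : ℝ} {ja : Finset ℕ} {n : ℕ}

theorem par_dir (a : Fin 4) : ¬ (Even ((dir a).1 + (dir a).2) ↔
    Even ((0 : ℤ × ℤ).1 + (0 : ℤ × ℤ).2)) := by
  fin_cases a <;> decide

/-- The images of the families. -/
theorem im_eq (X : BD S θ (bt θ)) (s : ℕ → ℕ) (e : ℝ) (ja : Finset ℕ) (n : ℕ) (τ : ℕ → ℤ)
    (a : ℤ × ℤ) : imP θ (bt θ) (X.q n) (S.D n) (X.k n) (rhoP X s e (Rf S) n)
      (JP X s e (Rf S) ja n) τ a = IA X s e ja n τ a 0 false := by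
  have e2 : (fun i => X.q n i + (0 : ℤ × ℤ)) = X.q n := by
    simp only [add_zero]
  unfold imP IA rhoP JP
  simp only [e2]
  congr 1
  funext j
  unfold phA
  rw [if_neg (by simp), sub_zero]

/-- **The local data of the images.** -/
theorem loc_im (h1 : Ang θ) (X : BD S θ (bt θ)) (hb : BaseQ X s) (hB : BcX X s)
    (hx : ∀ᶠ n in X.L, XOk (X.N n) (X.k n) (X.q n) false) (he : 0 < e)
    (he1 : 2 * e ≤ S.tp) (he2 : e ≤ 1 - S.tp) (hj : JunP X ja) :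
    LocG θ (bt θ) X.L (imF X (rhoP X s e (Rf S)) (JP X s e (Rf S) ja)) := by
  obtain ⟨b, B, Λ, W, KE, CE, hA⟩ := lall h1
  obtain ⟨c, σ, R, -, -, hC, H⟩ := loc_all_of h1 hA X hb hB he he1 he2 hj
  refine ⟨σ, R, b, B, wl θ, (ids S (Rf S) ja).card, Λ, KE, CE, hC, ?_⟩
  filter_upwards [H, hx] with n hn hxn P hP
  obtain ⟨a, τ, hτ, rfl⟩ := hP
  obtain ⟨η, -, -, h3⟩ := hn (dir a) τ hτ
  have e2 : (fun i => X.q n i + (0 : ℤ × ℤ)) = X.q n := by
    simp only [add_zero]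
  obtain ⟨h4, h5⟩ := h3 0 false (par_dir a) (by rw [e2]; exact hxn)
  rw [im_eq X s e ja n τ (dir a)]
  obtain ⟨JP, JZ, h6⟩ := lk_of h5
  exact ⟨η, JP, JZ, h4, h6⟩

/-- **Moments.** -/
theorem mom_im (h1 : Ang θ) (X : BD S θ (bt θ)) (hb : BaseQ X s) (hB : BcX X s)
    (hx : ∀ᶠ n in X.L, XOk (X.N n) (X.k n) (X.q n) false) (he : 0 < e)
    (he1 : 2 * e ≤ S.tp) (he2 : e ≤ 1 - S.tp) (hj : JunP X ja) :
    MomG θ (bt θ) X.L (imF X (rhoP X s e (Rf S)) (JP X s e (Rf S) ja)) :=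
  momG_of h1.pos h1 (cos_bt θ) h1.kit.rsw X.le (loc_im h1 X hb hB hx he he1 he2 hj)

end Vale.Agent.P167.N.QL
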