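import Vale.Agent.P167.N.QL.Al17
import Vale.Agent.P167.N.QL.LocF

/-!
# P167, the range `0 < q < 1`, block Q-LAM: assembly, the reference values and their inequalities (2)
-/

set_option autoImplicit false

namespace Vale.Agent.P167.N.QL

open Finset Filter Vale.Agent.P167.BR Vale.Agent.P167.FK
open Vale.Agent.P167.E6 (IsPolygon Encloses face dir)
open Vale.Agent.P167.H718 (Dob rc IsCl)
open Vale.Agent.P167.H192.Q (SRSW)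
open Vale.Agent.P167.H975 (TX)

variable {θ : ℝ}

/-- The alternatives of `lk_base`. -/
def AltB (θ : ℝ) (d : ℕ) (P : PD) : Prop :=
  ((Even ((P.q 0).1 + (P.q 0).2) ↔ P.k = 0) ∧ (∀ i ≤ d, P.ρ i = P.ρ 0) ∧
      ∀ i < P.N, P.N ≤ i + d → P.ρ i = P.ρ 0 - 2 * θ) ∨
    ((Even ((P.q 0).1 + (P.q 0).2) ↔ P.k ≠ 0) ∧ (∀ i, 1 ≤ i → i ≤ d → P.ρ i = P.ρ 0 + θ) ∧
      ∀ i < P.N, P.N ≤ i + d → P.ρ i = P.ρ 0 - θ)

/-- **The reference values at the scale `n`**: their inequalities and the comparisons. -/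
structure RF (θ c C : ℝ) (n : ℕ) (r : ℤ) (Pi : ℝ) (A B Z : Bool → Bool → ℝ)
    (b ζ Db Dj : Bool → ℝ) : Prop where
  pp : 0 < Pi
  ap : ∀ w e, 0 < A w e
  bp : ∀ w e, 0 < B w e
  zp : ∀ w e, 0 < Z w e
  b0 : ∀ w, 0 ≤ b w
  ζp : ∀ w, 0 < ζ w
  db0 : ∀ e, 0 ≤ Db e
  dj0 : ∀ e, 0 ≤ Dj e
  iA : ∀ w, A w true * A w false ≤ C * Pi
  iB : ∀ w, B w true * B w false ≤ C * (Z w true * Z w false) * Pi ^ 3
  ib : ∀ w, b w * Pi ^ 2 ≤ C * ζ w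
  iζ : ∀ w, ζ w ≤ C
  iz : ∀ w, 1 ≤ C * ζ w
  iD : (Db true * Dj true) * (Db false * Dj false) * Pi ^ 4 ≤ C
  cA : ∀ {P : PD} {τ : ℕ → ℤ} {L j : ℕ} {η : Cfg} {w e : Bool}, GD c n P τ L η →
    CM ⌊c * n⌋₊ P τ L j 1 w e (fo (-(θ / 2))) → TN θ (bt θ) P j r →
    P.e θ (bt θ) η r j ≤ 2 * A w e
  cB : ∀ {P : PD} {τ : ℕ → ℤ} {L j : ℕ} {η : Cfg} {w e : Bool}, GD c n P τ L η →
    CM ⌊c * n⌋₊ P τ L j (-1) w e (fI θ (w == e)) → TN θ (bt θ) P j r →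
    P.e θ (bt θ) η r j ≤ 2 * B w e
  cZ : ∀ {P : PD} {τ : ℕ → ℤ} {L j : ℕ} {η : Cfg} {w e : Bool}, GD c n P τ L η →
    CM ⌊c * n⌋₊ P τ L j (-1) w e (fN θ (w == !e)) → TN θ (bt θ) P j r →
    Z w e ≤ 2 * P.e θ (bt θ) η r j
  cb : ∀ {P : PD} {τ : ℕ → ℤ} {L j : ℕ} {η : Cfg} {w : Bool}, GD c n P τ L η →
    CM ⌊c * n⌋₊ P τ L j 0 w w (fo θ) → TN θ (bt θ) P j r →
    P.e θ (bt θ) η r j ≤ 2 * b w
  cζ : ∀ {P : PD} {τ : ℕ → ℤ} {L j : ℕ} {η : Cfg} {w : Bool}, GD c n P τ L η →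
    CM ⌊c * n⌋₊ P τ L j 0 w (!w) (fo (-θ)) → TN θ (bt θ) P j r →
    ζ w ≤ 2 * P.e θ (bt θ) η r j
  cD : ∀ {P : PD} {τ : ℕ → ℤ} {L : ℕ} {η : Cfg} {e : Bool}, GD c n P τ L η →
    CB ⌊c * n⌋₊ P τ L e (Real.pi - 3 * θ) → TN θ (bt θ) P 0 r →
    P.e θ (bt θ) η r 0 ≤ 2 * Db e
  cJ : ∀ {P : PD} {τ : ℕ → ℤ} {L : ℕ} {η : Cfg} {e : Bool}, GD c n P τ L η →
    CJ ⌊c * n⌋₊ P τ L e (Real.pi - θ) → TN θ (bt θ) P P.k r →
    P.e θ (bt θ) η r P.k ≤ 2 * Dj e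
  cF : ∀ {P : PD} {τ : ℕ → ℤ} {L : ℕ} {η : Cfg} {w : Bool}, GD c n P τ L η →
    (P.k = 0 ∨ P.k = P.N) → (P.k = 0 ↔ w = true) → WinI ⌊c * n⌋₊ P.N τ 0 0 →
    2 * ⌊c * n⌋₊ < P.N → AltB θ ⌊c * n⌋₊ P → P.e θ (bt θ) η r 0 ≤ C * b w

theorem RF.mono {c C C' : ℝ} {n : ℕ} {r : ℤ} {Pi : ℝ} {A B Z : Bool → Bool → ℝ}
    {b ζ Db Dj : Bool → ℝ} (h : RF θ c C n r Pi A B Z b ζ Db Dj) (hC : C ≤ C') :
    RF θ c C' n r Pi A B Z b ζ Db Dj := by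
  have hp := h.pp
  exact { h with
    iA := fun w => (h.iA w).trans (mul_le_mul_of_nonneg_right hC hp.le)
    iB := fun w => (h.iB w).trans (mul_le_mul_of_nonneg_right (mul_le_mul_of_nonneg_right hC
      (mul_pos (h.zp w _) (h.zp w _)).le) (by positivity))
    ib := fun w => (h.ib w).trans (mul_le_mul_of_nonneg_right hC (h.ζp w).le)
    iζ := fun w => (h.iζ w).trans hC
    iz := fun w => (h.iz w).trans (mul_le_mul_of_nonneg_right hC (h.ζp w).le)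
    iD := h.iD.trans hC
    cF := fun g a1 a2 a3 a4 a5 => (h.cF g a1 a2 a3 a4 a5).trans
      (mul_le_mul_of_nonneg_right hC (h.b0 _)) }

theorem four_le {a1 a2 a3 a4 A : ℝ} (h1 : 0 < a1) (h2 : 0 < a2) (h3 : 0 < a3) (h4 : 0 < a4)
    (k1 : a1 ≤ 2 * A) (k2 : a2 ≤ 2 * A) (k3 : a3 ≤ 2 * A) (k4 : a4 ≤ 2 * A) :
    a1 * a2 * a3 * a4 ≤ 16 * A ^ 4 := by
  have hA : 0 < A := by linarith
  calc a1 * a2 * a3 * a4 ≤ (2 * A) * (2 * A) * (2 * A) * (2 * A) :=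
        mul_le_mul (mul_le_mul (mul_le_mul k1 k2 h2.le (by positivity)) k3 h3.le (by positivity))
          k4 h4.le (by positivity)
    _ = _ := by ring

/-! ### the values -/

section

variable (θ : ℝ) (n : ℕ) (η : Bool → Cfg) (ηl : Bool → Bool → Cfg) (r : ℤ) (w p : Bool)

noncomputable def vA : ℝ := (qA θ n w p).e θ (bt θ) (η p) r (jA n w)
noncomputable def vA' : ℝ := (qA θ n w p).e θ (bt θ) (η p) r (jA' n w)
noncomputable def vB : ℝ := (qB θ n w p).e θ (bt θ) (ηl w p) r (7 * n)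
noncomputable def vZ : ℝ := (qZ θ n w p).e θ (bt θ) (ηl w p) r (7 * n)
noncomputable def vb : ℝ := (qb θ n w).e θ (bt θ) (η true) r (zi w n)
noncomputable def vζ : ℝ := (qζ θ n w).e θ (bt θ) (η false) r (zi w n)
noncomputable def vDb : ℝ := (qD θ n w).e θ (bt θ) (η (pe n w)) r 0
noncomputable def vDj : ℝ := (qD θ n w).e θ (bt θ) (η (pe n w)) r (4 * n)

theorem dF_v : dF θ n η r p = vA θ n η r false p * vA' θ n η r false p := rfl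

theorem dG_v : dG θ n η r p = vA θ n η r true p * vA' θ n η r true p := rfl

theorem lB_v : lB θ w n (ηl w) r p = vB θ n ηl r w p := rfl

theorem lZ_v : lZ θ w n (ηl w) r p = vZ θ n ηl r w p := rfl

theorem dJ_v : dJ θ n η r (pe n w) (d0I θ n) = vDb θ n η r w * vDj θ n η r w := rfl

end

/-- The comparisons at the scale `n` and the radius `r`. -/
def CmpR (θ c : ℝ) (n : ℕ) (r : ℤ) : Prop :=
  ∀ {β : ℝ} {P P' : PD} {τ τ' : ℕ → ℤ} {L L' : ℕ} {η η' : Cfg}, GD c n P τ L η →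
      GD c n P' τ' L' η' →
      (∀ {j j' : ℕ} {t : ℤ} {w e : Bool} {f : ℤ → ℝ}, CM ⌊c * n⌋₊ P τ L j t w e f →
        CM ⌊c * n⌋₊ P' τ' L' j' t w e f → TN θ β P j r → TN θ β P' j' r →
        P.e θ β η r j ≤ 2 * P'.e θ β η' r j') ∧
      (∀ {e : Bool} {T : ℝ}, CB ⌊c * n⌋₊ P τ L e T → CB ⌊c * n⌋₊ P' τ' L' e T →
        TN θ β P 0 r → TN θ β P' 0 r → P.e θ β η r 0 ≤ 2 * P'.e θ β η' r 0) ∧
      (∀ {e : Bool} {v : ℝ}, CJ ⌊c * n⌋₊ P τ L e v → CJ ⌊c * n⌋₊ P' τ' L' e v →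
        TN θ β P P.k r → TN θ β P' P'.k r → P.e θ β η r P.k ≤ 2 * P'.e θ β η' r P'.k)

section fix

variable {c : ℝ} {n : ℕ} {r : ℤ} {ηd : Bool → Cfg} {ηl : Bool → Bool → Cfg}
  (h0 : 0 < θ) (h1 : Ang θ) (hc1 : c ≤ 1 / 200) (hn : 12000 ≤ n)
  (hr : 2 * (r + 1) ≤ ((n / 2 : ℕ) : ℤ))
  (hd : ∀ p, Dob (ηd p) (dsD n (ev p)) (dsq n (ev p)) (4 * n))
  (hl : ∀ w p, Dob (ηl w p) (lsD n (ev p)) (lsq n (ev p)) (lsK w n))
include h0 h1 hc1 hn hr hd hl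

omit hc1 hr hd hl in
theorem vA_pos (w p : Bool) : 0 < vA θ n ηd r w p ∧ 0 < vA' θ n ηd r w p := by
  have P3 : DSp θ n (fwR θ n) := Or.inr (Or.inr (Or.inl rfl))
  have P4 : DSp θ n (fwI θ n) := Or.inr (Or.inr (Or.inr rfl))
  cases w
  · exact ⟨dE_pos_of h0 h1 P3 (by omega) _ _ _ _, dE_pos_of h0 h1 P3 (by omega) _ _ _ _⟩
  · exact ⟨dE_pos_of h0 h1 P4 (by omega) _ _ _ _, dE_pos_of h0 h1 P4 (by omega) _ _ _ _⟩

theorem v_corner (Hc : CmpR θ c n r) (w p : Bool) :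
    vA θ n ηd r w p ≤ 2 * vA' θ n ηd r w p ∧ vA' θ n ηd r w p ≤ 2 * vA θ n ηd r w p := by
  have g : GD c n (qA θ n w p) (dsT n) n (ηd p) := gd_ds hc1 hn (hd p)
  have a1 := (cm_qA (θ := θ) hn w p).mono (fl_half hc1 hn)
  have a2 := (cm_qA' (θ := θ) hn w p).mono (fl_half hc1 hn)
  exact ⟨(Hc g g).1 a1 a2 (tn_qA h0 h1 hn w p _) (tn_qA h0 h1 hn w p _),
    (Hc g g).1 a2 a1 (tn_qA h0 h1 hn w p _) (tn_qA h0 h1 hn w p _)⟩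

/-- The convex corners of the L shape. -/
theorem v_ls (Hc : CmpR θ c n r) (w p : Bool) :
    vA θ n ηd r w p ≤ 2 * lA1 θ w n (ηl w) r p ∧ 0 < lA4 θ w n (ηl w) r p ∧
      lA4 θ w n (ηl w) r p ≤ 16 * vA θ n ηd r w p ^ 4 := by
  have g : GD c n (qA θ n w p) (dsT n) n (ηd p) := gd_ds hc1 hn (hd p)
  have gB : GD c n (qB θ n w p) (lsT n) n (ηl w p) := gd_ls hc1 hn (hl w p)
  have gZ : GD c n (qZ θ n w p) (lsT n) n (ηl w p) := gd_ls hc1 hn (hl w p)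
  have a1 := (cm_qA (θ := θ) hn w p).mono (fl_half hc1 hn)
  have a2 : CM (n / 2) (qB θ n w p) (lsT n) n (15 * n) 1 w (!p) (fo (-(θ / 2))) := cm_lI hn _ p
  have hL : ∃ η₀, LkD (2 * n) (8 * (2 * n)) (lsq n (ev p)) (lsD n (ev p)) (lsK w n) (lsT n) n
      ((n - 1 : ℕ) : ℤ) η₀ := ls_lkD (by omega) w (ev p)
  obtain ⟨η₀, hL⟩ := hL
  have key : ∀ j, j = 3 * n ∨ j = 5 * n ∨ j = 9 * n ∨ j = 11 * n →
      0 < (qZ θ n w p).e θ (bt θ) (ηl w p) r j ∧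
        (qZ θ n w p).e θ (bt θ) (ηl w p) r j ≤ 2 * vA θ n ηd r w p := by
    intro j hj
    have hjm : j ∈ lsJ n := by
      unfold lsJ
      simp only [mem_insert, mem_singleton]
      omega
    have hpc := pc_lR (β := bt θ) (b := w) h0 h1.lt hn hL.geo hr (w == p) hjm (by omega)
    have a3 : CM (n / 2) (qZ θ n w p) (lsT n) n j 1 w (!p) (fo (-(θ / 2))) := cm_lR hn hj _ p
    exact ⟨e_pos (P := qZ θ n w p) h1.kit.pos (wl_pos h0 h1.lt) hpc,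
      (Hc gZ g).1 (a3.mono (fl_half hc1 hn)) a1 (TN.of_pc (wl_pos h0 h1.lt) hpc)
        (tn_qA h0 h1 hn w p _)⟩
  obtain ⟨b1, c1⟩ := key (3 * n) (by tauto)
  obtain ⟨b2, c2⟩ := key (5 * n) (by tauto)
  obtain ⟨b3, c3⟩ := key (9 * n) (by tauto)
  obtain ⟨b4, c4⟩ := key (11 * n) (by tauto)
  refine ⟨(Hc g gB).1 a1 (a2.mono (fl_half hc1 hn)) (tn_qA h0 h1 hn w p _)
    (tn_qB h0 h1 hn w p _), mul_pos (mul_pos (mul_pos b1 b2) b3) b4,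
    four_le b1 b2 b3 b4 c1 c2 c3 c4⟩

omit hc1 hr hd hl in
theorem vB_pos (w p : Bool) : 0 < vB θ n ηl r w p :=
  e_pos (P := qB θ n w p) h1.kit.pos (wl_pos h0 h1.lt)
    fun ω A hA _ => ls_pos h0 h1.lt (by omega) w p ω A hA

omit hc1 hd hl in
theorem vζ_pos (w : Bool) : 0 < vζ θ n ηd r w :=
  e_pos (P := qζ θ n w) h1.kit.pos (wl_pos h0 h1.lt) (pc_qζ h0 h1 hn hr w)

end fix

end Vale.Agent.P167.N.QL
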