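import Vale.Agent.P167.N.QL.Al18

/-!
# P167, the range `0 < q < 1`, block Q-LAM: assembly, the reference values and their inequalities (3)
-/

set_option autoImplicit false

namespace Vale.Agent.P167.N.QL

open Finset Filter Vale.Agent.P167.BR Vale.Agent.P167.FK
open Vale.Agent.P167.E6 (IsPolygon Encloses face dir)
open Vale.Agent.P167.H718 (Dob rc IsCl)
open Vale.Agent.P167.H192.Q (SRSW)
open Vale.Agent.P167.H975 (TX)

variable {θ : ℝ}

section fix

variable {c C₁ C₂ C₃ : ℝ} {n : ℕ} {r : ℤ} {ηd : Bool → Cfg} {ηl : Bool → Bool → Cfg}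
  (h0 : 0 < θ) (h1 : Ang θ) (hc1 : c ≤ 1 / 200) (hn : 12000 ≤ n)
  (hr : 2 * (r + 1) ≤ ((n / 2 : ℕ) : ℤ))
  (hd : ∀ p, Dob (ηd p) (dsD n (ev p)) (dsq n (ev p)) (4 * n))
  (hl : ∀ w p, Dob (ηl w p) (lsD n (ev p)) (lsq n (ev p)) (lsK w n))
  (Hc : CmpR θ c n r)
include h0 h1 hc1 hn hr hd hl Hc

/-- The corners. -/
theorem fix_corner (hC : 0 < C₁)
    (D1 : ∀ p : Bool, dG θ n ηd r p * dG θ n ηd r (!p) ≤
      C₁ * (dF θ n ηd r p * dF θ n ηd r (!p)))
    (D2 : ∀ p : Bool, dF θ n ηd r p * dF θ n ηd r (!p) ≤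
      C₁ * (dG θ n ηd r p * dG θ n ηd r (!p))) :
    vA θ n ηd r true false * vA θ n ηd r true true ≤
        4 * (C₁ + 1) * (vA θ n ηd r false false * vA θ n ηd r false true) ∧
      vA θ n ηd r false false * vA θ n ηd r false true ≤
        4 * (C₁ + 1) * (vA θ n ηd r true false * vA θ n ηd r true true) := by
  have k := v_corner h0 h1 hc1 hn hr hd hl Hc
  have q := vA_pos (ηd := ηd) (r := r) h0 h1 hn
  have d1 := D1 false
  have d2 := D2 false
  rw [Bool.not_false, dF_v, dF_v, dG_v, dG_v] at d1 d2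
  constructor
  · exact corner_alg hC (q true false).1 (q true true).1 (q false false).1 (q false true).1
      (q false true).2 (k true false).1 (k true true).1 (k false false).2 (k false true).2 d1
  · exact corner_alg hC (q false false).1 (q false true).1 (q true false).1 (q true true).1
      (q true true).2 (k false false).1 (k false true).1 (k true false).2 (k true true).2 d2

/-- The squares. -/
theorem fix_sq (hC : 0 < C₁)
    (D1 : ∀ p : Bool, dG θ n ηd r p * dG θ n ηd r (!p) ≤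
      C₁ * (dF θ n ηd r p * dF θ n ηd r (!p)))
    (D2 : ∀ p : Bool, dF θ n ηd r p * dF θ n ηd r (!p) ≤
      C₁ * (dG θ n ηd r p * dG θ n ηd r (!p))) (p : Bool) :
    (vA θ n ηd r false false * vA θ n ηd r false true) ^ 2 ≤
        4 * (dF θ n ηd r p * dF θ n ηd r (!p)) ∧
      (vA θ n ηd r false false * vA θ n ηd r false true) ^ 2 ≤
        64 * (C₁ + 1) ^ 2 * (dG θ n ηd r p * dG θ n ηd r (!p)) := by
  have k := v_corner h0 h1 hc1 hn hr hd hl Hc
  have q := vA_pos (ηd := ηd) (r := r) h0 h1 hn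
  have e1 : dF θ n ηd r p * dF θ n ηd r (!p) = dF θ n ηd r false * dF θ n ηd r true := by
    cases p
    · rfl
    · exact mul_comm _ _
  have e2 : dG θ n ηd r p * dG θ n ηd r (!p) = dG θ n ηd r false * dG θ n ηd r true := by
    cases p
    · rfl
    · exact mul_comm _ _
  rw [e1, e2, dF_v, dF_v, dG_v, dG_v]
  refine ⟨pair_ge (q false false).1 (q false true).1 (k false false).1 (k false true).1, ?_⟩
  have h3 := (fix_corner h0 h1 hc1 hn hr hd hl Hc hC D1 D2).2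
  have h4 := pair_ge (q true false).1 (q true true).1 (k true false).1 (k true true).1
  have h5 := mul_pos (q false false).1 (q false true).1
  calc (vA θ n ηd r false false * vA θ n ηd r false true) ^ 2 ≤
        (4 * (C₁ + 1) * (vA θ n ηd r true false * vA θ n ηd r true true)) ^ 2 :=
        pow_le_pow_left₀ h5.le h3 2
    _ = 16 * (C₁ + 1) ^ 2 * (vA θ n ηd r true false * vA θ n ηd r true true) ^ 2 := by ring
    _ ≤ 16 * (C₁ + 1) ^ 2 * (4 * ((vA θ n ηd r true false * vA' θ n ηd r true false) *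
        (vA θ n ηd r true true * vA' θ n ηd r true true))) :=
        mul_le_mul_of_nonneg_left h4 (by positivity)
    _ = _ := by ring

/-- The reflex corner. -/
theorem fix_refl (hC : 0 < C₁) (hC₂ : 0 < C₂)
    (D1 : ∀ p : Bool, dG θ n ηd r p * dG θ n ηd r (!p) ≤
      C₁ * (dF θ n ηd r p * dF θ n ηd r (!p)))
    (D2 : ∀ p : Bool, dF θ n ηd r p * dF θ n ηd r (!p) ≤
      C₁ * (dG θ n ηd r p * dG θ n ηd r (!p)))
    (hZ : ∀ w p, TN θ (bt θ) (qZ θ n w p) (7 * n) r)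
    (L1 : ∀ w p : Bool, (lB θ w n (ηl w) r p * lB θ w n (ηl w) r (!p)) *
            (lA1 θ w n (ηl w) r p * lA1 θ w n (ηl w) r (!p)) ≤
          C₂ * ((lZ θ w n (ηl w) r p * lZ θ w n (ηl w) r (!p)) *
            (lA4 θ w n (ηl w) r p * lA4 θ w n (ηl w) r (!p)))) (w : Bool) :
    (∀ p, 0 < vZ θ n ηl r w p) ∧ vB θ n ηl r w false * vB θ n ηl r w true ≤
      1024 * C₂ * (4 * (C₁ + 1) + 1) ^ 3 * (vZ θ n ηl r w false * vZ θ n ηl r w true) *
        (vA θ n ηd r false false * vA θ n ηd r false true) ^ 3 := by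
  have q := vA_pos (ηd := ηd) (r := r) h0 h1 hn
  have hB := vB_pos (ηl := ηl) (r := r) h0 h1 hn
  have k := v_ls h0 h1 hc1 hn hr hd hl Hc w
  have hP := mul_pos (q false false).1 (q false true).1
  have hw : vA θ n ηd r w false * vA θ n ηd r w true ≤
      (4 * (C₁ + 1) + 1) * (vA θ n ηd r false false * vA θ n ηd r false true) := by
    cases w
    · nlinarith
    · have := (fix_corner h0 h1 hc1 hn hr hd hl Hc hC D1 D2).1
      linarith
  have hz : ∀ p, 0 ≤ vZ θ n ηl r w p := fun p => (hZ w p).nn h1.kit.pos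
  have l1 := L1 w false
  rw [Bool.not_false, lB_v, lB_v, lZ_v, lZ_v] at l1
  obtain ⟨m1, m2, m3⟩ := refl_alg hC₂ (hB w false) (hB w true) (hz false) (hz true) (q w false).1
    (q w true).1 (k true).2.1.le (k false).1 (k true).1 (k false).2.2
    (k true).2.2 hw l1
  refine ⟨fun p => ?_, m3⟩
  cases p
  · exact m1
  · exact m2

/-- **The reference values**, at the scale `n`. -/
theorem ref_fix (hr1 : 1 ≤ r) (hC : 0 < C₁) (hC₂ : 0 < C₂) {Cb CT : ℝ} (hCb : 0 < Cb)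
    (D1 : ∀ p : Bool, dG θ n ηd r p * dG θ n ηd r (!p) ≤
      C₁ * (dF θ n ηd r p * dF θ n ηd r (!p)))
    (D2 : ∀ p : Bool, dF θ n ηd r p * dF θ n ηd r (!p) ≤
      C₁ * (dG θ n ηd r p * dG θ n ηd r (!p)))
    (D3 : vb θ n ηd r false * (dG θ n ηd r true * dG θ n ηd r false) ≤
      C₁ * vζ θ n ηd r false)
    (D4 : vb θ n ηd r true * (dF θ n ηd r true * dF θ n ηd r false) ≤
      C₁ * vζ θ n ηd r true)
    (D5 : ∀ p : Bool, (dJ θ n ηd r p (d0I θ n) * dJ θ n ηd r (!p) (d0I θ n)) *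
      ((dF θ n ηd r p * dF θ n ηd r (!p)) * (dG θ n ηd r p * dG θ n ηd r (!p))) ≤ C₃)
    (hZ : ∀ w p, TN θ (bt θ) (qZ θ n w p) (7 * n) r)
    (hb : ∀ w, TN θ (bt θ) (qb θ n w) (zi w n) r)
    (hD : ∀ e, TN θ (bt θ) (qD θ n e) 0 r ∧ TN θ (bt θ) (qD θ n e) (4 * n) r)
    (L1 : ∀ w p : Bool, (lB θ w n (ηl w) r p * lB θ w n (ηl w) r (!p)) *
            (lA1 θ w n (ηl w) r p * lA1 θ w n (ηl w) r (!p)) ≤
          C₂ * ((lZ θ w n (ηl w) r p * lZ θ w n (ηl w) r (!p)) *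
            (lA4 θ w n (ηl w) r p * lA4 θ w n (ηl w) r (!p))))
    (hζ : ∀ w, vζ θ n ηd r w ≤ (2 * Real.cos θ)⁻¹)
    (hζ' : ∀ w, 2 * Real.cos θ ≤ vζ θ n ηd r w)
    (hF : ∀ {P : PD} {τ : ℕ → ℤ} {L : ℕ} {η : Cfg} {w : Bool}, GD c n P τ L η →
      (P.k = 0 ∨ P.k = P.N) → (P.k = 0 ↔ w = true) → WinI ⌊c * n⌋₊ P.N τ 0 0 →
      2 * ⌊c * n⌋₊ < P.N → AltB θ ⌊c * n⌋₊ P → P.e θ (bt θ) η r 0 ≤ Cb * vb θ n ηd r w)
    (hCT1 : 4 * (C₁ + 1) + 1 ≤ CT) (hCT2 : 1024 * C₂ * (4 * (C₁ + 1) + 1) ^ 3 ≤ CT)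
    (hCT3 : (64 * (C₁ + 1) ^ 2 + 4) * C₁ ≤ CT) (hCT4 : (2 * Real.cos θ)⁻¹ ≤ CT)
    (hCT5 : 4 * (64 * (C₁ + 1) ^ 2) * C₃ ≤ CT) (hCT6 : Cb ≤ CT) :
    RF θ c CT n r (vA θ n ηd r false false * vA θ n ηd r false true)
      (fun w e => vA θ n ηd r w (!e)) (fun w e => vB θ n ηl r w (!e))
      (fun w e => vZ θ n ηl r w (!e)) (fun w => vb θ n ηd r w) (fun w => vζ θ n ηd r w)
      (fun e => vDb θ n ηd r e) (fun e => vDj θ n ηd r e) := by
  have q := vA_pos (ηd := ηd) (r := r) h0 h1 hn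
  have hB := vB_pos (ηl := ηl) (r := r) h0 h1 hn
  have hP := mul_pos (q false false).1 (q false true).1
  have hvb : ∀ w, 0 ≤ vb θ n ηd r w := fun w => (hb w).nn h1.kit.pos
  have hvζ := vζ_pos (ηd := ηd) (r := r) h0 h1 hn hr
  have hDb : ∀ e, 0 ≤ vDb θ n ηd r e := fun e => (hD e).1.nn h1.kit.pos
  have hDj : ∀ e, 0 ≤ vDj θ n ηd r e := fun e => (hD e).2.nn h1.kit.pos
  have hsq := fix_sq h0 h1 hc1 hn hr hd hl Hc hC D1 D2
  have hre := fix_refl h0 h1 hc1 hn hr hd hl Hc hC hC₂ D1 D2 hZ L1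
  refine ⟨hP, fun w e => (q w _).1, fun w e => hB w _, fun w e => (hre w).1 _, hvb, hvζ, hDb, hDj,
    fun w => ?_, fun w => ?_, fun w => ?_, fun w => (hζ w).trans hCT4, fun w => ?_, ?_,
    fun {P τ L j η w e} g h hT => ?_, fun {P τ L j η w e} g h hT => ?_,
    fun {P τ L j η w e} g h hT => ?_, fun {P τ L j η w} g h hT => ?_,
    fun {P τ L j η w} g h hT => ?_, fun {P τ L η e} g h hT => ?_,
    fun {P τ L η e} g h hT => ?_, fun {P τ L η w} g a1 a2 a3 a4 a5 =>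
      (hF g a1 a2 a3 a4 a5).trans (mul_le_mul_of_nonneg_right hCT6 (hvb w))⟩
  · cases w
    · show vA θ n ηd r false false * vA θ n ηd r false true ≤ _
      have : 1 ≤ CT := by linarith
      nlinarith
    · show vA θ n ηd r true false * vA θ n ηd r true true ≤ _
      have := (fix_corner h0 h1 hc1 hn hr hd hl Hc hC D1 D2).1
      nlinarith
  · show vB θ n ηl r w false * vB θ n ηl r w true ≤
      CT * (vZ θ n ηl r w false * vZ θ n ηl r w true) * _
    refine (hre w).2.trans (mul_le_mul_of_nonneg_right (mul_le_mul_of_nonneg_right hCT2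
      (mul_pos ((hre w).1 _) ((hre w).1 _)).le) (by positivity))
  · show vb θ n ηd r w * _ ≤ CT * vζ θ n ηd r w
    cases w
    · refine (flat_alg (K := 64 * (C₁ + 1) ^ 2) (hvb false) (by positivity) D3
        (hsq true).2).trans ?_
      refine mul_le_mul_of_nonneg_right (le_trans ?_ hCT3) (hvζ false).le
      nlinarith
    · refine (flat_alg (K := 4) (hvb true) (by norm_num) D4 (hsq true).1).trans ?_
      refine mul_le_mul_of_nonneg_right (le_trans ?_ hCT3) (hvζ true).le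
      have : 0 ≤ 64 * (C₁ + 1) ^ 2 * C₁ := by positivity
      nlinarith
  · have h2 := h1.kit.pos
    calc (1 : ℝ) = (2 * Real.cos θ)⁻¹ * (2 * Real.cos θ) := (inv_mul_cancel₀ h2.ne').symm
      _ ≤ (2 * Real.cos θ)⁻¹ * vζ θ n ηd r w :=
          mul_le_mul_of_nonneg_left (hζ' w) (by positivity)
      _ ≤ CT * vζ θ n ηd r w := mul_le_mul_of_nonneg_right hCT4 (hvζ w).le
  · have h5 := D5 (pe n true)
    have e1 : dJ θ n ηd r (!(pe n true)) (d0I θ n) = vDb θ n ηd r false * vDj θ n ηd r false := by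
      rw [← pe_not, Bool.not_true]
      rfl
    rw [dJ_v, e1] at h5
    exact (dob_alg (mul_nonneg (mul_nonneg (hDb _) (hDj _)) (mul_nonneg (hDb _) (hDj _)))
      (by positivity) h5 (hsq (pe n true)).1 (hsq (pe n true)).2).trans hCT5
  · have a := (cm_qA (θ := θ) hn w (!e)).mono (fl_half hc1 hn)
    rw [Bool.not_not] at a
    exact (Hc g (gd_ds hc1 hn (hd (!e)) : GD c n (qA θ n w (!e)) (dsT n) n (ηd (!e)))).1 h a hT
      (tn_qA h0 h1 hn w _ _)
  · have a := (cm_qB (θ := θ) hn w (!e)).mono (fl_half hc1 hn)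
    rw [Bool.not_not] at a
    exact (Hc g (gd_ls hc1 hn (hl w (!e)) : GD c n (qB θ n w (!e)) (lsT n) n (ηl w (!e)))).1 h a hT
      (tn_qB h0 h1 hn w _ _)
  · have a := (cm_qZ (θ := θ) hn w (!e)).mono (fl_half hc1 hn)
    rw [Bool.not_not] at a
    exact (Hc (gd_ls hc1 hn (hl w (!e)) : GD c n (qZ θ n w (!e)) (lsT n) n (ηl w (!e))) g).1 a h
      (hZ w _) hT
  · exact (Hc g (gd_ds hc1 hn (hd true) : GD c n (qb θ n w) (dsT n) n (ηd true))).1 h
      ((cm_qb (θ := θ) hn w).mono (fl_half hc1 hn)) hT (hb w)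
  · exact (Hc (gd_ds hc1 hn (hd false) : GD c n (qζ θ n w) (dsT n) n (ηd false)) g).1
      ((cm_qζ (θ := θ) hn w).mono (fl_half hc1 hn)) h (tn_qζ h0 h1 hn hr w) hT
  · exact (Hc g (gd_ds hc1 hn (hd (pe n e)) : GD c n (qD θ n e) (dsT n) n (ηd (pe n e)))).2.1 h
      ((cb_qD (θ := θ) hn e).mono (fl_half hc1 hn)) hT (hD e).1
  · exact (Hc g (gd_ds hc1 hn (hd (pe n e)) : GD c n (qD θ n e) (dsT n) n (ηd (pe n e)))).2.2 h
      ((cj_qD (θ := θ) hn e).mono (fl_half hc1 hn)) hT (hD e).2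

end fix

end Vale.Agent.P167.N.QL
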