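import Vale.Agent.P167.N.QL.Al1

/-!
# P167, the range `0 < q < 1`, block Q-LAM: identities between the values of functionals

`VP_two`: the product of the values of the images in `D + b` and in `D` is the product of the values in
`D` and in `D + b`. `VP_cmp`: two functionals with the same factor `lam`.
-/

set_option autoImplicit false

namespace Vale.Agent.P167.N.QL

open Finset Filter Vale.Agent.P167.BR Vale.Agent.P167.FK
open Vale.Agent.P167.E6 (IsPolygon Encloses face dir)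
open Vale.Agent.P167.H718 (Dob rc gch lam poly_add encl_add bd_add ZQ_stag_pos)
open Vale.Agent.P167.H871 (Bd)
open Vale.Agent.P167.QX (wB lo hi ZQ stag)

variable {θ β : ℝ} {N k n : ℕ} {q q' : ZMod N → ℤ × ℤ} {D D' : Finset (ℤ × ℤ)} {τ : ℕ → ℤ}
  {ρ ρ' : ℕ → ℝ} {J J' : Finset ℕ} {b b' : ℤ × ℤ}

/-- The value depends on the phase differences only. -/
theorem VP_eqD (H : EqD N ρ ρ') :
    VP θ β ⟨N, q, D, k, ρ, J⟩ = VP θ β ⟨N, q, D, k, ρ', J'⟩ := by
  have e : gch q ρ = gch q ρ' := by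
    funext z
    unfold gch
    refine sum_congr rfl fun j hj => ?_
    rw [mem_Ico] at hj
    split_ifs
    · exact H _ _ (by omega) hj.2
    · rfl
  unfold VP
  simp only [e]

section

variable (hs : 0 < Real.sin θ) (hc : 0 < Real.cos θ) (hβ : Real.cos (θ / 2 + β) = Real.sin θ)
  (hb : ¬ Even (b.1 + b.2)) (hq : IsPolygon q) (hD : Encloses q D)
  (hu : Bd (D : Set (ℤ × ℤ)) N (fun j => q (j : ZMod N)) τ 1)
  (hq' : q' = fun i => q i + b) (hD' : D' = D.image (· + b))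

include hs hc hβ hb hq hD hu hq' hD'

/-- The value of an image. -/
theorem VP_im' (ρ : ℕ → ℝ) (J J' : Finset ℕ) :
    VP θ β ⟨N, q', D', k, fun j => rc θ β τ k j - ρ j, J⟩ =
      lam θ β q D k b * VP θ β ⟨N, q, D, k, ρ, J'⟩ := by
  subst hq' hD'
  exact VP_im hq hD hs hc hb hu hβ J

/-- **Two functionals with the same factor.** -/
theorem VP_cmp (ρ ρ' : ℕ → ℝ) (J J' J₁ J₁' : Finset ℕ) :
    VP θ β ⟨N, q', D', k, fun j => rc θ β τ k j - ρ j, J⟩ * VP θ β ⟨N, q, D, k, ρ', J'⟩ =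
      VP θ β ⟨N, q', D', k, fun j => rc θ β τ k j - ρ' j, J₁⟩ * VP θ β ⟨N, q, D, k, ρ, J₁'⟩ := by
  rw [VP_im' hs hc hβ hb hq hD hu hq' hD' ρ J J₁', VP_im' hs hc hβ hb hq hD hu hq' hD' ρ' J₁ J']
  ring

/-- **The functionals in both domains.** -/
theorem VP_two (hq'' : q = fun i => q' i + b') (hD'' : D = D'.image (· + b')) (ρ ρ' : ℕ → ℝ)
    (J J' J₁ J₁' : Finset ℕ) :
    VP θ β ⟨N, q', D', k, fun j => rc θ β τ k j - ρ j, J⟩ *
        VP θ β ⟨N, q, D, k, fun j => rc θ β τ k j - ρ' j, J'⟩ =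
      VP θ β ⟨N, q, D, k, ρ, J₁⟩ * VP θ β ⟨N, q', D', k, ρ', J₁'⟩ := by
  have hP' : IsPolygon q' := by rw [hq']; exact poly_add hq b
  have hE' : Encloses q' D' := by rw [hq', hD']; exact encl_add hD b
  have hu' : Bd (D' : Set (ℤ × ℤ)) N (fun j => q' (j : ZMod N)) τ 1 := by
    rw [hq', hD']
    exact bd_add hu b
  have hbb : b + b' = 0 := by
    have h1 : q 0 = q' 0 + b' := congrFun hq'' 0
    have h2 : q' 0 = q 0 + b := congrFun hq' 0
    rw [h2, add_assoc] at h1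
    exact (add_eq_left.1 h1.symm)
  have hb' : ¬ Even (b'.1 + b'.2) := by
    have h1 := congrArg Prod.fst hbb
    have h2 := congrArg Prod.snd hbb
    simp only [Prod.fst_add, Prod.snd_add, Prod.fst_zero, Prod.snd_zero] at h1 h2
    rw [Int.even_iff] at hb ⊢
    omega
  rw [VP_im' hs hc hβ hb hq hD hu hq' hD' ρ J J₁,
    VP_im' hs hc hβ hb' hP' hE' hu' hq'' hD'' ρ' J' J₁']
  have h1 := (ZQ_stag_pos (β := β) (k := k) hq hD hs.ne' hc hβ hs).ne'
  have h2 := (ZQ_stag_pos (β := β) (k := k) hP' hE' hs.ne' hc hβ hs).ne'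
  have e : lam θ β q D k b * lam θ β q' D' k b' = 1 := by
    have e1 : lam θ β q D k b = ZQ θ q D (stag θ β q k) 0 / ZQ θ q' D' (stag θ β q' k) 0 := by
      unfold lam
      rw [← hD']
      have : (fun i => q i + b) = q' := hq'.symm
      rw [this]
    have e2 : lam θ β q' D' k b' =
        ZQ θ q' D' (stag θ β q' k) 0 / ZQ θ q D (stag θ β q k) 0 := by
      unfold lam
      rw [← hD'']
      have : (fun i => q' i + b') = q := hq''.symm
      rw [this]
    rw [e1, e2]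
    field_simp
  calc _ = (lam θ β q D k b * lam θ β q' D' k b') * (VP θ β ⟨N, q, D, k, ρ, J₁⟩ *
        VP θ β ⟨N, q', D', k, ρ', J₁'⟩) := by ring
    _ = _ := by rw [e, one_mul]

end

/-! ### the special polygons -/

/-- The two translations. -/
def ev (p : Bool) : ℤ × ℤ := if p then (1, 0) else (0, 0)

section sp

variable {J₁ J₁' : Finset ℕ}
  (hs : 0 < Real.sin θ) (hc : 0 < Real.cos θ) (hn : 0 < n)
include hs hc hn

theorem ds_shift (p : Bool) : dsq n (ev (!p)) = (fun i => dsq n (ev p) i + (ev (!p) - ev p)) ∧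
    dsD n (ev (!p)) = (dsD n (ev p)).image (· + (ev (!p) - ev p)) := by
  constructor
  · funext i
    unfold dsq
    rw [add_assoc, add_sub_cancel]
  · unfold dsD
    rw [image_image]
    congr 1
    funext v
    simp only [Function.comp]
    rw [add_assoc, add_sub_cancel]

theorem ls_shift (p : Bool) : lsq n (ev (!p)) = (fun i => lsq n (ev p) i + (ev (!p) - ev p)) ∧
    lsD n (ev (!p)) = (lsD n (ev p)).image (· + (ev (!p) - ev p)) := by
  constructor
  · funext i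
    unfold lsq
    rw [add_assoc, add_sub_cancel]
  · unfold lsD
    rw [image_image]
    congr 1
    funext v
    simp only [Function.comp]
    rw [add_assoc, add_sub_cancel]

omit hs hc hn in
theorem ev_odd (p : Bool) : ¬ Even ((ev (!p) - ev p).1 + (ev (!p) - ev p).2) := by
  cases p <;> decide

/-- **The Dobrushin squares.** -/
theorem ds_two (p : Bool) (ρ ρ' : ℕ → ℝ) (J J' J₁ J₁' : Finset ℕ) :
    VP θ (bt θ) (dsP n (ev (!p)) (imR θ (dsT n) (4 * n) ρ) J) *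
        VP θ (bt θ) (dsP n (ev p) (imR θ (dsT n) (4 * n) ρ') J') =
      VP θ (bt θ) (dsP n (ev p) ρ J₁) * VP θ (bt θ) (dsP n (ev (!p)) ρ' J₁') := by
  obtain ⟨h1, h2⟩ := ds_shift hs hc hn p
  obtain ⟨h3, h4⟩ := ds_shift hs hc hn (!p)
  rw [Bool.not_not] at h3 h4
  exact VP_two hs hc (cos_bt θ) (ev_odd p) (ds_poly hn _) (ds_encl hn _) (ds_bd hn _) h1 h2
    h3 h4 ρ ρ' J J' J₁ J₁'

theorem ds_cmp (p : Bool) (ρ ρ' : ℕ → ℝ) (J J' J₁ J₁' : Finset ℕ) :
    VP θ (bt θ) (dsP n (ev (!p)) (imR θ (dsT n) (4 * n) ρ) J) *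
        VP θ (bt θ) (dsP n (ev p) ρ' J') =
      VP θ (bt θ) (dsP n (ev (!p)) (imR θ (dsT n) (4 * n) ρ') J₁) *
        VP θ (bt θ) (dsP n (ev p) ρ J₁') := by
  obtain ⟨h1, h2⟩ := ds_shift hs hc hn p
  exact VP_cmp hs hc (cos_bt θ) (ev_odd p) (ds_poly hn _) (ds_encl hn _) (ds_bd hn _) h1 h2
    ρ ρ' J J' J₁ J₁'

/-- **The L shapes.** -/
theorem ls_two (w p : Bool) (ρ ρ' : ℕ → ℝ) (J J' J₁ J₁' : Finset ℕ) :
    VP θ (bt θ) (lsP w n (ev (!p)) (imR θ (lsT n) (lsK w n) ρ) J) *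
        VP θ (bt θ) (lsP w n (ev p) (imR θ (lsT n) (lsK w n) ρ') J') =
      VP θ (bt θ) (lsP w n (ev p) ρ J₁) * VP θ (bt θ) (lsP w n (ev (!p)) ρ' J₁') := by
  obtain ⟨h1, h2⟩ := ls_shift hs hc hn p
  obtain ⟨h3, h4⟩ := ls_shift hs hc hn (!p)
  rw [Bool.not_not] at h3 h4
  exact VP_two hs hc (cos_bt θ) (ev_odd p) (ls_poly hn _) (ls_encl hn _) (ls_bd hn _) h1 h2
    h3 h4 ρ ρ' J J' J₁ J₁'

end sp

end Vale.Agent.P167.N.QL
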