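import Vale.Agent.P167.N.QL.Inv

/-!
# P167, the range `0 < q < 1`, block Q-LAM: the charge `-θ` at a flat site, lower bound

`inv_flat_ge`: the local factor is at least `2 cos θ`.
-/

set_option autoImplicit false

namespace Vale.Agent.P167.N.QL

open Finset Vale.Agent.P167 Vale.Agent.P167.BR Vale.Agent.P167.FK
open Vale.Agent.P167.H975 (TX)

variable {θ : ℝ}

/-- **The charge `-θ` at a flat site: the local factor is at least `2 cos θ`.** -/
theorem inv_flat_ge (h1 : Ang θ) {N k n d L j : ℕ} {q : ZMod N → ℤ × ℤ} {D : Finset (ℤ × ℤ)}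
    {τ : ℕ → ℤ} {m r : ℤ} {η ω : Cfg} {ρ : ℕ → ℝ} {β : ℝ} (h : LkD n N q D k τ L m η)
    (hβ : Real.cos (θ / 2 + β) = Real.sin θ)
    (hw : WinI d N τ j 0) (h0 : 0 < j) (hN : j + d < N) (hk : j + d < k ∨ k + d ≤ j)
    (_hp : Even ((q (j : ZMod N)).1 + (q (j : ZMod N)).2) ↔ j < k)
    (hρ : ∀ i, j < i + d → i ≤ j + d → 0 < i → ρ i - ρ (i - 1) = if i = j then -θ else 0)
    (h3 : 3 * (r + 1) < n) (h4 : 2 * (r + 1) ≤ d) (hr : 1 ≤ r) :
    2 * Real.cos θ ≤ TX (wP θ β q D k ρ) D (q (j : ZMod N)) r ω := by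
  have hj : jB N j = j := by
    unfold jB
    rw [if_neg (by omega)]
  have hst := hw.str
  have hle := hw.le
  rw [hj] at hst hle
  have hW := wn_str' (R := r + 1) h.geo h.step hst hle hN (by omega) h3 h4
  have hph := rho_inv hle hρ
  obtain ⟨e, he, hT⟩ := TX_inv (ω := ω) (k := k) (ρ := ρ) h.poly h.enc h1.sin_pos.ne' h1.cos_pos.ne' hβ hW
    (by omega) le_rfl ⟨ρ (j - d), fun i i1 i2 => by
      rw [hph i (by omega) (by omega), if_neg (show ¬ d = 0 by omega)]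
      split_ifs <;> ring⟩ (by omega)
  rw [hT]
  rw [abs_le] at he
  calc 2 * Real.cos θ = (2 * Real.cos θ) ^ (1 : ℤ) := (zpow_one _).symm
    _ ≤ (2 * Real.cos θ) ^ e := zpow_le_zpow_right_of_le_one₀ h1.kit.pos h1.kit.lt.le he.2

end Vale.Agent.P167.N.QL
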