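import Vale.Agent.P167.N.QL.Al19
import Vale.Agent.P167.N.QL.InvG

/-!
# P167, the range `0 < q < 1`, block Q-LAM: assembly, the reference values exist
-/

set_option autoImplicit false

namespace Vale.Agent.P167.N.QL

open Finset Filter Vale.Agent.P167.BR Vale.Agent.P167.FK
open Vale.Agent.P167.E6 (IsPolygon Encloses face dir)
open Vale.Agent.P167.H718 (Dob rc IsCl)
open Vale.Agent.P167.H192.Q (SRSW)
open Vale.Agent.P167.H975 (TX)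

variable {θ : ℝ}

theorem Ex_le_c {Q : ℝ} (hQ : 0 < Q) {D : Finset (ℤ × ℤ)} {η : Cfg} {F : Cfg → ℝ} {C : ℝ}
    (h : ∀ ω, F ω ≤ C) : Ex Q D η F ≤ C :=
  (FKA.Ex_mono hQ fun _ _ => h _).trans_eq (FKA.Ex_const hQ C)

theorem le_Ex_c {Q : ℝ} (hQ : 0 < Q) {D : Finset (ℤ × ℤ)} {η : Cfg} {F : Cfg → ℝ} {C : ℝ}
    (h : ∀ ω, C ≤ F ω) : C ≤ Ex Q D η F :=
  (FKA.Ex_const hQ C).symm.le.trans (FKA.Ex_mono hQ fun _ _ => h _)

/-- The charge `-θ` at a flat site. -/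
theorem vζ_bd (h1 : Ang θ) {n : ℕ} {r : ℤ} (hn : 12000 ≤ n) (hr1 : 1 ≤ r)
    (hr : 2 * (r + 1) ≤ ((n / 2 : ℕ) : ℤ)) (ηd : Bool → Cfg) (w : Bool) :
    vζ θ n ηd r w ≤ (2 * Real.cos θ)⁻¹ ∧ 2 * Real.cos θ ≤ vζ θ n ηd r w := by
  obtain ⟨η₀, hL⟩ := ds_lkD hn (ev false)
  have hc := cm_qζ (θ := θ) hn w
  have hpar : Even (((qζ θ n w).q (zi w n : ZMod (qζ θ n w).N)).1 +
      ((qζ θ n w).q (zi w n : ZMod (qζ θ n w).N)).2) ↔ zi w n < (qζ θ n w).k := by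
    refine hc.par.trans ?_
    have h2 := hc.wi
    cases w
    · simp only [Bool.not_false, true_iff]
      simp only [Bool.false_eq_true, iff_false, not_le] at h2
      exact h2
    · simp only [Bool.not_true, Bool.false_eq_true, false_iff, not_lt]
      exact h2.2 rfl
  have hinc : ∀ i, zi w n < i + n / 2 → i ≤ zi w n + n / 2 → 0 < i →
      (qζ θ n w).ρ i - (qζ θ n w).ρ (i - 1) = if i = zi w n then -θ else 0 := by
    intro i a1 a2 a3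
    rw [hc.inc i a1 a2 a3]
    unfold fo
    by_cases h : i = zi w n
    · rw [if_pos h, if_pos (by omega)]
    · rw [if_neg h, if_neg (by omega)]
  have h3 : 3 * (r + 1) < ((2 * n : ℕ) : ℤ) := by
    push_cast at hr ⊢
    omega
  exact ⟨Ex_le_c h1.kit.pos fun ω => inv_flat h1 hL (cos_bt θ) hc.win hc.pos hc.lt hc.jk hpar hinc
      h3 hr hr1,
    le_Ex_c h1.kit.pos fun ω => inv_flat_ge h1 hL (cos_bt θ) hc.win hc.pos hc.lt hc.jk hpar hinc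
      h3 hr hr1⟩

theorem W_fl {W : ℤ} (hW : 1 ≤ W) {ρ : ℝ} (hρ1 : ρ ≤ 1 / (200 * W)) {n : ℕ}
    (hn : 12000 ≤ n) : W * ⌊ρ * n⌋ ≤ ((n / 100 : ℕ) : ℤ) := by
  refine le_trans ?_ (fl200 hn)
  rw [Int.le_floor]
  push_cast
  have hW' : (1 : ℝ) ≤ W := by exact_mod_cast hW
  have hW0 : (0 : ℝ) < W := by linarith
  have h1 : (W : ℝ) * ρ ≤ 1 / 200 := by
    calc (W : ℝ) * ρ ≤ W * (1 / (200 * W)) := mul_le_mul_of_nonneg_left hρ1 hW0.le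
      _ = 1 / 200 := by field_simp
  calc (W : ℝ) * ⌊ρ * n⌋ ≤ W * (ρ * n) := mul_le_mul_of_nonneg_left (Int.floor_le _) hW0.le
    _ = (W * ρ) * n := by ring
    _ ≤ 1 / 200 * n := mul_le_mul_of_nonneg_right h1 (Nat.cast_nonneg n)

/-- **The reference values exist.** -/
theorem ref_thm (h0 : 0 < θ) (h1 : Ang θ) (hR : RSW (2 * Real.cos θ))
    (hS : SRSW (2 * Real.cos θ)) {c : ℝ} (hc : 0 < c) (hc1 : c ≤ 1 / 200) :
    ∃ ρ₁ : ℝ, 0 < ρ₁ ∧ ∀ ρ : ℝ, 0 < ρ → ρ ≤ ρ₁ → ∃ (C : ℝ) (n₀ : ℕ), 0 < C ∧ ∀ n : ℕ, n₀ ≤ n →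
      ∃ (Pi : ℝ) (A B Z : Bool → Bool → ℝ) (b ζ Db Dj : Bool → ℝ),
        RF θ c C n ⌊ρ * n⌋ Pi A B Z b ζ Db Dj := by
  obtain ⟨b₀, B₀, Λ, W, KE, CE, hA⟩ := lall h1
  have hc2 : c ≤ 1 := hc1.trans (by norm_num)
  obtain ⟨ρa, hρa, Ha⟩ := cmp_ref h1 hR hS hc hc2
  obtain ⟨ρb, hρb, Hb⟩ := ds_ineq h0 h1 hR hS
  obtain ⟨ρc, hρc, Hc⟩ := ls_ineq h0 h1 hR hS
  obtain ⟨ρd, hρd, Hd⟩ := d0_ineq h0 h1 hR hS
  obtain ⟨K, Cb, hK, hCb, HF⟩ := lk_base h1 hR hS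
  obtain ⟨ρe, hρe, He⟩ := sca hc hc2 hK
  have hW1 : 1 ≤ W := hA.kc.W1
  have hW : (1 : ℝ) ≤ W := by exact_mod_cast hW1
  have hW0 : (0 : ℝ) < W := by linarith
  refine ⟨min (min (min ρa ρb) (min ρc ρd)) (min ρe (1 / (200 * W))), ?_, fun ρ hρ hρ' => ?_⟩
  · exact lt_min (lt_min (lt_min hρa hρb) (lt_min hρc hρd)) (lt_min hρe (by positivity))
  have l1 : ρ ≤ ρa := hρ'.trans ((min_le_left _ _).trans ((min_le_left _ _).trans (min_le_left _ _)))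
  have l2 : ρ ≤ ρb := hρ'.trans ((min_le_left _ _).trans ((min_le_left _ _).trans (min_le_right _ _)))
  have l3 : ρ ≤ ρc := hρ'.trans ((min_le_left _ _).trans ((min_le_right _ _).trans (min_le_left _ _)))
  have l4 : ρ ≤ ρd := hρ'.trans ((min_le_left _ _).trans ((min_le_right _ _).trans (min_le_right _ _)))
  have l5 : ρ ≤ ρe := hρ'.trans ((min_le_right _ _).trans (min_le_left _ _))
  have l6 : ρ ≤ 1 / (200 * W) := hρ'.trans ((min_le_right _ _).trans (min_le_right _ _))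
  have l7 : ρ ≤ 1 / 200 := l6.trans (by
    apply one_div_le_one_div_of_le (by norm_num)
    linarith)
  obtain ⟨na, Ha⟩ := Ha ρ hρ l1
  obtain ⟨C₁, nb, hC₁, Hb⟩ := Hb ρ hρ l2
  obtain ⟨C₂, nc, hC₂, Hc⟩ := Hc ρ hρ l3
  obtain ⟨C₃, nd, hC₃, Hd⟩ := Hd ρ hρ l4
  obtain ⟨ne, He⟩ := He ρ hρ l5
  obtain ⟨nf, hnf⟩ := exists_nat_ge ((K + 1) / ρ)
  have h2c : 0 < 2 * Real.cos θ := h1.kit.pos
  -- the constant
  obtain ⟨M, hM⟩ : ∃ M, M = 4 * (C₁ + 1) + 1 := ⟨_, rfl⟩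
  have hM0 : 0 < M := by rw [hM]; positivity
  obtain ⟨T, hT⟩ : ∃ T, T = M + 1024 * C₂ * M ^ 3 + (64 * (C₁ + 1) ^ 2 + 4) * C₁ +
    (2 * Real.cos θ)⁻¹ + 4 * (64 * (C₁ + 1) ^ 2) * C₃ + Cb := ⟨_, rfl⟩
  have t1 : 0 < 1024 * C₂ * M ^ 3 := by positivity
  have t2 : 0 < (64 * (C₁ + 1) ^ 2 + 4) * C₁ := by positivity
  have t3 : 0 < (2 * Real.cos θ)⁻¹ := by positivity
  have t4 : 0 < 4 * (64 * (C₁ + 1) ^ 2) * C₃ := by positivity
  refine ⟨T, max (max (max na nb) (max nc nd)) (max (max ne nf) 12000), by rw [hT]; linarith,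
    fun n hn => ?_⟩
  have g1 : na ≤ n := by omega
  have g2 : nb ≤ n := by omega
  have g3 : nc ≤ n := by omega
  have g4 : nd ≤ n := by omega
  have g5 : ne ≤ n := by omega
  have g6 : nf ≤ n := by omega
  have g7 : 12000 ≤ n := by omega
  have He := He n g5
  have hr1 : 1 ≤ ⌊ρ * (n : ℝ)⌋ := He.r1
  have hr := rad_le l7 g7
  have hWr := W_fl hW1 l6 g7
  have hKr : K ≤ (⌊ρ * (n : ℝ)⌋ : ℝ) := by
    have h2 : (nf : ℝ) ≤ n := by exact_mod_cast g6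
    have h3 : (K + 1) / ρ ≤ n := hnf.trans h2
    rw [div_le_iff₀ hρ] at h3
    have h4 := Int.lt_floor_add_one (ρ * (n : ℝ))
    linarith
  -- the configurations
  have hd : ∃ ηd : Bool → Cfg, ∀ p, Dob (ηd p) (dsD n (ev p)) (dsq n (ev p)) (4 * n) := by
    choose η hη using fun p : Bool => ds_lkD g7 (ev p)
    exact ⟨η, fun p => (hη p).dob⟩
  have hl : ∃ ηl : Bool → Bool → Cfg, ∀ w p, Dob (ηl w p) (lsD n (ev p)) (lsq n (ev p)) (lsK w n) := by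
    choose η hη using fun w p : Bool => ls_lkD (n := n) (by omega) w (ev p)
    exact ⟨η, fun w p => (hη w p).dob⟩
  obtain ⟨ηd, hd⟩ := hd
  obtain ⟨ηl, hl⟩ := hl
  obtain ⟨D1, D2, D3, D4⟩ := Hb n g2 ηd hd
  have L1 := fun w => Hc n g3 w (ηl w) (hl w)
  have D5 := fun p => (Hd n g4 ηd hd p).2
  obtain ⟨k1, k2, k3⟩ := tn_kill h0 h1 hA g7 hr1 hWr
  have Cr : CmpR θ c n ⌊ρ * n⌋ := fun {β P P' τ τ' L L' η η'} g g' => Ha n g1 g g'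
  obtain ⟨r, hr'⟩ : ∃ r : ℤ, r = ⌊ρ * (n : ℝ)⌋ := ⟨_, rfl⟩
  rw [← hr'] at hr1 hr hWr hKr D1 D2 D3 D4 L1 D5 k1 k2 k3 Cr He ⊢
  have zf := zi_f n
  have zw := zi_w n
  have D3' := D3 false (zi false n) zf.1 zf.2 ((zi_par (by omega) false false).2 rfl)
  have D4' := D4 false (zi true n) zw.1 zw.2 fun h =>
    absurd ((zi_par (by omega) true false).1 h) (by decide)
  have hbd := vζ_bd h1 g7 hr1 hr ηd
  refine ⟨_, _, _, _, _, _, _, _, ref_fix (C₁ := C₁) (C₂ := C₂) (C₃ := C₃) (CT := T) (Cb := Cb) h0 h1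
    hc1 g7 hr hd hl Cr hr1 hC₁ hC₂ hCb D1 D2 D3' D4' D5 k1 k2 k3 L1 (fun w => (hbd w).1)
    (fun w => (hbd w).2) ?_ ?_ ?_ ?_ ?_ ?_ ?_⟩
  · intro P τ L η w g a1 a2 a3 a4 a5
    obtain ⟨n₁, m, η₀, b1, b2, b3⟩ := g.ex
    obtain ⟨n₁', m', η₀', b1', b2', b3'⟩ := (gd_ds hc1 g7 (hd true) :
      GD c n (qb θ n w) (dsT n) n (ηd true)).ex
    have hcm := (cm_qb (θ := θ) g7 w).mono (fl_half hc1 g7)
    have n3 := He.n3
    have key := HF b3 b3' (cos_bt θ) g.dob (gd_ds hc1 g7 (hd true) :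
      GD c n (qb θ n w) (dsT n) n (ηd true)).dob a3 a4 a1 a5 hcm.win hcm.pos hcm.lt hcm.far hcm.jk
      (a2.trans hcm.wi.symm) (hcm.par.trans hcm.wi.symm) (fun i c1 c2 c3 => by
        rw [hcm.inc i c1 c2 c3]
        unfold fo
        by_cases h : i = zi w n
        · rw [if_pos h, if_pos (by omega)]
        · rw [if_neg h, if_neg (by omega)]) (by omega) (by omega) He.d (He.m.trans b2)
      (He.m.trans b2') hKr He.K
    have e0 : P.e θ (bt θ) η r 0 =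
        Ex (2 * Real.cos θ) P.D η (TX (wP θ (bt θ) P.q P.D P.k P.ρ) P.D (P.q 0) r) := by
      unfold PD.e
      rw [Nat.cast_zero]
    rw [e0]
    exact key
  · rw [← hM, hT]
    linarith
  · rw [← hM, hT]
    linarith
  · rw [hT]
    linarith
  · rw [hT]
    linarith
  · rw [hT]
    linarith
  · rw [hT]
    linarith

end Vale.Agent.P167.N.QL
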