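import Vale.Agent.P167.N.QL.Al14
import Vale.Agent.P167.N.QL.Loc

/-!
# P167, the range `0 < q < 1`, block Q-LAM: assembly, types of the centres of the families

`ia_c`: convex corners of the images. `na_r`, `ia_r`: reflex corners. `na_z`, `ia_z`: compensating
charges.
-/

set_option autoImplicit false

namespace Vale.Agent.P167.N.QL

open Finset Filter Vale.Agent.P167.BR Vale.Agent.P167.FK
open Vale.Agent.P167.E6 (IsPolygon Encloses face dir)
open Vale.Agent.P167.H718 (Dob rc IsCl)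
open Vale.Agent.P167.H871 (Bd)
open Vale.Agent.P167.H192.Q (SRSW)
open Vale.Agent.P167.H542.Q (BD)
open Vale.Agent.P167.H975 (TX)

variable {θ : ℝ} {S : CA.Dat} {X : BD S θ (bt θ)} {s : ℕ → ℕ} {e C : ℝ} {ja : Finset ℕ}
  {n d L i : ℕ} {τ : ℕ → ℤ} {a b' : ℤ × ℤ} {x w e' : Bool}

section fam

variable (H : Sc X s e (Rf S) ja C n) (he : 0 < e) (he1 : 2 * e ≤ S.tp) (he2 : e ≤ 1 - S.tp)
  (hbig : 8 * (C + 1) < e * n)
  (hτ : Bd (S.D n : Set (ℤ × ℤ)) (X.N n) (fun i => X.q n (i : ZMod (X.N n))) τ 1)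
  (hd : d + 3 ≤ ⌊e / 2 * n⌋₊) (hd0 : 0 < d) (hL : L ≤ ⌊e / 2 * n⌋₊)
include H he he1 he2 hbig hτ hd hd0 hL

/-- (F1) Convex corners, image. -/
theorem ia_c (hi : i ∈ Tn S) (hi' : i ∉ Rf S) (hw : X.k n ≤ i * n - t0 S s n ↔ w = true)
    (hp : Even ((X.q n ((i * n - t0 S s n : ℕ) : ZMod (X.N n)) + a).1 +
      (X.q n ((i * n - t0 S s n : ℕ) : ZMod (X.N n)) + a).2) ↔ e' = true) :
    CM d (IA X s e ja n τ a b' x) τ L (i * n - t0 S s n) 1 w e' (fo (-(θ / 2))) := by
  have hR := Rf_sub S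
  have ha : (i, (0 : Fin 3)) ∈ ids S (Rf S) ja := ids_c hi
  have h0 : ((i, (0 : Fin 3)) : ℕ × Fin 3) ≠ (0, 2) := fun h => by simp at h
  have hm := H.mid he he1 he2 hR hbig (X.q n) ha h0
  have hs := H.sid he he1 he2 hR hbig (X.q n) ha (by simp)
  have hf := H.farI (q' := X.q n) he he1 he2 hR hbig hL ha (by simp)
  rw [jn_c] at hm hs hf
  have hwin := H.win_c he he1 he2 hR hbig hτ hd hi hi'
  refine ⟨hwin, by omega, ?_, ?_, hf, hw, hp, fun l h1 h2 h3 => ?_⟩
  · show i * n - t0 S s n + d < X.N n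
    omega
  · show i * n - t0 S s n + d < X.k n ∨ X.k n + d ≤ i * n - t0 S s n
    omega
  · have e1 := H.rc_w (θ' := θ) (β' := bt θ) (X.q n) he he1 he2 hR hbig hτ hd ha (by simp) h3
      (by rw [jn_c]; exact h1.le) (by rw [jn_c]; exact h2)
    have e2 := H.phA_c (θ' := θ) (x := x) (fun i => X.q n i + b') he he1 he2 hR hbig hd hi hi' h3
      h1.le h2
    rw [jn_c, H.turn_c hτ hi, tn_of_Tn hi hi'] at e1
    show (rc θ (bt θ) τ (X.k n) l - phA θ (fun i => X.q n i + b') (X.k n)
        ((Rf S).image fun i => i * n - t0 S s n) (me e n) x l) -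
      (rc θ (bt θ) τ (X.k n) (l - 1) - phA θ (fun i => X.q n i + b') (X.k n)
        ((Rf S).image fun i => i * n - t0 S s n) (me e n) x (l - 1)) = _
    rw [sub_sub_sub_comm, e1, e2, sub_zero]
    unfold fo
    by_cases h4 : l = i * n - t0 S s n
    · rw [if_pos h4, if_pos (by omega)]
      push_cast
      ring
    · rw [if_neg h4, if_neg (by omega)]

/-- (F2) Reflex corners, natural. -/
theorem na_r (hi : i ∈ Rf S) (hw : X.k n ≤ i * n - t0 S s n ↔ w = true)
    (hp : Even ((X.q n ((i * n - t0 S s n : ℕ) : ZMod (X.N n)) + a).1 +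
      (X.q n ((i * n - t0 S s n : ℕ) : ZMod (X.N n)) + a).2) ↔ e' = true) :
    CM d (NA X s e ja n a x) τ L (i * n - t0 S s n) (-1) w e' (fN θ (w == !e')) := by
  have hR := Rf_sub S
  have ha : (i, (0 : Fin 3)) ∈ ids S (Rf S) ja := ids_c (hR hi)
  have h0 : ((i, (0 : Fin 3)) : ℕ × Fin 3) ≠ (0, 2) := fun h => by simp at h
  have hm := H.mid he he1 he2 hR hbig (X.q n) ha h0
  have hs := H.sid he he1 he2 hR hbig (X.q n) ha (by simp)
  have hf := H.farI (q' := X.q n) he he1 he2 hR hbig hL ha (by simp)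
  rw [jn_c] at hm hs hf
  refine ⟨H.win_r he he1 he2 hR hbig hτ hd hi, by omega, ?_, ?_, hf, hw, hp,
    fun l h1 h2 h3 => ?_⟩
  · show i * n - t0 S s n + d < X.N n
    omega
  · show i * n - t0 S s n + d < X.k n ∨ X.k n + d ≤ i * n - t0 S s n
    omega
  · have e2 := H.phA_r (θ' := θ) (x := x) (fun i => X.q n i + a) he he1 he2 hR hbig hd hi h3
      h1.le h2
    refine e2.trans ?_
    have hrI : rI (fun i => X.q n i + a) (X.k n) (i * n - t0 S s n) =
        if (w == !e') = true then i * n - t0 S s n + 1 else i * n - t0 S s n := by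
      unfold rI
      refine if_congr ?_ rfl rfl
      show (i * n - t0 S s n < X.k n ↔
        Even ((X.q n ((i * n - t0 S s n : ℕ) : ZMod (X.N n)) + a).1 +
          (X.q n ((i * n - t0 S s n : ℕ) : ZMod (X.N n)) + a).2)) ↔ _
      rw [hp, ← not_le, hw]
      cases w <;> cases e' <;> decide
    rw [hrI]
    unfold fN
    by_cases h5 : (w == !e') = true
    · simp only [h5, if_true]
      by_cases h6 : l = i * n - t0 S s n + 1
      · rw [if_pos h6, if_pos (by omega)]
      · rw [if_neg h6, if_neg (by omega)]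
    · simp only [h5, if_false, Bool.false_eq_true]
      by_cases h6 : l = i * n - t0 S s n
      · rw [if_pos h6, if_pos (by omega)]
      · rw [if_neg h6, if_neg (by omega)]

/-- (F3) Reflex corners, image. -/
theorem ia_r (hab : ¬ (Even (a.1 + a.2) ↔ Even (b'.1 + b'.2)))
    (hi : i ∈ Rf S) (hw : X.k n ≤ i * n - t0 S s n ↔ w = true)
    (hp : Even ((X.q n ((i * n - t0 S s n : ℕ) : ZMod (X.N n)) + a).1 +
      (X.q n ((i * n - t0 S s n : ℕ) : ZMod (X.N n)) + a).2) ↔ e' = true) :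
    CM d (IA X s e ja n τ a b' x) τ L (i * n - t0 S s n) (-1) w e' (fI θ (w == e')) := by
  have hR := Rf_sub S
  have ha : (i, (0 : Fin 3)) ∈ ids S (Rf S) ja := ids_c (hR hi)
  have h0 : ((i, (0 : Fin 3)) : ℕ × Fin 3) ≠ (0, 2) := fun h => by simp at h
  have hm := H.mid he he1 he2 hR hbig (X.q n) ha h0
  have hs := H.sid he he1 he2 hR hbig (X.q n) ha (by simp)
  have hf := H.farI (q' := X.q n) he he1 he2 hR hbig hL ha (by simp)
  rw [jn_c] at hm hs hf
  refine ⟨H.win_r he he1 he2 hR hbig hτ hd hi, by omega, ?_, ?_, hf, hw, hp,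
    fun l h1 h2 h3 => ?_⟩
  · show i * n - t0 S s n + d < X.N n
    omega
  · show i * n - t0 S s n + d < X.k n ∨ X.k n + d ≤ i * n - t0 S s n
    omega
  · have e1 := H.rc_w (θ' := θ) (β' := bt θ) (X.q n) he he1 he2 hR hbig hτ hd ha (by simp) h3
      (by rw [jn_c]; exact h1.le) (by rw [jn_c]; exact h2)
    have e2 := H.phA_r (θ' := θ) (x := x) (fun i => X.q n i + b') he he1 he2 hR hbig hd hi h3
      h1.le h2
    rw [jn_c, H.turn_c hτ (hR hi), tn_of_Rf hi] at e1
    show (rc θ (bt θ) τ (X.k n) l - phA θ (fun i => X.q n i + b') (X.k n)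
        ((Rf S).image fun i => i * n - t0 S s n) (me e n) x l) -
      (rc θ (bt θ) τ (X.k n) (l - 1) - phA θ (fun i => X.q n i + b') (X.k n)
        ((Rf S).image fun i => i * n - t0 S s n) (me e n) x (l - 1)) = _
    rw [sub_sub_sub_comm, e1, e2]
    have hrI : rI (fun i => X.q n i + b') (X.k n) (i * n - t0 S s n) =
        if (w == e') = true then i * n - t0 S s n + 1 else i * n - t0 S s n := by
      unfold rI
      refine if_congr ?_ rfl rfl
      have h5 := par_ab hab (X.q n ((i * n - t0 S s n : ℕ) : ZMod (X.N n)))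
      show (i * n - t0 S s n < X.k n ↔
        Even ((X.q n ((i * n - t0 S s n : ℕ) : ZMod (X.N n)) + b').1 +
          (X.q n ((i * n - t0 S s n : ℕ) : ZMod (X.N n)) + b').2)) ↔ _
      have h6 : Even ((X.q n ((i * n - t0 S s n : ℕ) : ZMod (X.N n)) + b').1 +
          (X.q n ((i * n - t0 S s n : ℕ) : ZMod (X.N n)) + b').2) ↔ ¬ e' = true := by
        rw [← hp, h5, not_not]
      rw [h6, ← not_le, hw]
      cases w <;> cases e' <;> decide
    rw [hrI]
    unfold fI fN
    have e3 : (if l = i * n - t0 S s n then -(θ / 2 * ((-1 : ℤ) : ℝ)) else 0) =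
        if ((l : ℤ) - ((i * n - t0 S s n : ℕ) : ℤ)) = 0 then θ / 2 else 0 := by
      by_cases h4 : l = i * n - t0 S s n
      · rw [if_pos h4, if_pos (by omega)]
        push_cast
        ring
      · rw [if_neg h4, if_neg (by omega)]
    rw [e3]
    congr 1
    by_cases h5 : (w == e') = true
    · simp only [h5, if_true]
      by_cases h6 : l = i * n - t0 S s n + 1
      · rw [if_pos h6, if_pos (by omega)]
      · rw [if_neg h6, if_neg (by omega)]
    · simp only [h5, if_false, Bool.false_eq_true]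
      by_cases h6 : l = i * n - t0 S s n
      · rw [if_pos h6, if_pos (by omega)]
      · rw [if_neg h6, if_neg (by omega)]

/-- (F4) Compensating charges, natural. -/
theorem na_z (hi : i ∈ Rf S)
    (hw : X.k n ≤ rI (fun i => X.q n i + a) (X.k n) (i * n - t0 S s n) + me e n ↔ w = true) :
    CM d (NA X s e ja n a x) τ L
      (rI (fun i => X.q n i + a) (X.k n) (i * n - t0 S s n) + me e n) 0 w (!w) (fo (-θ)) := by
  have hR := Rf_sub S
  have ha : (i, (1 : Fin 3)) ∈ ids S (Rf S) ja := ids_z hi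
  have h0 : ((i, (1 : Fin 3)) : ℕ × Fin 3) ≠ (0, 2) := fun h => by simp at h
  have hm := H.mid he he1 he2 hR hbig (fun i => X.q n i + a) ha h0
  have hs := H.sid he he1 he2 hR hbig (fun i => X.q n i + a) ha (by simp)
  have hf := H.farI (q' := fun i => X.q n i + a) he he1 he2 hR hbig hL ha (by simp)
  have hz := H.par_z (a := a) he he1 he2 hR hbig hi
  rw [jn_z] at hm hs hf
  refine ⟨H.win_z (fun i => X.q n i + a) he he1 he2 hR hbig hτ hd hi, by omega, ?_, ?_, hf, hw, ?_,
    fun l h1 h2 h3 => ?_⟩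
  · show rI (fun i => X.q n i + a) (X.k n) (i * n - t0 S s n) + me e n + d < X.N n
    omega
  · show rI (fun i => X.q n i + a) (X.k n) (i * n - t0 S s n) + me e n + d < X.k n ∨
      X.k n + d ≤ rI (fun i => X.q n i + a) (X.k n) (i * n - t0 S s n) + me e n
    omega
  · refine hz.trans ?_
    rw [← not_le, hw]
    cases w <;> decide
  · refine (H.phA_z (θ' := θ) (x := x) (fun i => X.q n i + a) he he1 he2 hR hbig hd hi h3
      h1.le h2).trans ?_
    unfold fo
    by_cases h6 : l = rI (fun i => X.q n i + a) (X.k n) (i * n - t0 S s n) + me e n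
    · rw [if_pos h6, if_pos (by omega)]
    · rw [if_neg h6, if_neg (by omega)]

/-- (F5) Compensating charges, image. -/
theorem ia_z (hab : ¬ (Even (a.1 + a.2) ↔ Even (b'.1 + b'.2))) (hi : i ∈ Rf S)
    (hw : X.k n ≤ rI (fun i => X.q n i + b') (X.k n) (i * n - t0 S s n) + me e n ↔ w = true) :
    CM d (IA X s e ja n τ a b' x) τ L
      (rI (fun i => X.q n i + b') (X.k n) (i * n - t0 S s n) + me e n) 0 w w (fo θ) := by
  have hR := Rf_sub S
  have ha : (i, (1 : Fin 3)) ∈ ids S (Rf S) ja := ids_z hi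
  have h0 : ((i, (1 : Fin 3)) : ℕ × Fin 3) ≠ (0, 2) := fun h => by simp at h
  have hm := H.mid he he1 he2 hR hbig (fun i => X.q n i + b') ha h0
  have hs := H.sid he he1 he2 hR hbig (fun i => X.q n i + b') ha (by simp)
  have hf := H.farI (q' := fun i => X.q n i + b') he he1 he2 hR hbig hL ha (by simp)
  have hz := H.par_z (a := b') he he1 he2 hR hbig hi
  have ht := H.turn_0 (fun i => X.q n i + b') he he1 he2 hR hbig hτ hd ha h0 (by simp)
  have hrc : ∀ l : ℕ, 0 < l → jn (fun i => X.q n i + b') (X.k n) (t0 S s n) (me e n) n (i, 1) ≤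
      l + d → l ≤ jn (fun i => X.q n i + b') (X.k n) (t0 S s n) (me e n) n (i, 1) + d →
      rc θ (bt θ) τ (X.k n) l - rc θ (bt θ) τ (X.k n) (l - 1) = 0 := by
    intro l l1 l2 l3
    have e1 := H.rc_w (θ' := θ) (β' := bt θ) (fun i => X.q n i + b') he he1 he2 hR hbig hτ hd ha
      (by simp) l1 l2 l3
    rw [ht] at e1
    rw [e1]
    split_ifs <;> simp
  rw [jn_z] at hm hs hf hrc
  refine ⟨H.win_z (fun i => X.q n i + b') he he1 he2 hR hbig hτ hd hi, by omega, ?_, ?_, hf, hw, ?_,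
    fun l h1 h2 h3 => ?_⟩
  · show rI (fun i => X.q n i + b') (X.k n) (i * n - t0 S s n) + me e n + d < X.N n
    omega
  · show rI (fun i => X.q n i + b') (X.k n) (i * n - t0 S s n) + me e n + d < X.k n ∨
      X.k n + d ≤ rI (fun i => X.q n i + b') (X.k n) (i * n - t0 S s n) + me e n
    omega
  · refine (par_ab hab _).trans ?_
    refine (not_congr hz).trans ?_
    rw [not_lt, hw]
  · have e2 := H.phA_z (θ' := θ) (x := x) (fun i => X.q n i + b') he he1 he2 hR hbig hd hi h3
      h1.le h2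
    show (rc θ (bt θ) τ (X.k n) l - phA θ (fun i => X.q n i + b') (X.k n)
        ((Rf S).image fun i => i * n - t0 S s n) (me e n) x l) -
      (rc θ (bt θ) τ (X.k n) (l - 1) - phA θ (fun i => X.q n i + b') (X.k n)
        ((Rf S).image fun i => i * n - t0 S s n) (me e n) x (l - 1)) = _
    rw [sub_sub_sub_comm, hrc l h3 h1.le h2, e2]
    unfold fo
    by_cases h6 : l = rI (fun i => X.q n i + b') (X.k n) (i * n - t0 S s n) + me e n
    · rw [if_pos h6, if_pos (by omega)]
      ring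
    · rw [if_neg h6, if_neg (by omega), sub_zero]

end fam

end Vale.Agent.P167.N.QL
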