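import Vale.Agent.P167.N.QL.Al15
import Vale.Agent.P167.N.QL.Loc

/-!
# P167, the range `0 < q < 1`, block Q-LAM: assembly, the base and the junction of the images

`ia_b`: the base for Dobrushin boundary conditions, `ia_k`: the junction, `ia_f`: the base for free or
wired boundary conditions.
-/

set_option autoImplicit false
set_option linter.unusedSectionVars false

namespace Vale.Agent.P167.N.QL

open Finset Filter Vale.Agent.P167.BR Vale.Agent.P167.FK
open Vale.Agent.P167.E6 (IsPolygon Encloses face dir)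
open Vale.Agent.P167.H718 (Dob rc IsCl)
open Vale.Agent.P167.H871 (Bd)
open Vale.Agent.P167.H192.Q (SRSW)
open Vale.Agent.P167.H542.Q (BD)
open Vale.Agent.P167.H975 (TX)

variable {θ : ℝ} {S : CA.Dat} {X : BD S θ (bt θ)} {s : ℕ → ℕ} {e C : ℝ} {ja : Finset ℕ}
  {n d L i : ℕ} {τ : ℕ → ℤ} {a b' : ℤ × ℤ} {x w e' : Bool} {r m : ℤ} {η η₀ : Cfg}

section fam

variable (H : Sc X s e (Rf S) ja C n) (he : 0 < e) (he1 : 2 * e ≤ S.tp) (he2 : e ≤ 1 - S.tp)
  (hbig : 8 * (C + 1) < e * n)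
  (hτ : Bd (S.D n : Set (ℤ × ℤ)) (X.N n) (fun i => X.q n (i : ZMod (X.N n))) τ 1)
  (hd : d + 3 ≤ ⌊e / 2 * n⌋₊) (hd0 : 0 < d) (hL : L ≤ ⌊e / 2 * n⌋₊)
include H he he1 he2 hbig hτ hd

/-- The phases of the image near the base. -/
theorem ia_ph0 (hi : i ≤ d) : (IA X s e ja n τ a b' x).ρ i = (IA X s e ja n τ a b' x).ρ 0 +
    if x = true ∧ 1 ≤ i then θ else 0 := by
  have hR := Rf_sub S
  show rc θ (bt θ) τ (X.k n) i - phA θ (fun i => X.q n i + b') (X.k n)
      ((Rf S).image fun i => i * n - t0 S s n) (me e n) x i =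
    rc θ (bt θ) τ (X.k n) 0 - phA θ (fun i => X.q n i + b') (X.k n)
      ((Rf S).image fun i => i * n - t0 S s n) (me e n) x 0 + _
  rw [H.rc_b0 he he1 he2 hR hbig hτ hd hi, H.phA_b _ he he1 he2 hR hbig hd (Or.inl hi),
    H.phA_b _ he he1 he2 hR hbig hd (Or.inl (Nat.zero_le d)),
    if_neg (show ¬ (x = true ∧ 1 ≤ 0) by omega)]
  split_ifs <;> ring

/-- The phases of the image at the end of the cycle. -/
theorem ia_phN (h1 : i < X.N n) (h2 : X.N n ≤ i + d) : (IA X s e ja n τ a b' x).ρ i =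
    (IA X s e ja n τ a b' x).ρ 0 + (if 0 < X.k n ∧ X.k n < X.N n then -(2 * bt θ) else 0) -
      2 * θ + if x = true then θ else 0 := by
  have hR := Rf_sub S
  have hLl := H.L_le he1
  have hn0 := H.n0
  have hi1 : 1 ≤ i := by omega
  show rc θ (bt θ) τ (X.k n) i - phA θ (fun i => X.q n i + b') (X.k n)
      ((Rf S).image fun i => i * n - t0 S s n) (me e n) x i =
    rc θ (bt θ) τ (X.k n) 0 - phA θ (fun i => X.q n i + b') (X.k n)
      ((Rf S).image fun i => i * n - t0 S s n) (me e n) x 0 + _ - _ + _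
  rw [H.rc_bN he he1 he2 hR hbig hτ hd h1 h2, H.phA_b _ he he1 he2 hR hbig hd (Or.inr h2),
    H.phA_b _ he he1 he2 hR hbig hd (Or.inl (Nat.zero_le d)),
    if_neg (show ¬ (x = true ∧ 1 ≤ 0) by omega)]
  by_cases hx : x = true
  · rw [if_pos (⟨hx, hi1⟩ : x = true ∧ 1 ≤ i), if_pos hx]
    ring
  · rw [if_neg (show ¬ (x = true ∧ 1 ≤ i) from fun h => hx h.1), if_neg hx]
    ring

include hL hd0

/-- (F6) The base, Dobrushin boundary conditions, image. -/
theorem ia_b (hk0 : 0 < X.k n) (hkN : X.k n < X.N n)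
    (hp : Even ((X.q n 0 + a).1 + (X.q n 0 + a).2) ↔ e' = true) :
    CB d (IA X s e ja n τ a b' false) τ L e' (Real.pi - 3 * θ) := by
  have hR := Rf_sub S
  rcases H.k_cases he he1 he2 hR hbig with hk | ⟨k1, k2, k3, k4, -⟩
  · omega
  refine ⟨H.win_0 he he1 he2 hR hbig hτ hd, ?_, ?_, ?_, ?_, hp, fun i hi => ?_, fun i hi hi' => ?_⟩
  · show 2 * d < X.N n
    omega
  · show d < X.k n
    omega
  · show X.k n + d < X.N n
    omega
  · show FarI (X.N n) (X.k n) L 0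
    unfold FarI
    omega
  · rw [ia_ph0 H he he1 he2 hbig hτ hd hi, if_neg (fun h => by simp at h), add_zero]
  · rw [ia_phN H he he1 he2 hbig hτ hd hi hi', if_pos ⟨k1, k2⟩, if_neg (by simp)]
    unfold bt
    ring

/-- (F7) The junction, image. -/
theorem ia_k (hi : i ∈ ja)
    (hp : Even ((X.q n (X.k n : ZMod (X.N n)) + a).1 + (X.q n (X.k n : ZMod (X.N n)) + a).2) ↔
      e' = true) :
    CJ d (IA X s e ja n τ a b' x) τ L e' (Real.pi - θ) := by
  have hR := Rf_sub S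
  have hja := H.ja_lt i hi
  rcases H.k_cases he he1 he2 hR hbig with hk | ⟨k1, k2, k3, k4, -⟩
  · rcases H.jun with ⟨h5, -⟩ | ⟨ia, h5, h6, -⟩
    · rw [h5] at hi
      exact absurd hi (notMem_empty i)
    · have ha : (i, (2 : Fin 3)) ∈ ids S (Rf S) ja := ids_k hi
      have h1 := H.mid he he1 he2 hR hbig (X.q n) ha (fun h => by simp at h; omega)
      rw [jn_k _ _ _ _ _ _ hja.1] at h1
      omega
  refine ⟨H.win_k he he1 he2 hR hbig hτ hd hi, k1, ?_, ?_, hp, fun l l1 l2 l3 => ?_⟩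
  · show X.k n + d < X.N n
    omega
  · show FarI (X.N n) (X.k n) L (X.k n)
    unfold FarI
    omega
  · show (rc θ (bt θ) τ (X.k n) l - phA θ (fun i => X.q n i + b') (X.k n)
        ((Rf S).image fun i => i * n - t0 S s n) (me e n) x l) -
      (rc θ (bt θ) τ (X.k n) (l - 1) - phA θ (fun i => X.q n i + b') (X.k n)
        ((Rf S).image fun i => i * n - t0 S s n) (me e n) x (l - 1)) =
      if l = X.k n then Real.pi - θ else 0
    have l1' : X.k n < l + d := l1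
    have l2' : l ≤ X.k n + d := l2
    have h5 := H.rc_k (θ' := θ) (β' := bt θ) he he1 he2 hR hbig hτ hd hi l3 l1'.le l2'
    have h6 := H.phA_k (θ' := θ) (fun i => X.q n i + b') (x := x) he he1 he2 hR hbig hd hi l3 l1'.le l2'
    rw [show ∀ p q r t : ℝ, (p - q) - (r - t) = (p - r) - (q - t) from fun p q r t => by ring,
      h5, h6, sub_zero]
    split_ifs
    · unfold bt
      ring
    · rfl

/-- (F8) The base, free or wired boundary conditions, image. -/
theorem ia_f (hab : ¬ (Even (a.1 + a.2) ↔ Even (b'.1 + b'.2))) (hk : X.k n = 0 ∨ X.k n = X.N n)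
    (hx : XOk (X.N n) (X.k n) (fun i => X.q n i + b') x) :
    WinI d (IA X s e ja n τ a b' x).N τ 0 0 ∧ 2 * d < (IA X s e ja n τ a b' x).N ∧
    (((Even (((IA X s e ja n τ a b' x).q 0).1 + ((IA X s e ja n τ a b' x).q 0).2) ↔ X.k n = 0) ∧
        (∀ i ≤ d, (IA X s e ja n τ a b' x).ρ i = (IA X s e ja n τ a b' x).ρ 0) ∧
        ∀ i < X.N n, X.N n ≤ i + d →
          (IA X s e ja n τ a b' x).ρ i = (IA X s e ja n τ a b' x).ρ 0 - 2 * θ) ∨
      ((Even (((IA X s e ja n τ a b' x).q 0).1 + ((IA X s e ja n τ a b' x).q 0).2) ↔ X.k n ≠ 0) ∧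
        (∀ i, 1 ≤ i → i ≤ d → (IA X s e ja n τ a b' x).ρ i = (IA X s e ja n τ a b' x).ρ 0 + θ) ∧
        ∀ i < X.N n, X.N n ≤ i + d →
          (IA X s e ja n τ a b' x).ρ i = (IA X s e ja n τ a b' x).ρ 0 - θ)) := by
  have hR := Rf_sub S
  have hLl := H.L_le he1
  have hn0 := H.n0
  have hp0 : Even ((X.q n 0 + a).1 + (X.q n 0 + a).2) ↔
      ¬ Even ((X.q n 0 + b').1 + (X.q n 0 + b').2) := par_ab hab _
  have hxk : x = true ↔ (Even ((X.q n 0 + b').1 + (X.q n 0 + b').2) ↔ X.k n = 0) := by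
    rcases hx with ⟨-, h⟩ | ⟨h5, h6, -⟩
    · exact h
    · omega
  have hkk : ¬ (0 < X.k n ∧ X.k n < X.N n) := by omega
  refine ⟨H.win_0 he he1 he2 hR hbig hτ hd, ?_, ?_⟩
  · show 2 * d < X.N n
    omega
  by_cases hxx : x = true
  · right
    refine ⟨?_, fun i i1 i2 => ?_, fun i i1 i2 => ?_⟩
    · show Even ((X.q n 0 + a).1 + (X.q n 0 + a).2) ↔ X.k n ≠ 0
      rw [hp0, hxk.1 hxx]
    · rw [ia_ph0 H he he1 he2 hbig hτ hd i2, if_pos ⟨hxx, i1⟩]
    · rw [ia_phN H he he1 he2 hbig hτ hd i1 i2, if_neg hkk, if_pos hxx]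
      ring
  · left
    refine ⟨?_, fun i i1 => ?_, fun i i1 i2 => ?_⟩
    · show Even ((X.q n 0 + a).1 + (X.q n 0 + a).2) ↔ X.k n = 0
      rw [hp0]
      have h5 : ¬ (Even ((X.q n 0 + b').1 + (X.q n 0 + b').2) ↔ X.k n = 0) :=
        fun h => hxx (hxk.2 h)
      by_cases h6 : Even ((X.q n 0 + b').1 + (X.q n 0 + b').2)
      · exact iff_of_false (not_not.2 h6) (fun h7 => h5 (iff_of_true h6 h7))
      · exact iff_of_true h6 (by
          by_contra h7
          exact h5 (iff_of_false h6 h7))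
    · rw [ia_ph0 H he he1 he2 hbig hτ hd i1, if_neg (fun h => hxx h.1), add_zero]
    · rw [ia_phN H he he1 he2 hbig hτ hd i1 i2, if_neg hkk, if_neg hxx]
      ring

end fam

end Vale.Agent.P167.N.QL
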