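import Vale.Agent.P167.N.QL.Al15
import Vale.Agent.P167.N.QL.Loc

/-!
# P167, the range `0 < q < 1`, block Q-LAM: assembly, the centres without charge

At the convex corners, at the junction and, with Dobrushin boundary conditions, at the base the
phases of the natural functionals do not change: the mean value of the local factor is `1`.
-/

set_option autoImplicit false
set_option linter.unusedSectionVars false

namespace Vale.Agent.P167.N.QL

open Finset Filter Vale.Agent.P167.BR Vale.Agent.P167.FK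
open Vale.Agent.P167.E6 (IsPolygon Encloses face dir)
open Vale.Agent.P167.H718 (Dob rc IsCl poly_add encl_add)
open Vale.Agent.P167.H871 (Bd)
open Vale.Agent.P167.H192.Q (SRSW)
open Vale.Agent.P167.H542.Q (BD)
open Vale.Agent.P167.H975 (TX)

variable {θ : ℝ} {S : CA.Dat} {X : BD S θ (bt θ)} {s : ℕ → ℕ} {e C : ℝ} {ja : Finset ℕ}
  {n d L i : ℕ} {τ : ℕ → ℤ} {a b' : ℤ × ℤ} {x w e' : Bool} {r m : ℤ} {η η₀ : Cfg}

/-! ### one polygon -/

section one

variable {P : PD} {c : ℕ}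

/-- No charge in a window away from the base. -/
theorem e_one_mid (h1 : Ang θ) (hG : GeoP n P.N P.q) (hq : IsPolygon P.q)
    (hD : Encloses P.q P.D) (hr : 3 * (r + 1) < n) (hrd : 2 * (r + 1) ≤ d) (hc : d ≤ c)
    (hc' : c + d < P.N)
    (h : ∀ i, c ≤ i + d → i ≤ c + d → 0 < i → P.ρ i - P.ρ (i - 1) = 0) :
    P.e θ (bt θ) η r c = 1 := by
  refine e_one (P := P) (ρ := P.ρ) (J := P.J) (by linarith [h1.cos_pos]) hG hq hD (by omega)
    h1.cos_pos.ne' h1.sin_pos.ne' (cos_bt θ) hr fun x y hxy hy hx hy' => ?_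
  obtain ⟨a1, a2⟩ := win_mid hx (by omega) hrd hc hc'
  obtain ⟨a3, a4⟩ := win_mid hy' hy hrd hc hc'
  have h2 := sub_of_inc (ρ := P.ρ) (ρ' := fun _ => 0) hxy.le fun i h3 h4 => by
    rw [h i (by omega) (by omega) (by omega), sub_self]
  rw [sub_self] at h2
  exact sub_eq_zero.1 h2

/-- No charge in the window around the base. -/
theorem e_one_base (h1 : Ang θ) (hG : GeoP n P.N P.q) (hq : IsPolygon P.q)
    (hD : Encloses P.q P.D) (hr : 3 * (r + 1) < n) (hrd : 2 * (r + 1) ≤ d)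
    (h : ∀ i, i ≤ d ∨ P.N ≤ i + d → P.ρ i = 0) : P.e θ (bt θ) η r 0 = 1 := by
  refine e_one (P := P) (ρ := P.ρ) (J := P.J) (by linarith [h1.cos_pos]) hG hq hD (by omega)
    h1.cos_pos.ne' h1.sin_pos.ne' (cos_bt θ) hr fun x y _ _ hx hy' => ?_
  rw [h x (win_zero hx hrd), h y (win_zero hy' hrd)]

end one

section fam

variable (H : Sc X s e (Rf S) ja C n) (he : 0 < e) (he1 : 2 * e ≤ S.tp) (he2 : e ≤ 1 - S.tp)
  (hbig : 8 * (C + 1) < e * n)
  (hτ : Bd (S.D n : Set (ℤ × ℤ)) (X.N n) (fun i => X.q n (i : ZMod (X.N n))) τ 1)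
  (hd : d + 3 ≤ ⌊e / 2 * n⌋₊) (hd0 : 0 < d) (hL : L ≤ ⌊e / 2 * n⌋₊)
include H he he1 he2 hbig hτ hd hd0 hL

/-- (F9) Convex corners, natural: no charge. -/
theorem na_c_one (h1 : Ang θ) (hi : i ∈ Tn S) (hi' : i ∉ Rf S) (hr : 3 * (r + 1) < (n : ℤ))
    (hrd : 2 * (r + 1) ≤ (d : ℤ)) :
    (NA X s e ja n a x).e θ (bt θ) η r (i * n - t0 S s n) = 1 := by
  have hR := Rf_sub S
  have hc : (i, (0 : Fin 3)) ∈ ids S (Rf S) ja := ids_c hi
  have hm := H.mid he he1 he2 hR hbig (X.q n) hc (fun h => by simp at h)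
  rw [jn_c] at hm
  exact e_one_mid (P := NA X s e ja n a x) h1
    (geoP_enl (a := a) S.poly S.enc H.n0 (poly_add H.poly a) (encl_add H.enc a))
    (poly_add H.poly a) (encl_add H.enc a) hr hrd (by omega)
    (show i * n - t0 S s n + d < X.N n by omega) fun l l1 l2 l3 =>
      H.phA_c (fun i => X.q n i + a) he he1 he2 hR hbig hd hi hi' l3 l1 l2

/-- (F10) The junction, natural: no charge. -/
theorem na_k_one (h1 : Ang θ) (hi : i ∈ ja) (hr : 3 * (r + 1) < (n : ℤ))
    (hrd : 2 * (r + 1) ≤ (d : ℤ)) : (NA X s e ja n a x).e θ (bt θ) η r (X.k n) = 1 := by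
  have hR := Rf_sub S
  have hi0 := (H.ja_lt i hi).1
  have hc : (i, (2 : Fin 3)) ∈ ids S (Rf S) ja := ids_k hi
  have hm := H.mid he he1 he2 hR hbig (X.q n) hc (fun h => by simp at h; omega)
  rw [jn_k _ _ _ _ _ _ hi0] at hm
  exact e_one_mid (P := NA X s e ja n a x) h1
    (geoP_enl (a := a) S.poly S.enc H.n0 (poly_add H.poly a) (encl_add H.enc a))
    (poly_add H.poly a) (encl_add H.enc a) hr hrd (by omega)
    (show X.k n + d < X.N n by omega) fun l l1 l2 l3 =>
      H.phA_k (fun i => X.q n i + a) he he1 he2 hR hbig hd hi l3 l1 l2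

/-- (F11) The base, natural: no charge. -/
theorem na_b_one (h1 : Ang θ) (hr : 3 * (r + 1) < (n : ℤ))
    (hrd : 2 * (r + 1) ≤ (d : ℤ)) : (NA X s e ja n a false).e θ (bt θ) η r 0 = 1 := by
  refine e_one_base (P := NA X s e ja n a false) h1
    (geoP_enl (a := a) S.poly S.enc H.n0 (poly_add H.poly a) (encl_add H.enc a))
    (poly_add H.poly a) (encl_add H.enc a) hr hrd fun l hl => ?_
  exact (H.phA_b (fun i => X.q n i + a) he he1 he2 (Rf_sub S) hbig hd hl).trans
    (if_neg fun h => absurd h.1 (by decide))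

end fam

end Vale.Agent.P167.N.QL
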