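import Vale.Agent.P167.N.QL.Al15
import Vale.Agent.P167.N.QL.Loc

/-!
# P167, the range `0 < q < 1`, block Q-LAM: the base of the natural functionals

`na_b_ge`: the local factor at the base with the charge `-θ` at the index `1` is at least `wl θ`: only the
piece with the foot `0` has a weight different from one.
-/

set_option autoImplicit false

namespace Vale.Agent.P167.N.QL

open Finset Filter Vale.Agent.P167.BR Vale.Agent.P167.FK
open Vale.Agent.P167.E6 (IsPolygon Encloses)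
open Vale.Agent.P167.FKA (Ex_mono Ex_const)
open Vale.Agent.P167.H718 (poly_add encl_add)
open Vale.Agent.P167.H871 (Bd)
open Vale.Agent.P167.H542.Q (BD)
open Vale.Agent.P167.H601.LG (feet)
open Vale.Agent.P167.H975 (TX)
open Vale.Agent.P167.QX (lo hi)

/-- **Only the strand with the foot `0` has a weight different from one.** -/
theorem TX_base_ge {θ β : ℝ} {N n k : ℕ} {q : ZMod N → ℤ × ℤ} {D : Finset (ℤ × ℤ)} {ρ : ℕ → ℝ}
    {r : ℤ} (h0 : 0 < θ) (h1 : θ < Real.pi / 2) (hβ : Real.cos (θ / 2 + β) = Real.sin θ)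
    (hG : GeoP n N q) (hq : IsPolygon q) (hD : Encloses q D) (hr : 3 * (r + 1) < (n : ℤ))
    (hP : PC θ β q D k ρ (wl θ) (q 0) r)
    (hρ : ∀ x y : ℕ, 0 < x → x < y → y < N → Win N 0 (2 * (r + 1)) x →
      Win N 0 (2 * (r + 1)) y → ρ y = ρ x) (ω : Cfg) :
    wl θ ≤ TX (wP θ β q D k ρ) D (q 0) r ω := by
  classical
  have hs : Real.sin θ ≠ 0 := (Real.sin_pos_of_pos_of_lt_pi h0 (by linarith [Real.pi_pos])).ne'
  have hc : Real.cos θ ≠ 0 := (Real.cos_pos_of_mem_Ioo ⟨by linarith, h1⟩).ne'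
  have e0 : q 0 = q ((0 : ℕ) : ZMod N) := by rw [Nat.cast_zero]
  unfold TX
  obtain ⟨W, hW⟩ : ∃ W, W = (pcs ω D).filter fun A => ∀ e ∈ A, hdv e ∈ Bq (q 0) r := ⟨_, rfl⟩
  have hmem : ∀ A ∈ W, A ∈ pcs ω D ∧ ∀ e ∈ A, hdv e ∈ Bq (q 0) r := fun A hA => by
    rw [hW, mem_filter] at hA
    exact hA
  -- the other pieces
  have hone : ∀ A ∈ W, ¬ (¬ IsLp D A ∧ lo q A = 0) → wP θ β q D k ρ A = 1 := by
    intro A hA hne
    obtain ⟨hA1, hA2⟩ := hmem A hA
    by_cases hl : IsLp D A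
    · exact wP_lp hq hD hA1 hl hc
    · have h3 : 0 < lo q A := by
        by_contra hcon
        exact hne ⟨hl, by omega⟩
      obtain ⟨f1, f2, -, -⟩ := feet hq hD hA1 hl
      rw [e0] at hA2
      obtain ⟨g1, g2⟩ := feet_win hG hq hD hA1 hl (Nat.zero_le N) hr hA2
      exact wP_one hs hc hβ (hρ _ _ h3 f1 f2 g1 g2)
  have key : ∏ A ∈ W, wP θ β q D k ρ A = ∏ A ∈ W.filter (fun A => ¬ IsLp D A ∧ lo q A = 0),
      wP θ β q D k ρ A := by
    refine (prod_subset (filter_subset _ _) fun A hA hA' => hone A hA fun h => hA' ?_).symm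
    exact mem_filter.2 ⟨hA, h⟩
  have hcard : (W.filter (fun A => ¬ IsLp D A ∧ lo q A = 0)).card ≤ 1 := by
    refine card_le_one.2 fun A hA B hB => ?_
    rw [mem_filter] at hA hB
    have hA1 := (hmem A hA.1).1
    have hB1 := (hmem B hB.1).1
    obtain ⟨-, -, a3, -⟩ := feet hq hD hA1 hA.2.1
    obtain ⟨-, -, b3, -⟩ := feet hq hD hB1 hB.2.1
    rw [hA.2.2] at a3
    rw [hB.2.2] at b3
    exact eq_of_mem_pcs hA1 hB1 a3 b3
  have hgoal : wl θ ≤ ∏ A ∈ W, wP θ β q D k ρ A := by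
    rw [key]
    rcases Nat.eq_zero_or_pos (W.filter (fun A => ¬ IsLp D A ∧ lo q A = 0)).card with h | h
    · rw [card_eq_zero.1 h, prod_empty]
      exact wl_le_one θ
    · obtain ⟨A, hA⟩ := card_eq_one.1 (le_antisymm hcard h)
      have hA1 : A ∈ W.filter (fun A => ¬ IsLp D A ∧ lo q A = 0) := by
        rw [hA]
        exact mem_singleton_self A
      rw [hA, prod_singleton]
      have h3 := hmem A (mem_filter.1 hA1).1
      exact hP ω A h3.1 h3.2
  rw [hW] at hgoal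
  refine hgoal.trans (le_of_eq (prod_congr ?_ fun _ _ => rfl))
  ext A
  simp only [mem_filter]

section fam

variable {θ : ℝ} {S : CA.Dat} {X : BD S θ (bt θ)} {s : ℕ → ℕ} {e C : ℝ} {ja : Finset ℕ}
  {n d L i : ℕ} {τ : ℕ → ℤ} {a b' : ℤ × ℤ} {x w e' : Bool} {r m : ℤ} {η η₀ : Cfg}

variable (H : Sc X s e (Rf S) ja C n) (he : 0 < e) (he1 : 2 * e ≤ S.tp) (he2 : e ≤ 1 - S.tp)
  (hbig : 8 * (C + 1) < e * n)
  (hτ : Bd (S.D n : Set (ℤ × ℤ)) (X.N n) (fun i => X.q n (i : ZMod (X.N n))) τ 1)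
  (hd : d + 3 ≤ ⌊e / 2 * n⌋₊) (hd0 : 0 < d) (hL : L ≤ ⌊e / 2 * n⌋₊)
include H he he1 he2 hbig hτ hd hd0 hL

/-- (F12) The base, natural, with the charge `-θ` at the index `1`. -/
theorem na_b_ge (h0 : 0 < θ) (h1 : Ang θ)
    (hx : XOk (X.N n) (X.k n) (fun i => X.q n i + a) true) (hr0 : 1 ≤ r)
    (hr : 3 * (r + 1) < (n : ℤ)) (hrd : 2 * (r + 1) ≤ (d : ℤ)) :
    wl θ ≤ (NA X s e ja n a true).e θ (bt θ) η r 0 := by
  have hlt := h1.lt
  have hLl := H.L_le he1
  have hn0 := H.n0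
  have hR := Rf_sub S
  have hk : X.k n = 0 ∨ X.k n = X.N n := by
    rcases hx with ⟨h, -⟩ | ⟨-, -, h⟩
    · exact h
    · exact absurd h (by decide)
  obtain ⟨q', hq'⟩ : ∃ q' : ZMod (X.N n) → ℤ × ℤ, q' = fun i => X.q n i + a := ⟨_, rfl⟩
  obtain ⟨D', hD'⟩ : ∃ D', D' = (S.D n).image (· + a) := ⟨_, rfl⟩
  have hG : GeoP n (X.N n) q' := by
    rw [hq']
    exact geoP_enl (a := a) S.poly S.enc H.n0 (poly_add H.poly a) (encl_add H.enc a)
  have hq : IsPolygon q' := by rw [hq']; exact poly_add H.poly a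
  have hD : Encloses q' D' := by rw [hq', hD']; exact encl_add H.enc a
  unfold PD.e
  show wl θ ≤ Ex (2 * Real.cos θ) ((S.D n).image (· + a)) η
    (TX (wP θ (bt θ) (fun i => X.q n i + a) ((S.D n).image (· + a)) (X.k n)
      (phA θ (fun i => X.q n i + a) (X.k n) ((Rf S).image fun i => i * n - t0 S s n) (me e n)
        true)) ((S.D n).image (· + a)) ((fun i => X.q n i + a) ((0 : ℕ) : ZMod (X.N n))) r)
  rw [← hq', ← hD', Nat.cast_zero]
  obtain ⟨ρ, hρ⟩ : ∃ ρ, ρ = phA θ q' (X.k n) ((Rf S).image fun i => i * n - t0 S s n) (me e n)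
    true := ⟨_, rfl⟩
  rw [← hρ]
  have hph : ∀ i, i ≤ d ∨ X.N n ≤ i + d → ρ i = if 1 ≤ i then -θ else 0 := fun i hi => by
    rw [hρ, H.phA_b q' he he1 he2 hR hbig hd hi]
    simp
  have hP : PC θ (bt θ) q' D' (X.k n) ρ (wl θ) (q' 0) r := by
    refine pc_fw h0 hlt hG hq hD hr hrd hk (by omega) (fun i hi l hl hil => ?_)
      (fun i hi l hl hiN hlN hil => ?_) (fun i hi l hl hlN => ?_)
    · rw [hph i (Or.inl hi), hph l (Or.inl hl)]
      rcases Nat.eq_zero_or_pos i with rfl | hi0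
      · rw [if_neg (show ¬ 1 ≤ 0 by omega)]
        split_ifs <;> constructor <;> linarith
      · rw [if_pos (show 1 ≤ l by omega), if_pos (show 1 ≤ i by omega)]
        constructor <;> linarith
    · rw [hph i (Or.inr hiN), hph l (Or.inr hlN), if_pos (show 1 ≤ l by omega),
        if_pos (show 1 ≤ i by omega)]
      constructor <;> linarith
    · rw [hph i (Or.inl hi), hph l (Or.inr hlN), if_pos (show 1 ≤ l by omega)]
      split_ifs <;> constructor <;> linarith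
  have hb := TX_base_ge h0 hlt (cos_bt θ) hG hq hD hr hP fun y z h2 h3 h4 h5 h6 => by
    have a1 := win_zero h5 hrd
    have a2 := win_zero h6 hrd
    rw [hph y a1, hph z a2, if_pos (show 1 ≤ z by omega), if_pos (show 1 ≤ y by omega)]
  have hQ : 0 < 2 * Real.cos θ := h1.kit.pos
  calc wl θ = Ex (2 * Real.cos θ) D' η (fun _ => wl θ) := (Ex_const hQ _).symm
    _ ≤ _ := Ex_mono hQ fun T _ => hb _

end fam

end Vale.Agent.P167.N.QL
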