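import Vale.Agent.P167.N.QL.FamE
import Vale.Agent.P167.N.QL.Al2

/-!
# P167, the range `0 < q < 1`, block Q-LAM: from the local comparisons to the mean values

`fam_alg`, `lam_alg`: real numbers. `VP_na`: the values of the functionals on two translates.
-/

set_option autoImplicit false

namespace Vale.Agent.P167.N.QL

open Finset Filter Vale.Agent.P167.BR Vale.Agent.P167.FK
open Vale.Agent.P167.E6 (IsPolygon Encloses dir face)
open Vale.Agent.P167.H718 (Dob rc lam poly_add encl_add bd_add ZQ_stag_pos)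
open Vale.Agent.P167.H871 (Bd)
open Vale.Agent.P167.H542.Q (BD)

/-! ### real numbers -/

/-- **The product of the local comparisons.** -/
theorem fam_alg {T R : Finset ℕ} (hcard : T.card = R.card + 4) {A C : ℝ} (hA : 0 < A) (hC : 1 ≤ C)
    {α β ζ κ ξ : ℕ → ℝ} {δ ε : ℝ} (h1 : ∀ i ∈ T, 0 ≤ α i ∧ α i ≤ C * A)
    (h2 : ∀ i ∈ R, 0 ≤ β i ∧ 0 ≤ ζ i ∧ β i ≤ C * A ^ 3 * ζ i)
    (h3 : ∀ i ∈ R, 0 ≤ κ i ∧ κ i * A ^ 4 ≤ C ∧ 1 ≤ C * ξ i)
    (h4 : 0 ≤ δ ∧ δ * A ^ 4 ≤ C ∧ 1 ≤ C * ε) :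
    δ * (∏ i ∈ T, α i) * (∏ i ∈ R, β i) * (∏ i ∈ R, κ i) ≤
      C ^ (4 * R.card + 6) * (ε * (∏ i ∈ R, ζ i) * ∏ i ∈ R, ξ i) := by
  have hC0 : 0 < C := by linarith
  obtain ⟨m, hm⟩ : ∃ m, m = R.card := ⟨_, rfl⟩
  rw [← hm] at hcard ⊢
  have a1 : ∏ i ∈ T, α i ≤ (C * A) ^ (m + 4) := by
    rw [← hcard, ← prod_const]
    exact prod_le_prod (fun i hi => (h1 i hi).1) fun i hi => (h1 i hi).2
  have a1' : 0 ≤ ∏ i ∈ T, α i := prod_nonneg fun i hi => (h1 i hi).1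
  have a2 : ∏ i ∈ R, β i ≤ (C * A ^ 3) ^ m * ∏ i ∈ R, ζ i := by
    rw [hm, ← prod_const, ← prod_mul_distrib]
    exact prod_le_prod (fun i hi => (h2 i hi).1) fun i hi => (h2 i hi).2.2
  have a2' : 0 ≤ ∏ i ∈ R, β i := prod_nonneg fun i hi => (h2 i hi).1
  have a2'' : 0 ≤ ∏ i ∈ R, ζ i := prod_nonneg fun i hi => (h2 i hi).2.1
  have a3 : (∏ i ∈ R, κ i) * (A ^ 4) ^ m ≤ C ^ m := by
    rw [hm, ← prod_const, ← prod_const, ← prod_mul_distrib]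
    exact prod_le_prod (fun i hi => mul_nonneg (h3 i hi).1 (by positivity))
      fun i hi => (h3 i hi).2.1
  have a3' : 0 ≤ ∏ i ∈ R, κ i := prod_nonneg fun i hi => (h3 i hi).1
  have a4 : 1 ≤ C ^ m * ∏ i ∈ R, ξ i := by
    rw [hm, ← prod_const, ← prod_mul_distrib]
    calc (1 : ℝ) = ∏ _i ∈ R, (1 : ℝ) := by rw [prod_const_one]
      _ ≤ _ := prod_le_prod (fun _ _ => zero_le_one) fun i hi => (h3 i hi).2.2
  obtain ⟨d1, d2, d3⟩ := h4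
  obtain ⟨x, hx⟩ : ∃ x, x = ∏ i ∈ R, ξ i := ⟨_, rfl⟩
  obtain ⟨z, hz⟩ : ∃ z, z = ∏ i ∈ R, ζ i := ⟨_, rfl⟩
  obtain ⟨k, hk⟩ : ∃ k, k = ∏ i ∈ R, κ i := ⟨_, rfl⟩
  rw [← hk] at a3 a3'
  rw [← hx] at a4
  rw [← hz] at a2 a2''
  rw [← hx, ← hz, ← hk]
  have hA4 : 0 < A ^ 4 := by positivity
  have hA4m : 0 < (A ^ 4) ^ m := by positivity
  have e1 : (C * A) ^ (m + 4) * ((C * A ^ 3) ^ m * z) * (C ^ m) * C =
      (C ^ (3 * m + 5) * z) * ((A ^ 4) * (A ^ 4) ^ m) := by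
    have : (A ^ 4) ^ m = A ^ m * (A ^ 3) ^ m := by
      rw [← mul_pow]
      ring
    rw [this, mul_pow, mul_pow]
    ring
  have e2 : δ * (∏ i ∈ T, α i) * (∏ i ∈ R, β i) * k * ((A ^ 4) * (A ^ 4) ^ m) ≤
      (C ^ (3 * m + 5) * z) * ((A ^ 4) * (A ^ 4) ^ m) := by
    rw [← e1]
    calc δ * (∏ i ∈ T, α i) * (∏ i ∈ R, β i) * k * ((A ^ 4) * (A ^ 4) ^ m) =
        ((∏ i ∈ T, α i) * (∏ i ∈ R, β i)) * ((k * (A ^ 4) ^ m) * (δ * A ^ 4)) := by ring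
      _ ≤ ((C * A) ^ (m + 4) * ((C * A ^ 3) ^ m * z)) * (C ^ m * C) := by
          refine mul_le_mul (mul_le_mul a1 a2 a2' (by positivity))
            (mul_le_mul a3 d2 (by positivity) (by positivity)) (by positivity) (by positivity)
      _ = _ := by ring
  have e3 := le_of_mul_le_mul_right e2 (mul_pos hA4 hA4m)
  refine e3.trans ?_
  have e4 : 1 ≤ (C * ε) * (C ^ m * x) := one_le_mul_of_one_le_of_one_le d3 a4
  calc C ^ (3 * m + 5) * z = C ^ (3 * m + 5) * z * 1 := by ring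
    _ ≤ C ^ (3 * m + 5) * z * ((C * ε) * (C ^ m * x)) :=
        mul_le_mul_of_nonneg_left e4 (by positivity)
    _ = _ := by ring

/-- **The lower bound for the value.** -/
theorem lam_alg {E₁ x₁ x₂ y₁ y₂ V₁ V₂ W₁ W₂ C C' c : ℝ} (hC : 0 < C) (hC' : 0 < C') (hc : 0 < c)
    (hx₂ : 0 ≤ x₂) (hy₁ : 0 < y₁) (hy₂ : 0 < y₂) (hV₁ : 0 < V₁)
    (hV : V₁ * V₂ = W₁ * W₂) (h1 : E₁ ≤ C * x₁) (h2 : V₂ ≤ C * x₂) (h3 : c * y₁ ≤ W₁)
    (h4 : c * y₂ ≤ W₂) (h5 : x₁ * x₂ ≤ C' * (y₁ * y₂)) : E₁ ≤ C ^ 2 * C' / c ^ 2 * V₁ := by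
  have hW₁ : 0 < W₁ := lt_of_lt_of_le (by positivity) h3
  have hW₂ : 0 < W₂ := lt_of_lt_of_le (by positivity) h4
  have hV₂ : 0 < V₂ := by
    have h6 : 0 < V₁ * V₂ := by rw [hV]; exact mul_pos hW₁ hW₂
    exact (mul_pos_iff_of_pos_left hV₁).1 h6
  have hx₂' : 0 < x₂ := by
    by_contra hcon
    have : x₂ = 0 := le_antisymm (not_lt.1 hcon) hx₂
    rw [this, mul_zero] at h2
    linarith
  have h6 : c ^ 2 * (y₁ * y₂) ≤ V₁ * (C * x₂) := by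
    calc c ^ 2 * (y₁ * y₂) = (c * y₁) * (c * y₂) := by ring
      _ ≤ W₁ * W₂ := mul_le_mul h3 h4 (by positivity) hW₁.le
      _ = V₁ * V₂ := hV.symm
      _ ≤ V₁ * (C * x₂) := mul_le_mul_of_nonneg_left h2 hV₁.le
  have h7 : (c ^ 2 * x₁) * x₂ ≤ (C * C' * V₁) * x₂ := by
    calc (c ^ 2 * x₁) * x₂ = c ^ 2 * (x₁ * x₂) := by ring
      _ ≤ c ^ 2 * (C' * (y₁ * y₂)) := mul_le_mul_of_nonneg_left h5 (by positivity)
      _ = C' * (c ^ 2 * (y₁ * y₂)) := by ring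
      _ ≤ C' * (V₁ * (C * x₂)) := mul_le_mul_of_nonneg_left h6 hC'.le
      _ = _ := by ring
  have h8 := le_of_mul_le_mul_right h7 hx₂'
  have h9 : x₁ ≤ C * C' / c ^ 2 * V₁ := by
    rw [div_mul_eq_mul_div, le_div_iff₀ (by positivity)]
    linarith
  calc E₁ ≤ C * x₁ := h1
    _ ≤ C * (C * C' / c ^ 2 * V₁) := mul_le_mul_of_nonneg_left h9 hC.le
    _ = _ := by ring

/-! ### the values -/

variable {S : CA.Dat} {θ β : ℝ} {X : BD S θ β} {s : ℕ → ℕ} {e C : ℝ} {Rs ja : Finset ℕ} {n : ℕ}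
  {τ : ℕ → ℤ} {a b' : ℤ × ℤ} {x x' : Bool}

/-- **The values of the functionals on two translates.** -/
theorem VP_na (H : Sc X s e Rs ja C n) (hs : 0 < Real.sin θ) (hc : 0 < Real.cos θ)
    (hβ : Real.cos (θ / 2 + β) = Real.sin θ)
    (hτ : Bd (S.D n : Set (ℤ × ℤ)) (X.N n) (fun i => X.q n (i : ZMod (X.N n))) τ 1)
    (hab : ¬ (Even (a.1 + a.2) ↔ Even (b'.1 + b'.2))) :
    VP θ β (IA X s e ja n τ a b' x) * VP θ β (IA X s e ja n τ b' a x') =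
      VP θ β (NA X s e ja n b' x) * VP θ β (NA X s e ja n a x') := by
  have hodd : ¬ Even ((a - b').1 + (a - b').2) := by
    simp only [Prod.fst_sub, Prod.snd_sub]
    rw [Int.even_iff, Int.even_iff] at hab
    rw [Int.even_iff]
    omega
  refine VP_two (b := a - b') (b' := b' - a) hs hc hβ hodd (poly_add H.poly b')
    (encl_add H.enc b') (bd_add hτ b') ?_ ?_ ?_ ?_ _ _ _ _ _ _
  · funext i
    simp only [add_assoc, add_sub_cancel]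
  · rw [image_image]
    congr 1
    funext v
    simp only [Function.comp, add_assoc, add_sub_cancel]
  · funext i
    simp only [add_assoc, add_sub_cancel]
  · rw [image_image]
    congr 1
    funext v
    simp only [Function.comp, add_assoc, add_sub_cancel]

/-- The value of the image is positive if the value of the natural functional is. -/
theorem VP_na_pos (H : Sc X s e Rs ja C n) (hs : 0 < Real.sin θ) (hc : 0 < Real.cos θ)
    (hβ : Real.cos (θ / 2 + β) = Real.sin θ)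
    (hτ : Bd (S.D n : Set (ℤ × ℤ)) (X.N n) (fun i => X.q n (i : ZMod (X.N n))) τ 1)
    (hab : ¬ (Even (a.1 + a.2) ↔ Even (b'.1 + b'.2))) (h : 0 < VP θ β (NA X s e ja n b' x)) :
    0 < VP θ β (IA X s e ja n τ a b' x) := by
  have hodd : ¬ Even ((a - b').1 + (a - b').2) := by
    simp only [Prod.fst_sub, Prod.snd_sub]
    rw [Int.even_iff, Int.even_iff] at hab
    rw [Int.even_iff]
    omega
  have e1 : (fun i => X.q n i + a) = fun i => (X.q n i + b') + (a - b') := by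
    funext i
    simp only [add_assoc, add_sub_cancel]
  have e2 : (S.D n).image (· + a) = ((S.D n).image (· + b')).image (· + (a - b')) := by
    rw [image_image]
    congr 1
    funext v
    simp only [Function.comp, add_assoc, add_sub_cancel]
  have h1 := VP_im' (b := a - b') (k := X.k n) hs hc hβ hodd (poly_add H.poly b')
    (encl_add H.enc b') (bd_add hτ b') e1 e2
    (phA θ (fun i => X.q n i + b') (X.k n) ((Rf S).image fun i => i * n - t0 S s n) (me e n) x)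
    (IA X s e ja n τ a b' x).J (NA X s e ja n b' x).J
  have h2 : VP θ β (IA X s e ja n τ a b' x) =
      lam θ β (fun i => X.q n i + b') ((S.D n).image (· + b')) (X.k n) (a - b') *
        VP θ β (NA X s e ja n b' x) := h1
  rw [h2]
  refine mul_pos ?_ h
  unfold lam
  refine div_pos (ZQ_stag_pos (poly_add H.poly b') (encl_add H.enc b') hs.ne' hc hβ hs) ?_
  exact ZQ_stag_pos (poly_add (poly_add H.poly b') _) (encl_add (encl_add H.enc b') _) hs.ne' hc hβ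
    hs

/-! ### the products -/

/-- **The product inequality from the inequalities at the centres**, at one scale. -/
theorem Sc.prod_fix (H : Sc X s e (Rf S) ja C n) (he : 0 < e) (he1 : 2 * e ≤ S.tp)
    (he2 : e ≤ 1 - S.tp) (hbig : 8 * (C + 1) < e * n) {N₁ N₂ : ℕ} (q₁ : ZMod N₁ → ℤ × ℤ)
    (q₂ : ZMod N₂ → ℤ × ℤ) {f₁ f₂ g₁ g₂ : ℕ → ℝ} {A K : ℝ} (hA : 0 < A) (hK : 1 ≤ K)
    (h1 : ∀ i ∈ Tn S \ Rf S, 0 ≤ f₁ (i * n - t0 S s n) * f₂ (i * n - t0 S s n) ∧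
      f₁ (i * n - t0 S s n) * f₂ (i * n - t0 S s n) ≤ K * A ∧
      g₁ (i * n - t0 S s n) = 1 ∧ g₂ (i * n - t0 S s n) = 1)
    (h2 : ∀ i ∈ Rf S, 0 ≤ f₁ (i * n - t0 S s n) * f₂ (i * n - t0 S s n) ∧
      0 ≤ g₁ (i * n - t0 S s n) * g₂ (i * n - t0 S s n) ∧
      f₁ (i * n - t0 S s n) * f₂ (i * n - t0 S s n) ≤
        K * A ^ 3 * (g₁ (i * n - t0 S s n) * g₂ (i * n - t0 S s n)))
    (h3 : ∀ i ∈ Rf S, 0 ≤ f₁ (rI q₁ (X.k n) (i * n - t0 S s n) + me e n) *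
        f₂ (rI q₂ (X.k n) (i * n - t0 S s n) + me e n) ∧
      f₁ (rI q₁ (X.k n) (i * n - t0 S s n) + me e n) *
        f₂ (rI q₂ (X.k n) (i * n - t0 S s n) + me e n) * A ^ 4 ≤ K ∧
      1 ≤ K * (g₁ (rI q₁ (X.k n) (i * n - t0 S s n) + me e n) *
        g₂ (rI q₂ (X.k n) (i * n - t0 S s n) + me e n)))
    (h4 : 0 ≤ f₁ 0 * f₂ 0 * ∏ _i ∈ ja, (f₁ (X.k n) * f₂ (X.k n)) ∧
      f₁ 0 * f₂ 0 * (∏ _i ∈ ja, (f₁ (X.k n) * f₂ (X.k n))) * A ^ 4 ≤ K ∧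
      1 ≤ K * (g₁ 0 * g₂ 0 * ∏ _i ∈ ja, (g₁ (X.k n) * g₂ (X.k n)))) :
    (∏ j ∈ (ids S (Rf S) ja).image (jn q₁ (X.k n) (t0 S s n) (me e n) n), f₁ j) *
        (∏ j ∈ (ids S (Rf S) ja).image (jn q₂ (X.k n) (t0 S s n) (me e n) n), f₂ j) ≤
      K ^ (4 * (Rf S).card + 6) *
        ((∏ j ∈ (ids S (Rf S) ja).image (jn q₁ (X.k n) (t0 S s n) (me e n) n), g₁ j) *
          ∏ j ∈ (ids S (Rf S) ja).image (jn q₂ (X.k n) (t0 S s n) (me e n) n), g₂ j) := by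
  have hR := Rf_sub S
  rw [H.prod_ids he he1 he2 hR hbig q₁ f₁, H.prod_ids he he1 he2 hR hbig q₂ f₂,
    H.prod_ids he he1 he2 hR hbig q₁ g₁, H.prod_ids he he1 he2 hR hbig q₂ g₂]
  have key := fam_alg (T := Tn S \ Rf S) (R := Rf S) (card_turn S) hA hK
    (α := fun i => f₁ (i * n - t0 S s n) * f₂ (i * n - t0 S s n))
    (β := fun i => f₁ (i * n - t0 S s n) * f₂ (i * n - t0 S s n))
    (ζ := fun i => g₁ (i * n - t0 S s n) * g₂ (i * n - t0 S s n))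
    (κ := fun i => f₁ (rI q₁ (X.k n) (i * n - t0 S s n) + me e n) *
      f₂ (rI q₂ (X.k n) (i * n - t0 S s n) + me e n))
    (ξ := fun i => g₁ (rI q₁ (X.k n) (i * n - t0 S s n) + me e n) *
      g₂ (rI q₂ (X.k n) (i * n - t0 S s n) + me e n))
    (δ := f₁ 0 * f₂ 0 * ∏ _i ∈ ja, (f₁ (X.k n) * f₂ (X.k n)))
    (ε := g₁ 0 * g₂ 0 * ∏ _i ∈ ja, (g₁ (X.k n) * g₂ (X.k n)))
    (fun i hi => ⟨(h1 i hi).1, (h1 i hi).2.1⟩) h2 h3 h4
  have e1 : ∏ i ∈ Tn S \ Rf S, g₁ (i * n - t0 S s n) = 1 :=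
    prod_eq_one fun i hi => (h1 i hi).2.2.1
  have e2 : ∏ i ∈ Tn S \ Rf S, g₂ (i * n - t0 S s n) = 1 :=
    prod_eq_one fun i hi => (h1 i hi).2.2.2
  rw [e1, e2]
  simp only [prod_mul_distrib] at key
  refine le_trans (le_of_eq ?_) (key.trans (le_of_eq ?_))
  · ring
  · ring

end Vale.Agent.P167.N.QL
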