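import Vale.Agent.P167.N.QL.Loc
import Vale.Agent.P167.N.QL.K4
import Vale.Agent.P167.N.QL.NsPos
import Vale.Agent.P167.N.QL.KcR

/-!
# P167, the range `0 < q < 1`, block Q-LAM: the mean values of the natural functionals are positive

`refl_pos`: the local factor of a reflex corner has a positive mean value. `na_e_pos`: all the local
factors of the natural functionals have positive mean values.
-/

set_option autoImplicit false

namespace Vale.Agent.P167.N.QL

open Finset Filter Vale.Agent.P167.BR Vale.Agent.P167.FK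
open Vale.Agent.P167.E6 (IsPolygon Encloses dir face)
open Vale.Agent.P167.H632 (pr)
open Vale.Agent.P167.H718 (Dob rc)
open Vale.Agent.P167.H871 (Bd)
open Vale.Agent.P167.H542.Q (BD)
open Vale.Agent.P167.H975 (TX)

variable {θ : ℝ}

/-- **The local factor of a reflex corner** has a positive mean value. -/
theorem refl_pos (h1 : Ang θ) {N k n d L j : ℕ} {q : ZMod N → ℤ × ℤ} {D : Finset (ℤ × ℤ)}
    {τ : ℕ → ℤ} {m r : ℤ} {η₀ : Cfg} {ρ : ℕ → ℝ} {β : ℝ} (h : LkD n N q D k τ L m η₀)
    (hβ : Real.cos (θ / 2 + β) = Real.sin θ) (hw : WinI d N τ j (-1)) (h0 : 0 < j)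
    (hN : j + d < N) (hk : j + d < k ∨ k + d ≤ j)
    (hρ : ∀ i, j < i + d → i ≤ j + d → 0 < i → ρ i - ρ (i - 1) = if i = rI q k j then θ else 0)
    (hr : 1 ≤ r) (hrn : 3 * (r + 5) < (n : ℤ)) (hrd : 2 * (r + 5) < (d : ℤ)) (η : Cfg) :
    0 < Ex (2 * Real.cos θ) D η (TX (wP θ β q D k ρ) D (q (j : ZMod N)) r) := by
  have hQ := h1.kit.pos
  have e : jB N j = j := by
    unfold jB
    rw [if_neg (by omega)]
  obtain ⟨-, w1, w2, w3⟩ := hw
  rw [e] at w1 w2 w3
  have hSW : SW n true q D τ j d :=
    ⟨h.geo, h.poly, h.enc, h.step, w1, w2, hN.le, by rw [if_pos rfl]; exact w3⟩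
  have hWj := hSW.wn (R := r + 1) (by omega) (by omega) (by omega)
  have hcol := rI_col (k := k) (j := j) h.poly (by omega)
  obtain ⟨t, ht⟩ : ∃ t, t = rI q k j := ⟨_, rfl⟩
  have ht' := rI_or q k j
  rw [← ht] at ht' hcol hρ
  obtain ⟨c, hc⟩ : ∃ c, ((q (t : ZMod N)).1 + (q (t : ZMod N)).2) % 2 = pr c := by
    rcases Int.emod_two_eq ((q (t : ZMod N)).1 + (q (t : ZMod N)).2) with h | h
    · exact ⟨true, h⟩
    · exact ⟨false, h⟩
  have hco : (c = false ∧ (j : ℤ) + (r + 1) ≤ k) ∨ (c = true ∧ (k : ℤ) ≤ j - (r + 1)) := by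
    rw [Int.even_iff, hc] at hcol
    cases c
    · left
      refine ⟨rfl, ?_⟩
      have : ¬ k ≤ j := fun h' => absurd (hcol.2 h') (by decide)
      omega
    · right
      refine ⟨rfl, ?_⟩
      have : k ≤ j := hcol.1 (by decide)
      omega
  have hρ' : ∀ i : ℕ, (j : ℤ) - (r + 1) < i → (i : ℤ) ≤ j + (r + 1) → i ≠ t → ρ i = ρ (i - 1) := by
    intro i i1 i2 i3
    have h3 := hρ i (by omega) (by omega) (by omega)
    rw [if_neg i3] at h3
    linarith
  have hρj : ρ t = ρ (t - 1) + θ := by
    have h3 := hρ t (by omega) (by omega) (by omega)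
    rw [if_pos rfl] at h3
    linarith
  have e1 : TX (wP θ β q D k ρ) D (q (j : ZMod N)) r = (NS q D j t r).indicator 1 := by
    funext ω
    exact TX_o h.poly h.enc h1.sin_pos.ne' h1.cos_pos.ne' hβ hWj (by omega) (by omega) (by omega)
      (by omega) hc hco hρ' hρj
  rw [e1]
  exact hSW.ns_pos hQ (by omega) (by omega) (by omega) hrd hrn

variable {S : CA.Dat} {X : BD S θ (bt θ)} {s : ℕ → ℕ} {e C : ℝ} {ja : Finset ℕ} {n d L : ℕ}
  {τ : ℕ → ℤ} {a : ℤ × ℤ} {m r : ℤ} {η η' : Cfg} {x : Bool}

/-- **The local factors of the natural functionals** have positive mean values. -/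
theorem na_e_pos (h1 : Ang θ) (H : Sc X s e (Rf S) ja C n)
    (he : 0 < e) (he1 : 2 * e ≤ S.tp) (he2 : e ≤ 1 - S.tp) (hbig : 8 * (C + 1) < e * n)
    (hL : LkD n (X.N n) (fun i => X.q n i + a) ((S.D n).image (· + a)) (X.k n) τ L m η)
    (hτ : Bd (S.D n : Set (ℤ × ℤ)) (X.N n) (fun i => X.q n (i : ZMod (X.N n))) τ 1)
    (hd : d + 3 ≤ ⌊e / 2 * n⌋₊) (r1 : 1 ≤ r) (r2 : 3 * (r + 5) < n)
    (r3 : 2 * (r + 5) < d)
    (hx : XOk (X.N n) (X.k n) (fun i => X.q n i + a) x) :
    ∀ j ∈ (NA X s e ja n a x).J, 0 < (NA X s e ja n a x).e θ (bt θ) η' r j := by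
  intro j hj
  have h0 := h1.pos
  have hlt := h1.lt
  have hgt := h1.gt
  have hLl := H.L_le he1
  have hn0 := H.n0
  have hR := Rf_sub S
  have hwl := wl_pos h0 hlt
  have r2' : 3 * (r + 1) < (n : ℤ) := by omega
  have r3' : 2 * (r + 1) ≤ (d : ℤ) := by omega
  obtain ⟨q', hq'⟩ : ∃ q' : ZMod (X.N n) → ℤ × ℤ, q' = fun i => X.q n i + a := ⟨_, rfl⟩
  obtain ⟨φ, hφ⟩ : ∃ φ, φ = phA θ q' (X.k n) ((Rf S).image fun i => i * n - t0 S s n)
    (me e n) x := ⟨_, rfl⟩
  have key : PC θ (bt θ) q' ((S.D n).image (· + a)) (X.k n) φ (wl θ)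
        (q' (j : ZMod (X.N n))) r ∨
      0 < Ex (2 * Real.cos θ) ((S.D n).image (· + a)) η'
        (TX (wP θ (bt θ) q' ((S.D n).image (· + a)) (X.k n) φ) ((S.D n).image (· + a))
          (q' (j : ZMod (X.N n))) r) := by
    rw [← hq'] at hL hx
    have hG := hL.geo
    have hq := hL.poly
    have hD := hL.enc
    have hJ : j ∈ (ids S (Rf S) ja).image (jn q' (X.k n) (t0 S s n) (me e n) n) := by
      rw [hq']
      exact hj
    obtain ⟨c, hc, rfl⟩ := mem_image.1 hJ
    rcases ids_cases hc with ⟨i, hi, rfl⟩ | ⟨i, hi, rfl⟩ | rfl | ⟨i, hi, rfl⟩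
    · -- corners
      have hm := H.mid he he1 he2 hR hbig q' hc (fun h => by simp at h)
      have hs := H.sid he he1 he2 hR hbig q' hc (by simp)
      rw [jn_c] at hm hs ⊢
      by_cases hi' : i ∈ Rf S
      · right
        exact refl_pos h1 hL (cos_bt θ) (H.win_r he he1 he2 hR hbig hτ hd hi') (by omega)
          (by omega) (by omega) (fun l l1 l2 l3 => by
            rw [hφ]
            exact H.phA_r q' he he1 he2 hR hbig hd hi' l3 l1.le l2) r1 r2 r3 η'
      · left
        exact pc_mid h0 hlt hG hq hD r2' r3' (by omega) (by omega) (by omega) (v := 0) (by linarith)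
          le_rfl (fun l l1 l2 l3 => by
            rw [hφ, H.phA_c q' he he1 he2 hR hbig hd hi hi' l3 l1.le l2]
            split_ifs <;> rfl)
    · -- compensating charges
      left
      have hm := H.mid he he1 he2 hR hbig q' hc (fun h => by simp at h)
      have hs := H.sid he he1 he2 hR hbig q' hc (by simp)
      rw [jn_z] at hm hs ⊢
      exact pc_mid h0 hlt hG hq hD r2' r3' (by omega) (by omega) (by omega) (v := -θ) le_rfl
        (by linarith) (fun l l1 l2 l3 => by
          rw [hφ]
          exact H.phA_z q' he he1 he2 hR hbig hd hi l3 l1.le l2)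
    · -- the base
      left
      rw [jn_0, Nat.cast_zero, hφ]
      rcases H.k_cases he he1 he2 hR hbig with hk | ⟨k1, k2, k3, k4, -⟩
      · refine pc_fw h0 hlt hG hq hD r2' r3' hk (by omega) (fun i hi l hl hil => ?_)
          (fun i hi l hl hiN hlN hil => ?_) (fun i hi l hl hlN => ?_)
        · rw [H.phA_b q' he he1 he2 hR hbig hd (Or.inl hi),
            H.phA_b q' he he1 he2 hR hbig hd (Or.inl hl)]
          by_cases hxx : x = true
          · rcases Nat.eq_zero_or_pos i with rfl | hi0
            · rw [if_neg (show ¬ (x = true ∧ 1 ≤ 0) by omega)]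
              split_ifs <;> constructor <;> linarith
            · rw [if_pos (⟨hxx, by omega⟩ : x = true ∧ 1 ≤ l),
                if_pos (⟨hxx, by omega⟩ : x = true ∧ 1 ≤ i)]
              constructor <;> linarith
          · rw [if_neg (fun h => hxx h.1), if_neg (fun h => hxx h.1)]
            constructor <;> linarith
        · rw [H.phA_b q' he he1 he2 hR hbig hd (Or.inr hiN),
            H.phA_b q' he he1 he2 hR hbig hd (Or.inr hlN)]
          by_cases hxx : x = true
          · rw [if_pos ⟨hxx, by omega⟩, if_pos ⟨hxx, by omega⟩]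
            constructor <;> linarith
          · rw [if_neg (fun h => hxx h.1), if_neg (fun h => hxx h.1)]
            constructor <;> linarith
        · rw [H.phA_b q' he he1 he2 hR hbig hd (Or.inl hi),
            H.phA_b q' he he1 he2 hR hbig hd (Or.inr hlN)]
          by_cases hxx : x = true
          · rw [if_pos (⟨hxx, by omega⟩ : x = true ∧ 1 ≤ l)]
            split_ifs <;> constructor <;> linarith
          · rw [if_neg (fun h => hxx h.1), if_neg (fun h => hxx h.1)]
            constructor <;> linarith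
      · have hxf : x = false := by
          rcases hx with ⟨h | h, -⟩ | ⟨-, -, h⟩
          · omega
          · omega
          · exact h
        have e0 : ∀ i, i ≤ d ∨ X.N n ≤ i + d → phA θ q' (X.k n)
            ((Rf S).image fun i => i * n - t0 S s n) (me e n) x i = 0 := fun i hi => by
          rw [H.phA_b q' he he1 he2 hR hbig hd hi, if_neg (fun h => by
            rw [hxf] at h
            exact absurd h.1 (by decide))]
        refine pc_base h0 hlt hG hq hD r2' r3' (by omega) (by omega) ?_ (fun i i1 i2 => ?_)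
          (fun i i1 i2 => ?_)
        · rw [e0 _ (Or.inr (by omega)), e0 0 (Or.inl (by omega))]
          exact abs_bt (by linarith) (by linarith)
        · rw [e0 i (Or.inl i2), e0 (i - 1) (Or.inl (by omega)), sub_zero]
        · rw [e0 i (Or.inr (by omega)), e0 (i - 1) (Or.inr (by omega)), sub_zero]
    · -- the junction
      left
      have hi0 := (H.ja_lt i hi).1
      have hm := H.mid he he1 he2 hR hbig q' hc (fun h => by simp at h; omega)
      rw [jn_k _ _ _ _ _ _ hi0] at hm ⊢
      exact pc_jun h0 hlt hG hq hD r2' r3' (by omega) (by omega) (v := 0)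
        (abs_bt (by linarith) (by linarith)) (fun l l1 l2 l3 => by
          rw [hφ, H.phA_k q' he he1 he2 hR hbig hd hi l3 l1.le l2]
          split_ifs <;> rfl)
  rcases key with key | key
  · subst hφ hq'
    exact e_pos (P := NA X s e ja n a x) h1.kit.pos hwl key
  · subst hφ hq'
    exact key

end Vale.Agent.P167.N.QL
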