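import Vale.Agent.P167.N.QL.Lw
import Vale.Agent.P167.N.QL.LocF
import Vale.Agent.P167.N.QL.NaP

/-!
# P167, the range `0 < q < 1`, block Q-LAM: `LamG` of the parity images from the product inequality

`ProdI`: the product inequality. `lamG_im_of`: `LamG` of the images.
-/

set_option autoImplicit false

namespace Vale.Agent.P167.N.QL

open Finset Filter Vale.Agent.P167.BR Vale.Agent.P167.FK
open Vale.Agent.P167.E6 (IsPolygon Encloses face dir)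
open Vale.Agent.P167.H718 (Dob rc lam ZQ_stag_pos poly_add encl_add)
open Vale.Agent.P167.H871 (Bd)
open Vale.Agent.P167.H192.Q (SRSW)
open Vale.Agent.P167.H542.Q (BD)
open Vale.Agent.P167.H760.Q (BaseQ)
open Vale.Agent.P167.H975 (TX)

variable {θ : ℝ}

/-- **The product inequality.** -/
def ProdI {S : CA.Dat} (X : BD S θ (bt θ)) (s : ℕ → ℕ) (e : ℝ) (ja : Finset ℕ) : Prop :=
  ∃ ρ₁ : ℝ, 0 < ρ₁ ∧ ∀ ρ : ℝ, 0 < ρ → ρ ≤ ρ₁ → ∃ C : ℝ, 0 < C ∧ ∀ᶠ n : ℕ in X.L,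
    ∀ (a b : ℤ × ℤ) (x x' : Bool) (τ : ℕ → ℤ), ¬ (Even (a.1 + a.2) ↔ Even (b.1 + b.2)) →
      Bd (S.D n : Set (ℤ × ℤ)) (X.N n) (fun i => X.q n (i : ZMod (X.N n))) τ 1 →
      XOk (X.N n) (X.k n) (fun i => X.q n i + b) x →
      XOk (X.N n) (X.k n) (fun i => X.q n i + a) x' →
      ∀ η η' : Cfg, Dob η ((S.D n).image (· + a)) (fun i => X.q n i + a) (X.k n) →
        Dob η' ((S.D n).image (· + b)) (fun i => X.q n i + b) (X.k n) →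
        (∏ j ∈ (IA X s e ja n τ a b x).J, (IA X s e ja n τ a b x).e θ (bt θ) η ⌊ρ * n⌋ j) *
            (∏ j ∈ (IA X s e ja n τ b a x').J,
              (IA X s e ja n τ b a x').e θ (bt θ) η' ⌊ρ * n⌋ j) ≤
          C * ((∏ j ∈ (NA X s e ja n b x).J, (NA X s e ja n b x).e θ (bt θ) η' ⌊ρ * n⌋ j) *
            ∏ j ∈ (NA X s e ja n a x').J, (NA X s e ja n a x').e θ (bt θ) η ⌊ρ * n⌋ j)

/-- The upper bound, absolute values. -/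
theorem up_av {β σ b B c0 : ℝ} {Λ : ℤ} {CE : ℕ → ℝ} (h0 : 0 < θ) (h1 : Ang θ)
    (hβ : Real.cos (θ / 2 + β) = Real.sin θ)
    (hR : RSW (2 * Real.cos θ)) (hSR : SRSW (2 * Real.cos θ)) (R : ℝ) (ms : ℕ) (KE : ℕ → ℤ)
    (hC : Cs σ b B c0 Λ CE) :
    ∃ ρ₁ : ℝ, 0 < ρ₁ ∧ ∀ ρ : ℝ, 0 < ρ → ρ ≤ ρ₁ → ∃ (C : ℝ) (n₀ : ℕ), 0 < C ∧ ∀ n : ℕ, n₀ ≤ n →
      ∀ (P : PD) (η₀ : Cfg), P.Rg n σ R ms η₀ →
      (∀ j ∈ P.J, PC θ β P.q P.D P.k P.ρ c0 (P.q (j : ZMod P.N)) ⌊σ * n⌋ ∨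
        KC θ β P.q P.D P.k P.ρ η₀ b B Λ KE CE (P.q (j : ZMod P.N)) ⌊σ * n⌋) →
      ∀ η : Cfg, Dob η P.D P.q P.k → (∀ j ∈ P.J, 0 ≤ P.e θ β η ⌊ρ * n⌋ j) ∧
        Ex (2 * Real.cos θ) P.D η (fun ω => |TPq θ β P ⌊ρ * n⌋ ω|) ≤
          C * ∏ j ∈ P.J, P.e θ β η ⌊ρ * n⌋ j ∧
        |VP θ β P| ≤ C * ∏ j ∈ P.J, P.e θ β η ⌊ρ * n⌋ j := by
  obtain ⟨ρ₁, hρ₁, H⟩ := up_pd h0 h1 hβ hR hSR R ms KE hC
  refine ⟨ρ₁, hρ₁, fun ρ hρ hρ1 => ?_⟩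
  obtain ⟨C, n₀, hCp, H⟩ := H ρ hρ hρ1
  refine ⟨C, n₀, hCp, fun n hn P η₀ hP hj η hη => ?_⟩
  obtain ⟨JP, JZ, hL⟩ := lk_of hj
  obtain ⟨k1, k2⟩ := H n hn P η₀ JP JZ hP hL
  obtain ⟨-, k3, k4, -⟩ := k2 η hη
  exact ⟨fun j hj => e_nonneg h1.kit.pos (k1 j hj), k4, k3⟩

/-- The algebra. -/
theorem chain_alg {T A B a' b' V1 V2 W1 W2 C₁ C₃ c₂ : ℝ} (hC₁ : 0 < C₁) (hC₃ : 0 < C₃)
    (hc₂ : 0 < c₂) (hT : T ≤ C₁ * A) (hV2 : |V2| ≤ C₁ * B) (ha' : 0 < a') (hb' : 0 < b')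
    (hW1 : c₂ * a' ≤ W1) (hW2 : c₂ * b' ≤ W2) (hV : V1 * V2 = W1 * W2)
    (hV1 : 0 < V1) (hAB : A * B ≤ C₃ * (a' * b')) : T ≤ C₁ ^ 2 * C₃ / c₂ ^ 2 * V1 := by
  have hw1 : 0 < W1 := lt_of_lt_of_le (by positivity) hW1
  have hw2 : 0 < W2 := lt_of_lt_of_le (by positivity) hW2
  have hV2p : 0 < V2 := by
    have h1 : 0 < V1 * V2 := by rw [hV]; positivity
    exact (pos_iff_pos_of_mul_pos h1).1 hV1
  have hB : 0 < B := by
    have h1 : 0 < C₁ * B := hV2p.trans_le ((le_abs_self _).trans hV2)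
    exact (pos_iff_pos_of_mul_pos h1).1 hC₁
  have h2 : c₂ ^ 2 * (a' * b') ≤ V1 * V2 := by
    rw [hV]
    calc c₂ ^ 2 * (a' * b') = (c₂ * a') * (c₂ * b') := by ring
      _ ≤ W1 * W2 := mul_le_mul hW1 hW2 (by positivity) hw1.le
  have h3 : c₂ ^ 2 * (A * B) ≤ C₃ * C₁ * V1 * B := by
    calc c₂ ^ 2 * (A * B) ≤ c₂ ^ 2 * (C₃ * (a' * b')) :=
          mul_le_mul_of_nonneg_left hAB (by positivity)
      _ = C₃ * (c₂ ^ 2 * (a' * b')) := by ring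
      _ ≤ C₃ * (V1 * V2) := mul_le_mul_of_nonneg_left h2 hC₃.le
      _ ≤ C₃ * (V1 * (C₁ * B)) := by
          refine mul_le_mul_of_nonneg_left (mul_le_mul_of_nonneg_left ?_ hV1.le) hC₃.le
          exact (le_abs_self _).trans hV2
      _ = _ := by ring
  have h4 : c₂ ^ 2 * A ≤ C₃ * C₁ * V1 := by
    refine le_of_mul_le_mul_right ?_ hB
    linarith
  have h5 : A ≤ C₃ * C₁ * V1 / c₂ ^ 2 := by
    rw [le_div_iff₀ (by positivity)]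
    linarith
  calc T ≤ C₁ * A := hT
    _ ≤ C₁ * (C₃ * C₁ * V1 / c₂ ^ 2) := mul_le_mul_of_nonneg_left h5 hC₁.le
    _ = _ := by ring

/-- The additional charge exists. -/
theorem exists_xok {N k : ℕ} (q : ZMod N → ℤ × ℤ) (hk : k ≤ N) : ∃ x, XOk N k q x := by
  by_cases h : 0 < k ∧ k < N
  · exact ⟨false, Or.inr ⟨h.1, h.2, rfl⟩⟩
  · by_cases h2 : Even ((q 0).1 + (q 0).2) ↔ k = 0
    · exact ⟨true, Or.inl ⟨by omega, by simp [h2]⟩⟩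
    · exact ⟨false, Or.inl ⟨by omega, by simp [h2]⟩⟩

/-- **`LamG` of the parity images** from the product inequality. -/
theorem lamG_im_of (h1 : Ang θ) {S : CA.Dat} (X : BD S θ (bt θ)) {s : ℕ → ℕ} (hb : BaseQ X s)
    (hB : BcX X s) (hx : ∀ᶠ n in X.L, XOk (X.N n) (X.k n) (X.q n) false) {e : ℝ} (he : 0 < e)
    (he1 : 16 * e ≤ S.tp) (he2 : 16 * e ≤ 1 - S.tp) {ja : Finset ℕ} (hj : JunP X ja)
    (hP : ProdI X s e ja) :
    LamG θ (bt θ) X.L (imF X (rhoP X s e (Rf S)) (JP X s e (Rf S) ja)) := by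
  have h0 := h1.pos
  have hsin := h1.sin_pos
  have hcos := h1.cos_pos
  have hR := h1.kit.rsw
  have hS := h1.kit.srsw
  have e1 : 2 * e ≤ S.tp := by linarith
  have e2 : e ≤ 1 - S.tp := by linarith
  obtain ⟨b, B, Λ, W, KE, CE, hA⟩ := lall h1
  obtain ⟨c, σ, R, hc, -, hC, Hloc⟩ := loc_all_of h1 hA X hb hB he e1 e2 hj
  obtain ⟨ρ₁, hρ₁, HU⟩ := up_av h0 h1 (cos_bt θ) hR hS R (ids S (Rf S) ja).card KE hC
  obtain ⟨ρ₂, hρ₂, HL⟩ := low_nat h0 h1 hR hS X hb hB he he1 he2 hj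
  obtain ⟨ρ₃, hρ₃, HP⟩ := hP
  obtain ⟨C', hC'⟩ := exists_sc' X hb he (Rf_sub S) hj 8
  refine ⟨min (min ρ₁ ρ₂) (min ρ₃ (min (e / 16) (1 / 16))), by positivity, fun ρ hρ hρ' => ?_⟩
  obtain ⟨C₁, n₁, hC₁, HU⟩ := HU ρ hρ (hρ'.trans ((min_le_left _ _).trans (min_le_left _ _)))
  obtain ⟨c₂, hc₂, HL⟩ := HL ρ hρ (hρ'.trans ((min_le_left _ _).trans (min_le_right _ _)))
  obtain ⟨C₃, hC₃, HP⟩ := HP ρ hρ (hρ'.trans ((min_le_right _ _).trans (min_le_left _ _)))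
  have hρe : ρ ≤ e / 16 := hρ'.trans ((min_le_right _ _).trans ((min_le_right _ _).trans
    (min_le_left _ _)))
  have hρ16 : ρ ≤ 1 / 16 := hρ'.trans ((min_le_right _ _).trans ((min_le_right _ _).trans
    (min_le_right _ _)))
  have hlarge : ∀ A : ℝ, ∀ᶠ n : ℕ in X.L, A ≤ n := fun A => X.le
    ((eventually_ge_atTop ⌈A⌉₊).mono fun n hn => (Nat.le_ceil A).trans (by exact_mod_cast hn))
  refine ⟨C₁ ^ 2 * C₃ / c₂ ^ 2, by positivity, ?_⟩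
  filter_upwards [Hloc, HL, HP, hx, hC', X.poly, X.enc, X.le (eventually_ge_atTop n₁),
    hlarge (1 / ρ), hlarge (100 / e), hlarge 100] with n a1 a2 a3 a4 a5 a6 a7 a8 a9 a10 a11 P hPm η hη
  obtain ⟨u, τ, hτ, rfl⟩ := hPm
  obtain ⟨H, hbig⟩ := a5
  rw [im_eq X s e ja n τ (dir u)] at hη ⊢
  -- numbers
  rw [div_le_iff₀ hρ] at a9
  rw [div_le_iff₀ he] at a10
  have hn0 : (0 : ℝ) ≤ n := by linarith
  obtain ⟨r, hr⟩ : ∃ r : ℤ, r = ⌊ρ * (n : ℝ)⌋ := ⟨_, rfl⟩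
  obtain ⟨d, hd⟩ : ∃ d : ℕ, d = ⌊e / 4 * (n : ℝ)⌋₊ := ⟨_, rfl⟩
  have g1 : (r : ℝ) ≤ ρ * n := by rw [hr]; exact Int.floor_le _
  have g2 : ρ * n ≤ e / 16 * n := mul_le_mul_of_nonneg_right hρe hn0
  have g3 : ρ * n ≤ 1 / 16 * n := mul_le_mul_of_nonneg_right hρ16 hn0
  have g4 : e / 4 * (n : ℝ) < d + 1 := by rw [hd]; exact Nat.lt_floor_add_one _
  have g5 : (d : ℝ) ≤ e / 4 * n := by rw [hd]; exact Nat.floor_le (by positivity)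
  have g6 : e / 2 * (n : ℝ) < ⌊e / 2 * (n : ℝ)⌋₊ + 1 := Nat.lt_floor_add_one _
  have r1 : 1 ≤ r := by
    rw [hr, Int.le_floor]
    push_cast
    linarith
  have r2 : 3 * (r + 5) < (n : ℤ) := by
    have : ((3 * (r + 5) : ℤ) : ℝ) < ((n : ℤ) : ℝ) := by
      push_cast
      linarith
    exact_mod_cast this
  have r3 : 2 * (r + 5) < (d : ℤ) := by
    have : ((2 * (r + 5) : ℤ) : ℝ) < ((d : ℤ) : ℝ) := by
      push_cast
      linarith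
    exact_mod_cast this
  have r4 : d + 3 ≤ ⌊e / 2 * (n : ℝ)⌋₊ := by
    have : ((d + 3 : ℕ) : ℝ) < ((⌊e / 2 * (n : ℝ)⌋₊ + 1 : ℕ) : ℝ) := by
      push_cast
      linarith
    have h2 : d + 3 < ⌊e / 2 * (n : ℝ)⌋₊ + 1 := by exact_mod_cast this
    omega
  have hbig' : 8 * (C' + 1) < e * n := hbig
  -- the functionals
  have hz : (fun i => X.q n i + (0 : ℤ × ℤ)) = X.q n := by
    simp only [add_zero]
  have hx0 : XOk (X.N n) (X.k n) (fun i => X.q n i + (0 : ℤ × ℤ)) false := by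
    rw [hz]
    exact a4
  obtain ⟨η₁, hL1, hN1, hI1⟩ := a1 (dir u) τ hτ
  obtain ⟨η₂, hL2, hN2, hI2⟩ := a1 0 τ hτ
  obtain ⟨x', hx'⟩ := exists_xok (fun i => X.q n i + dir u) hL1.kle
  have hpar := par_dir u
  have hpar' : ¬ (Even ((0 : ℤ × ℤ).1 + (0 : ℤ × ℤ).2) ↔ Even ((dir u).1 + (dir u).2)) :=
    fun h => hpar h.symm
  obtain ⟨hg1, hk1⟩ := hI1 0 false hpar hx0
  obtain ⟨hg2, hk2⟩ := hI2 (dir u) x' hpar' hx'
  obtain ⟨-, t1, -⟩ := HU n a8 (IA X s e ja n τ (dir u) 0 false) η₁ hg1 hk1 η hη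
  obtain ⟨-, -, t2⟩ := HU n a8 (IA X s e ja n τ 0 (dir u) x') η₂ hg2 hk2 η₂ hL2.dob
  have p1 := a2 0 false hx0 η₂ hL2.dob
  have p2 := a2 (dir u) x' hx' η hη
  have p3 := a3 (dir u) 0 false x' τ hpar hτ hx0 hx' η η₂ hη hL2.dob
  have s1 : 0 < ∏ j ∈ (NA X s e ja n 0 false).J,
      (NA X s e ja n 0 false).e θ (bt θ) η₂ ⌊ρ * n⌋ j := by
    refine prod_pos fun j hj => ?_
    rw [← hr]
    exact na_e_pos h1 H he e1 e2 hbig' hL2 hτ r4 r1 r2 r3 hx0 j hj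
  have s2 : 0 < ∏ j ∈ (NA X s e ja n (dir u) x').J,
      (NA X s e ja n (dir u) x').e θ (bt θ) η ⌊ρ * n⌋ j := by
    refine prod_pos fun j hj => ?_
    rw [← hr]
    exact na_e_pos h1 H he e1 e2 hbig' hL1 hτ r4 r1 r2 r3 hx' j hj
  -- the identities
  have hb1 : ¬ Even ((dir u).1 + (dir u).2) := fun h => hpar (iff_of_true h (by decide))
  have hq : IsPolygon (fun i => X.q n i + (0 : ℤ × ℤ)) := hL2.poly
  have hD : Encloses (fun i => X.q n i + (0 : ℤ × ℤ)) ((S.D n).image (· + 0)) := hL2.enc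
  have hu : Bd (((S.D n).image (· + (0 : ℤ × ℤ)) : Finset (ℤ × ℤ)) : Set (ℤ × ℤ)) (X.N n)
      (fun j => (fun i => X.q n i + (0 : ℤ × ℤ)) (j : ZMod (X.N n))) τ 1 := hL2.bd
  have c1 : (fun i => X.q n i + dir u) =
      fun i => (fun i => X.q n i + (0 : ℤ × ℤ)) i + dir u := by
    funext i
    simp only [add_zero]
  have c2 : (S.D n).image (· + dir u) = ((S.D n).image (· + (0 : ℤ × ℤ))).image (· + dir u) := by
    rw [image_image]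
    congr 1
    funext v
    simp
  have c3 : (fun i => X.q n i + (0 : ℤ × ℤ)) =
      fun i => (fun i => X.q n i + dir u) i + (-dir u) := by
    funext i
    simp only [add_zero, add_neg_cancel_right]
  have c4 : (S.D n).image (· + (0 : ℤ × ℤ)) = ((S.D n).image (· + dir u)).image (· + (-dir u)) := by
    rw [image_image]
    congr 1
    funext v
    simp
  have v1 : VP θ (bt θ) (IA X s e ja n τ (dir u) 0 false) =
      lam θ (bt θ) (fun i => X.q n i + (0 : ℤ × ℤ)) ((S.D n).image (· + (0 : ℤ × ℤ))) (X.k n)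
        (dir u) * VP θ (bt θ) (NA X s e ja n 0 false) :=
    VP_im' hsin hcos (cos_bt θ) hb1 hq hD hu c1 c2 _ _ _
  have v2 : VP θ (bt θ) (IA X s e ja n τ (dir u) 0 false) *
      VP θ (bt θ) (IA X s e ja n τ 0 (dir u) x') =
      VP θ (bt θ) (NA X s e ja n 0 false) * VP θ (bt θ) (NA X s e ja n (dir u) x') :=
    VP_two hsin hcos (cos_bt θ) hb1 hq hD hu c1 c2 c3 c4 _ _ _ _ _ _
  have hlam : 0 < lam θ (bt θ) (fun i => X.q n i + (0 : ℤ × ℤ))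
      ((S.D n).image (· + (0 : ℤ × ℤ))) (X.k n) (dir u) :=
    div_pos (ZQ_stag_pos hq hD hsin.ne' hcos (cos_bt θ) hsin)
      (ZQ_stag_pos (poly_add hq (dir u)) (encl_add hD (dir u)) hsin.ne' hcos (cos_bt θ) hsin)
  have hV1 : 0 < VP θ (bt θ) (IA X s e ja n τ (dir u) 0 false) := by
    rw [v1]
    exact mul_pos hlam (lt_of_lt_of_le (mul_pos hc₂ s1) p1)
  exact chain_alg hC₁ hC₃ hc₂ t1 t2 s1 s2 p1 p2 v2 hV1 p3

end Vale.Agent.P167.N.QL
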