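import Vale.Agent.P167.N.QL.Al20
import Vale.Agent.P167.N.QL.FamA
import Vale.Agent.P167.N.QL.FamB
import Vale.Agent.P167.N.QL.FamC
import Vale.Agent.P167.N.QL.FamD
import Vale.Agent.P167.N.QL.FamG
import Vale.Agent.P167.N.QL.LamC

/-!
# P167, the range `0 < q < 1`, block Q-LAM: assembly, the product inequality
-/

set_option autoImplicit false

namespace Vale.Agent.P167.N.QL

open Finset Filter Vale.Agent.P167.BR Vale.Agent.P167.FK
open Vale.Agent.P167.E6 (IsPolygon Encloses face dir)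
open Vale.Agent.P167.H718 (Dob rc IsCl)
open Vale.Agent.P167.H871 (Bd)
open Vale.Agent.P167.H192.Q (SRSW)
open Vale.Agent.P167.H542.Q (BD)
open Vale.Agent.P167.H760.Q (BaseQ)
open Vale.Agent.P167.H975 (TX)

variable {θ : ℝ}

/-! ### real numbers -/

theorem bool_pair (f : Bool → ℝ) (e : Bool) : f e * f (!e) = f true * f false := by
  cases e
  · exact mul_comm _ _
  · rfl

theorem mul_two {x y X Y : ℝ} (hx : 0 ≤ x) (hy : 0 ≤ y) (h1 : x ≤ 2 * X) (h2 : y ≤ 2 * Y) :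
    x * y ≤ 4 * (X * Y) := by
  calc x * y ≤ (2 * X) * (2 * Y) := mul_le_mul h1 h2 hy (le_trans hx h1)
    _ = _ := by ring

/-! ### the four kinds at one scale -/

section kinds

variable {S : CA.Dat} {X : BD S θ (bt θ)} {s : ℕ → ℕ} {e C₀ : ℝ} {ja : Finset ℕ}
  {n L i : ℕ} {τ : ℕ → ℤ} {a b : ℤ × ℤ} {x x' : Bool} {r m : ℤ} {η η' : Cfg} {c C Pi : ℝ}
  {A B Z : Bool → Bool → ℝ} {bb ζ Db Dj : Bool → ℝ}
  (h0 : 0 < θ) (h1 : Ang θ) (H : Sc X s e (Rf S) ja C₀ n) (he : 0 < e) (he1 : 2 * e ≤ S.tp)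
  (he2 : e ≤ 1 - S.tp) (hbig : 8 * (C₀ + 1) < e * n)
  (hτ : Bd (S.D n : Set (ℤ × ℤ)) (X.N n) (fun i => X.q n (i : ZMod (X.N n))) τ 1)
  (hd : ⌊c * n⌋₊ + 3 ≤ ⌊e / 2 * n⌋₊) (hd0 : 0 < ⌊c * n⌋₊) (hL : L ≤ ⌊e / 2 * n⌋₊)
  (hr1 : 1 ≤ r) (hr : 3 * (r + 1) < (n : ℤ)) (hrd : 2 * (r + 1) ≤ ((⌊c * n⌋₊ : ℕ) : ℤ))
  (F : RF θ c C n r Pi A B Z bb ζ Db Dj) (hC : 1 ≤ C) (hCw : 1 ≤ C * wl θ)
  (hab : ¬ (Even (a.1 + a.2) ↔ Even (b.1 + b.2)))
  (g1 : GD c n (IA X s e ja n τ a b x) τ L η) (g2 : GD c n (IA X s e ja n τ b a x') τ L η')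
  (g3 : GD c n (NA X s e ja n b x) τ L η') (g4 : GD c n (NA X s e ja n a x') τ L η)
  (t1 : ∀ j ∈ (IA X s e ja n τ a b x).J, TN θ (bt θ) (IA X s e ja n τ a b x) j r)
  (t2 : ∀ j ∈ (IA X s e ja n τ b a x').J, TN θ (bt θ) (IA X s e ja n τ b a x') j r)
  (t3 : ∀ j ∈ (NA X s e ja n b x).J, TN θ (bt θ) (NA X s e ja n b x) j r)
  (t4 : ∀ j ∈ (NA X s e ja n a x').J, TN θ (bt θ) (NA X s e ja n a x') j r)

include hab in
theorem par_not (v : ℤ × ℤ) : Even ((v + b).1 + (v + b).2) ↔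
    (!decide (Even ((v + a).1 + (v + a).2))) = true := by
  rw [Bool.not_eq_true', decide_eq_false_iff_not]
  simp only [Prod.fst_add, Prod.snd_add]
  rw [Int.even_iff, Int.even_iff] at hab
  rw [Int.even_iff, Int.even_iff]
  omega

include h1 H he he1 he2 hbig hτ hd hd0 hL hr hrd F hC hab g1 g2 t1 t2 in
/-- The convex corners. -/
theorem kind_c (hi : i ∈ Tn S \ Rf S) :
    0 ≤ (IA X s e ja n τ a b x).e θ (bt θ) η r (i * n - t0 S s n) *
        (IA X s e ja n τ b a x').e θ (bt θ) η' r (i * n - t0 S s n) ∧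
      (IA X s e ja n τ a b x).e θ (bt θ) η r (i * n - t0 S s n) *
        (IA X s e ja n τ b a x').e θ (bt θ) η' r (i * n - t0 S s n) ≤ 16 * C ^ 6 * Pi ∧
      (NA X s e ja n b x).e θ (bt θ) η' r (i * n - t0 S s n) = 1 ∧
      (NA X s e ja n a x').e θ (bt θ) η r (i * n - t0 S s n) = 1 := by
  rw [Finset.mem_sdiff] at hi
  obtain ⟨hi, hi'⟩ := hi
  obtain ⟨w, hw⟩ : ∃ w, w = decide (X.k n ≤ i * n - t0 S s n) := ⟨_, rfl⟩
  have hw' : X.k n ≤ i * n - t0 S s n ↔ w = true := by rw [hw, decide_eq_true_eq]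
  obtain ⟨v, hv⟩ : ∃ v, v = X.q n ((i * n - t0 S s n : ℕ) : ZMod (X.N n)) := ⟨_, rfl⟩
  obtain ⟨e', he'⟩ : ∃ e', e' = decide (Even ((v + a).1 + (v + a).2)) := ⟨_, rfl⟩
  have p1 : Even ((v + a).1 + (v + a).2) ↔ e' = true := by rw [he', decide_eq_true_eq]
  have p2 : Even ((v + b).1 + (v + b).2) ↔ (!e') = true := by
    rw [he']
    exact par_not hab v
  rw [hv] at p1 p2
  have c1 := ia_c (b' := b) (x := x) H he he1 he2 hbig hτ hd hd0 hL hi hi' hw' p1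
  have c2 := ia_c (b' := a) (x := x') H he he1 he2 hbig hτ hd hd0 hL hi hi' hw' p2
  have hj : ∀ q : ZMod (X.N n) → ℤ × ℤ, i * n - t0 S s n ∈
      (ids S (Rf S) ja).image (jn q (X.k n) (t0 S s n) (me e n) n) := fun q =>
    mem_image.2 ⟨(i, 0), ids_c hi, jn_c _ _ _ _ _ _⟩
  have T1 := t1 _ (hj _)
  have T2 := t2 _ (hj _)
  have u1 := F.cA g1 c1 T1
  have u2 := F.cA g2 c2 T2
  have n1 := T1.nn (η := η) h1.kit.pos
  have n2 := T2.nn (η := η') h1.kit.pos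
  have hP := F.pp
  refine ⟨mul_nonneg n1 n2, ?_, na_c_one H he he1 he2 hbig hτ hd hd0 hL h1 hi hi' hr hrd,
    na_c_one H he he1 he2 hbig hτ hd hd0 hL h1 hi hi' hr hrd⟩
  have k1 := mul_two n1 n2 u1 u2
  rw [bool_pair (A w) e'] at k1
  have k2 := F.iA w
  have k3 : C ≤ C ^ 6 := le_self_pow₀ hC (by norm_num)
  have k4 : C * Pi ≤ C ^ 6 * Pi := mul_le_mul_of_nonneg_right k3 hP.le
  have k5 : 0 ≤ C ^ 6 * Pi := by positivity
  linarith

include h1 H he he1 he2 hbig hτ hd hd0 hL F hC hab g1 g2 g3 g4 t1 t2 t3 t4 in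
/-- The reflex corners. -/
theorem kind_r (hi : i ∈ Rf S) :
    0 ≤ (IA X s e ja n τ a b x).e θ (bt θ) η r (i * n - t0 S s n) *
        (IA X s e ja n τ b a x').e θ (bt θ) η' r (i * n - t0 S s n) ∧
      0 ≤ (NA X s e ja n b x).e θ (bt θ) η' r (i * n - t0 S s n) *
        (NA X s e ja n a x').e θ (bt θ) η r (i * n - t0 S s n) ∧
      (IA X s e ja n τ a b x).e θ (bt θ) η r (i * n - t0 S s n) *
        (IA X s e ja n τ b a x').e θ (bt θ) η' r (i * n - t0 S s n) ≤ 16 * C ^ 6 * Pi ^ 3 *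
          ((NA X s e ja n b x).e θ (bt θ) η' r (i * n - t0 S s n) *
            (NA X s e ja n a x').e θ (bt θ) η r (i * n - t0 S s n)) := by
  obtain ⟨w, hw⟩ : ∃ w, w = decide (X.k n ≤ i * n - t0 S s n) := ⟨_, rfl⟩
  have hw' : X.k n ≤ i * n - t0 S s n ↔ w = true := by rw [hw, decide_eq_true_eq]
  obtain ⟨v, hv⟩ : ∃ v, v = X.q n ((i * n - t0 S s n : ℕ) : ZMod (X.N n)) := ⟨_, rfl⟩
  obtain ⟨e', he'⟩ : ∃ e', e' = decide (Even ((v + a).1 + (v + a).2)) := ⟨_, rfl⟩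
  have p1 : Even ((v + a).1 + (v + a).2) ↔ e' = true := by rw [he', decide_eq_true_eq]
  have p2 : Even ((v + b).1 + (v + b).2) ↔ (!e') = true := by
    rw [he']
    exact par_not hab v
  rw [hv] at p1 p2
  have hba : ¬ (Even (b.1 + b.2) ↔ Even (a.1 + a.2)) := fun h => hab h.symm
  have c1 := ia_r (x := x) H he he1 he2 hbig hτ hd hd0 hL hab hi hw' p1
  have c2 := ia_r (x := x') H he he1 he2 hbig hτ hd hd0 hL hba hi hw' p2
  have c3 := na_r (x := x) H he he1 he2 hbig hτ hd hd0 hL hi hw' p2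
  have c4 := na_r (x := x') H he he1 he2 hbig hτ hd hd0 hL hi hw' p1
  have hj : ∀ q : ZMod (X.N n) → ℤ × ℤ, i * n - t0 S s n ∈
      (ids S (Rf S) ja).image (jn q (X.k n) (t0 S s n) (me e n) n) := fun q =>
    mem_image.2 ⟨(i, 0), ids_c (Rf_sub S hi), jn_c _ _ _ _ _ _⟩
  have T1 := t1 _ (hj _)
  have T2 := t2 _ (hj _)
  have T3 := t3 _ (hj _)
  have T4 := t4 _ (hj _)
  have u1 := F.cB g1 c1 T1
  have u2 := F.cB g2 c2 T2
  have u3 := F.cZ g3 c3 T3
  have u4 := F.cZ g4 c4 T4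
  have n1 := T1.nn (η := η) h1.kit.pos
  have n2 := T2.nn (η := η') h1.kit.pos
  have n3 := T3.nn (η := η') h1.kit.pos
  have n4 := T4.nn (η := η) h1.kit.pos
  have hP := F.pp
  refine ⟨mul_nonneg n1 n2, mul_nonneg n3 n4, ?_⟩
  have k1 := mul_two n1 n2 u1 u2
  rw [bool_pair (B w) e'] at k1
  have k2 := F.iB w
  have k3 := mul_two (F.zp w (!e')).le (F.zp w e').le u3 u4
  rw [mul_comm (Z w (!e')), bool_pair (Z w) e'] at k3
  have k4 : C ≤ C ^ 6 := le_self_pow₀ hC (by norm_num)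
  have hP3 : 0 < Pi ^ 3 := by positivity
  calc _ ≤ 4 * (B w true * B w false) := k1
    _ ≤ 4 * (C * (Z w true * Z w false) * Pi ^ 3) := by linarith
    _ = (4 * C * Pi ^ 3) * (Z w true * Z w false) := by ring
    _ ≤ (4 * C * Pi ^ 3) * (4 * ((NA X s e ja n b x).e θ (bt θ) η' r (i * n - t0 S s n) *
            (NA X s e ja n a x').e θ (bt θ) η r (i * n - t0 S s n))) :=
        mul_le_mul_of_nonneg_left k3 (by positivity)
    _ = 16 * C * (Pi ^ 3 * ((NA X s e ja n b x).e θ (bt θ) η' r (i * n - t0 S s n) *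
            (NA X s e ja n a x').e θ (bt θ) η r (i * n - t0 S s n))) := by ring
    _ ≤ 16 * C ^ 6 * (Pi ^ 3 * ((NA X s e ja n b x).e θ (bt θ) η' r (i * n - t0 S s n) *
            (NA X s e ja n a x').e θ (bt θ) η r (i * n - t0 S s n))) :=
        mul_le_mul_of_nonneg_right (by linarith) (mul_nonneg hP3.le (mul_nonneg n3 n4))
    _ = _ := by ring

include h1 H he he1 he2 hbig hτ hd hd0 hL F hC hab g1 g2 g3 g4 t1 t2 t3 t4 in
/-- The compensating charges. -/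
theorem kind_z (hi : i ∈ Rf S) {z z' : ℕ}
    (hz : z = rI (fun i => X.q n i + b) (X.k n) (i * n - t0 S s n) + me e n)
    (hz' : z' = rI (fun i => X.q n i + a) (X.k n) (i * n - t0 S s n) + me e n) :
    0 ≤ (IA X s e ja n τ a b x).e θ (bt θ) η r z * (IA X s e ja n τ b a x').e θ (bt θ) η' r z' ∧
      (IA X s e ja n τ a b x).e θ (bt θ) η r z * (IA X s e ja n τ b a x').e θ (bt θ) η' r z' *
        Pi ^ 4 ≤ 16 * C ^ 6 ∧
      1 ≤ 16 * C ^ 6 * ((NA X s e ja n b x).e θ (bt θ) η' r z *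
        (NA X s e ja n a x').e θ (bt θ) η r z') := by
  obtain ⟨w, hw⟩ : ∃ w, w = decide (X.k n ≤ z) := ⟨_, rfl⟩
  obtain ⟨w', hw'⟩ : ∃ w', w' = decide (X.k n ≤ z') := ⟨_, rfl⟩
  have p1 : X.k n ≤ z ↔ w = true := by rw [hw, decide_eq_true_eq]
  have p2 : X.k n ≤ z' ↔ w' = true := by rw [hw', decide_eq_true_eq]
  have hba : ¬ (Even (b.1 + b.2) ↔ Even (a.1 + a.2)) := fun h => hab h.symm
  have hj : z ∈ (ids S (Rf S) ja).image (jn (fun i => X.q n i + b) (X.k n) (t0 S s n) (me e n) n) :=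
    mem_image.2 ⟨(i, 1), ids_z hi, (jn_z _ _ _ _ _ _).trans hz.symm⟩
  have hj' : z' ∈ (ids S (Rf S) ja).image
      (jn (fun i => X.q n i + a) (X.k n) (t0 S s n) (me e n) n) :=
    mem_image.2 ⟨(i, 1), ids_z hi, (jn_z _ _ _ _ _ _).trans hz'.symm⟩
  have T1 := t1 z hj
  have T2 := t2 z' hj'
  have T3 := t3 z hj
  have T4 := t4 z' hj'
  have c1 : CM ⌊c * n⌋₊ (IA X s e ja n τ a b x) τ L z 0 w w (fo θ) := by
    rw [hz] at p1 ⊢
    exact ia_z H he he1 he2 hbig hτ hd hd0 hL hab hi p1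
  have c2 : CM ⌊c * n⌋₊ (IA X s e ja n τ b a x') τ L z' 0 w' w' (fo θ) := by
    rw [hz'] at p2 ⊢
    exact ia_z H he he1 he2 hbig hτ hd hd0 hL hba hi p2
  have c3 : CM ⌊c * n⌋₊ (NA X s e ja n b x) τ L z 0 w (!w) (fo (-θ)) := by
    rw [hz] at p1 ⊢
    exact na_z H he he1 he2 hbig hτ hd hd0 hL hi p1
  have c4 : CM ⌊c * n⌋₊ (NA X s e ja n a x') τ L z' 0 w' (!w') (fo (-θ)) := by
    rw [hz'] at p2 ⊢
    exact na_z H he he1 he2 hbig hτ hd hd0 hL hi p2
  have u1 := F.cb g1 c1 T1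
  have u2 := F.cb g2 c2 T2
  have u3 := F.cζ g3 c3 T3
  have u4 := F.cζ g4 c4 T4
  have n1 := T1.nn (η := η) h1.kit.pos
  have n2 := T2.nn (η := η') h1.kit.pos
  have n3 := T3.nn (η := η') h1.kit.pos
  have n4 := T4.nn (η := η) h1.kit.pos
  have hP := F.pp
  have hP2 : 0 < Pi ^ 2 := by positivity
  have hC0 : 0 < C := by linarith
  have k0 : C ^ 4 ≤ C ^ 6 := pow_le_pow_right₀ hC (by norm_num)
  have k0' : C ^ 2 ≤ C ^ 6 := pow_le_pow_right₀ hC (by norm_num)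
  refine ⟨mul_nonneg n1 n2, ?_, ?_⟩
  · have k1 := mul_two n1 n2 u1 u2
    have k2 : ∀ w, bb w * Pi ^ 2 ≤ C ^ 2 := fun w =>
      ((F.ib w).trans (mul_le_mul_of_nonneg_left (F.iζ w) hC0.le)).trans_eq (by ring)
    have k3 : bb w * Pi ^ 2 * (bb w' * Pi ^ 2) ≤ C ^ 2 * C ^ 2 :=
      mul_le_mul (k2 w) (k2 w') (mul_nonneg (F.b0 w') hP2.le) (by positivity)
    calc _ ≤ 4 * (bb w * bb w') * Pi ^ 4 := mul_le_mul_of_nonneg_right k1 (by positivity)
      _ = 4 * (bb w * Pi ^ 2 * (bb w' * Pi ^ 2)) := by ring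
      _ ≤ 4 * (C ^ 2 * C ^ 2) := by linarith
      _ = 4 * C ^ 4 := by ring
      _ ≤ 16 * C ^ 6 := by
        have : 0 < C ^ 4 := by positivity
        linarith
  · have k1 := mul_two (F.ζp w).le (F.ζp w').le u3 u4
    have k2 : 1 * 1 ≤ (C * ζ w) * (C * ζ w') :=
      mul_le_mul (F.iz w) (F.iz w') zero_le_one (by linarith [F.iz w])
    calc (1 : ℝ) = 1 * 1 := by norm_num
      _ ≤ (C * ζ w) * (C * ζ w') := k2
      _ = C ^ 2 * (ζ w * ζ w') := by ring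
      _ ≤ C ^ 2 * (4 * ((NA X s e ja n b x).e θ (bt θ) η' r z *
          (NA X s e ja n a x').e θ (bt θ) η r z')) := mul_le_mul_of_nonneg_left k1 (by positivity)
      _ = (4 * C ^ 2) * ((NA X s e ja n b x).e θ (bt θ) η' r z *
          (NA X s e ja n a x').e θ (bt θ) η r z') := by ring
      _ ≤ _ := mul_le_mul_of_nonneg_right (by
          have : 0 < C ^ 6 := by positivity
          linarith) (mul_nonneg n3 n4)

include h0 h1 H he he1 he2 hbig hτ hd hd0 hL hr1 hr hrd F hC hCw hab g1 g2 t1 t2 in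
/-- Base and junction. -/
theorem kind_b (hx : XOk (X.N n) (X.k n) (fun i => X.q n i + b) x)
    (hx' : XOk (X.N n) (X.k n) (fun i => X.q n i + a) x') :
    0 ≤ (IA X s e ja n τ a b x).e θ (bt θ) η r 0 * (IA X s e ja n τ b a x').e θ (bt θ) η' r 0 *
        (∏ _i ∈ ja, ((IA X s e ja n τ a b x).e θ (bt θ) η r (X.k n) *
          (IA X s e ja n τ b a x').e θ (bt θ) η' r (X.k n))) ∧
      (IA X s e ja n τ a b x).e θ (bt θ) η r 0 * (IA X s e ja n τ b a x').e θ (bt θ) η' r 0 *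
        (∏ _i ∈ ja, ((IA X s e ja n τ a b x).e θ (bt θ) η r (X.k n) *
          (IA X s e ja n τ b a x').e θ (bt θ) η' r (X.k n))) * Pi ^ 4 ≤ 16 * C ^ 6 ∧
      1 ≤ 16 * C ^ 6 * ((NA X s e ja n b x).e θ (bt θ) η' r 0 *
        (NA X s e ja n a x').e θ (bt θ) η r 0 *
        ∏ _i ∈ ja, ((NA X s e ja n b x).e θ (bt θ) η' r (X.k n) *
          (NA X s e ja n a x').e θ (bt θ) η r (X.k n))) := by
  have hba : ¬ (Even (b.1 + b.2) ↔ Even (a.1 + a.2)) := fun h => hab h.symm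
  have hj : ∀ q : ZMod (X.N n) → ℤ × ℤ, 0 ∈
      (ids S (Rf S) ja).image (jn q (X.k n) (t0 S s n) (me e n) n) := fun q =>
    mem_image.2 ⟨(0, 2), ids_0, jn_0 _ _ _ _ _⟩
  have T1 := t1 _ (hj _)
  have T2 := t2 _ (hj _)
  have n1 := T1.nn (η := η) h1.kit.pos
  have n2 := T2.nn (η := η') h1.kit.pos
  have hP := F.pp
  have hP2 : 0 < Pi ^ 2 := by positivity
  have hP4 : 0 < Pi ^ 4 := by positivity
  have hC0 : 0 < C := by linarith
  have k0 : C ≤ C ^ 6 := le_self_pow₀ hC (by norm_num)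
  have k6 : 1 ≤ C ^ 6 := one_le_pow₀ hC
  obtain ⟨v, hv⟩ : ∃ v, v = X.q n 0 := ⟨_, rfl⟩
  obtain ⟨e', he'⟩ : ∃ e', e' = decide (Even ((v + a).1 + (v + a).2)) := ⟨_, rfl⟩
  have p1 : Even ((v + a).1 + (v + a).2) ↔ e' = true := by rw [he', decide_eq_true_eq]
  have p2 : Even ((v + b).1 + (v + b).2) ↔ (!e') = true := by
    rw [he']
    exact par_not hab v
  rw [hv] at p1 p2
  rcases H.jun with ⟨hja, hk⟩ | ⟨ia, hja, hia, -⟩
  · -- free or wired
    have hpr : ∀ z : ℝ, ∏ _i ∈ ja, z = 1 := fun z => by rw [hja, prod_empty]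
    rw [hpr, hpr, mul_one, mul_one]
    obtain ⟨w, hw⟩ : ∃ w, w = decide (X.k n = 0) := ⟨_, rfl⟩
    have hw' : X.k n = 0 ↔ w = true := by rw [hw, decide_eq_true_eq]
    obtain ⟨a1, a2, a3⟩ := ia_f H he he1 he2 hbig hτ hd hd0 hL hab hk hx
    obtain ⟨b1, b2, b3⟩ := ia_f H he he1 he2 hbig hτ hd hd0 hL hba hk hx'
    have u1 : (IA X s e ja n τ a b x).e θ (bt θ) η r 0 ≤ C * bb w := F.cF g1 hk hw' a1 a2 a3
    have u2 : (IA X s e ja n τ b a x').e θ (bt θ) η' r 0 ≤ C * bb w := F.cF g2 hk hw' b1 b2 b3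
    refine ⟨mul_nonneg n1 n2, ?_, ?_⟩
    · have k2 : bb w * Pi ^ 2 ≤ C ^ 2 :=
        ((F.ib w).trans (mul_le_mul_of_nonneg_left (F.iζ w) hC0.le)).trans_eq (by ring)
      have k3 : bb w * Pi ^ 2 * (bb w * Pi ^ 2) ≤ C ^ 2 * C ^ 2 :=
        mul_le_mul k2 k2 (mul_nonneg (F.b0 w) hP2.le) (by positivity)
      have k4 : (IA X s e ja n τ a b x).e θ (bt θ) η r 0 *
          (IA X s e ja n τ b a x').e θ (bt θ) η' r 0 ≤ (C * bb w) * (C * bb w) :=
        mul_le_mul u1 u2 n2 (mul_nonneg hC0.le (F.b0 w))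
      calc _ ≤ (C * bb w) * (C * bb w) * Pi ^ 4 := mul_le_mul_of_nonneg_right k4 hP4.le
        _ = C ^ 2 * (bb w * Pi ^ 2 * (bb w * Pi ^ 2)) := by ring
        _ ≤ C ^ 2 * (C ^ 2 * C ^ 2) := mul_le_mul_of_nonneg_left k3 (by positivity)
        _ = C ^ 6 := by ring
        _ ≤ 16 * C ^ 6 := by linarith
    · have key : wl θ ≤ (NA X s e ja n b x).e θ (bt θ) η' r 0 *
          (NA X s e ja n a x').e θ (bt θ) η r 0 := by
        have hxa : x = true ↔ (Even ((X.q n 0 + b).1 + (X.q n 0 + b).2) ↔ X.k n = 0) := by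
          rcases hx with ⟨-, h⟩ | ⟨h5, h6, -⟩
          · exact h
          · omega
        have hxb : x' = true ↔ (Even ((X.q n 0 + a).1 + (X.q n 0 + a).2) ↔ X.k n = 0) := by
          rcases hx' with ⟨-, h⟩ | ⟨h5, h6, -⟩
          · exact h
          · omega
        have hxx : x' = !x := by
          rw [p2] at hxa
          rw [p1] at hxb
          by_cases hk0 : X.k n = 0
          · have ea : x = !e' := Bool.eq_iff_iff.2 (hxa.trans ⟨fun h => h.2 hk0, fun h => iff_of_true h hk0⟩)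
            have eb : x' = e' := Bool.eq_iff_iff.2 (hxb.trans ⟨fun h => h.2 hk0, fun h => iff_of_true h hk0⟩)
            rw [ea, eb, Bool.not_not]
          · have ea : x = e' := Bool.eq_iff_iff.2 (hxa.trans ⟨fun h => by
              have h2 : ¬ (!e') = true := fun h3 => hk0 (h.1 h3)
              rwa [Bool.not_eq_true', Bool.not_eq_false] at h2, fun h => iff_of_false (by
                rw [h]
                decide) hk0⟩)
            have eb : x' = !e' := Bool.eq_iff_iff.2 (hxb.trans ⟨fun h => by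
              have h2 : ¬ e' = true := fun h3 => hk0 (h.1 h3)
              rw [Bool.not_eq_true']
              exact Bool.eq_false_iff.2 h2, fun h => iff_of_false (by
                rw [Bool.not_eq_true'] at h
                rw [h]
                decide) hk0⟩)
            rw [ea, eb]
        subst hxx
        cases x
        · rw [na_b_one H he he1 he2 hbig hτ hd hd0 hL h1 hr hrd, one_mul]
          exact na_b_ge H he he1 he2 hbig hτ hd hd0 hL h0 h1 hx' hr1 hr hrd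
        · have e2 : (NA X s e ja n a (!true)).e θ (bt θ) η r 0 = 1 :=
            na_b_one H he he1 he2 hbig hτ hd hd0 hL h1 hr hrd
          rw [e2, mul_one]
          exact na_b_ge H he he1 he2 hbig hτ hd hd0 hL h0 h1 hx hr1 hr hrd
      have hwl := wl_pos h0 h1.lt
      calc (1 : ℝ) ≤ C * wl θ := hCw
        _ ≤ C ^ 6 * wl θ := mul_le_mul_of_nonneg_right k0 hwl.le
        _ ≤ 16 * C ^ 6 * wl θ := mul_le_mul_of_nonneg_right (by linarith) hwl.le
        _ ≤ _ := mul_le_mul_of_nonneg_left key (by positivity)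
  · -- Dobrushin
    have hiaj : ia ∈ ja := by rw [hja]; exact mem_singleton_self ia
    have hm := H.mid he he1 he2 (Rf_sub S) hbig (X.q n) (ids_k (S := S) (Rs := Rf S) hiaj)
      (fun h => by simp at h; omega)
    rw [jn_k _ _ _ _ _ _ hia] at hm
    have hkp : 0 < X.k n := by omega
    have hkN : X.k n < X.N n := by omega
    have hx0 : x = false := by
      rcases hx with ⟨h, -⟩ | ⟨-, -, h⟩
      · omega
      · exact h
    have hx0' : x' = false := by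
      rcases hx' with ⟨h, -⟩ | ⟨-, -, h⟩
      · omega
      · exact h
    subst hx0 hx0'
    have hpr : ∀ z : ℝ, ∏ _i ∈ ja, z = z := fun z => by rw [hja, prod_singleton]
    rw [hpr, hpr]
    obtain ⟨v', hv'⟩ : ∃ v, v = X.q n (X.k n : ZMod (X.N n)) := ⟨_, rfl⟩
    obtain ⟨e'', he''⟩ : ∃ e', e' = decide (Even ((v' + a).1 + (v' + a).2)) := ⟨_, rfl⟩
    have p1' : Even ((v' + a).1 + (v' + a).2) ↔ e'' = true := by rw [he'', decide_eq_true_eq]
    have p2' : Even ((v' + b).1 + (v' + b).2) ↔ (!e'') = true := by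
      rw [he'']
      exact par_not hab v'
    rw [hv'] at p1' p2'
    have hjk : ∀ q : ZMod (X.N n) → ℤ × ℤ, X.k n ∈
        (ids S (Rf S) ja).image (jn q (X.k n) (t0 S s n) (me e n) n) := fun q =>
      mem_image.2 ⟨(ia, 2), ids_k hiaj, jn_k _ _ _ _ _ _ hia⟩
    have T3 := t1 _ (hjk _)
    have T4 := t2 _ (hjk _)
    have n3 := T3.nn (η := η) h1.kit.pos
    have n4 := T4.nn (η := η') h1.kit.pos
    have u1 := F.cD g1 (ia_b H he he1 he2 hbig hτ hd hd0 hL hkp hkN p1) T1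
    have u2 := F.cD g2 (ia_b H he he1 he2 hbig hτ hd hd0 hL hkp hkN p2) T2
    have u3 : (IA X s e ja n τ a b false).e θ (bt θ) η r (X.k n) ≤ 2 * Dj e'' :=
      F.cJ g1 (ia_k H he he1 he2 hbig hτ hd hd0 hL hiaj p1') T3
    have u4 : (IA X s e ja n τ b a false).e θ (bt θ) η' r (X.k n) ≤ 2 * Dj (!e'') :=
      F.cJ g2 (ia_k H he he1 he2 hbig hτ hd hd0 hL hiaj p2') T4
    have m1 := mul_two n1 n2 u1 u2
    have m2 := mul_two n3 n4 u3 u4
    rw [bool_pair Db e'] at m1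
    rw [bool_pair Dj e''] at m2
    refine ⟨mul_nonneg (mul_nonneg n1 n2) (mul_nonneg n3 n4), ?_, ?_⟩
    · have hDb : 0 ≤ Db true * Db false := mul_nonneg (F.db0 _) (F.db0 _)
      calc _ ≤ 4 * (Db true * Db false) * (4 * (Dj true * Dj false)) * Pi ^ 4 :=
            mul_le_mul_of_nonneg_right (mul_le_mul m1 m2 (mul_nonneg n3 n4) (by positivity)) hP4.le
        _ = 16 * ((Db true * Dj true) * (Db false * Dj false) * Pi ^ 4) := by ring
        _ ≤ 16 * C := by linarith [F.iD]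
        _ ≤ 16 * C ^ 6 := by linarith
    · rw [na_b_one H he he1 he2 hbig hτ hd hd0 hL h1 hr hrd,
        na_b_one H he he1 he2 hbig hτ hd hd0 hL h1 hr hrd,
        na_k_one H he he1 he2 hbig hτ hd hd0 hL h1 hiaj hr hrd,
        na_k_one H he he1 he2 hbig hτ hd hd0 hL h1 hiaj hr hrd]
      linarith

end kinds

end Vale.Agent.P167.N.QL
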