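import Vale.Agent.P167.N.QL.In

/-!
# P167, the range `0 < q < 1`, block Q-LAM: assembly, positive and killed centres

`lk_of`: local data if every centre is positive or killed. `bd_all`: the value of a functional with
positive weights is comparable with the product of the mean values of the local factors.
-/

set_option autoImplicit false

namespace Vale.Agent.P167.N.QL

open Finset Filter Vale.Agent.P167.BR Vale.Agent.P167.FK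
open Vale.Agent.P167.E6 (IsPolygon Encloses face dir)
open Vale.Agent.P167.H718 (Dob rc IsCl)
open Vale.Agent.P167.H192.Q (SRSW)
open Vale.Agent.P167.H975 (TX)
open Vale.Agent.P167.N.AW (Kil ExtI)

variable {θ β : ℝ} {P : PD} {η : Cfg} {N k : ℕ} {q : ZMod N → ℤ × ℤ} {D : Finset (ℤ × ℤ)}
  {ρ : ℕ → ℝ} {b B b' B' c0 c0' : ℝ} {Λ Λ' : ℤ} {KE KE' : ℕ → ℤ} {CE CE' : ℕ → ℝ} {z : ℤ × ℤ}
  {r r' : ℤ} {J : Finset ℕ} {j n ms : ℕ} {σ R : ℝ}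

theorem PC.mono (h : PC θ β q D k ρ c0 z r) (hc : c0' ≤ c0) (hr : r' ≤ r) :
    PC θ β q D k ρ c0' z r' := fun ω A hA hA' =>
  hc.trans (h ω A hA fun e he => H601.S2.Bq_sub hr (hA' e he))

theorem KC.mono (hQ : 0 < 2 * Real.cos θ) (h : KC θ β q D k ρ η b B Λ KE CE z r) (hb : b' ≤ b)
    (hB : B ≤ B') (hΛ : Λ ≤ Λ') (hK : ∀ E, KE E ≤ KE' E) (hC : ∀ E, CE E ≤ CE' E) (hr : r' ≤ r) :
    KC θ β q D k ρ η b' B' Λ' KE' CE' z r' := by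
  obtain ⟨I, h1, h2⟩ := h
  have h1' := h1.mono hr
  refine ⟨I, ⟨h1'.zo, h1'.anti, fun a ω ha ha' => ?_, fun a ω ha ha' => ?_⟩, fun E => ?_⟩
  · exact (mul_le_mul_of_nonneg_right hb (h1'.nn ha ha' ω).1).trans (h1'.low a ω ha ha')
  · exact (h1'.up a ω ha ha').trans (mul_le_mul_of_nonneg_right hB (h1'.nn ha ha' ω).1)
  · exact ((((h2 E).le_K (hK E)).le_r hr).le_L hΛ).le_C hQ (hC E)

/-- **Local data**: every centre is positive or killed. -/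
theorem lk_of (h : ∀ j ∈ P.J, PC θ β P.q P.D P.k P.ρ c0 (P.q (j : ZMod P.N)) r ∨
    KC θ β P.q P.D P.k P.ρ η b B Λ KE CE (P.q (j : ZMod P.N)) r) :
    ∃ JP JZ, P.Lk θ β b B c0 Λ KE CE η JP JZ r := by
  classical
  refine ⟨P.J.filter fun j => PC θ β P.q P.D P.k P.ρ c0 (P.q (j : ZMod P.N)) r,
    P.J.filter fun j => ¬ PC θ β P.q P.D P.k P.ρ c0 (P.q (j : ZMod P.N)) r,
    filter_union_filter_not_eq _ _, disjoint_filter_filter_not _ _ _, fun j hj => ?_,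
    fun j hj => ?_⟩
  · exact (mem_filter.1 hj).2
  · rw [mem_filter] at hj
    exact (h j hj.1).resolve_left hj.2

theorem Ex_pos {Q : ℝ} (hQ : 0 < Q) {F : Cfg → ℝ} (h : ∀ ω, 0 < F ω) : 0 < Ex Q D η F := by
  unfold Ex
  exact div_pos (sum_pos (fun S _ => mul_pos (pow_pos hQ _) (h _)) ⟨∅, empty_mem_powerset D⟩)
    (FKA.Zq_pos hQ D η)

theorem TX_pos' (h0 : 0 < c0) (h : PC θ β q D k ρ c0 z r) (ω : Cfg) :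
    0 < TX (wP θ β q D k ρ) D z r ω := by
  classical
  unfold TX
  refine prod_pos fun A hA => ?_
  rw [mem_filter] at hA
  exact h0.trans_le (h ω A hA.1 hA.2)

/-- The mean value of a positive local factor. -/
theorem e_pos (hQ : 0 < 2 * Real.cos θ) (h0 : 0 < c0)
    (h : PC θ β P.q P.D P.k P.ρ c0 (P.q (j : ZMod P.N)) r) : 0 < P.e θ β η r j :=
  Ex_pos hQ (TX_pos' h0 h)

theorem e_nonneg (hQ : 0 < 2 * Real.cos θ)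
    (h : ∀ ω, 0 ≤ TX (wP θ β P.q P.D P.k P.ρ) P.D (P.q (j : ZMod P.N)) r ω) :
    0 ≤ P.e θ β η r j := FKA.Ex_nonneg hQ fun _ _ => h _

/-- **The upper bound.** -/
theorem up_lk (h0 : 0 < θ) (h1 : Ang θ) (hβ : Real.cos (θ / 2 + β) = Real.sin θ)
    (hR : RSW (2 * Real.cos θ)) (hSR : SRSW (2 * Real.cos θ)) (R : ℝ) (ms : ℕ) (KE : ℕ → ℤ)
    (hC : Cs σ b B c0 Λ CE) :
    ∃ ρ₁ : ℝ, 0 < ρ₁ ∧ ∀ ρ : ℝ, 0 < ρ → ρ ≤ ρ₁ → ∃ (C : ℝ) (n₀ : ℕ), 0 < C ∧ ∀ n : ℕ, n₀ ≤ n →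
      ∀ (P : PD) (η₀ : Cfg), P.Rg n σ R ms η₀ →
      (∀ j ∈ P.J, PC θ β P.q P.D P.k P.ρ c0 (P.q (j : ZMod P.N)) ⌊σ * n⌋ ∨
        KC θ β P.q P.D P.k P.ρ η₀ b B Λ KE CE (P.q (j : ZMod P.N)) ⌊σ * n⌋) →
      ∀ η : Cfg, Dob η P.D P.q P.k → (∀ j ∈ P.J, 0 ≤ P.e θ β η ⌊ρ * n⌋ j) ∧
        Ex (2 * Real.cos θ) P.D η (fun ω => |TPq θ β P ⌊ρ * n⌋ ω|) ≤
          C * ∏ j ∈ P.J, P.e θ β η ⌊ρ * n⌋ j ∧
        VP θ β P ≤ C * ∏ j ∈ P.J, P.e θ β η ⌊ρ * n⌋ j := by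
  obtain ⟨ρ₁, hρ₁, H⟩ := up_pd h0 h1 hβ hR hSR R ms KE hC
  refine ⟨ρ₁, hρ₁, fun ρ hρ hρ1 => ?_⟩
  obtain ⟨C, n₀, hCp, H⟩ := H ρ hρ hρ1
  refine ⟨C, n₀, hCp, fun n hn P η₀ hP hj η hη => ?_⟩
  obtain ⟨JP, JZ, hL⟩ := lk_of hj
  obtain ⟨k1, k2⟩ := H n hn P η₀ JP JZ hP hL
  obtain ⟨-, k3, k4, -⟩ := k2 η hη
  exact ⟨fun j hj => e_nonneg h1.kit.pos (k1 j hj), k4, (le_abs_self _).trans k3⟩

/-- **Functionals with positive weights.** -/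
theorem bd_all (h0 : 0 < θ) (h1 : Ang θ) (hβ : Real.cos (θ / 2 + β) = Real.sin θ)
    (hR : RSW (2 * Real.cos θ)) (hSR : SRSW (2 * Real.cos θ)) (R : ℝ) (ms : ℕ) (hσ : 0 < σ) :
    ∃ ρ₁ : ℝ, 0 < ρ₁ ∧ ∀ ρ : ℝ, 0 < ρ → ρ ≤ ρ₁ → ∃ (C : ℝ) (n₀ : ℕ), 0 < C ∧ ∀ n : ℕ, n₀ ≤ n →
      ∀ (P : PD) (η₀ : Cfg), P.Rg n σ R ms η₀ →
      (∀ ω : Cfg, ∀ A ∈ pcs ω P.D, wl θ ≤ wP θ β P.q P.D P.k P.ρ A) →
      ∀ η : Cfg, Dob η P.D P.q P.k →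
        VP θ β P ≤ C * ∏ j ∈ P.J, P.e θ β η ⌊ρ * n⌋ j ∧
        ∏ j ∈ P.J, P.e θ β η ⌊ρ * n⌋ j ≤ C * VP θ β P := by
  have hw := wl_pos h0 h1.lt
  obtain ⟨ρ₁, hρ₁, H⟩ := up_lk (σ := σ) (b := 1) (B := 1) (c0 := wl θ) (Λ := 1)
    (CE := fun _ => 1) h0 h1 hβ hR hSR R ms (fun _ => 0)
    ⟨hσ, one_pos, le_rfl, le_rfl, hw, wl_le_one θ, le_rfl, fun _ => le_rfl⟩
  obtain ⟨ρ₂, hρ₂, H'⟩ := low_all h0 h1 hβ hR hSR R ms hw hσ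
  refine ⟨min ρ₁ ρ₂, lt_min hρ₁ hρ₂, fun ρ hρ hρ1 => ?_⟩
  obtain ⟨C, n₀, hCp, H⟩ := H ρ hρ (hρ1.trans (min_le_left _ _))
  obtain ⟨c, n₁, hcp, H'⟩ := H' ρ hρ (hρ1.trans (min_le_right _ _))
  refine ⟨max C c⁻¹, max n₀ n₁, lt_max_of_lt_left hCp, fun n hn P η₀ hP hj η hη => ?_⟩
  have hPC : ∀ j ∈ P.J, PC θ β P.q P.D P.k P.ρ (wl θ) (P.q (j : ZMod P.N)) ⌊σ * n⌋ :=
    fun j _ ω A hA _ => hj ω A hA
  obtain ⟨k1, -, k2⟩ := H n ((le_max_left _ _).trans hn) P η₀ hP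
    (fun j hj => Or.inl (hPC j hj)) η hη
  have k3 := H' n ((le_max_right _ _).trans hn) P η₀ hP hj η hη
  have hpr : 0 ≤ ∏ j ∈ P.J, P.e θ β η ⌊ρ * n⌋ j := prod_nonneg k1
  have hVP : 0 ≤ VP θ β P := le_trans (by positivity) k3
  refine ⟨k2.trans (mul_le_mul_of_nonneg_right (le_max_left _ _) hpr), ?_⟩
  calc ∏ j ∈ P.J, P.e θ β η ⌊ρ * n⌋ j = c⁻¹ * (c * ∏ j ∈ P.J, P.e θ β η ⌊ρ * n⌋ j) := by
        field_simp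
    _ ≤ c⁻¹ * VP θ β P := mul_le_mul_of_nonneg_left k3 (by positivity)
    _ ≤ _ := mul_le_mul_of_nonneg_right (le_max_right _ _) hVP

end Vale.Agent.P167.N.QL
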