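import Vale.Agent.P167.N.QL.Al3

/-!
# P167, the range `0 < q < 1`, block Q-LAM: assembly, the data of the special polygons
-/

set_option autoImplicit false

namespace Vale.Agent.P167.N.QL

open Finset Filter Vale.Agent.P167.BR Vale.Agent.P167.FK
open Vale.Agent.P167.Enl
open Vale.Agent.P167.E6 (IsPolygon Encloses face dir)
open Vale.Agent.P167.H718 (Dob rc IsCl)
open Vale.Agent.P167.H318.LC (sqP sqS lP lS sq_poly sq_encl l_poly l_encl)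
open Vale.Agent.P167.H871 (Bd)
open Vale.Agent.P167.H192.Q (SRSW)
open Vale.Agent.P167.H975 (TX)

variable {θ β : ℝ} {N k : ℕ} {q : ZMod N → ℤ × ℤ} {D : Finset (ℤ × ℤ)}
  {ρ : ℕ → ℝ} {τ : ℕ → ℤ} {η : Cfg} {m : ℤ} {J : Finset ℕ} {j n n' ms L : ℕ} {σ R : ℝ}

/-- Regular data. -/
theorem rg_of_lkD (h : LkD n' N q D k τ L m η) (h0 : 0 < n) (hn : n ≤ n')
    (hdia : ∃ x₀ : ℤ × ℤ, ∀ v ∈ D, (nm (v - x₀) : ℝ) ≤ R * n)
    (hN : (⟨N, q, D, k, ρ, J⟩ : PD).Near) (hS : (⟨N, q, D, k, ρ, J⟩ : PD).Sep ⌊σ * n⌋₊)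
    (hc : J.card ≤ ms) (hm : ⌊σ * n⌋ ≤ m) : (⟨N, q, D, k, ρ, J⟩ : PD).Rg n σ R ms η :=
  ⟨⟨h.poly, h.enc, h.geo.mono h0 hn, hN, hS⟩, h.kle, hc, hdia, h.dob, h.reg.mono hm⟩

/-- The Dobrushin square. -/
theorem ds_lkD {n : ℕ} (hn : 12000 ≤ n) (a : ℤ × ℤ) :
    ∃ η : Cfg, LkD (2 * n) (4 * (2 * n)) (dsq n a) (dsD n a) (4 * n) (dsT n) n (n / 100 : ℕ) η := by
  have h := lkD_dob (p := sqP 0) (S₀ := sqS) (n := 2 * n) (t := n) (ia := 2) (σ := n) (L := n)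
    (m₀ := ((n / 100 : ℕ) : ℤ)) (a := a) (τ := dsT n) (sq_poly 0) (sq_encl 0) (by norm_num)
    (by norm_num) le_rfl (by omega) le_rfl (by omega) (by omega) (by omega)
    (bd_qN (by omega) (sq_poly 0) (sq_encl 0) (by omega))
  have e : 2 * (2 * n) + n - n = 4 * n := by omega
  rw [e] at h
  exact h

/-- The L shape. -/
theorem ls_lkD {n : ℕ} (hn : 0 < n) (b : Bool) (a : ℤ × ℤ) :
    ∃ η : Cfg, LkD (2 * n) (8 * (2 * n)) (lsq n a) (lsD n a) (lsK b n) (lsT n) n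
      ((n - 1 : ℕ) : ℤ) η :=
  lkD_fw (p := lP 1) (S₀ := lS 1) (n := 2 * n) (t := n) (L := n) (a := a) (τ := lsT n)
    (l_poly 1) (l_encl 1) (by omega) (by omega) (by
      unfold lsK
      cases b
      · right; simp
      · left; simp)
    (bd_qN (by omega) (l_poly 1) (l_encl 1) (by omega))

/-- The diameter of the Dobrushin square. -/
theorem ds_dia (n : ℕ) (a : ℤ × ℤ) : ∃ x₀ : ℤ × ℤ, ∀ v ∈ dsD n a,
    (nm (v - x₀) : ℝ) ≤ (((∑ w ∈ sqS, nm w : ℤ) + 1 : ℝ) * 2) * n :=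
  ⟨a, fun v hv => by
    have h3 := enl_dia (Q := sqS) (n := 2 * n) (a := a) hv
    refine h3.trans (le_of_eq ?_)
    push_cast
    ring⟩

/-- The diameter of the L shape. -/
theorem ls_dia (n : ℕ) (a : ℤ × ℤ) : ∃ x₀ : ℤ × ℤ, ∀ v ∈ lsD n a,
    (nm (v - x₀) : ℝ) ≤ (((∑ w ∈ lS 1, nm w : ℤ) + 1 : ℝ) * 2) * n :=
  ⟨a, fun v hv => by
    have h3 := enl_dia (Q := lS 1) (n := 2 * n) (a := a) hv
    refine h3.trans (le_of_eq ?_)
    push_cast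
    ring⟩

/-- The radius of the diameter of the Dobrushin square. -/
noncomputable def dsR : ℝ := ((∑ w ∈ sqS, nm w : ℤ) + 1 : ℝ) * 2

/-- The radius of the diameter of the L shape. -/
noncomputable def lsR : ℝ := ((∑ w ∈ lS 1, nm w : ℤ) + 1 : ℝ) * 2

theorem floor_le_of {σ : ℝ} {n : ℕ} {m : ℤ} (h : σ * n < m + 1) : ⌊σ * (n : ℝ)⌋ ≤ m := by
  rw [← Int.lt_add_one_iff, Int.floor_lt]
  push_cast
  exact h

theorem fl200 {n : ℕ} (hn : 12000 ≤ n) : ⌊(1 / 200 : ℝ) * n⌋ ≤ ((n / 100 : ℕ) : ℤ) := by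
  refine floor_le_of ?_
  have h1 : n < 100 * (n / 100) + 100 := by omega
  have h2 : (n : ℝ) < 100 * ((n / 100 : ℕ) : ℝ) + 100 := by exact_mod_cast h1
  have h3 : (12000 : ℝ) ≤ n := by exact_mod_cast hn
  rw [Int.cast_natCast]
  linarith

theorem fl200' {n : ℕ} : ⌊(1 / 200 : ℝ) * n⌋₊ ≤ n := by
  have h1 : (⌊(1 / 200 : ℝ) * n⌋₊ : ℝ) ≤ 1 / 200 * n := Nat.floor_le (by positivity)
  have h2 : (0 : ℝ) ≤ n := Nat.cast_nonneg n
  have h3 : (⌊(1 / 200 : ℝ) * n⌋₊ : ℝ) ≤ n := by linarith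
  exact_mod_cast h3

theorem fl200'' {n : ℕ} (hn : 2 ≤ n) : ⌊(1 / 200 : ℝ) * n⌋₊ + 1 ≤ n := by
  have h1 : (⌊(1 / 200 : ℝ) * n⌋₊ : ℝ) ≤ 1 / 200 * n := Nat.floor_le (by positivity)
  have h2 : (2 : ℝ) ≤ n := by exact_mod_cast hn
  have h3 : ((⌊(1 / 200 : ℝ) * n⌋₊ + 1 : ℕ) : ℝ) ≤ n := by push_cast; linarith
  exact_mod_cast h3

theorem card_dsJ (n : ℕ) : (dsJ n).card ≤ 7 := by
  unfold dsJ
  exact (card_le_six).trans (by norm_num)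

theorem card_dsJz (n z : ℕ) : (dsJz n z).card ≤ 7 := by
  unfold dsJz
  refine (card_insert_le _ _).trans ?_
  exact Nat.succ_le_succ card_le_six

theorem card_lsJ (n : ℕ) : (lsJ n).card ≤ 7 := by
  unfold lsJ
  refine (card_insert_le _ _).trans ?_
  exact Nat.succ_le_succ card_le_six

/-- **The Dobrushin square is regular.** -/
theorem ds_Rg {n : ℕ} (hn : 12000 ≤ n) {a : ℤ × ℤ} {η : Cfg}
    (h : LkD (2 * n) (4 * (2 * n)) (dsq n a) (dsD n a) (4 * n) (dsT n) n (n / 100 : ℕ) η)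
    {ρ : ℕ → ℝ} {J : Finset ℕ} (hN : (dsP n a ρ J).Near)
    (hJ : J = dsJ n ∨ ∃ z, ((2 * n ≤ z ∧ z ≤ 2 * n + 1) ∨ (6 * n ≤ z ∧ z ≤ 6 * n + 1)) ∧
      J = dsJz n z) : (dsP n a ρ J).Rg n (1 / 200) dsR 7 η := by
  refine rg_of_lkD h (by omega) (by omega) (ds_dia n a) hN ?_ ?_ (fl200 hn)
  · rcases hJ with rfl | ⟨z, hz, rfl⟩
    · exact sep_ds (by omega) fl200'
    · exact sep_dsz (by omega) (fl200'' (by omega)) hz
  · rcases hJ with rfl | ⟨z, hz, rfl⟩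
    · exact card_dsJ n
    · exact card_dsJz n z

/-- **The L shape is regular.** -/
theorem ls_Rg {n : ℕ} (hn : 12000 ≤ n) {b : Bool} {a : ℤ × ℤ} {η : Cfg}
    (h : LkD (2 * n) (8 * (2 * n)) (lsq n a) (lsD n a) (lsK b n) (lsT n) n
      ((n - 1 : ℕ) : ℤ) η) {ρ : ℕ → ℝ} (hN : (lsP b n a ρ (lsJ n)).Near) :
    (lsP b n a ρ (lsJ n)).Rg n (1 / 200) lsR 7 η := by
  refine rg_of_lkD h (by omega) (by omega) (ls_dia n a) hN (sep_ls (by omega) fl200') (card_lsJ n) ?_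
  refine (fl200 hn).trans ?_
  have : n / 100 ≤ n - 1 := by omega
  exact_mod_cast this

end Vale.Agent.P167.N.QL
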