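import Vale.Agent.P167.N.QL.Al4

/-!
# P167, the range `0 < q < 1`, block Q-LAM: assembly, centres in terms of the increments of the phases

`pc_mid`, `pc_jun`, `pc_base`, `pc_refl`: positive centres. `e_inc`: the mean value of the local factor
depends on the increments in the window only.
-/

set_option autoImplicit false

namespace Vale.Agent.P167.N.QL

open Finset Filter Vale.Agent.P167.BR Vale.Agent.P167.FK
open Vale.Agent.P167.E6 (IsPolygon Encloses face dir)
open Vale.Agent.P167.H718 (Dob rc IsCl)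
open Vale.Agent.P167.H975 (TX)

variable {θ β : ℝ} {N k : ℕ} {q : ZMod N → ℤ × ℤ} {D : Finset (ℤ × ℤ)}
  {ρ ρ' : ℕ → ℝ} {τ : ℕ → ℤ} {η : Cfg} {r W : ℤ} {J J' : Finset ℕ} {c d x y n : ℕ} {v : ℝ}

theorem win_mid (h : Win N c W x) (hx : x < N) (hW : W ≤ d) (h1 : d ≤ c) (h2 : c + d < N) :
    c ≤ x + d ∧ x ≤ c + d := by
  unfold Win at h
  rcases h with h | h
  · rw [abs_le] at h
    omega
  · rcases abs_cases ((x : ℤ) - c) with ⟨e, -⟩ | ⟨e, -⟩ <;> rw [e] at h <;> omega

theorem win_zero (h : Win N 0 W x) (hW : W ≤ d) : x ≤ d ∨ N ≤ x + d := by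
  unfold Win at h
  rw [Nat.cast_zero, sub_zero, abs_of_nonneg (by omega)] at h
  omega

/-- Telescoping. -/
theorem sub_of_inc (hxy : x ≤ y)
    (h : ∀ i, x < i → i ≤ y → ρ i - ρ (i - 1) = ρ' i - ρ' (i - 1)) : ρ y - ρ x = ρ' y - ρ' x := by
  induction y, hxy using Nat.le_induction with
  | base => rw [sub_self, sub_self]
  | succ m hm ih =>
    have h1 := h (m + 1) (by omega) le_rfl
    rw [Nat.add_sub_cancel] at h1
    have h2 := ih fun i h3 h4 => h i h3 (by omega)
    linarith

/-- One jump. -/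
theorem sub_one_jump (hxy : x ≤ y)
    (h : ∀ i, x < i → i ≤ y → ρ i - ρ (i - 1) = if i = c then v else 0) :
    ρ y - ρ x = if x < c ∧ c ≤ y then v else 0 := by
  rcases Nat.eq_zero_or_pos c with rfl | hc
  · have h1 := sub_of_inc (ρ' := fun _ => 0) hxy fun i h1 h2 => by
      rw [h i h1 h2, if_neg (by omega), sub_zero]
    rw [h1, if_neg (by omega), sub_zero]
  · have h1 := sub_of_inc (ρ' := fun j => if c ≤ j then v else 0) hxy fun i h1 h2 => by
      rw [h i h1 h2]
      by_cases h3 : i = c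
      · rw [if_pos h3, if_pos (by omega), if_neg (by omega), sub_zero]
      · rw [if_neg h3]
        by_cases h4 : c ≤ i
        · rw [if_pos h4, if_pos (by omega), sub_self]
        · rw [if_neg h4, if_neg (by omega), sub_self]
    rw [h1]
    by_cases h3 : c ≤ y <;> by_cases h4 : c ≤ x
    · rw [if_pos h3, if_pos h4, if_neg (by omega), sub_self]
    · rw [if_pos h3, if_neg h4, if_pos (by omega), sub_zero]
    · omega
    · rw [if_neg h3, if_neg h4, if_neg (by omega), sub_self]

section pc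

variable (h0 : 0 < θ) (h1 : θ < Real.pi / 2) (hG : GeoP n N q) (hq : IsPolygon q)
  (hD : Encloses q D) (hr : 3 * (r + 1) < n) (hrd : 2 * (r + 1) ≤ d)
include h0 h1 hG hq hD hr hrd

/-- A centre on an arc with one jump in `[-θ, 0]`. -/
theorem pc_mid (hc : d ≤ c) (hc' : c + d < N) (hk : c + d < k ∨ k + d ≤ c) (hv : -θ ≤ v)
    (hv' : v ≤ 0)
    (hρ : ∀ i, c < i + d → i ≤ c + d → 0 < i → ρ i - ρ (i - 1) = if i = c then v else 0) :
    PC θ β q D k ρ (wl θ) (q (c : ZMod N)) r := by
  refine pos_of h0 h1 hG hq hD (by omega) hr fun x y hxy hy hx' hy' _ => ?_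
  obtain ⟨a1, a2⟩ := win_mid hx' (by omega) hrd hc hc'
  obtain ⟨a3, a4⟩ := win_mid hy' hy hrd hc hc'
  have e := sub_one_jump (c := c) (v := v) hxy.le fun i h3 h4 =>
    hρ i (by omega) (by omega) (by omega)
  refine sgA_of h0 (fun h3 h4 => by omega) fun _ => ?_
  rw [e]
  split_ifs <;> constructor <;> linarith

/-- A junction. -/
theorem pc_jun (hc : d ≤ k) (hc' : k + d < N) (hv : |θ / 2 + β + v| ≤ θ)
    (hρ : ∀ i, k < i + d → i ≤ k + d → 0 < i → ρ i - ρ (i - 1) = if i = k then v else 0) :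
    PC θ β q D k ρ (wl θ) (q (k : ZMod N)) r := by
  refine pos_of h0 h1 hG hq hD (by omega) hr fun x y hxy hy hx' hy' _ => ?_
  obtain ⟨a1, a2⟩ := win_mid hx' (by omega) hrd hc hc'
  obtain ⟨a3, a4⟩ := win_mid hy' hy hrd hc hc'
  have e := sub_one_jump (c := k) (v := v) hxy.le fun i h3 h4 =>
    hρ i (by omega) (by omega) (by omega)
  rw [e]
  refine sgA_of h0 (fun h3 h4 => ?_) fun h3 => ?_
  · rw [if_pos ⟨h3, h4⟩]
    exact hv
  · rw [if_neg (by omega)]
    constructor <;> linarith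

/-- The base, Dobrushin boundary conditions. -/
theorem pc_base (hk : d < k) (hk' : k + d < N) (hv : |θ / 2 + β + (ρ (N - 1) - ρ 0)| ≤ θ)
    (hρ : ∀ i, 0 < i → i ≤ d → ρ i - ρ (i - 1) = 0)
    (hρ' : ∀ i < N, N < i + d → ρ i - ρ (i - 1) = 0) :
    PC θ β q D k ρ (wl θ) (q 0) r := by
  have e0 : q 0 = q ((0 : ℕ) : ZMod N) := by rw [Nat.cast_zero]
  rw [e0]
  refine pos_of h0 h1 hG hq hD (by omega) hr fun x y hxy hy hx' hy' _ => ?_
  have a1 := win_zero hx' hrd
  have a2 := win_zero hy' hrd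
  have f0 : ∀ z, z ≤ d → ρ z = ρ 0 := fun z hz => eq_of_none (Nat.zero_le z) fun i h3 h4 => by
    have := hρ i h3 (by omega)
    linarith
  have fN : ∀ z, z < N → N ≤ z + d → ρ z = ρ (N - 1) := fun z hz hz' =>
    (eq_of_none (by omega : z ≤ N - 1) fun i h3 h4 => by
      have := hρ' i (by omega) (by omega)
      linarith).symm
  rcases a1 with a1 | a1 <;> rcases a2 with a2 | a2
  · rw [f0 x a1, f0 y a2, sub_self]
    exact sgA_of h0 (fun h3 h4 => by omega) fun _ => ⟨by linarith, le_rfl⟩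
  · rw [f0 x a1, fN y hy a2]
    exact sgA_of h0 (fun h3 h4 => hv) fun h3 => by omega
  · omega
  · rw [fN x (by omega) a1, fN y hy a2, sub_self]
    exact sgA_of h0 (fun h3 h4 => by omega) fun _ => ⟨by linarith, le_rfl⟩

/-- The base, free or wired boundary conditions, phase differences in `[-θ, 0]`. -/
theorem pc_fw (hk : k = 0 ∨ k = N) (hd : 2 * d < N)
    (hρ : ∀ i ≤ d, ∀ j ≤ d, i ≤ j → -θ ≤ ρ j - ρ i ∧ ρ j - ρ i ≤ 0)
    (hρN : ∀ i < N, ∀ j < N, N ≤ i + d → N ≤ j + d → i ≤ j → -θ ≤ ρ j - ρ i ∧ ρ j - ρ i ≤ 0)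
    (hρ' : ∀ i ≤ d, ∀ j < N, N ≤ j + d → -θ ≤ ρ j - ρ i ∧ ρ j - ρ i ≤ 0) :
    PC θ β q D k ρ (wl θ) (q 0) r := by
  have e0 : q 0 = q ((0 : ℕ) : ZMod N) := by rw [Nat.cast_zero]
  rw [e0]
  refine pos_of h0 h1 hG hq hD (by omega) hr fun x y hxy hy hx' hy' _ => ?_
  have a1 := win_zero hx' hrd
  have a2 := win_zero hy' hrd
  refine sgA_of h0 (fun h3 h4 => by omega) fun _ => ?_
  rcases a1 with a1 | a1 <;> rcases a2 with a2 | a2
  · exact hρ x a1 y a2 hxy.le
  · exact hρ' x a1 y hy a2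
  · omega
  · exact hρN x (by omega) y hy a1 a2 hxy.le

/-- A reflex corner of an image: `-θ/2` at `c`, or `θ/2` at `c` and `-θ` at `c + 1` where `c` is a site
of the colour of its arc. -/
theorem pc_refl (hc : d ≤ c) (hc' : c + d < N) (hk : c + d < k ∨ k + d ≤ c)
    (hρ : (∀ i, c < i + d → i ≤ c + d → 0 < i → ρ i - ρ (i - 1) = if i = c then -(θ / 2) else 0) ∨
      ((Even ((q (c : ZMod N)).1 + (q (c : ZMod N)).2) ↔ k ≤ c) ∧
        ∀ i, c < i + d → i ≤ c + d → 0 < i →
          ρ i - ρ (i - 1) = (if i = c then θ / 2 else 0) + if i = c + 1 then -θ else 0)) :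
    PC θ β q D k ρ (wl θ) (q (c : ZMod N)) r := by
  rcases hρ with hρ | ⟨hp, hρ⟩
  · exact pc_mid h0 h1 hG hq hD hr hrd hc hc' hk (by linarith) (by linarith) hρ
  refine pos_of h0 h1 hG hq hD (by omega) hr fun x y hxy hy hx' hy' hpar => ?_
  obtain ⟨a1, a2⟩ := win_mid hx' (by omega) hrd hc hc'
  obtain ⟨a3, a4⟩ := win_mid hy' hy hrd hc hc'
  have e : ρ y - ρ x = (if x < c ∧ c ≤ y then θ / 2 else 0) +
      if x < c + 1 ∧ c + 1 ≤ y then -θ else 0 := by
    have e1 : ρ y - ρ x = ((if c ≤ y ∧ 0 < c then θ / 2 else 0) + if c + 1 ≤ y then -θ else 0) -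
        ((if c ≤ x ∧ 0 < c then θ / 2 else 0) + if c + 1 ≤ x then -θ else 0) := by
      refine sub_of_inc (ρ' := fun j => (if c ≤ j ∧ 0 < c then θ / 2 else 0) +
        if c + 1 ≤ j then -θ else 0) hxy.le fun i h3 h4 => ?_
      rw [hρ i (by omega) (by omega) (by omega)]
      rcases lt_trichotomy i c with h5 | h5 | h5
      · simp only [show ¬ i = c by omega, show ¬ i = c + 1 by omega, show ¬ c ≤ i by omega,
          show ¬ c + 1 ≤ i by omega, show ¬ c ≤ i - 1 by omega, show ¬ c + 1 ≤ i - 1 by omega,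
          if_false, false_and]
        ring
      · simp only [h5, show ¬ c = c + 1 by omega, show c ≤ c by omega, show 0 < c by omega,
          show ¬ c + 1 ≤ c by omega, show ¬ c ≤ c - 1 by omega, show ¬ c + 1 ≤ c - 1 by omega,
          if_false, if_true, false_and, and_self]
        ring
      · by_cases h6 : i = c + 1
        · subst h6
          by_cases h7 : 0 < c
          · simp only [show ¬ c + 1 = c by omega, Nat.add_sub_cancel, show c ≤ c + 1 by omega,
              show ¬ c + 1 ≤ c by omega, le_refl, h7, if_false, if_true, and_self]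
            ring
          · simp only [show ¬ c + 1 = c by omega, Nat.add_sub_cancel,
              show ¬ c + 1 ≤ c by omega, le_refl, h7, if_false, if_true, and_false]
            ring
        · simp only [show ¬ i = c by omega, h6, show c ≤ i by omega, show c + 1 ≤ i by omega,
            show c ≤ i - 1 by omega, show c + 1 ≤ i - 1 by omega, if_false, if_true]
          ring
    rw [e1]
    by_cases h3 : c ≤ x <;> by_cases h4 : c + 1 ≤ x <;> by_cases h5 : c ≤ y <;>
      by_cases h6 : c + 1 ≤ y <;> first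
      | omega
      | (by_cases h7 : 0 < c
         · simp only [h3, h4, h5, h6, h7, show (x < c) = ¬ (c ≤ x) by rw [not_le],
             show (x < c + 1) = ¬ (c + 1 ≤ x) by rw [not_le], if_true, if_false, and_true,
             and_false, true_and, false_and, not_true_eq_false, not_false_eq_true, and_self]
           ring
         · omega)
      | (by_cases h7 : 0 < c
         · simp only [h3, h4, h5, h6, h7, show (x < c) = ¬ (c ≤ x) by rw [not_le],
             show (x < c + 1) = ¬ (c + 1 ≤ x) by rw [not_le], if_true, if_false, and_true,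
             and_false, true_and, false_and, not_true_eq_false, not_false_eq_true, and_self]
           ring
         · simp only [h3, h4, h5, h6, h7, show (x < c) = ¬ (c ≤ x) by rw [not_le],
             show (x < c + 1) = ¬ (c + 1 ≤ x) by rw [not_le], if_true, if_false, and_true,
             and_false, true_and, false_and, not_true_eq_false, not_false_eq_true, and_self]
           ring)
  rw [e]
  by_cases h3 : x < c
  · by_cases h4 : c + 1 ≤ y
    · rw [if_pos ⟨h3, by omega⟩, if_pos ⟨by omega, h4⟩]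
      exact sgA_of h0 (fun h5 h6 => by omega) fun _ => by constructor <;> linarith
    · by_cases h5 : c ≤ y
      · have hy2 : y = c := by omega
        subst hy2
        rw [if_pos ⟨h3, h5⟩, if_neg (by omega)]
        refine ⟨fun h5 h6 => by omega, fun h5 => ?_, fun _ => by constructor <;> linarith⟩
        exfalso
        rcases h5 with ⟨h5, h6⟩ | ⟨h5, h6⟩
        · have h7 : ¬ k ≤ y := by omega
          have h8 := fun h => h7 (hp.1 h)
          exact h6 (hpar.2 h8)
        · have h7 : k ≤ y := by omega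
          exact hpar.1 h6 (hp.2 h7)
      · rw [if_neg (by omega), if_neg (by omega)]
        exact sgA_of h0 (fun h5 h6 => by omega) fun _ => by constructor <;> linarith
  · rw [if_neg (by omega)]
    by_cases h4 : x < c + 1 ∧ c + 1 ≤ y
    · rw [if_pos h4]
      exact sgA_of h0 (fun h5 h6 => by omega) fun _ => by constructor <;> linarith
    · rw [if_neg h4]
      exact sgA_of h0 (fun h5 h6 => by omega) fun _ => by constructor <;> linarith

end pc

/-! ### the same increments -/

/-- **The same increments in the window.** -/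
def IncE (d N c : ℕ) (ρ ρ' : ℕ → ℝ) : Prop :=
  (0 < c → ∀ i, c < i + d → i ≤ c + d → 0 < i → ρ i - ρ (i - 1) = ρ' i - ρ' (i - 1)) ∧
  (c = 0 → (∀ i, 0 < i → i ≤ d → ρ i - ρ (i - 1) = ρ' i - ρ' (i - 1)) ∧
    (∀ i < N, N < i + d → ρ i - ρ (i - 1) = ρ' i - ρ' (i - 1)) ∧
    ρ (N - 1) - ρ 0 = ρ' (N - 1) - ρ' 0)

theorem IncE.diff (h : IncE d N c ρ ρ') (hc : (0 < c ∧ d ≤ c ∧ c + d < N) ∨ (c = 0 ∧ 2 * d < N))
    (hxy : x < y) (hy : y < N) (hW : W ≤ d) (hx' : Win N c W x) (hy' : Win N c W y) :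
    ρ y - ρ x = ρ' y - ρ' x := by
  rcases hc with ⟨c0, c1, c2⟩ | ⟨rfl, c1⟩
  · obtain ⟨a1, a2⟩ := win_mid hx' (by omega) hW c1 c2
    obtain ⟨a3, a4⟩ := win_mid hy' hy hW c1 c2
    exact sub_of_inc hxy.le fun i h3 h4 => h.1 c0 i (by omega) (by omega) (by omega)
  · obtain ⟨k1, k2, k3⟩ := h.2 rfl
    have a1 := win_zero hx' hW
    have a2 := win_zero hy' hW
    rcases a1 with a1 | a1 <;> rcases a2 with a2 | a2
    · exact sub_of_inc hxy.le fun i h3 h4 => k1 i (by omega) (by omega)
    · have e1 := sub_of_inc (ρ := ρ) (ρ' := ρ') (Nat.zero_le x) fun i h3 h4 =>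
        k1 i (by omega) (by omega)
      have e2 := sub_of_inc (ρ := ρ) (ρ' := ρ') (by omega : y ≤ N - 1) fun i h3 h4 =>
        k2 i (by omega) (by omega)
      linarith
    · omega
    · exact sub_of_inc hxy.le fun i h3 h4 => k2 i (by omega) (by omega)

/-- **The mean values of the local factors.** -/
theorem e_inc {P : PD} (hG : GeoP n P.N P.q) (hq : IsPolygon P.q) (hD : Encloses P.q P.D)
    (hcos : Real.cos θ ≠ 0) (hr : 3 * (r + 1) < n) (hrd : 2 * (r + 1) ≤ d)
    (hc : (0 < c ∧ d ≤ c ∧ c + d < P.N) ∨ (c = 0 ∧ 2 * d < P.N)) (h : IncE d P.N c ρ ρ') :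
    (P.wr ρ J).e θ β η r c = (P.wr ρ' J').e θ β η r c :=
  e_same hG hq hD (by omega) hcos hr fun x y hxy hy hx hy' => h.diff hc hxy hy hrd hx hy'

end Vale.Agent.P167.N.QL
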