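import Vale.Agent.P167.N.QL.Al5

/-!
# P167, the range `0 < q < 1`, block Q-LAM: assembly, increments of the special phases
-/

set_option autoImplicit false

namespace Vale.Agent.P167.N.QL

open Finset Filter Vale.Agent.P167.BR Vale.Agent.P167.FK
open Vale.Agent.P167.E6 (IsPolygon Encloses face dir)
open Vale.Agent.P167.H718 (Dob rc IsCl)
open Vale.Agent.P167.H975 (TX)

variable {θ β : ℝ} {N k : ℕ} {q : ZMod N → ℤ × ℤ} {D : Finset (ℤ × ℤ)}
  {ρ ρ' : ℕ → ℝ} {τ : ℕ → ℤ} {η : Cfg} {r W : ℤ} {J J' : Finset ℕ} {c d x y n i : ℕ} {v : ℝ}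
  {L L' : List (ℕ × ℝ)}

/-- The increment of `stp L` at `i`. -/
noncomputable def stI (L : List (ℕ × ℝ)) (i : ℕ) : ℝ :=
  (L.map fun x => if x.1 = i then x.2 else 0).sum

/-- The total variation of `stp L`. -/
noncomputable def tot (L : List (ℕ × ℝ)) : ℝ := (L.map fun x => x.2).sum

theorem stI_nil (i : ℕ) : stI [] i = 0 := rfl

theorem stI_cons (x : ℕ × ℝ) (L : List (ℕ × ℝ)) (i : ℕ) :
    stI (x :: L) i = (if x.1 = i then x.2 else 0) + stI L i := by
  unfold stI
  rw [List.map_cons, List.sum_cons]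

theorem tot_nil : tot [] = 0 := rfl

theorem tot_cons (x : ℕ × ℝ) (L : List (ℕ × ℝ)) : tot (x :: L) = x.2 + tot L := by
  unfold tot
  rw [List.map_cons, List.sum_cons]

theorem stp_inc (L : List (ℕ × ℝ)) (hi : 0 < i) : stp L i - stp L (i - 1) = stI L i := by
  induction L with
  | nil => rw [stp_nil, stp_nil, stI_nil, sub_zero]
  | cons x L ih =>
    rw [stp_cons, stp_cons, stI_cons, ← ih]
    by_cases h : x.1 = i
    · rw [if_pos (by omega), if_neg (by omega), if_pos h]
      ring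
    · rw [if_neg h]
      by_cases h' : x.1 ≤ i
      · rw [if_pos h', if_pos (by omega)]
        ring
      · rw [if_neg h', if_neg (by omega)]
        ring

theorem stI_zero (h : ∀ x ∈ L, x.1 ≠ i) : stI L i = 0 := by
  induction L with
  | nil => rfl
  | cons x L ih =>
    rw [stI_cons, if_neg (h x List.mem_cons_self), zero_add]
    exact ih fun y hy => h y (List.mem_cons_of_mem _ hy)

/-- The window around `c`. -/
def WL (d c : ℕ) (L : List (ℕ × ℝ)) : Prop := ∀ x ∈ L, x.1 ≠ c → x.1 + d ≤ c ∨ c + d < x.1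

theorem WL.nil : WL d c [] := fun x hx => absurd hx (by simp)

theorem WL.cons {a : ℕ} (h : WL d c L) (ha : a = c ∨ a + d ≤ c ∨ c + d < a) :
    WL d c ((a, v) :: L) := by
  intro x hx hne
  rw [List.mem_cons] at hx
  rcases hx with rfl | hx
  · simp only at hne ⊢
    omega
  · exact h x hx hne

theorem WL.inc (h : WL d c L) (h1 : c < i + d) (h2 : i ≤ c + d) (h3 : 0 < i) :
    stp L i - stp L (i - 1) = if i = c then stI L c else 0 := by
  rw [stp_inc L h3]
  by_cases hi : i = c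
  · rw [if_pos hi, hi]
  · rw [if_neg hi]
    refine stI_zero fun x hx hxi => ?_
    have := h x hx (by omega)
    omega

/-- The window around the base. -/
def WB (d N : ℕ) (L : List (ℕ × ℝ)) : Prop := ∀ x ∈ L, d < x.1 ∧ x.1 + d ≤ N

theorem WB.nil : WB d N [] := fun x hx => absurd hx (by simp)

theorem WB.cons {a : ℕ} (h : WB d N L) (ha : d < a ∧ a + d ≤ N) : WB d N ((a, v) :: L) := by
  intro x hx
  rw [List.mem_cons] at hx
  rcases hx with rfl | hx
  · exact ha
  · exact h x hx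

theorem WB.inc (h : WB d N L) (h3 : 0 < i) (hi : i ≤ d ∨ N < i + d) :
    stp L i - stp L (i - 1) = 0 := by
  rw [stp_inc L h3]
  exact stI_zero fun x hx hxi => by
    have := h x hx
    omega

theorem WB.tot (h : WB d N L) (hd : 0 < d) (hN : 0 < N) :
    stp L (N - 1) - stp L 0 = tot L := by
  induction L with
  | nil => rw [stp_nil, stp_nil, tot_nil, sub_zero]
  | cons x L ih =>
    have h1 := h x List.mem_cons_self
    have h2 := ih fun y hy => h y (List.mem_cons_of_mem _ hy)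
    rw [stp_cons, stp_cons, tot_cons, if_pos (by omega), if_neg (by omega), ← h2]
    ring

theorem incE_mid (hc : 0 < c) (h : WL d c L) (h' : WL d c L') (he : stI L c = stI L' c) :
    IncE d N c (stp L) (stp L') := by
  refine ⟨fun _ i h1 h2 h3 => ?_, fun h0 => by omega⟩
  rw [h.inc h1 h2 h3, h'.inc h1 h2 h3, he]

theorem incE_base (hd : 0 < d) (hN : 0 < N) (h : WB d N L) (h' : WB d N L')
    (he : tot L = tot L') : IncE d N 0 (stp L) (stp L') := by
  refine ⟨fun h0 => by omega, fun _ => ⟨fun i h1 h2 => ?_, fun i h1 h2 => ?_, ?_⟩⟩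
  · rw [h.inc h1 (Or.inl h2), h'.inc h1 (Or.inl h2)]
  · rcases Nat.eq_zero_or_pos i with rfl | hi
    · simp
    · rw [h.inc hi (Or.inr h2), h'.inc hi (Or.inr h2)]
  · rw [h.tot hd hN, h'.tot hd hN, he]

/-! ### comparison on one polygon -/

section

variable {P : PD} (hG : GeoP n P.N P.q) (hq : IsPolygon P.q) (hD : Encloses P.q P.D)
  (hcos : 0 < Real.cos θ) (hr : 3 * (r + 1) < n) (hrd : 2 * (r + 1) ≤ d)
include hG hq hD hcos hr hrd

theorem e_mid (hc : 0 < c) (hc1 : d ≤ c) (hc2 : c + d < P.N) (h : WL d c L) (h' : WL d c L')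
    (he : stI L c = stI L' c) :
    (P.wr (stp L) J).e θ β η r c = (P.wr (stp L') J').e θ β η r c :=
  e_inc hG hq hD hcos.ne' hr hrd (Or.inl ⟨hc, hc1, hc2⟩) (incE_mid hc h h' he)

theorem e_base (hd : 0 < d) (hN : 2 * d < P.N) (h : WB d P.N L) (h' : WB d P.N L')
    (he : tot L = tot L') :
    (P.wr (stp L) J).e θ β η r 0 = (P.wr (stp L') J').e θ β η r 0 :=
  e_inc hG hq hD hcos.ne' hr hrd (Or.inr ⟨rfl, hN⟩) (incE_base hd (by omega) h h' he)

theorem e_none (hsin : Real.sin θ ≠ 0) (hβ : Real.cos (θ / 2 + β) = Real.sin θ)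
    (hc : 0 < c) (hc1 : d ≤ c) (hc2 : c + d < P.N) (h : WL d c L) (he : stI L c = 0) :
    (P.wr (stp L) J).e θ β η r c = 1 := by
  have e : (P.wr (stp L) J).e θ β η r c = (P.wr (stp []) J).e θ β η r c :=
    e_mid hG hq hD hcos hr hrd hc hc1 hc2 h WL.nil (by rw [he, stI_nil])
  rw [e]
  exact e_one (by positivity) hG hq hD (by omega) hcos.ne' hsin hβ hr
    fun _ _ _ _ _ _ => rfl

end

end Vale.Agent.P167.N.QL
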