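import Vale.Agent.P167.N.QL.Al6

/-!
# P167, the range `0 < q < 1`, block Q-LAM: assembly, the products for the Dobrushin square

The products of the mean values of the local factors of the special functionals in terms of the mean
values for R1 and FW.
-/

set_option autoImplicit false

namespace Vale.Agent.P167.N.QL

open Finset Filter Vale.Agent.P167.BR Vale.Agent.P167.FK
open Vale.Agent.P167.E6 (IsPolygon Encloses face dir)
open Vale.Agent.P167.H718 (Dob rc IsCl)
open Vale.Agent.P167.H975 (TX)

variable {θ : ℝ} {η : Cfg} {r : ℤ} {J J' : Finset ℕ} {n z i a' : ℕ} {v : ℝ} {L L' : List (ℕ × ℝ)}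
  {a : ℤ × ℤ}

theorem stI_hit (h : a' = i) : stI ((a', v) :: L) i = v + stI L i := by
  rw [stI_cons, if_pos h]

theorem stI_skip (h : a' ≠ i) : stI ((a', v) :: L) i = stI L i := by
  rw [stI_cons, if_neg h, zero_add]

theorem prod_dsJ (hn : 0 < n) (f : ℕ → ℝ) :
    ∏ j ∈ dsJ n, f j = f 0 * f n * f (3 * n) * f (4 * n) * f (5 * n) * f (7 * n) := by
  unfold dsJ
  repeat rw [prod_insert (by simp only [mem_insert, mem_singleton]; omega)]
  rw [prod_singleton]
  ring

theorem prod_dsJz (hn : 1 < n)
    (hz : (2 * n ≤ z ∧ z ≤ 2 * n + 1) ∨ (6 * n ≤ z ∧ z ≤ 6 * n + 1)) (f : ℕ → ℝ) :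
    ∏ j ∈ dsJz n z, f j = f 0 * f n * f (3 * n) * f (4 * n) * f (5 * n) * f (7 * n) * f z := by
  unfold dsJz
  repeat rw [prod_insert (by simp only [mem_insert, mem_singleton]; omega)]
  rw [prod_singleton]
  ring

/-- The mean value of the local factor on the Dobrushin square. -/
noncomputable def dE (θ : ℝ) (n : ℕ) (a : ℤ × ℤ) (ρ : ℕ → ℝ) (η : Cfg) (r : ℤ) (j : ℕ) : ℝ :=
  (dsP n a ρ ∅).e θ (bt θ) η r j

section

variable (hn : 12000 ≤ n) (hG : GeoP (2 * n) (4 * (2 * n)) (dsq n a)) (hcos : 0 < Real.cos θ)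
  (hsin : Real.sin θ ≠ 0) (hr : 2 * (r + 1) ≤ ((n / 2 : ℕ) : ℤ))

include hn hG hcos hr

theorem ds_mid {c : ℕ} (hc : n ≤ c) (hc2 : c ≤ 7 * n) (h : WL (n / 2) c L) (h' : WL (n / 2) c L')
    (he : stI L c = stI L' c) : dE θ n a (stp L) η r c = dE θ n a (stp L') η r c := by
  have hn0 : 0 < n := by omega
  refine e_mid (P := dsP n a (fun _ => 0) ∅) hG (ds_poly hn0 a) (ds_encl hn0 a) hcos
    (by omega) hr (by omega) (by omega) ?_ h h' he
  show c + n / 2 < 4 * (2 * n)
  omega

theorem ds_bas (h : WB (n / 2) (4 * (2 * n)) L) (h' : WB (n / 2) (4 * (2 * n)) L')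
    (he : tot L = tot L') : dE θ n a (stp L) η r 0 = dE θ n a (stp L') η r 0 := by
  have hn0 : 0 < n := by omega
  refine e_base (P := dsP n a (fun _ => 0) ∅) hG (ds_poly hn0 a) (ds_encl hn0 a) hcos
    (by omega) hr (by omega) ?_ h h' he
  show 2 * (n / 2) < 4 * (2 * n)
  omega

include hsin in
theorem ds_non {c : ℕ} (hc : n ≤ c) (hc2 : c ≤ 7 * n) (h : WL (n / 2) c L)
    (he : stI L c = 0) : dE θ n a (stp L) η r c = 1 := by
  have hn0 : 0 < n := by omega
  refine e_none (P := dsP n a (fun _ => 0) ∅) hG (ds_poly hn0 a) (ds_encl hn0 a) hcos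
    (by omega) hr hsin (cos_bt θ) (by omega) (by omega) ?_ h he
  show c + n / 2 < 4 * (2 * n)
  omega


include hsin in
/-- The product for `r1R`. -/
theorem pr_r1R :
    ∏ j ∈ dsJ n, (dsP n a (r1R θ n) (dsJ n)).e θ (bt θ) η r j =
      dE θ n a (r1R θ n) η r 0 * dE θ n a (r1R θ n) η r (4 * n) := by
  have e1 : dE θ n a (r1R θ n) η r n = 1 := by
    unfold r1R
    exact ds_non hn hG hcos hsin hr (by omega) (by omega) (WL.nil.cons (by omega)) (by
      repeat first | rw [stI_hit rfl] | rw [stI_skip (by omega)]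
      rfl)
  have e2 : dE θ n a (r1R θ n) η r (3 * n) = 1 := by
    unfold r1R
    exact ds_non hn hG hcos hsin hr (by omega) (by omega) (WL.nil.cons (by omega)) (by
      repeat first | rw [stI_hit rfl] | rw [stI_skip (by omega)]
      rfl)
  have e4 : dE θ n a (r1R θ n) η r (5 * n) = 1 := by
    unfold r1R
    exact ds_non hn hG hcos hsin hr (by omega) (by omega) (WL.nil.cons (by omega)) (by
      repeat first | rw [stI_hit rfl] | rw [stI_skip (by omega)]
      rfl)
  have e5 : dE θ n a (r1R θ n) η r (7 * n) = 1 := by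
    unfold r1R
    exact ds_non hn hG hcos hsin hr (by omega) (by omega) (WL.nil.cons (by omega)) (by
      repeat first | rw [stI_hit rfl] | rw [stI_skip (by omega)]
      rfl)
  rw [prod_dsJ (by omega)]
  show dE θ n a (r1R θ n) η r 0 * dE θ n a (r1R θ n) η r n * dE θ n a (r1R θ n) η r (3 * n) *
    dE θ n a (r1R θ n) η r (4 * n) * dE θ n a (r1R θ n) η r (5 * n) *
      dE θ n a (r1R θ n) η r (7 * n) = _
  rw [e1, e2, e4, e5]
  ring


/-- The product for `r1I`. -/
theorem pr_r1I :
    ∏ j ∈ dsJ n, (dsP n a (r1I θ n) (dsJ n)).e θ (bt θ) η r j =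
      dE θ n a (r1I θ n) η r 0 * dE θ n a (fwR θ n) η r n * dE θ n a (fwR θ n) η r (3 * n) *
        dE θ n a (r1I θ n) η r (4 * n) * dE θ n a (fwI θ n) η r (5 * n) *
          dE θ n a (fwI θ n) η r (7 * n) := by
  have e1 : dE θ n a (r1I θ n) η r n = dE θ n a (fwR θ n) η r n := by
    unfold r1I fwR
    exact ds_mid hn hG hcos hr (by omega) (by omega)
      (((((WL.nil.cons (by omega)).cons (by omega)).cons (by omega)).cons (by omega)).cons (by omega)) (((WL.nil.cons (by omega)).cons (by omega)).cons (by omega)) (by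
      repeat first | rw [stI_hit rfl] | rw [stI_skip (by omega)])
  have e2 : dE θ n a (r1I θ n) η r (3 * n) = dE θ n a (fwR θ n) η r (3 * n) := by
    unfold r1I fwR
    exact ds_mid hn hG hcos hr (by omega) (by omega)
      (((((WL.nil.cons (by omega)).cons (by omega)).cons (by omega)).cons (by omega)).cons (by omega)) (((WL.nil.cons (by omega)).cons (by omega)).cons (by omega)) (by
      repeat first | rw [stI_hit rfl] | rw [stI_skip (by omega)])
  have e4 : dE θ n a (r1I θ n) η r (5 * n) = dE θ n a (fwI θ n) η r (5 * n) := by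
    unfold r1I fwI
    exact ds_mid hn hG hcos hr (by omega) (by omega)
      (((((WL.nil.cons (by omega)).cons (by omega)).cons (by omega)).cons (by omega)).cons (by omega)) (((WL.nil.cons (by omega)).cons (by omega)).cons (by omega)) (by
      repeat first | rw [stI_hit rfl] | rw [stI_skip (by omega)])
  have e5 : dE θ n a (r1I θ n) η r (7 * n) = dE θ n a (fwI θ n) η r (7 * n) := by
    unfold r1I fwI
    exact ds_mid hn hG hcos hr (by omega) (by omega)
      (((((WL.nil.cons (by omega)).cons (by omega)).cons (by omega)).cons (by omega)).cons (by omega)) (((WL.nil.cons (by omega)).cons (by omega)).cons (by omega)) (by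
      repeat first | rw [stI_hit rfl] | rw [stI_skip (by omega)])
  rw [prod_dsJ (by omega)]
  show dE θ n a (r1I θ n) η r 0 * dE θ n a (r1I θ n) η r n * dE θ n a (r1I θ n) η r (3 * n) *
    dE θ n a (r1I θ n) η r (4 * n) * dE θ n a (r1I θ n) η r (5 * n) *
      dE θ n a (r1I θ n) η r (7 * n) = _
  rw [e1, e2, e4, e5]


/-- The product for `d0I`. -/
theorem pr_d0I :
    ∏ j ∈ dsJ n, (dsP n a (d0I θ n) (dsJ n)).e θ (bt θ) η r j =
      dE θ n a (d0I θ n) η r 0 * dE θ n a (fwR θ n) η r n * dE θ n a (fwR θ n) η r (3 * n) *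
        dE θ n a (d0I θ n) η r (4 * n) * dE θ n a (fwI θ n) η r (5 * n) *
          dE θ n a (fwI θ n) η r (7 * n) := by
  have e1 : dE θ n a (d0I θ n) η r n = dE θ n a (fwR θ n) η r n := by
    unfold d0I fwR
    exact ds_mid hn hG hcos hr (by omega) (by omega)
      (((((WL.nil.cons (by omega)).cons (by omega)).cons (by omega)).cons (by omega)).cons (by omega)) (((WL.nil.cons (by omega)).cons (by omega)).cons (by omega)) (by
      repeat first | rw [stI_hit rfl] | rw [stI_skip (by omega)])
  have e2 : dE θ n a (d0I θ n) η r (3 * n) = dE θ n a (fwR θ n) η r (3 * n) := by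
    unfold d0I fwR
    exact ds_mid hn hG hcos hr (by omega) (by omega)
      (((((WL.nil.cons (by omega)).cons (by omega)).cons (by omega)).cons (by omega)).cons (by omega)) (((WL.nil.cons (by omega)).cons (by omega)).cons (by omega)) (by
      repeat first | rw [stI_hit rfl] | rw [stI_skip (by omega)])
  have e4 : dE θ n a (d0I θ n) η r (5 * n) = dE θ n a (fwI θ n) η r (5 * n) := by
    unfold d0I fwI
    exact ds_mid hn hG hcos hr (by omega) (by omega)
      (((((WL.nil.cons (by omega)).cons (by omega)).cons (by omega)).cons (by omega)).cons (by omega)) (((WL.nil.cons (by omega)).cons (by omega)).cons (by omega)) (by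
      repeat first | rw [stI_hit rfl] | rw [stI_skip (by omega)])
  have e5 : dE θ n a (d0I θ n) η r (7 * n) = dE θ n a (fwI θ n) η r (7 * n) := by
    unfold d0I fwI
    exact ds_mid hn hG hcos hr (by omega) (by omega)
      (((((WL.nil.cons (by omega)).cons (by omega)).cons (by omega)).cons (by omega)).cons (by omega)) (((WL.nil.cons (by omega)).cons (by omega)).cons (by omega)) (by
      repeat first | rw [stI_hit rfl] | rw [stI_skip (by omega)])
  rw [prod_dsJ (by omega)]
  show dE θ n a (d0I θ n) η r 0 * dE θ n a (d0I θ n) η r n * dE θ n a (d0I θ n) η r (3 * n) *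
    dE θ n a (d0I θ n) η r (4 * n) * dE θ n a (d0I θ n) η r (5 * n) *
      dE θ n a (d0I θ n) η r (7 * n) = _
  rw [e1, e2, e4, e5]

include hsin in
/-- The product for `fwR`. -/
theorem pr_fwR :
    ∏ j ∈ dsJ n, (dsP n a (fwR θ n) (dsJ n)).e θ (bt θ) η r j =
      dE θ n a (fwR θ n) η r 0 * dE θ n a (fwR θ n) η r n * dE θ n a (fwR θ n) η r (3 * n) *
        dE θ n a (fwR θ n) η r (4 * n) := by
  have e4 : dE θ n a (fwR θ n) η r (5 * n) = 1 := by
    unfold fwR
    exact ds_non hn hG hcos hsin hr (by omega) (by omega)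
      (((WL.nil.cons (by omega)).cons (by omega)).cons (by omega)) (by
      repeat first | rw [stI_hit rfl] | rw [stI_skip (by omega)]
      rfl)
  have e5 : dE θ n a (fwR θ n) η r (7 * n) = 1 := by
    unfold fwR
    exact ds_non hn hG hcos hsin hr (by omega) (by omega)
      (((WL.nil.cons (by omega)).cons (by omega)).cons (by omega)) (by
      repeat first | rw [stI_hit rfl] | rw [stI_skip (by omega)]
      rfl)
  rw [prod_dsJ (by omega)]
  show dE θ n a (fwR θ n) η r 0 * dE θ n a (fwR θ n) η r n * dE θ n a (fwR θ n) η r (3 * n) *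
    dE θ n a (fwR θ n) η r (4 * n) * dE θ n a (fwR θ n) η r (5 * n) *
      dE θ n a (fwR θ n) η r (7 * n) = _
  rw [e4, e5]
  ring

include hsin in
/-- The product for `fwI`. -/
theorem pr_fwI :
    ∏ j ∈ dsJ n, (dsP n a (fwI θ n) (dsJ n)).e θ (bt θ) η r j =
      dE θ n a (fwR θ n) η r 0 * dE θ n a (fwR θ n) η r (4 * n) * dE θ n a (fwI θ n) η r (5 * n) *
        dE θ n a (fwI θ n) η r (7 * n) := by
  have e0 : dE θ n a (fwI θ n) η r 0 = dE θ n a (fwR θ n) η r 0 := by
    unfold fwI fwR
    exact ds_bas hn hG hcos hr (((WB.nil.cons (by omega)).cons (by omega)).cons (by omega))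
      (((WB.nil.cons (by omega)).cons (by omega)).cons (by omega)) (by
      simp only [tot_cons, tot_nil]
      ring)
  have e1 : dE θ n a (fwI θ n) η r n = 1 := by
    unfold fwI
    exact ds_non hn hG hcos hsin hr (by omega) (by omega)
      (((WL.nil.cons (by omega)).cons (by omega)).cons (by omega)) (by
      repeat first | rw [stI_hit rfl] | rw [stI_skip (by omega)]
      rfl)
  have e2 : dE θ n a (fwI θ n) η r (3 * n) = 1 := by
    unfold fwI
    exact ds_non hn hG hcos hsin hr (by omega) (by omega)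
      (((WL.nil.cons (by omega)).cons (by omega)).cons (by omega)) (by
      repeat first | rw [stI_hit rfl] | rw [stI_skip (by omega)]
      rfl)
  have e3 : dE θ n a (fwI θ n) η r (4 * n) = dE θ n a (fwR θ n) η r (4 * n) := by
    unfold fwI fwR
    exact ds_mid hn hG hcos hr (by omega) (by omega)
      (((WL.nil.cons (by omega)).cons (by omega)).cons (by omega))
        (((WL.nil.cons (by omega)).cons (by omega)).cons (by omega)) (by
      repeat first | rw [stI_hit rfl] | rw [stI_skip (by omega)])
  rw [prod_dsJ (by omega)]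
  show dE θ n a (fwI θ n) η r 0 * dE θ n a (fwI θ n) η r n * dE θ n a (fwI θ n) η r (3 * n) *
    dE θ n a (fwI θ n) η r (4 * n) * dE θ n a (fwI θ n) η r (5 * n) *
      dE θ n a (fwI θ n) η r (7 * n) = _
  rw [e0, e1, e2, e3]
  ring

include hsin in
/-- The product for `r2fR`. -/
theorem pr_r2fR (hz : 2 * n ≤ z ∧ z ≤ 2 * n + 1) :
    ∏ j ∈ dsJz n z, (dsP n a (r2fR θ n z) (dsJz n z)).e θ (bt θ) η r j =
      dE θ n a (r1I θ n) η r 0 * dE θ n a (fwR θ n) η r n * dE θ n a (fwR θ n) η r (3 * n) *
        dE θ n a (r1I θ n) η r (4 * n) * dE θ n a (r2fR θ n z) η r z := by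
  have e0 : dE θ n a (r2fR θ n z) η r 0 = dE θ n a (r1I θ n) η r 0 := by
    unfold r2fR r1I
    exact ds_bas hn hG hcos hr
      ((((WB.nil.cons (by omega)).cons (by omega)).cons (by omega)).cons (by omega))
        (((((WB.nil.cons (by omega)).cons (by omega)).cons (by omega)).cons (by omega)).cons (by omega)) (by
      simp only [tot_cons, tot_nil]
      ring)
  have e1 : dE θ n a (r2fR θ n z) η r n = dE θ n a (fwR θ n) η r n := by
    unfold r2fR fwR
    exact ds_mid hn hG hcos hr (by omega) (by omega)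
      ((((WL.nil.cons (by omega)).cons (by omega)).cons (by omega)).cons (by omega))
        (((WL.nil.cons (by omega)).cons (by omega)).cons (by omega)) (by
      repeat first | rw [stI_hit rfl] | rw [stI_skip (by omega)])
  have e2 : dE θ n a (r2fR θ n z) η r (3 * n) = dE θ n a (fwR θ n) η r (3 * n) := by
    unfold r2fR fwR
    exact ds_mid hn hG hcos hr (by omega) (by omega)
      ((((WL.nil.cons (by omega)).cons (by omega)).cons (by omega)).cons (by omega))
        (((WL.nil.cons (by omega)).cons (by omega)).cons (by omega)) (by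
      repeat first | rw [stI_hit rfl] | rw [stI_skip (by omega)])
  have e3 : dE θ n a (r2fR θ n z) η r (4 * n) = dE θ n a (r1I θ n) η r (4 * n) := by
    unfold r2fR r1I
    exact ds_mid hn hG hcos hr (by omega) (by omega)
      ((((WL.nil.cons (by omega)).cons (by omega)).cons (by omega)).cons (by omega))
        (((((WL.nil.cons (by omega)).cons (by omega)).cons (by omega)).cons (by omega)).cons (by omega)) (by
      repeat first | rw [stI_hit rfl] | rw [stI_skip (by omega)])
  have e4 : dE θ n a (r2fR θ n z) η r (5 * n) = 1 := by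
    unfold r2fR
    exact ds_non hn hG hcos hsin hr (by omega) (by omega)
      ((((WL.nil.cons (by omega)).cons (by omega)).cons (by omega)).cons (by omega)) (by
      repeat first | rw [stI_hit rfl] | rw [stI_skip (by omega)]
      rfl)
  have e5 : dE θ n a (r2fR θ n z) η r (7 * n) = 1 := by
    unfold r2fR
    exact ds_non hn hG hcos hsin hr (by omega) (by omega)
      ((((WL.nil.cons (by omega)).cons (by omega)).cons (by omega)).cons (by omega)) (by
      repeat first | rw [stI_hit rfl] | rw [stI_skip (by omega)]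
      rfl)
  rw [prod_dsJz (by omega) (by omega)]
  show dE θ n a (r2fR θ n z) η r 0 * dE θ n a (r2fR θ n z) η r n *
    dE θ n a (r2fR θ n z) η r (3 * n) * dE θ n a (r2fR θ n z) η r (4 * n) *
      dE θ n a (r2fR θ n z) η r (5 * n) * dE θ n a (r2fR θ n z) η r (7 * n) *
        dE θ n a (r2fR θ n z) η r z = _
  rw [e0, e1, e2, e3, e4, e5]
  ring

include hsin in
/-- The product for `r2fI`. -/
theorem pr_r2fI (hz : 2 * n ≤ z ∧ z ≤ 2 * n + 1) :
    ∏ j ∈ dsJz n z, (dsP n a (r2fI θ n z) (dsJz n z)).e θ (bt θ) η r j =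
      dE θ n a (r1R θ n) η r 0 * dE θ n a (r1R θ n) η r (4 * n) * dE θ n a (fwI θ n) η r (5 * n) *
        dE θ n a (fwI θ n) η r (7 * n) * dE θ n a (r2fI θ n z) η r z := by
  have e0 : dE θ n a (r2fI θ n z) η r 0 = dE θ n a (r1R θ n) η r 0 := by
    unfold r2fI r1R
    exact ds_bas hn hG hcos hr
      ((((WB.nil.cons (by omega)).cons (by omega)).cons (by omega)).cons (by omega)) (WB.nil.cons (by omega)) (by
      simp only [tot_cons, tot_nil]
      ring)
  have e1 : dE θ n a (r2fI θ n z) η r n = 1 := by
    unfold r2fI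
    exact ds_non hn hG hcos hsin hr (by omega) (by omega)
      ((((WL.nil.cons (by omega)).cons (by omega)).cons (by omega)).cons (by omega)) (by
      repeat first | rw [stI_hit rfl] | rw [stI_skip (by omega)]
      rfl)
  have e2 : dE θ n a (r2fI θ n z) η r (3 * n) = 1 := by
    unfold r2fI
    exact ds_non hn hG hcos hsin hr (by omega) (by omega)
      ((((WL.nil.cons (by omega)).cons (by omega)).cons (by omega)).cons (by omega)) (by
      repeat first | rw [stI_hit rfl] | rw [stI_skip (by omega)]
      rfl)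
  have e3 : dE θ n a (r2fI θ n z) η r (4 * n) = dE θ n a (r1R θ n) η r (4 * n) := by
    unfold r2fI r1R
    exact ds_mid hn hG hcos hr (by omega) (by omega)
      ((((WL.nil.cons (by omega)).cons (by omega)).cons (by omega)).cons (by omega)) (WL.nil.cons (by omega)) (by
      repeat first | rw [stI_hit rfl] | rw [stI_skip (by omega)])
  have e4 : dE θ n a (r2fI θ n z) η r (5 * n) = dE θ n a (fwI θ n) η r (5 * n) := by
    unfold r2fI fwI
    exact ds_mid hn hG hcos hr (by omega) (by omega)
      ((((WL.nil.cons (by omega)).cons (by omega)).cons (by omega)).cons (by omega))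
        (((WL.nil.cons (by omega)).cons (by omega)).cons (by omega)) (by
      repeat first | rw [stI_hit rfl] | rw [stI_skip (by omega)])
  have e5 : dE θ n a (r2fI θ n z) η r (7 * n) = dE θ n a (fwI θ n) η r (7 * n) := by
    unfold r2fI fwI
    exact ds_mid hn hG hcos hr (by omega) (by omega)
      ((((WL.nil.cons (by omega)).cons (by omega)).cons (by omega)).cons (by omega))
        (((WL.nil.cons (by omega)).cons (by omega)).cons (by omega)) (by
      repeat first | rw [stI_hit rfl] | rw [stI_skip (by omega)])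
  rw [prod_dsJz (by omega) (by omega)]
  show dE θ n a (r2fI θ n z) η r 0 * dE θ n a (r2fI θ n z) η r n *
    dE θ n a (r2fI θ n z) η r (3 * n) * dE θ n a (r2fI θ n z) η r (4 * n) *
      dE θ n a (r2fI θ n z) η r (5 * n) * dE θ n a (r2fI θ n z) η r (7 * n) *
        dE θ n a (r2fI θ n z) η r z = _
  rw [e0, e1, e2, e3, e4, e5]
  ring

include hsin in
/-- The product for `r2wR`. -/
theorem pr_r2wR (hz : 6 * n ≤ z ∧ z ≤ 6 * n + 1) :
    ∏ j ∈ dsJz n z, (dsP n a (r2wR θ n z) (dsJz n z)).e θ (bt θ) η r j =
      dE θ n a (r1I θ n) η r 0 * dE θ n a (r1I θ n) η r (4 * n) * dE θ n a (fwI θ n) η r (5 * n) *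
        dE θ n a (fwI θ n) η r (7 * n) * dE θ n a (r2wR θ n z) η r z := by
  have e0 : dE θ n a (r2wR θ n z) η r 0 = dE θ n a (r1I θ n) η r 0 := by
    unfold r2wR r1I
    exact ds_bas hn hG hcos hr
      ((((WB.nil.cons (by omega)).cons (by omega)).cons (by omega)).cons (by omega))
        (((((WB.nil.cons (by omega)).cons (by omega)).cons (by omega)).cons (by omega)).cons (by omega)) (by
      simp only [tot_cons, tot_nil]
      ring)
  have e1 : dE θ n a (r2wR θ n z) η r n = 1 := by
    unfold r2wR
    exact ds_non hn hG hcos hsin hr (by omega) (by omega)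
      ((((WL.nil.cons (by omega)).cons (by omega)).cons (by omega)).cons (by omega)) (by
      repeat first | rw [stI_hit rfl] | rw [stI_skip (by omega)]
      rfl)
  have e2 : dE θ n a (r2wR θ n z) η r (3 * n) = 1 := by
    unfold r2wR
    exact ds_non hn hG hcos hsin hr (by omega) (by omega)
      ((((WL.nil.cons (by omega)).cons (by omega)).cons (by omega)).cons (by omega)) (by
      repeat first | rw [stI_hit rfl] | rw [stI_skip (by omega)]
      rfl)
  have e3 : dE θ n a (r2wR θ n z) η r (4 * n) = dE θ n a (r1I θ n) η r (4 * n) := by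
    unfold r2wR r1I
    exact ds_mid hn hG hcos hr (by omega) (by omega)
      ((((WL.nil.cons (by omega)).cons (by omega)).cons (by omega)).cons (by omega))
        (((((WL.nil.cons (by omega)).cons (by omega)).cons (by omega)).cons (by omega)).cons (by omega)) (by
      repeat first | rw [stI_hit rfl] | rw [stI_skip (by omega)])
  have e4 : dE θ n a (r2wR θ n z) η r (5 * n) = dE θ n a (fwI θ n) η r (5 * n) := by
    unfold r2wR fwI
    exact ds_mid hn hG hcos hr (by omega) (by omega)
      ((((WL.nil.cons (by omega)).cons (by omega)).cons (by omega)).cons (by omega))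
        (((WL.nil.cons (by omega)).cons (by omega)).cons (by omega)) (by
      repeat first | rw [stI_hit rfl] | rw [stI_skip (by omega)])
  have e5 : dE θ n a (r2wR θ n z) η r (7 * n) = dE θ n a (fwI θ n) η r (7 * n) := by
    unfold r2wR fwI
    exact ds_mid hn hG hcos hr (by omega) (by omega)
      ((((WL.nil.cons (by omega)).cons (by omega)).cons (by omega)).cons (by omega))
        (((WL.nil.cons (by omega)).cons (by omega)).cons (by omega)) (by
      repeat first | rw [stI_hit rfl] | rw [stI_skip (by omega)])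
  rw [prod_dsJz (by omega) (by omega)]
  show dE θ n a (r2wR θ n z) η r 0 * dE θ n a (r2wR θ n z) η r n *
    dE θ n a (r2wR θ n z) η r (3 * n) * dE θ n a (r2wR θ n z) η r (4 * n) *
      dE θ n a (r2wR θ n z) η r (5 * n) * dE θ n a (r2wR θ n z) η r (7 * n) *
        dE θ n a (r2wR θ n z) η r z = _
  rw [e0, e1, e2, e3, e4, e5]
  ring

include hsin in
/-- The product for `r2wI`. -/
theorem pr_r2wI (hz : 6 * n ≤ z ∧ z ≤ 6 * n + 1) :
    ∏ j ∈ dsJz n z, (dsP n a (r2wI θ n z) (dsJz n z)).e θ (bt θ) η r j =
      dE θ n a (r1R θ n) η r 0 * dE θ n a (fwR θ n) η r n * dE θ n a (fwR θ n) η r (3 * n) *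
        dE θ n a (r1R θ n) η r (4 * n) * dE θ n a (r2wI θ n z) η r z := by
  have e0 : dE θ n a (r2wI θ n z) η r 0 = dE θ n a (r1R θ n) η r 0 := by
    unfold r2wI r1R
    exact ds_bas hn hG hcos hr
      ((((WB.nil.cons (by omega)).cons (by omega)).cons (by omega)).cons (by omega)) (WB.nil.cons (by omega)) (by
      simp only [tot_cons, tot_nil]
      ring)
  have e1 : dE θ n a (r2wI θ n z) η r n = dE θ n a (fwR θ n) η r n := by
    unfold r2wI fwR
    exact ds_mid hn hG hcos hr (by omega) (by omega)
      ((((WL.nil.cons (by omega)).cons (by omega)).cons (by omega)).cons (by omega))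
        (((WL.nil.cons (by omega)).cons (by omega)).cons (by omega)) (by
      repeat first | rw [stI_hit rfl] | rw [stI_skip (by omega)])
  have e2 : dE θ n a (r2wI θ n z) η r (3 * n) = dE θ n a (fwR θ n) η r (3 * n) := by
    unfold r2wI fwR
    exact ds_mid hn hG hcos hr (by omega) (by omega)
      ((((WL.nil.cons (by omega)).cons (by omega)).cons (by omega)).cons (by omega))
        (((WL.nil.cons (by omega)).cons (by omega)).cons (by omega)) (by
      repeat first | rw [stI_hit rfl] | rw [stI_skip (by omega)])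
  have e3 : dE θ n a (r2wI θ n z) η r (4 * n) = dE θ n a (r1R θ n) η r (4 * n) := by
    unfold r2wI r1R
    exact ds_mid hn hG hcos hr (by omega) (by omega)
      ((((WL.nil.cons (by omega)).cons (by omega)).cons (by omega)).cons (by omega)) (WL.nil.cons (by omega)) (by
      repeat first | rw [stI_hit rfl] | rw [stI_skip (by omega)])
  have e4 : dE θ n a (r2wI θ n z) η r (5 * n) = 1 := by
    unfold r2wI
    exact ds_non hn hG hcos hsin hr (by omega) (by omega)
      ((((WL.nil.cons (by omega)).cons (by omega)).cons (by omega)).cons (by omega)) (by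
      repeat first | rw [stI_hit rfl] | rw [stI_skip (by omega)]
      rfl)
  have e5 : dE θ n a (r2wI θ n z) η r (7 * n) = 1 := by
    unfold r2wI
    exact ds_non hn hG hcos hsin hr (by omega) (by omega)
      ((((WL.nil.cons (by omega)).cons (by omega)).cons (by omega)).cons (by omega)) (by
      repeat first | rw [stI_hit rfl] | rw [stI_skip (by omega)]
      rfl)
  rw [prod_dsJz (by omega) (by omega)]
  show dE θ n a (r2wI θ n z) η r 0 * dE θ n a (r2wI θ n z) η r n *
    dE θ n a (r2wI θ n z) η r (3 * n) * dE θ n a (r2wI θ n z) η r (4 * n) *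
      dE θ n a (r2wI θ n z) η r (5 * n) * dE θ n a (r2wI θ n z) η r (7 * n) *
        dE θ n a (r2wI θ n z) η r z = _
  rw [e0, e1, e2, e3, e4, e5]
  ring

end

end Vale.Agent.P167.N.QL
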