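import Vale.Agent.P167.N.QL.D0G

/-!
# P167, the range `0 < q < 1`, block Q-LAM: D0, the arm of the junction reaches the west side

`JE c n a`: the junction is joined by the colour `c` in the square to the south, east or west side.
`d0_ext`: given the arm in a small box, this event has a probability bounded below.
-/

set_option autoImplicit false

namespace Vale.Agent.P167.N.QL

open Finset Vale.Agent.P167 Vale.Agent.P167.BR Vale.Agent.P167.FK
open Vale.Agent.P167.FKA (Loc)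
open Vale.Agent.P167.E6 (IsPolygon Encloses dir face)
open Vale.Agent.P167.H632 (cs pr pr_not pr_or)
open Vale.Agent.P167.H760 (Tr)
open Vale.Agent.P167.H262 (Rsq mem_Rsq)
open Vale.Agent.P167.H192.TA (Pw)
open Vale.Agent.P167.H433 (Arm Up HBx mem_HBx SO ext_flat ind_mono arm_ind_T pw_T)
open Vale.Agent.P167.N.NET (Jn VRS VT VT_arch VT_ell VT_nonneg Hs Vs Vc bd_bot bd_right arch mem_arch)

variable {n : ℕ} {a : ℤ × ℤ} {ω η : Cfg} {c : Bool} {Q : ℝ}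

/-- The junction is joined by the colour `c` in the square to the south, east or west side. -/
def JE (c : Bool) (n : ℕ) (a : ℤ × ℤ) : Set Cfg :=
  {ω | ∃ m : ℕ, m ≤ 4 * (2 * n) ∧ (m ≤ 3 * n ∨ 5 * n ≤ m) ∧
    Pw (cs c ω ∩ ↑(dsD n a)) (dsq n a ((4 * n : ℕ) : ZMod (4 * (2 * n))))
      (dsq n a (m : ZMod (4 * (2 * n))))}

/-- The rotation by `180` degrees. -/
theorem mvT_two (z v : ℤ × ℤ) : (mvT z z 2).S v = (2 * z.1 - v.1, 2 * z.2 - v.2) ∧
    (mvT z z 2).Q v = (2 * z.1 - v.1 - 1, 2 * z.2 - v.2 - 1) := by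
  have h : (mvT z z 2).S v = (2 * z.1 - v.1, 2 * z.2 - v.2) := by
    rw [mvT_S]
    ext <;> simp [dir] <;> ring
  refine ⟨h, ?_⟩
  rw [mvT_Q, h]
  ext <;> simp [face] <;> ring

/-- The square in the frame. -/
theorem pre_ds {v z : ℤ × ℤ} (hz : z = (a.1 + n, a.2 + 2 * n)) :
    v ∈ (mvT z z 2).pre (dsD n a) ↔
      (z.1 - n ≤ v.1 ∧ v.1 < z.1 + n) ∧ z.2 ≤ v.2 ∧ v.2 < z.2 + 2 * n := by
  rw [Tr.mem_pre, (mvT_two z v).2, mem_dsD, hz]
  dsimp only
  omega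

/-- **The arm of the junction reaches the west side.** -/
theorem d0_ext (hQ : 0 < Q) (hQ1 : Q ≤ 1) (hV : VRS Q) {ε : ℝ} (hε : 0 < ε) (hε1 : ε ≤ 1 / 8) :
    ∃ (c₂ : ℝ) (n₀ : ℕ), 0 < c₂ ∧ ∀ n : ℕ, n₀ ≤ n → ∀ (a : ℤ × ℤ) (c : Bool) (η : Cfg), Good η →
      ((dsq n a ((4 * n : ℕ) : ZMod (4 * (2 * n)))).1 +
        (dsq n a ((4 * n : ℕ) : ZMod (4 * (2 * n)))).2) % 2 = pr c →
      ∀ F : Cfg → ℝ, (∀ ω, 0 ≤ F ω) →
      Loc (dsD n a ∩ ({0, n, 3 * n, 5 * n, 7 * n} : Finset ℕ).biUnion fun j =>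
        Bq (dsq n a (j : ZMod (4 * (2 * n)))) ⌊ε * n⌋) F →
      c₂ * Ex Q (dsD n a) η (fun ω => F ω * (Arm c (dsD n a)
          (dsq n a ((4 * n : ℕ) : ZMod (4 * (2 * n)))) ⌊ε * n⌋).indicator 1 ω) ≤
        Ex Q (dsD n a) η (fun ω => F ω * (JE c n a).indicator 1 ω) := by
  obtain ⟨κ₁, h1, h1', hA⟩ := VT_arch hQ hQ1 hV 4
  obtain ⟨M, hM⟩ := exists_nat_ge (4 / ε)
  obtain ⟨κ₂, h2, h2', hL, -⟩ := VT_ell hQ hQ1 hV (M + 2)
  obtain ⟨n₀, hn₀⟩ := exists_nat_ge (16 / ε)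
  refine ⟨κ₂ * κ₁, n₀ + 16, mul_pos h2 h1, ?_⟩
  intro n hn a e η hη hz F hF0 hF
  have hn16 : 16 ≤ n := by omega
  have hnr : (n₀ : ℝ) ≤ n := by exact_mod_cast (by omega : n₀ ≤ n)
  have hεn : 16 ≤ ε * n := by
    have h3 := hn₀.trans hnr
    rw [div_le_iff₀ hε] at h3
    linarith
  obtain ⟨m, hm⟩ : ∃ m : ℕ, ⌊ε * (n : ℝ)⌋ = m :=
    ⟨⌊ε * (n : ℝ)⌋.toNat, (Int.toNat_of_nonneg (Int.floor_nonneg.2 (by linarith))).symm⟩
  rw [hm] at hF ⊢
  have hm1 : (m : ℝ) ≤ ε * n := by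
    have := Int.floor_le (ε * (n : ℝ))
    rw [hm] at this
    exact_mod_cast this
  have hm2 : ε * n < m + 1 := by
    have := Int.lt_floor_add_one (ε * (n : ℝ))
    rw [hm] at this
    exact_mod_cast this
  have hm16 : 16 ≤ m := by
    have : (15 : ℝ) < m := by linarith
    have : 15 < m := by exact_mod_cast this
    omega
  have hm8 : 8 * m ≤ n := by
    have h3 : (8 * m : ℝ) ≤ n := by nlinarith [Nat.cast_nonneg (α := ℝ) n]
    exact_mod_cast h3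
  obtain ⟨i, hi⟩ : ∃ i : ℕ, i = m / 2 := ⟨_, rfl⟩
  obtain ⟨h, hh⟩ : ∃ h : ℕ, h = n / 2 := ⟨_, rfl⟩
  have hni : n ≤ M * (i - 1) := by
    have h3 : (m : ℝ) + 1 ≤ 4 * ((i - 1 : ℕ) : ℝ) := by
      have : m + 1 ≤ 4 * (i - 1) := by omega
      exact_mod_cast this
    have h4 : ε * n ≤ 4 * ((i - 1 : ℕ) : ℝ) := by linarith
    have h5 : (n : ℝ) ≤ M * ((i - 1 : ℕ) : ℝ) := by
      have h6 : (n : ℝ) ≤ 4 / ε * ((i - 1 : ℕ) : ℝ) := by
        rw [div_mul_eq_mul_div, le_div_iff₀ hε]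
        linarith
      exact h6.trans (mul_le_mul_of_nonneg_right hM (Nat.cast_nonneg _))
    exact_mod_cast h5
  -- the frame
  obtain ⟨z, hzd⟩ : ∃ z, z = dsq n a ((4 * n : ℕ) : ZMod (4 * (2 * n))) := ⟨_, rfl⟩
  have hn0 : 0 < n := by omega
  have hzc : z = (a.1 + n, a.2 + 2 * n) := by rw [hzd, ds_J a hn0]
  rw [← hzd] at hz ⊢
  obtain ⟨T, hTe⟩ : ∃ T, T = mvT z z 2 := ⟨_, rfl⟩
  have ho : T.o = false := by rw [hTe]; exact mvT_o Iff.rfl 2
  have hTS : ∀ v, T.S v = (2 * z.1 - v.1, 2 * z.2 - v.2) := fun v => by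
    rw [hTe]; exact (mvT_two z v).1
  have hTQ : ∀ v, T.Q v = (2 * z.1 - v.1 - 1, 2 * z.2 - v.2 - 1) := fun v => by
    rw [hTe]; exact (mvT_two z v).2
  have hTz : T.S z = z := by
    rw [hTS]
    ext <;> dsimp only <;> ring
  have hD' : ∀ v, v ∈ T.pre (dsD n a) ↔
      (z.1 - n ≤ v.1 ∧ v.1 < z.1 + n) ∧ z.2 ≤ v.2 ∧ v.2 < z.2 + 2 * n := fun v => by
    rw [hTe]; exact pre_ds hzc
  have hη' : Good (T.Ci η) := T.good_T' (by rw [T.C_Ci]; exact hη)
  have hU : Up (T.pre (dsD n a)) z m := fun v hv => by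
    rw [mBq] at hv
    rw [hD']
    omega
  have hpr := pr_not e
  have hpe := pr_or e
  -- the tubes
  have g1 := (hA e (z.1 - m) (z.1 - i) (z.1 + i) (z.1 + m) z.2 z.2 (z.2 + i) (z.2 + m)
    (by omega) (by omega) (by omega) (by omega) (by omega) (by omega)
    (by push_cast; omega) (by push_cast; omega) (by push_cast; omega)).1
  have g2 := hL e (z.1 + 1) (z.1 + i) (z.1 + n) z.2 (z.2 + h) (z.2 + n) (by omega) (by omega)
    (by omega) (by omega) (by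
      have e1 : ((n : ℕ) : ℤ) ≤ M * ((i : ℤ) - 1) := by
        have e2 : ((n : ℕ) : ℤ) ≤ ((M * (i - 1) : ℕ) : ℤ) := by exact_mod_cast hni
        rw [Nat.cast_mul, Nat.cast_sub (by omega : 1 ≤ i), Nat.cast_one] at e2
        exact e2
      push_cast
      nlinarith)
    (by
      have e1 : (n : ℤ) ≤ 2 * ((n : ℤ) - h) := by omega
      have e2 : 0 ≤ (M : ℤ) * ((n : ℤ) - h) := mul_nonneg (Nat.cast_nonneg _) (by omega)
      push_cast
      nlinarith)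
  have hHD : HBx z m ⊆ T.pre (dsD n a) := by
    intro v hv
    rw [mem_HBx] at hv
    rw [hD']
    omega
  have hTD : Rsq (z.1 + 1) (z.1 + i) z.2 (z.2 + n) ∪
      Rsq (z.1 + 1) (z.1 + n) (z.2 + h) (z.2 + n) ⊆ T.pre (dsD n a) := by
    intro v hv
    rw [mem_union, mem_Rsq, mem_Rsq] at hv
    rw [hD']
    omega
  have hT1 : arch (z.1 - m) (z.1 - i) (z.1 + i) (z.1 + m) z.2 z.2 (z.2 + i) (z.2 + m) ⊆
      HBx z m := by
    intro v hv
    rw [mem_arch] at hv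
    rw [mem_HBx]
    omega
  -- the centres
  have hcen : ∀ v, T.Q v ∈ dsD n a ∩ ({0, n, 3 * n, 5 * n, 7 * n} : Finset ℕ).biUnion
      (fun j => Bq (dsq n a (j : ZMod (4 * (2 * n)))) m) →
      (z.2 + 2 * n ≤ v.2 + m) ∨ (v.2 ≤ z.2 + m ∧ (v.1 + n ≤ z.1 + m ∨ z.1 + n ≤ v.1 + 1 + m)) := by
    intro v hv
    rw [mem_inter, mem_biUnion] at hv
    obtain ⟨-, j, hj, hv⟩ := hv
    rw [mBq, hTQ] at hv
    simp only [mem_insert, mem_singleton] at hj
    have c0 := ds_S a hn0 (t := 0) (by omega)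
    have c1 := ds_E a hn0 (t := 0) (by omega)
    have c3 := ds_N a hn0 (t := 0) (by omega)
    have c5 := ds_W a hn0 (t := 0) (by omega)
    have c7 := ds_W a hn0 (t := 2 * n) le_rfl
    rw [add_zero] at c1 c3 c5
    rw [show 5 * n + 2 * n = 7 * n by ring] at c7
    rcases hj with rfl | rfl | rfl | rfl | rfl
    · rw [c0] at hv
      rw [hzc] at hv ⊢
      push_cast at hv
      dsimp only at hv ⊢
      omega
    · rw [c1] at hv
      rw [hzc] at hv ⊢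
      push_cast at hv
      dsimp only at hv ⊢
      omega
    · rw [c3] at hv
      rw [hzc] at hv ⊢
      push_cast at hv
      dsimp only at hv ⊢
      omega
    · rw [c5] at hv
      rw [hzc] at hv ⊢
      push_cast at hv
      dsimp only at hv ⊢
      omega
    · rw [c7] at hv
      rw [hzc] at hv ⊢
      push_cast at hv
      dsimp only at hv ⊢
      omega
  have key := ext_flat (F := fun ω => F (T.C ω)) (D := T.pre (dsD n a)) (η := T.Ci η) hQ hQ1 hη'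
    (m := m) (i := i) (z := z) (e := e)
    (T₁ := arch (z.1 - m) (z.1 - i) (z.1 + i) (z.1 + m) z.2 z.2 (z.2 + i) (z.2 + m))
    (A₁ := Hs e z.2 (z.1 - m) (z.1 - i))
    (T := Rsq (z.1 + 1) (z.1 + i) z.2 (z.2 + n) ∪ Rsq (z.1 + 1) (z.1 + n) (z.2 + h) (z.2 + n))
    (A := Hs e z.2 (z.1 + 1) (z.1 + i)) (B := Vs e (z.1 + n) (z.2 + h) (z.2 + n))
    (by omega) hz (by omega) (by omega) hHD hT1
    (fun x hx => ⟨hx.1, hx.2.1, by have := hx.2.2.1; omega, hx.2.2.2⟩) hTD subset_rfl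
    (bd_bot fun t ht => by rw [mem_union, mem_Rsq, mem_Rsq] at ht; omega)
    (fun t ht h => by rw [mem_union, mem_Rsq, mem_Rsq] at ht; omega)
    (bd_right fun t ht => by rw [mem_union, mem_Rsq, mem_Rsq] at ht; omega)
    (fun b hb hbV => by
      obtain ⟨b1, b2, b3, b4⟩ := hb
      obtain ⟨x, hx, c1, c2, c3⟩ := hbV
      have := mem_HBx.1 (mem_coe.1 hx)
      omega) (fun ω => hF0 _)
    (fun ω ω' hω => hF _ _ fun v hv => by
      obtain ⟨v, rfl⟩ := T.Q.surjective v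
      have h3 := hcen v hv
      rw [T.C_apply, T.C_apply, hω v (fun h4 => ?_) fun h4 => ?_]
      · rw [mem_arch] at h4
        omega
      · rw [mem_union, mem_Rsq, mem_Rsq] at h4
        omega)
  have hE0 := FKA.Ex_nonneg (D := T.pre (dsD n a)) (η := T.Ci η) hQ (F := fun ω => F (T.C ω) *
    (Jn e ↑(HBx z m) {z} (SO e z m)).indicator 1 ω) fun _ _ => mul_nonneg (hF0 _)
      (Set.indicator_nonneg (fun _ _ => zero_le_one) _)
  rw [← T.Ex_pre Q (dsD n a) η, ← T.Ex_pre Q (dsD n a) η]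
  have e1 : (fun ω => F (T.C ω) * (Arm e (dsD n a) z m).indicator 1 (T.C ω)) =
      fun ω => F (T.C ω) * (Jn e ↑(HBx z m) {z} (SO e z m)).indicator 1 ω := by
    funext ω
    have h3 := arm_ind_T (e := e) (D := dsD n a) (z := z) (r := m) ho ω
    rw [hTz] at h3
    rw [h3, hU.arm le_rfl (by omega) hz]
  rw [e1]
  refine (mul_le_mul_of_nonneg_right (mul_le_mul g2 g1 h1.le (VT_nonneg hQ _ _ _ _))
    hE0).trans (key.trans (FKA.Ex_mono hQ fun S _ => mul_le_mul_of_nonneg_left ?_ (hF0 _)))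
  obtain ⟨ω, hω⟩ : ∃ ω, ω = cf (T.pre (dsD n a)) (T.Ci η) S := ⟨_, rfl⟩
  rw [← hω]
  by_cases hωJ : ω ∈ Jn e (↑(HBx z m) ∪ ↑(Rsq (z.1 + 1) (z.1 + i) z.2 (z.2 + n) ∪
      Rsq (z.1 + 1) (z.1 + n) (z.2 + h) (z.2 + n))) {z} (Vs e (z.1 + n) (z.2 + h) (z.2 + n))
  · rw [Set.indicator_of_mem hωJ, Set.indicator_of_mem]
    · exact le_rfl
    · obtain ⟨x, rfl, b, ⟨b1, b2, b3, b4⟩, hP⟩ := hωJ
      obtain ⟨t, ht⟩ : ∃ t : ℕ, (t : ℤ) = b.2 - x.2 := ⟨(b.2 - x.2).toNat, by omega⟩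
      refine ⟨5 * n + t, by omega, Or.inr (by omega), ?_⟩
      have hqb : dsq n a ((5 * n + t : ℕ) : ZMod (4 * (2 * n))) = T.S b := by
        rw [ds_W a hn0 (by omega), hTS]
        rw [hzc] at b1 ht ⊢
        dsimp only at b1 ht ⊢
        ext
        · dsimp only
          omega
        · dsimp only
          omega
      rw [hqb, ← hzd]
      nth_rw 1 [← hTz]
      rw [pw_T ho]
      refine H192.TA.Pw.mono ?_ hP
      rintro v ⟨v1, v2⟩
      have v3 : v ∈ T.pre (dsD n a) := by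
        rcases v2 with v2 | v2
        · exact hHD (mem_coe.1 v2)
        · exact hTD (mem_coe.1 v2)
      refine ⟨?_, mem_coe.2 (T.mem_pre.1 v3)⟩
      show T.C ω (T.Q v) = e
      rw [T.C_apply, ho]
      exact v1
  · rw [Set.indicator_of_notMem hωJ]
    exact Set.indicator_nonneg (fun _ _ => zero_le_one) _

end Vale.Agent.P167.N.QL
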