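import Vale.Agent.P167.N.QL.Reg

/-!
# P167, the range `0 < q < 1`, block Q-LAM: the Dobrushin square is regular, small `σ`
-/

set_option autoImplicit false

namespace Vale.Agent.P167.N.QL

open Finset Filter Vale.Agent.P167.BR Vale.Agent.P167.FK
open Vale.Agent.P167.H718 (Dob)
open Vale.Agent.P167.N.H167.Q (Reg)
open Vale.Agent.P167.H825.Q (Bc)
open Vale.Agent.P167.N.H167.Q (s_REG_tr)
open Vale.Agent.P167.Enl (kOf)
open Vale.Agent.P167.H318.LC (sqP sqS sq_poly sq_encl)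

/-- **The Dobrushin square is regular**, for every small `σ`. -/
theorem ds_rgs (ms : ℕ) : ∃ σ₀ R : ℝ, 0 < σ₀ ∧ ∀ σ : ℝ, 0 < σ → σ ≤ σ₀ → ∀ᶠ n : ℕ in atTop,
    ∀ a : ℤ × ℤ, ∃ η : Cfg, ∀ (ρ : ℕ → ℝ) (J : Finset ℕ), (dsP n a ρ J).Near →
      (dsP n a ρ J).Sep ⌊σ * n⌋₊ → J.card ≤ ms → (dsP n a ρ J).Rg n σ R ms η := by
  have h2 : (0 : ℝ) < 1 / 2 := by norm_num
  obtain ⟨c, hc, hR⟩ := s_REG_tr (sq_poly 0) (sq_encl 0) h2 (by norm_num) (bc := .dob 2 (1 / 2))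
    ⟨by norm_num, by norm_num, by norm_num, by norm_num⟩
  obtain ⟨n₀, hn₀⟩ := eventually_atTop.1 hR
  refine ⟨c, ((∑ w ∈ sqS, nm w : ℤ) + 1 : ℝ) * 2, hc, fun σ hσ hσc => ?_⟩
  filter_upwards [eventually_ge_atTop (max n₀ 1)] with n hn a
  have hn1 : 0 < n := by have := (le_max_right _ _).trans hn; omega
  have hn2 : n₀ ≤ 2 * n := by have := (le_max_left _ _).trans hn; omega
  obtain ⟨η, e1, e2⟩ := hn₀ (2 * n) hn2 a
  have e3 : ⌊(1 / 2 : ℝ) * ((2 * n : ℕ) : ℝ)⌋₊ = n := by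
    have : (1 / 2 : ℝ) * ((2 * n : ℕ) : ℝ) = (n : ℝ) := by push_cast; ring
    rw [this, Nat.floor_natCast]
  have e4 : (Bc.dob 2 (1 / 2)).ka 4 (2 * n) n = 4 * n := by
    show kOf 4 (2 * n) n 2 ⌊(1 / 2 : ℝ) * ((2 * n : ℕ) : ℝ)⌋₊ = 4 * n
    rw [e3]
    unfold kOf
    split_ifs <;> omega
  rw [e3, e4] at e1
  have hnn : (0 : ℝ) ≤ n := Nat.cast_nonneg n
  refine ⟨η, fun ρ J hN hS hJ => ⟨⟨ds_poly hn1 a, ds_encl hn1 a, ?_, hN, hS⟩, ?_, hJ,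
    ⟨a, fun v hv => ?_⟩, e1, ?_⟩⟩
  · exact (geoP_enl (sq_poly 0) (sq_encl 0) (n := 2 * n) (by omega) (ds_poly hn1 a)
      (ds_encl hn1 a)).mono hn1 (by omega)
  · show 4 * n ≤ 4 * (2 * n)
    omega
  · have h3 := enl_dia (Q := sqS) (n := 2 * n) (a := a) hv
    refine h3.trans (le_of_eq ?_)
    push_cast
    ring
  · refine e2.mono (Int.floor_le_floor ?_)
    push_cast
    nlinarith [mul_nonneg hc.le hnn, mul_le_mul_of_nonneg_right hσc hnn]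

end Vale.Agent.P167.N.QL
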