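import Vale.Agent.P167.N.QL.K4
import Vale.Agent.P167.H433.ExtF

/-!
# P167, the range `0 < q < 1`, block Q-LAM: straight windows

A polygon which is straight around the index `J`: `wn_str` (the window of indices), `flT_str` (the
domain is a half plane in the box, up to a rotation). `TX_j`: the local factor of the junction if the
mixed strands in the box have weight `0`.
-/

set_option autoImplicit false

namespace Vale.Agent.P167.N.QL

open Finset Vale.Agent.P167 Vale.Agent.P167.BR Vale.Agent.P167.FK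
open Vale.Agent.P167.E6 (IsPolygon Encloses dir face)
open Vale.Agent.P167.H760 (Tr)
open Vale.Agent.P167.H632 (cs pr)
open Vale.Agent.P167.H975 (TX lkBq box_conn)
open Vale.Agent.P167.H433 (Arm Up FlT)
open Vale.Agent.P167.QX (lo hi)

variable {N k n d J : ℕ} {q : ZMod N → ℤ × ℤ} {D : Finset (ℤ × ℤ)} {τ : ℕ → ℤ} {r R : ℤ}
  {ω : Cfg} {c : Bool} {θ β : ℝ} {ρ : ℕ → ℝ}

theorem nm_smul_dir (m : ℤ) (u : Fin 4) : nm (m • dir u) = |m| := by
  fin_cases u <;> simp [dir, nm]

theorem nm_smul_vec (m t : ℤ) : nm (m • Top.vec t) = |m| := by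
  obtain ⟨u, hu⟩ := exists_dir t
  rw [hu, nm_smul_dir]

/-- The path around a straight index. -/
theorem str_nm (hs : ∀ j : ℕ, q ((j + 1 : ℕ) : ZMod N) = q (j : ZMod N) + Top.vec (τ j))
    (hS : Str τ J d) {z : ℕ} (h1 : J ≤ z + d) (h2 : z ≤ J + d) :
    nm (q (z : ZMod N) - q (J : ZMod N)) = |(z : ℤ) - J| := by
  rcases Nat.le_total J z with h | h
  · obtain ⟨i, rfl⟩ := Nat.exists_eq_add_of_le h
    rw [str_R hs i fun j a b => hS.1 j a (by omega), add_sub_cancel_left, nm_smul_vec]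
    push_cast
    rw [add_sub_cancel_left]
  · obtain ⟨i, rfl⟩ := Nat.exists_eq_add_of_le h
    have h3 := str_L hs i (by omega) fun j a b => hS.2 j (by omega) b
    rw [show z + i - i = z by omega] at h3
    rw [h3, sub_sub_cancel_left, ← neg_smul, nm_smul_vec]
    push_cast
    congr 1
    ring

/-- **The window of indices.** -/
theorem wn_str (hG : GeoP n N q)
    (hs : ∀ j : ℕ, q ((j + 1 : ℕ) : ZMod N) = q (j : ZMod N) + Top.vec (τ j))
    (hS : Str τ J d) (hd : d ≤ J) (hdN : J + d ≤ N) (hR0 : 0 ≤ R) (hR : 3 * R < n)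
    (hRd : 2 * R < d) : Wn q J R where
  le := by omega
  lt := by omega
  near := fun z _ hz' => by
    rw [abs_le] at hz'
    exact str_nm hs hS (by omega) (by omega)
  far := fun z hz hz' => by
    by_contra hcon
    push Not at hcon
    have hJN : J ≤ N := by omega
    have h3 : J ≤ z + d ∧ z ≤ J + d := by
      rcases hG.near hz hJN hR hcon with h | h
      · rw [abs_le] at h
        omega
      · rcases abs_cases ((z : ℤ) - J) with ⟨a, b⟩ | ⟨a, b⟩ <;> rw [a] at h <;> omega
    rw [str_nm hs hS h3.1 h3.2] at hcon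
    omega

/-- The domain near a straight part of the boundary with direction `0`. -/
theorem dom_flat [NeZero N] (hD : Encloses q D) (hd : 2 ≤ d) (hRd : R + 3 ≤ d)
    (hpath : ∀ m, m ≤ 2 * d → q ((J - d + m : ℕ) : ZMod N) =
      ((q (J : ZMod N)).1 + ((m : ℤ) - d), (q (J : ZMod N)).2))
    (hnear : ∀ i : ZMod N, nm (q i - q (J : ZMod N)) ≤ R + 2 →
      ∃ m ≤ 2 * d, i = ((J - d + m : ℕ) : ZMod N)) (hR : 0 ≤ R) :
    ∀ v, v ∈ Bq (q (J : ZMod N)) (R + 1) → (v ∈ D ↔ (q (J : ZMod N)).2 ≤ v.2) := by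
  obtain ⟨c, hc⟩ : ∃ c, c = q (J : ZMod N) := ⟨_, rfl⟩
  rw [← hc] at hpath hnear ⊢
  -- there are no sites near `c` off the line
  have hline : ∀ i : ZMod N, nm (q i - c) ≤ R + 2 → (q i).2 = c.2 := by
    intro i hi
    obtain ⟨m, hm, rfl⟩ := hnear i hi
    rw [hpath m hm]
  have hJ : q (((J - d + d : ℕ) : ZMod N) + 1) = (c.1 + 1, c.2) := by
    have := hpath (d + 1) (by omega)
    rw [← add_assoc, Nat.cast_add _ 1, Nat.cast_one] at this
    rw [this]
    ext
    · push_cast; ring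
    · rfl
  have hc0 : c ∈ D := by
    have h1 := hpath d (by omega)
    have h2 : q ((J - d + d : ℕ) : ZMod N) = c := by
      rw [h1]; ext <;> simp
    have h3 := (hD c 0).1 ⟨((J - d + d : ℕ) : ZMod N), h2, by
      rw [hJ]
      ext <;> simp [dir]⟩
    have h4 : face c 0 = c := by
      unfold face
      ext <;> simp
    rw [h4] at h3
    exact h3.1
  have hcB : c ∈ Bq c (R + 1) := by
    rw [lkBq]
    omega
  intro v hv
  have key := box_conn (c := c) (R := R + 1) (P := fun v => (v ∈ D ↔ c.2 ≤ v.2))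
    (fun v k1 k2 => ?_) (fun v k1 k2 => ?_) hcB hv
  · exact key.1 ⟨fun _ => le_rfl, fun _ => hc0⟩
  · -- a vertical side
    rw [lkBq] at k1 k2
    simp only [Prod.fst_add, Prod.snd_add] at k1 k2
    have a1 := hD (v + (1, 0)) 1
    have a2 := hD (v + (1, 1)) 3
    have e1 : face (v + (1, 0)) 1 = v := by unfold face; ext <;> simp
    have e2 : face (v + (1, 0)) (1 - 1) = v + (1, 0) := by unfold face; ext <;> simp
    have e3 : face (v + (1, 1)) 3 = v + (1, 0) := by unfold face; ext <;> simp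
    have e4 : face (v + (1, 1)) (3 - 1) = v := by unfold face; ext <;> simp
    rw [e1, e2] at a1
    rw [e3, e4] at a2
    have nm_le' : ∀ {v : ℤ × ℤ} {r : ℤ}, nm v ≤ r ↔ (-r ≤ v.1 ∧ v.1 ≤ r) ∧ -r ≤ v.2 ∧ v.2 ≤ r :=
      fun {v r} => nmle
    have b1 : ¬ ∃ i, q i = v + (1, 0) ∧ q (i + 1) = v + (1, 0) + dir 1 := by
      rintro ⟨i, h1, h2⟩
      have h3 := hline i (by
        rw [h1, nm_le']
        simp only [Prod.fst_sub, Prod.snd_sub, Prod.fst_add, Prod.snd_add]
        omega)
      have h4 := hline (i + 1) (by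
        rw [h2, nm_le']
        simp only [Prod.fst_sub, Prod.snd_sub, Prod.fst_add, Prod.snd_add, dir]
        simp
        omega)
      rw [h1] at h3
      rw [h2] at h4
      simp [dir] at h3 h4
      omega
    have b2 : ¬ ∃ i, q i = v + (1, 1) ∧ q (i + 1) = v + (1, 1) + dir 3 := by
      rintro ⟨i, h1, h2⟩
      have h3 := hline i (by
        rw [h1, nm_le']
        simp only [Prod.fst_sub, Prod.snd_sub, Prod.fst_add, Prod.snd_add]
        omega)
      have h4 := hline (i + 1) (by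
        rw [h2, nm_le']
        simp only [Prod.fst_sub, Prod.snd_sub, Prod.fst_add, Prod.snd_add, dir]
        simp
        omega)
      rw [h1] at h3
      rw [h2] at h4
      simp [dir] at h3 h4
      omega
    have c1 := fun h => b1 (a1.2 h)
    have c2 := fun h => b2 (a2.2 h)
    have h5 : v ∈ D ↔ v + (1, 0) ∈ D := by tauto
    have h6 : (v + (1, 0)).2 = v.2 := by simp
    show (v ∈ D ↔ c.2 ≤ v.2) ↔ (v + (1, 0) ∈ D ↔ c.2 ≤ (v + (1, 0)).2)
    rw [h5, h6]
  · -- a horizontal side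
    rw [lkBq] at k1 k2
    simp only [Prod.fst_add, Prod.snd_add] at k1 k2
    have a1 := hD (v + (0, 1)) 0
    have a2 := hD (v + (1, 1)) 2
    have e1 : face (v + (0, 1)) 0 = v + (0, 1) := by unfold face; ext <;> simp
    have e2 : face (v + (0, 1)) (0 - 1) = v := by unfold face; ext <;> simp
    have e3 : face (v + (1, 1)) 2 = v := by unfold face; ext <;> simp
    have e4 : face (v + (1, 1)) (2 - 1) = v + (0, 1) := by unfold face; ext <;> simp
    rw [e1, e2] at a1
    rw [e3, e4] at a2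
    have h6 : (v + (0, 1)).2 = v.2 + 1 := by simp
    show (v ∈ D ↔ c.2 ≤ v.2) ↔ (v + (0, 1) ∈ D ↔ c.2 ≤ (v + (0, 1)).2)
    rw [h6]
    have nm_le' : ∀ {v : ℤ × ℤ} {r : ℤ}, nm v ≤ r ↔ (-r ≤ v.1 ∧ v.1 ≤ r) ∧ -r ≤ v.2 ∧ v.2 ≤ r :=
      fun {v r} => nmle
    by_cases hv2 : v.2 + 1 = c.2
    · have hex : ∃ i, q i = v + (0, 1) ∧ q (i + 1) = v + (0, 1) + dir 0 := by
        obtain ⟨m, hm⟩ : ∃ m : ℕ, (m : ℤ) = v.1 - c.1 + d := ⟨(v.1 - c.1 + d).toNat, by omega⟩
        refine ⟨((J - d + m : ℕ) : ZMod N), ?_, ?_⟩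
        · rw [hpath m (by omega)]
          ext
          · simp only [Prod.fst_add]; omega
          · simp only [Prod.snd_add]; omega
        · have := hpath (m + 1) (by omega)
          rw [← add_assoc, Nat.cast_add _ 1, Nat.cast_one] at this
          rw [this]
          ext
          · simp only [Prod.fst_add, dir]; simp; omega
          · simp only [Prod.snd_add, dir]; simp; omega
      have := a1.1 hex
      constructor
      · intro _
        exact ⟨fun _ => by omega, fun _ => this.1⟩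
      · intro _
        exact ⟨fun h => absurd h this.2, fun h => by omega⟩
    · have b1 : ¬ ∃ i, q i = v + (0, 1) ∧ q (i + 1) = v + (0, 1) + dir 0 := by
        rintro ⟨i, h1, h2⟩
        have h3 := hline i (by
          rw [h1, nm_le']
          simp only [Prod.fst_sub, Prod.snd_sub, Prod.fst_add, Prod.snd_add]
          omega)
        rw [h1] at h3
        simp at h3
        omega
      have b2 : ¬ ∃ i, q i = v + (1, 1) ∧ q (i + 1) = v + (1, 1) + dir 2 := by
        rintro ⟨i, h1, h2⟩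
        have h3 := hline i (by
          rw [h1, nm_le']
          simp only [Prod.fst_sub, Prod.snd_sub, Prod.fst_add, Prod.snd_add]
          omega)
        rw [h1] at h3
        simp at h3
        omega
      have c1 := fun h => b1 (a1.2 h)
      have c2 := fun h => b2 (a2.2 h)
      have h5 : v ∈ D ↔ v + (0, 1) ∈ D := by tauto
      have h7 : c.2 ≤ v.2 ↔ c.2 ≤ v.2 + 1 := by omega
      rw [h5, h7]

/-- **The domain in the box of a straight index**: a half plane, up to a rotation. -/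
theorem flT_str (hG : GeoP n N q) (hq : IsPolygon q) (hD : Encloses q D)
    (hs : ∀ j : ℕ, q ((j + 1 : ℕ) : ZMod N) = q (j : ZMod N) + Top.vec (τ j))
    (hS : Str τ J d) (hd : d ≤ J) (hJN : J ≤ N) (hfl : τ J = τ (J - 1)) (hR0 : 0 ≤ R)
    (hR : 3 * (R + 2) < n) (hRd : 2 * (R + 2) ≤ d) : FlT D (q (J : ZMod N)) (R + 1) := by
  have hN : NeZero N := ⟨by have := hq.1; omega⟩
  obtain ⟨s, hsd⟩ := exists_dir (τ J)
  obtain ⟨z, hz⟩ : ∃ z, z = q (J : ZMod N) := ⟨_, rfl⟩
  have hT := rt_mvT (x := z) (y := z) Iff.rfl s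
  have hcen := mvT_cen z z s
  refine ⟨mvT z z s, z, hT.o, by rw [hcen, hz], ?_⟩
  obtain ⟨T, hTe⟩ : ∃ T, T = mvT z z s := ⟨_, rfl⟩
  rw [← hTe] at hT hcen ⊢
  have hb : pq T q (J : ZMod N) = z := by
    unfold pq
    rw [← hz, ← hcen, Equiv.symm_apply_apply, hcen]
  have hst := hT.step hs
  have h0 : Top.vec (τ J - (s.val : ℤ)) = (1, 0) := by
    rw [vec_rot _ _ _ hsd, sub_self]
    rfl
  have hS' : Str (fun j => τ j - (s.val : ℤ)) J d :=
    ⟨fun i a b => by
      show τ i - _ = τ J - _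
      rw [hS.1 i a b], fun i a b => by
      show τ i - _ = τ (J - 1) - _
      rw [hS.2 i a b]⟩
  have hpath : ∀ m, m ≤ 2 * d → pq T q ((J - d + m : ℕ) : ZMod N) =
      ((pq T q (J : ZMod N)).1 + ((m : ℤ) - d), (pq T q (J : ZMod N)).2) := by
    intro m hm
    rcases le_total m d with h | h
    · obtain ⟨x, rfl⟩ := Nat.exists_eq_add_of_le h
      have h3 := str_L (τ := fun j => τ j - (s.val : ℤ)) hst x (by omega : x ≤ J)
        fun j a b => hS'.2 j (by omega) b
      rw [show J - (m + x) + m = J - x by omega, h3]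
      have e : Top.vec (τ (J - 1) - (s.val : ℤ)) = (1, 0) := by rw [← hfl]; exact h0
      rw [e]
      ext
      · simp [sub_eq_add_neg]
      · simp
    · obtain ⟨x, rfl⟩ := Nat.exists_eq_add_of_le h
      have h3 := str_R (τ := fun j => τ j - (s.val : ℤ)) hst (J := J) x
        fun j a b => hS'.1 j a (by omega)
      rw [show J - d + (d + x) = J + x by omega, h3, h0]
      ext
      · simp
      · simp
  have key := dom_flat (hT.encl hD) (by omega) (R := R) (by omega) hpath (fun i hi =>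
    near_winP (R := R + 1) (geoP_pq T hG) hJN hd (by omega) (by omega) (by
      rw [add_assoc]
      exact hi)) hR0
  rw [hb] at key
  exact key

/-- **The junction**: if the mixed strands in the box have weight `0`, the local factor is the
indicator that there are none. -/
theorem TX_j (hq : IsPolygon q) (hD : Encloses q D) (hs : Real.sin θ ≠ 0) (hc : Real.cos θ ≠ 0)
    (hβ : Real.cos (θ / 2 + β) = Real.sin θ) (hW : Wn q k R) (hrR : r ≤ R)
    (hρ : ∀ j : ℕ, (k : ℤ) - R < j → (j : ℤ) ≤ k + R → j ≠ k → ρ j = ρ (j - 1))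
    (hρk : Real.cos (θ / 2 + β + (ρ k - ρ (k - 1))) = 0) :
    TX (wP θ β q D k ρ) D (q (k : ZMod N)) r ω = (NS q D k k r).indicator 1 ω := by
  classical
  -- the strands in the box
  have hno : ∀ A ∈ pcs ω D, ¬ IsLp D A → (∀ e ∈ A, hdv e ∈ Bq (q (k : ZMod N)) r) →
      ((k : ℤ) - r ≤ lo q A ∧ (hi q A : ℤ) + 1 ≤ k + r) ∧ lo q A < hi q A := by
    intro A hA hl hin
    obtain ⟨x, y, hxy⟩ := QX.exists_xy hq hD hA hl
    obtain ⟨⟨f1, f2⟩, f3, f4⟩ := feet_in hq hD hW hrR hA hxy hin
    rw [QX.lo_xy hq hD hA hxy, QX.hi_xy hq hD hA hxy]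
    have := hxy.ne
    rw [abs_le] at f1 f2 f3 f4
    push_cast at f2 f4
    omega
  by_cases hω : ω ∈ NS q D k k r
  · rw [Set.indicator_of_mem hω, Pi.one_apply]
    unfold TX
    refine prod_eq_one fun A hA => ?_
    rw [mem_filter] at hA
    obtain ⟨hA, hin⟩ := hA
    by_cases hl : IsLp D A
    · exact wP_lp hq hD hA hl hc
    · obtain ⟨h1, h2⟩ := hno A hA hl hin
      have h4 := hω A hA hl hin
      refine wP_one hs hc hβ (rho_eq h2.le fun j j1 j2 => hρ j (by omega) (by omega) ?_)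
      rintro rfl
      exact h4 ⟨j1, j2⟩
  · rw [Set.indicator_of_notMem hω]
    have hω' : ¬ ∀ A ∈ pcs ω D, ¬ IsLp D A → (∀ e ∈ A, hdv e ∈ Bq (q (k : ZMod N)) r) →
        ¬ (lo q A < k ∧ k ≤ hi q A) := hω
    push Not at hω'
    obtain ⟨A, hA, hl, hin, hov⟩ := hω'
    obtain ⟨h1, h2⟩ := hno A hA hl hin
    unfold TX
    refine prod_eq_zero (i := A) (mem_filter.2 ⟨hA, hin⟩) ?_
    unfold wP QX.wB
    rw [if_neg hl, if_pos hov]
    have e1 : ρ (hi q A) = ρ k := rho_eq hov.2 fun j j1 j2 => hρ j (by omega) (by omega) (by omega)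
    have e2 : ρ (k - 1) = ρ (lo q A) := rho_eq (by omega) fun j j1 j2 =>
      hρ j (by omega) (by omega) (by omega)
    rw [e1, ← e2, hρk, zero_div]

end Vale.Agent.P167.N.QL
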