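import Vale.Agent.P167.N.QL.In
import Vale.Agent.P167.N.QL.KcG
import Vale.Agent.P167.N.NET.KitV

/-!
# P167, the range `0 < q < 1`, block Q-LAM: killed flat centres

`kc_flat`: a flat site of the colour of its arc with the charge `θ`. `kc_jun`: the junction, if the
mixed strands in the box have weight `0`.
-/

set_option autoImplicit false

namespace Vale.Agent.P167.N.QL

open Finset Vale.Agent.P167 Vale.Agent.P167.BR Vale.Agent.P167.FK
open Vale.Agent.P167.E6 (IsPolygon Encloses dir face)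
open Vale.Agent.P167.H632 (cs pr)
open Vale.Agent.P167.H975 (TX)
open Vale.Agent.P167.H433 (Arm Up FlT arm_anti extI_flat)
open Vale.Agent.P167.N.AW (Kil ExtI)

variable {N k n d j κ : ℕ} {q : ZMod N → ℤ × ℤ} {D : Finset (ℤ × ℤ)} {τ : ℕ → ℤ} {r R ℓ : ℤ}
  {ω : Cfg} {c : Bool} {θ β : ℝ} {ρ : ℕ → ℝ} {w : Finset Ed → ℝ} {z : ℤ × ℤ}

/-- The colour of a site. -/
theorem exists_pr (z : ℤ × ℤ) : ∃ c, (z.1 + z.2) % 2 = pr c := by
  rcases Int.emod_two_eq (z.1 + z.2) with h | h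
  · exact ⟨true, h⟩
  · exact ⟨false, h⟩

/-- No strand over the site: the arm. -/
theorem ns_arm (hq : IsPolygon q) (hD : Encloses q D) (hW : Wn q κ R) (hr0 : 0 ≤ r)
    (hrR : r + 1 ≤ R) (ht : κ < N) (hp : ((q (κ : ZMod N)).1 + (q (κ : ZMod N)).2) % 2 = pr c) :
    (NS q D κ κ r).indicator (1 : Cfg → ℝ) ω = (Arm c D (q (κ : ZMod N)) r).indicator 1 ω := by
  have h := ns_iff (ω := ω) hq hD hW hr0 hrR ht hp
  by_cases h1 : ω ∈ NS q D κ κ r
  · rw [Set.indicator_of_mem h1, Set.indicator_of_mem (show ω ∈ Arm c D _ r from h.1 h1)]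
  · rw [Set.indicator_of_notMem h1, Set.indicator_of_notMem fun h2 : ω ∈ Arm c D _ r => h1 (h.2 h2)]

/-- The local factor is the indicator of the arm. -/
theorem kil_arm (h : ∀ (r : ℤ) (ω : Cfg), 1 ≤ r → r ≤ ℓ →
    TX w D z r ω = (Arm c D z r).indicator 1 ω) :
    Kil 1 1 w D z (fun r ω => (Arm c D z r).indicator 1 ω) ℓ := by
  refine ⟨fun r ω _ _ => ?_, fun r' r'' ω _ h2 _ => ?_, fun r ω h1 h2 => ?_, fun r ω h1 h2 => ?_⟩
  · by_cases hω : ω ∈ Arm c D z r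
    · right
      rw [Set.indicator_of_mem hω]
      rfl
    · left
      rw [Set.indicator_of_notMem hω]
  · exact Set.indicator_le_indicator_of_subset (arm_anti h2) (fun _ => zero_le_one) ω
  · rw [h r ω h1 h2, one_mul]
  · rw [h r ω h1 h2, one_mul]

theorem WinI.jB_pos {t : ℤ} (h : WinI d N τ j t) (h0 : 0 < j) :
    Str τ j d ∧ d ≤ j ∧ τ j - τ (j - 1) = t := by
  have e : jB N j = j := by
    unfold jB
    rw [if_neg (by omega)]
  obtain ⟨-, h1, h2, h3⟩ := h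
  rw [e] at h1 h2 h3
  exact ⟨h1, h2, h3⟩

/-- **A flat site of the colour of its arc with the charge `θ`.** -/
theorem kc_flat (h1 : Ang θ) (hR : RSW (2 * Real.cos θ)) : ∃ (b B : ℝ) (Λ W : ℤ) (KE : ℕ → ℤ)
    (CE : ℕ → ℝ), Kc b B Λ W CE ∧ ∀ {N k n d L j : ℕ} {q : ZMod N → ℤ × ℤ} {D : Finset (ℤ × ℤ)}
      {τ : ℕ → ℤ} {m r : ℤ} {η : Cfg} {ρ : ℕ → ℝ} {β : ℝ}, LkD n N q D k τ L m η →
      Real.cos (θ / 2 + β) = Real.sin θ →
      WinI d N τ j 0 → 0 < j → j + d < N → FarI N k L j → (j + d < k ∨ k + d ≤ j) →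
      (Even ((q (j : ZMod N)).1 + (q (j : ZMod N)).2) ↔ k ≤ j) →
      (∀ i, j < i + d → i ≤ j + d → 0 < i → ρ i - ρ (i - 1) = if i = j then θ else 0) →
      W * r ≤ n → W * r ≤ d → W * r ≤ m → 1 ≤ r →
      KC θ β q D k ρ η b B Λ KE CE (q (j : ZMod N)) r := by
  have hQ := h1.kit.pos
  have hQ1 := h1.kit.lt
  have hE := fun E : ℕ => extI_flat hQ hQ1.le (NET.vrs hQ hQ1) E
  choose CE hCE1 hCE using hE
  refine ⟨1, 1, 1, 20, fun _ => 6, CE, ⟨one_pos, le_rfl, le_rfl, le_rfl, by norm_num, hCE1⟩, ?_⟩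
  intro N k n d L j q D τ m r η ρ β h hβ hw h0 hN _ hk hp hρ hWn hWd hWm hr
  obtain ⟨w1, w2, w3⟩ := hw.jB_pos h0
  have hWj := wn_str (R := r + 1) h.geo h.step w1 w2 hN.le (by omega) (by omega) (by omega)
  obtain ⟨c, hc⟩ := exists_pr (q (j : ZMod N))
  have hfl : FlT D (q (j : ZMod N)) (r - 1 + 1) := flT_str h.geo h.poly h.enc h.step w1 w2
    (by omega) (by omega) (by omega) (by omega) (by omega)
  rw [sub_add_cancel] at hfl
  have hco : (c = false ∧ (j : ℤ) + (r + 1) ≤ k) ∨ (c = true ∧ (k : ℤ) ≤ j - (r + 1)) := by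
    rw [Int.even_iff, hc] at hp
    cases c
    · left
      refine ⟨rfl, ?_⟩
      have : ¬ k ≤ j := fun h' => absurd (hp.2 h') (by decide)
      omega
    · right
      refine ⟨rfl, ?_⟩
      have : k ≤ j := hp.1 (by decide)
      omega
  have hρ' : ∀ i : ℕ, (j : ℤ) - (r + 1) < i → (i : ℤ) ≤ j + (r + 1) → i ≠ j → ρ i = ρ (i - 1) := by
    intro i i1 i2 i3
    have h3 := hρ i (by omega) (by omega) (by omega)
    rw [if_neg i3] at h3
    linarith
  have hρj : ρ j = ρ (j - 1) + θ := by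
    have h3 := hρ j (by omega) (by omega) h0
    rw [if_pos rfl] at h3
    linarith
  refine ⟨fun r ω => (Arm c D (q (j : ZMod N)) r).indicator 1 ω, kil_arm fun r' ω g1 g2 => ?_,
    fun E => hCE E h.reg.good hc hfl⟩
  rw [TX_o h.poly h.enc h1.sin_pos.ne' h1.cos_pos.ne' hβ hWj (by omega) (by omega) h0 (by omega) hc
    hco hρ' hρj, ns_arm h.poly h.enc hWj (by omega) (by omega) (by omega) hc]

/-- **The junction with the weight `0` of the mixed strands.** -/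
theorem kc_jun (h1 : Ang θ) (hR : RSW (2 * Real.cos θ)) : ∃ (b B : ℝ) (Λ W : ℤ) (KE : ℕ → ℤ)
    (CE : ℕ → ℝ), Kc b B Λ W CE ∧ ∀ {N k n d L : ℕ} {q : ZMod N → ℤ × ℤ} {D : Finset (ℤ × ℤ)}
      {τ : ℕ → ℤ} {m r : ℤ} {η : Cfg} {ρ : ℕ → ℝ} {β : ℝ}, LkD n N q D k τ L m η →
      Real.cos (θ / 2 + β) = Real.sin θ →
      WinI d N τ k 0 → 0 < k → k + d < N → d < L →
      (∀ i, k < i + d → i ≤ k + d → 0 < i → i ≠ k → ρ i = ρ (i - 1)) →
      Real.cos (θ / 2 + β + (ρ k - ρ (k - 1))) = 0 →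
      W * r ≤ n → W * r ≤ d → W * r ≤ m → 1 ≤ r →
      KC θ β q D k ρ η b B Λ KE CE (q (k : ZMod N)) r := by
  have hQ := h1.kit.pos
  have hQ1 := h1.kit.lt
  have hE := fun E : ℕ => extI_flat hQ hQ1.le (NET.vrs hQ hQ1) E
  choose CE hCE1 hCE using hE
  refine ⟨1, 1, 1, 20, fun _ => 6, CE, ⟨one_pos, le_rfl, le_rfl, le_rfl, by norm_num, hCE1⟩, ?_⟩
  intro N k n d L q D τ m r η ρ β h hβ hw h0 hN _ hρ hρk hWn hWd hWm hr
  obtain ⟨w1, w2, w3⟩ := hw.jB_pos h0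
  have hWj := wn_str (R := r + 1) h.geo h.step w1 w2 hN.le (by omega) (by omega) (by omega)
  obtain ⟨c, hc⟩ := exists_pr (q (k : ZMod N))
  have hfl : FlT D (q (k : ZMod N)) (r - 1 + 1) := flT_str h.geo h.poly h.enc h.step w1 w2
    (by omega) (by omega) (by omega) (by omega) (by omega)
  rw [sub_add_cancel] at hfl
  refine ⟨fun r ω => (Arm c D (q (k : ZMod N)) r).indicator 1 ω, kil_arm fun r' ω g1 g2 => ?_,
    fun E => hCE E h.reg.good hc hfl⟩
  rw [TX_j h.poly h.enc h1.sin_pos.ne' h1.cos_pos.ne' hβ hWj (by omega)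
    (fun i i1 i2 i3 => hρ i (by omega) (by omega) (by omega) i3) hρk,
    ns_arm h.poly h.enc hWj (by omega) (by omega) (by omega) hc]

end Vale.Agent.P167.N.QL
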