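import Vale.Agent.P167.N.QL.D0A
import Vale.Agent.P167.N.QL.D0B
import Vale.Agent.P167.N.QL.KcF
import Vale.Agent.P167.N.QL.DsRg

/-!
# P167, the range `0 < q < 1`, block Q-LAM: the lower bound for D0
-/

set_option autoImplicit false

namespace Vale.Agent.P167.N.QL

open Finset Filter Vale.Agent.P167 Vale.Agent.P167.BR Vale.Agent.P167.FK
open Vale.Agent.P167.FKA (Loc)
open Vale.Agent.P167.E6 (IsPolygon Encloses dir face)
open Vale.Agent.P167.H632 (cs pr)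
open Vale.Agent.P167.H192.Q (SRSW)
open Vale.Agent.P167.H433 (Arm)
open Vale.Agent.P167.H718 (Dob)
open Vale.Agent.P167.H975 (TX)
open Vale.Agent.P167.QX (lo hi)
open Vale.Agent.P167.N.AW (Kil)

variable {θ : ℝ} {n : ℕ} {a : ℤ × ℤ} {ω : Cfg} {c : Bool} {r R : ℤ}

/-- The mixed strands on the north side are excluded. -/
theorem je_over (hn : 0 < n) (hc : ((dsq n a ((4 * n : ℕ) : ZMod (4 * (2 * n)))).1 +
    (dsq n a ((4 * n : ℕ) : ZMod (4 * (2 * n)))).2) % 2 = pr c) (h : ω ∈ JE c n a)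
    {A : Finset Ed} (hA : A ∈ pcs ω (dsD n a)) (hl : ¬ IsLp (dsD n a) A) :
    ¬ (3 * n ≤ lo (dsq n a) A ∧ lo (dsq n a) A < 4 * n ∧ 4 * n ≤ hi (dsq n a) A ∧
      hi (dsq n a) A < 5 * n) := by
  obtain ⟨m, hm, hm', hP⟩ := h
  intro h1
  have h2 := (over_iff_of_join (ds_poly hn a) (ds_encl hn a) hA hl (t := 4 * n) (by omega) hm hc
    hP).1 ⟨h1.2.1, h1.2.2.1⟩
  omega

/-- The arm. -/
theorem je_arm (hn : 0 < n) (hW : Wn (dsq n a) (4 * n) R) (hRn : R < n) (hr0 : 0 ≤ r)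
    (hrR : r + 1 ≤ R) (hc : ((dsq n a ((4 * n : ℕ) : ZMod (4 * (2 * n)))).1 +
    (dsq n a ((4 * n : ℕ) : ZMod (4 * (2 * n)))).2) % 2 = pr c) (h : ω ∈ JE c n a) :
    ω ∈ Arm c (dsD n a) (dsq n a ((4 * n : ℕ) : ZMod (4 * (2 * n)))) r := by
  obtain ⟨m, hm, hm', hP⟩ := h
  exact (ns_iff (ds_poly hn a) (ds_encl hn a) hW hr0 hrR (by omega) hc).1
    (ns_of_join (ds_poly hn a) (ds_encl hn a) hW (by omega) (by omega) hm
      (by push_cast; omega) hc hP)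

/-- The centres. -/
theorem dsJ_un (hn : 0 < n) : ({0, n, 3 * n, 5 * n, 7 * n} : Finset ℕ) ∪ {4 * n} = dsJ n ∧
    Disjoint ({0, n, 3 * n, 5 * n, 7 * n} : Finset ℕ) {4 * n} ∧ (dsJ n).card ≤ 6 := by
  refine ⟨?_, ?_, ?_⟩
  · unfold dsJ
    ext x
    simp only [mem_union, mem_insert, mem_singleton]
    omega
  · rw [disjoint_singleton_right]
    simp only [mem_insert, mem_singleton]
    omega
  · unfold dsJ
    exact card_le_six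

/-- The phases around the junction. -/
theorem d0I_jun {θ : ℝ} {W : ℤ} (hW : W < n) :
    (∀ j : ℕ, ((4 * n : ℕ) : ℤ) - W < j → (j : ℤ) ≤ (4 * n : ℕ) + W → j ≠ 4 * n →
      d0I θ n j = d0I θ n (j - 1)) ∧
    (0 < n → Real.cos (θ / 2 + bt θ + (d0I θ n (4 * n) - d0I θ n (4 * n - 1))) = 0) := by
  refine ⟨fun j j1 j2 j3 => ?_, fun hn => ?_⟩
  · by_contra hne
    push_cast at j1 j2
    have hj0 : 0 < j := by omega
    obtain ⟨x, hx, hxj⟩ := stp_jump (L := [(n, -(θ / 2)), (3 * n, -(θ / 2)), (4 * n, Real.pi - θ),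
      (5 * n, -(θ / 2)), (7 * n, -(θ / 2))]) hj0 hne
    simp only [List.mem_cons, List.not_mem_nil, or_false] at hx
    rcases hx with rfl | rfl | rfl | rfl | rfl <;> dsimp only at hxj <;> omega
  · have e := sg_d0e (θ := θ) (n := n) (x := 4 * n - 1) (y := 4 * n) (by omega)
      ⟨by omega, by omega, by omega, by omega⟩
    rw [e]
    have e2 : θ / 2 + bt θ + (Real.pi - θ) = Real.pi / 2 := by
      unfold bt
      ring
    rw [e2, Real.cos_pi_div_two]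

/-- The local factor of the junction. -/
theorem TX_d0 (hs : Real.sin θ ≠ 0) (hcs : Real.cos θ ≠ 0) (hn : 0 < n)
    (hW : Wn (dsq n a) (4 * n) R) (hRn : R < n) (hr0 : 0 ≤ r) (hrR : r + 1 ≤ R)
    (hc : ((dsq n a ((4 * n : ℕ) : ZMod (4 * (2 * n)))).1 +
    (dsq n a ((4 * n : ℕ) : ZMod (4 * (2 * n)))).2) % 2 = pr c) :
    TX (wP θ (bt θ) (dsq n a) (dsD n a) (4 * n) (d0I θ n)) (dsD n a)
        (dsq n a ((4 * n : ℕ) : ZMod (4 * (2 * n)))) r ω =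
      (Arm c (dsD n a) (dsq n a ((4 * n : ℕ) : ZMod (4 * (2 * n)))) r).indicator 1 ω := by
  obtain ⟨k3, k4⟩ := d0I_jun (θ := θ) hRn
  rw [TX_j (ds_poly hn a) (ds_encl hn a) hs hcs (cos_bt θ) hW (by omega) k3 (k4 hn),
    ns_arm (ds_poly hn a) (ds_encl hn a) hW hr0 hrR (by omega) hc]

theorem near_d0I (hn : 0 < n) : (dsP n a (d0I θ n) (dsJ n)).Near := by
  refine near_ds hn (L := [(n, -(θ / 2)), (3 * n, -(θ / 2)), (4 * n, Real.pi - θ),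
    (5 * n, -(θ / 2)), (7 * n, -(θ / 2))]) EqD.rfl (Subset.refl _) ?_ ?_
  · unfold dsJ
    simp only [mem_insert, mem_singleton]
    omega
  · unfold dsJ
    simp

/-- The radii. -/
theorem fl_32 {x : ℝ} (hx : x ≤ 1 / 32) (n : ℕ) : ⌊x * (n : ℝ)⌋ ≤ n / 32 := by
  rw [← Int.lt_add_one_iff, Int.floor_lt]
  have h3 : (n : ℤ) < 32 * ((n : ℤ) / 32 + 1) := by omega
  have h4 : (n : ℝ) < 32 * (((n : ℤ) / 32 + 1 : ℤ) : ℝ) := by exact_mod_cast h3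
  have h5 := mul_le_mul_of_nonneg_right hx (Nat.cast_nonneg (α := ℝ) n)
  linarith

/-- **The lower bound for D0.** -/
theorem low_d0 (h0 : 0 < θ) (h1 : Ang θ) (hR : RSW (2 * Real.cos θ))
    (hS : SRSW (2 * Real.cos θ)) : ∃ ρ₁ : ℝ, 0 < ρ₁ ∧ ∀ ρ : ℝ, 0 < ρ → ρ ≤ ρ₁ →
    ∃ (c : ℝ) (n₀ : ℕ), 0 < c ∧ ∀ n : ℕ, n₀ ≤ n → ∀ (p : Bool),
      ∀ η : Cfg, Dob η (dsD n (ev p)) (dsq n (ev p)) (4 * n) →
      c * ∏ j ∈ dsJ n, (dsP n (ev p) (d0I θ n) (dsJ n)).e θ (bt θ) η ⌊ρ * n⌋ j ≤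
        VP θ (bt θ) (dsP n (ev p) (d0I θ n) (dsJ n)) := by
  have hQ := h1.kit.pos
  have hQ1 := h1.kit.lt
  have ht1 := h1.gt.le
  have ht2 := h1.lt
  obtain ⟨σ₀, R, hσ₀, hrg⟩ := ds_rgs 6
  obtain ⟨σ, hσ⟩ : ∃ σ, σ = min σ₀ (1 / 32) := ⟨_, rfl⟩
  have hσ1 : σ ≤ σ₀ := by rw [hσ]; exact min_le_left _ _
  have hσ2 : σ ≤ 1 / 32 := by rw [hσ]; exact min_le_right _ _
  have hσ0 : 0 < σ := by rw [hσ]; exact lt_min hσ₀ (by norm_num)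
  obtain ⟨ρ₁, hρ₁, H⟩ := low_pd (b := 1) (B := 1) h0 h1 (cos_bt θ) hR hS R 6 (wl_pos h0 ht2)
    hσ0 one_pos le_rfl le_rfl
  refine ⟨min ρ₁ (1 / 32), lt_min hρ₁ (by norm_num), fun ρ hρ hρ1 => ?_⟩
  obtain ⟨ε, hε, hερ, H⟩ := H ρ hρ (hρ1.trans (min_le_left _ _))
  have hε2 : ε ≤ 1 / 32 := hερ.trans (hρ1.trans (min_le_right _ _))
  obtain ⟨c₂, n₁, hc₂, hX⟩ := d0_ext hQ hQ1.le (NET.vrs hQ hQ1) hε (by linarith)
  obtain ⟨c, n₂, hc, H⟩ := H c₂ hc₂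
  obtain ⟨n₃, hn₃⟩ := eventually_atTop.1 (hrg σ hσ0 hσ1)
  obtain ⟨n₄, hn₄⟩ := exists_nat_ge (1 / ε)
  refine ⟨c, max (max n₁ n₂) (max (max n₃ n₄) 128), hc, fun n hn p η hη => ?_⟩
  simp only [max_le_iff] at hn
  obtain ⟨⟨g1, g2⟩, ⟨g3, g4⟩, g5⟩ := hn
  have hn0 : 0 < n := by omega
  have hnr : (128 : ℝ) ≤ n := by exact_mod_cast g5
  obtain ⟨a, ha⟩ : ∃ a, a = ev p := ⟨_, rfl⟩
  rw [← ha] at hη ⊢
  obtain ⟨η₀, hη₀⟩ := hn₃ n g3 a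
  -- the radii
  have hσn := fl_32 hσ2 n
  have hεn := fl_32 hε2 n
  have hεn1 : 1 ≤ ⌊ε * (n : ℝ)⌋ := by
    refine Int.le_floor.2 ?_
    have h3 : (n₄ : ℝ) ≤ n := by exact_mod_cast g4
    have h4 := hn₄.trans h3
    rw [div_le_iff₀ hε] at h4
    push_cast
    linarith
  have hfl : ⌊σ * (n : ℝ)⌋₊ ≤ n := by
    refine Nat.floor_le_of_le ?_
    nlinarith
  obtain ⟨u1, u2, u3⟩ := dsJ_un hn0
  have hRg := hη₀ (d0I θ n) (dsJ n) (near_d0I hn0) (sep_ds hn0 hfl) u3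
  have hG : GeoP n (4 * (2 * n)) (dsq n a) := hRg.ok.geo
  have hgood := hRg.reg.good
  have hW := ds_wn a hn0 hG (R := (n : ℤ) / 32 + 1) (by omega) (by omega) (by omega)
  obtain ⟨cc, hcc⟩ := exists_pr (dsq n a ((4 * n : ℕ) : ZMod (4 * (2 * n))))
  have hTX : ∀ (r : ℤ) (ω : Cfg), 1 ≤ r → r ≤ n / 32 →
      TX (wP θ (bt θ) (dsq n a) (dsD n a) (4 * n) (d0I θ n)) (dsD n a)
        (dsq n a ((4 * n : ℕ) : ZMod (4 * (2 * n)))) r ω =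
      (Arm cc (dsD n a) (dsq n a ((4 * n : ℕ) : ZMod (4 * (2 * n)))) r).indicator 1 ω :=
    fun r ω k1 k2 => TX_d0 h1.sin_pos.ne' h1.cos_pos.ne' hn0 hW (by omega) (by omega) (by omega) hcc
  have u4 : ∀ j ∈ ({0, n, 3 * n, 5 * n, 7 * n} : Finset ℕ), ∀ ω : Cfg, ∀ A ∈ pcs ω (dsD n a),
      (∀ e ∈ A, hdv e ∈ Bq (dsq n a (j : ZMod (4 * (2 * n)))) ⌊σ * (n : ℝ)⌋) →
        wl θ ≤ wP θ (bt θ) (dsq n a) (dsD n a) (4 * n) (d0I θ n) A := fun j hj =>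
    pos_d0 h0 ht1 ht2 hn0 hG (by omega) (by omega) (Int.floor_nonneg.2 (by positivity)) hj
  have u5 : ∀ j ∈ ({4 * n} : Finset ℕ), ∃ I : ℤ → Cfg → ℝ,
      Kil 1 1 (wP θ (bt θ) (dsq n a) (dsD n a) (4 * n) (d0I θ n)) (dsD n a)
        (dsq n a (j : ZMod (4 * (2 * n)))) I ⌊σ * (n : ℝ)⌋ := by
    intro j hj
    rw [mem_singleton] at hj
    subst hj
    exact ⟨_, kil_arm fun r ω k1 k2 => hTX r ω k1 (by omega)⟩
  have u6 : ∀ ω : Cfg, 0 ≤ (JE cc n a).indicator (1 : Cfg → ℝ) ω ∧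
      (JE cc n a).indicator (1 : Cfg → ℝ) ω ≤ 1 := by
    intro ω
    by_cases hω : ω ∈ JE cc n a
    · rw [Set.indicator_of_mem hω]
      exact ⟨zero_le_one, le_rfl⟩
    · rw [Set.indicator_of_notMem hω]
      exact ⟨le_rfl, zero_le_one⟩
  have u7 : ∀ ω : Cfg, (JE cc n a).indicator (1 : Cfg → ℝ) ω ≠ 0 → ∀ A ∈ pcs ω (dsD n a),
      wl θ ≤ wP θ (bt θ) (dsq n a) (dsD n a) (4 * n) (d0I θ n) A := by
    intro ω hω A hA
    have hωJ : ω ∈ JE cc n a := by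
      by_contra h3
      exact hω (Set.indicator_of_notMem h3 _)
    rcases wP_d0 h0 ht1 ht2 hn0 hA with h3 | ⟨h3, h4, -⟩
    · exact h3
    · exact absurd h3 (je_over hn0 hcc hωJ hA h4)
  have u8 : ∀ F : Cfg → ℝ, (∀ ω, 0 ≤ F ω) →
      Loc (dsD n a ∩ ({0, n, 3 * n, 5 * n, 7 * n} : Finset ℕ).biUnion fun j =>
        Bq (dsq n a (j : ZMod (4 * (2 * n)))) ⌊ε * (n : ℝ)⌋) F →
      c₂ * Ex (2 * Real.cos θ) (dsD n a) η₀ (fun ω => F ω *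
          ∏ j ∈ ({4 * n} : Finset ℕ), TX (wP θ (bt θ) (dsq n a) (dsD n a) (4 * n) (d0I θ n))
            (dsD n a) (dsq n a (j : ZMod (4 * (2 * n)))) ⌊ε * (n : ℝ)⌋ ω) ≤
        Ex (2 * Real.cos θ) (dsD n a) η₀ (fun ω => F ω *
          (∏ j ∈ ({4 * n} : Finset ℕ), TX (wP θ (bt θ) (dsq n a) (dsD n a) (4 * n) (d0I θ n))
            (dsD n a) (dsq n a (j : ZMod (4 * (2 * n)))) ⌊ε * (n : ℝ)⌋ ω) *
              (JE cc n a).indicator 1 ω) := by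
    intro F hF hFl
    have key := hX n g1 a cc η₀ hgood hcc F hF hFl
    simp only [prod_singleton]
    simp only [hTX _ _ hεn1 hεn]
    refine key.trans (FKA.Ex_mono hQ fun S _ => ?_)
    rw [mul_assoc]
    refine mul_le_mul_of_nonneg_left ?_ (hF _)
    obtain ⟨ω, hω⟩ : ∃ ω, ω = cf (dsD n a) η₀ S := ⟨_, rfl⟩
    rw [← hω]
    by_cases hJ : ω ∈ JE cc n a
    · rw [Set.indicator_of_mem hJ, Set.indicator_of_mem
        (je_arm hn0 hW (by omega) (by omega) (by omega) hcc hJ)]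
      simp
    · rw [Set.indicator_of_notMem hJ, mul_zero]
  exact H n g2 (dsP n a (d0I θ n) (dsJ n)) η₀ {0, n, 3 * n, 5 * n, 7 * n} {4 * n} hRg u1 u2 u4 u5
    (fun ω => XW_d0 h0 ht1 ht2 hn0) ((JE cc n a).indicator 1) u6 (fun ω h3 _ => u7 ω h3) u8 η hη

end Vale.Agent.P167.N.QL
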