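import Vale.Agent.P167.N.QL.Fam2
import Vale.Agent.P167.H852.Q.Y5c

/-!
# P167, the range `0 < q < 1`, block Q-LAM: the centres are far from the flat boundary points

`farG_nat`, `farG_im`. `reflT`, `rhoT`: the phases in terms of the direction `τ` of the boundary.
-/

set_option autoImplicit false

namespace Vale.Agent.P167.N.QL

open Finset Filter Vale.Agent.P167.BR Vale.Agent.P167.FK
open Vale.Agent.P167.E6 (IsPolygon Encloses dir face)
open Vale.Agent.P167.H825 (enl pdir tn)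
open Vale.Agent.P167.H718 (Dob rc poly_add encl_add)
open Vale.Agent.P167.H871 (Bd)
open Vale.Agent.P167.H542.Q (BD)
open Vale.Agent.P167.H760.Q (Fp BaseQ JunQ pb q_pos side_index)
open Vale.Agent.P167.H852.Q (nm_dir nm_tri)

variable {S : CA.Dat} {θ β : ℝ} {X : BD S θ β} {s : ℕ → ℕ} {e C : ℝ} {Rs ja : Finset ℕ} {n : ℕ}

theorem vv_cases {tp : ℝ} (a : ℕ × Fin 3) :
    vv e tp a = a.1 ∨ vv e tp a = a.1 + e ∨ vv e tp a = a.1 + tp := by
  obtain ⟨i, x⟩ := a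
  have hx : x = 0 ∨ x = 1 ∨ x = 2 := by fin_cases x <;> simp
  rcases hx with rfl | rfl | rfl
  · exact Or.inl (vv0 _ _ _)
  · exact Or.inr (Or.inl (vv1 _ _ _))
  · exact Or.inr (Or.inr (vv2 _ _ _))

/-- **The centres are far from the flat boundary points.** -/
theorem Sc.far (H : Sc X s e Rs ja C n) (he : 0 < e) (he1 : 2 * e ≤ S.tp) (hRs : Rs ⊆ Tn S)
    {δ : ℝ} (hδ : 0 < δ) (heδ : e ≤ δ / 4) (hbig : 8 * (C + 1) < δ * n) {z : ℤ × ℤ}
    (hz : Fp S δ n z) {j : ℕ} (hj : j ∈ JP X s e Rs ja n) :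
    δ / 4 * n < nm (X.q n (j : ZMod (X.N n)) - z) := by
  have htp0 := S.tp0
  have htp1 := S.tp1
  have hn := H.n0
  have hn' : (0 : ℝ) < n := by exact_mod_cast hn
  have hjN := H.lt he he1 hRs hj
  obtain ⟨w, r, x, h1, h2, rfl, hx1, hx2, hx3⟩ := hz
  obtain ⟨i, hi, -⟩ := (S.enc w r).2 ⟨h1, h2⟩
  by_contra hcon
  push Not at hcon
  obtain ⟨m, hm⟩ : ∃ m : ℤ, m = ⌊δ / 4 * (n : ℝ)⌋ := ⟨_, rfl⟩
  have hm1 : (m : ℝ) ≤ δ / 4 * n := by rw [hm]; exact Int.floor_le _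
  have hm2 : nm (X.q n (j : ZMod (X.N n)) - ((n : ℤ) • w + x • E6.dir r)) ≤ m := by
    rw [hm, Int.le_floor]
    exact hcon
  have hC1 := H.C1
  have f1 : 0 < δ * n := mul_pos hδ hn'
  have f2 : e * n ≤ δ / 4 * n := mul_le_mul_of_nonneg_right heδ hn'.le
  have f3 : 0 < e * n := mul_pos he hn'
  have f4 : 0 < S.tp * n := mul_pos htp0 hn'
  have f5 : S.tp * n < 1 * n := mul_lt_mul_of_pos_right htp1 hn'
  have hm3 : ((m : ℤ) : ℝ) < x := by linarith
  have hm4 : ((x + m : ℤ) : ℝ) < ((n : ℤ) : ℝ) := by push_cast; linarith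
  have hm5 : m < x := by exact_mod_cast hm3
  have hm6 : x + m < n := by exact_mod_cast hm4
  obtain ⟨⟨y, hy1, hy2, hy3⟩, -⟩ := side_index S hn H.poly H.enc H.tn H.q0 h2 (x := x) (m := m)
    hm5 hm6 hi hjN hm2
  have hy2' : |(x : ℝ) - y| ≤ m := by exact_mod_cast hy2
  rw [abs_le] at hy2'
  -- the position of the centre
  obtain ⟨I, hI⟩ : ∃ I : ℕ, t0 S s n + j = I * n + y := by
    rcases hy3 with h3 | ⟨-, h3⟩
    · exact ⟨_, h3⟩
    · exact ⟨_, h3⟩
  have hI' : ((t0 S s n : ℕ) : ℝ) + j = I * n + y := by exact_mod_cast hI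
  unfold JP at hj
  rw [mem_image] at hj
  obtain ⟨a, ha, rfl⟩ := hj
  have h4 := H.pos a ha
  rw [hI', abs_le] at h4
  have hy0 : δ * n - δ / 4 * n ≤ y := by linarith
  have hyn : (y : ℝ) ≤ (1 - δ) * n + δ / 4 * n := by linarith
  have f6 : ∀ b c : ℕ, b < c → (b : ℝ) * n + n ≤ c * n := by
    intro b c h
    have h6 : ((b : ℝ) + 1) * n ≤ c * n :=
      mul_le_mul_of_nonneg_right (by exact_mod_cast h) hn'.le
    linarith
  obtain ⟨h4, h4'⟩ := h4
  rcases lt_trichotomy a.1 I with h5 | h5 | h5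
  · have h6 := f6 _ _ h5
    rcases vv_cases (e := e) (tp := S.tp) a with hv | hv | hv <;> rw [hv] at h4 h4'
    · linarith
    · rw [add_mul] at h4 h4'
      linarith
    · rw [add_mul] at h4 h4'
      linarith
  · rcases vv_cases (e := e) (tp := S.tp) a with hv | hv | hv <;> rw [hv, h5] at h4 h4'
    · linarith
    · rw [add_mul] at h4 h4'
      linarith
    · rw [add_mul] at h4 h4'
      have h7 : |(x : ℝ) - S.tp * n| ≤ δ / 4 * n + C := by
        rw [abs_le]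
        constructor <;> linarith
      linarith
  · have h6 := f6 _ _ h5
    rcases vv_cases (e := e) (tp := S.tp) a with hv | hv | hv <;> rw [hv] at h4 h4'
    · linarith
    · rw [add_mul] at h4 h4'
      linarith
    · rw [add_mul] at h4 h4'
      linarith

/-- **Natural families.** -/
theorem farG_nat (X : BD S θ β) {s : ℕ → ℕ} (hb : BaseQ X s) {e : ℝ} (he : 0 < e)
    (he1 : 2 * e ≤ S.tp) {Rs ja : Finset ℕ} (hRs : Rs ⊆ Tn S) (hj : JunP X ja) {δ : ℝ}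
    (hδ : 0 < δ) (heδ : e ≤ δ / 4) :
    FarG X.L (natF X (rhoP X s e Rs) (JP X s e Rs ja)) fun n => {z | Fp S δ n z} := by
  obtain ⟨C, hC⟩ := exists_sc X hb he hRs hj
  have hlarge : ∀ A : ℝ, ∀ᶠ n : ℕ in X.L, A ≤ n := fun A => X.le
    ((eventually_ge_atTop ⌈A⌉₊).mono fun n hn => (Nat.le_ceil A).trans (by exact_mod_cast hn))
  refine ⟨δ / 4, by positivity, ?_⟩
  filter_upwards [hC, hlarge ((8 * (C + 1) + 1) / δ)] with n hn hb P hP z hz j hj
  rw [div_le_iff₀ hδ] at hb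
  rw [hP] at hj ⊢
  exact hn.far he he1 hRs hδ heδ (by linarith) hz hj

/-- **Images.** -/
theorem farG_im (X : BD S θ β) {s : ℕ → ℕ} (hb : BaseQ X s) {e : ℝ} (he : 0 < e)
    (he1 : 2 * e ≤ S.tp) {Rs ja : Finset ℕ} (hRs : Rs ⊆ Tn S) (hj : JunP X ja) {δ : ℝ}
    (hδ : 0 < δ) (heδ : e ≤ δ / 4) :
    FarG X.L (imF X (rhoP X s e Rs) (JP X s e Rs ja)) fun n => {z | Fp S δ n z} := by
  obtain ⟨C, hC⟩ := exists_sc X hb he hRs hj
  have hlarge : ∀ A : ℝ, ∀ᶠ n : ℕ in X.L, A ≤ n := fun A => X.le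
    ((eventually_ge_atTop ⌈A⌉₊).mono fun n hn => (Nat.le_ceil A).trans (by exact_mod_cast hn))
  refine ⟨δ / 8, by positivity, ?_⟩
  filter_upwards [hC, hlarge ((8 * (C + 1) + 1) / δ)] with n hn hb P hP z hz j hj
  rw [div_le_iff₀ hδ] at hb
  obtain ⟨a, τ, -, rfl⟩ := hP
  have h1 := hn.far he he1 hRs hδ heδ (by linarith) hz hj
  have h2 := nm_tri (X.q n (j : ZMod (X.N n))) (X.q n (j : ZMod (X.N n)) + dir a) z
  have h3 : (nm (X.q n (j : ZMod (X.N n)) - (X.q n (j : ZMod (X.N n)) + dir a)) : ℝ) ≤ 1 := by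
    rw [H852.Q.nm_sub_add]
    exact_mod_cast nm_dir a
  have h4 := hn.C1
  show δ / 8 * n < (nm (X.q n (j : ZMod (X.N n)) + dir a - z) : ℝ)
  linarith

/-! ### the phases in terms of the direction -/

/-- The reflex corners of the boundary with the direction `τ`. -/
def reflT (N : ℕ) (τ : ℕ → ℤ) : Finset ℕ :=
  (range N).filter fun j => 0 < j ∧ τ j - τ (j - 1) = -1

/-- The phases: charges at all reflex corners. -/
noncomputable def rhoT {N : ℕ} (θ : ℝ) (q : ZMod N → ℤ × ℤ) (k : ℕ) (τ : ℕ → ℤ) (m : ℕ) : ℕ → ℝ :=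
  phP θ q k (reflT N τ) m

theorem Sc.reflT_eq (H : Sc X s e Rs ja C n) (he1 : 2 * e ≤ S.tp) {τ : ℕ → ℤ}
    (hτ : Bd (S.D n : Set (ℤ × ℤ)) (X.N n) (fun i => X.q n (i : ZMod (X.N n))) τ 1) :
    reflT (X.N n) τ = (Rf S).image fun i => i * n - t0 S s n := by
  have hs : ∀ j : ℕ, X.q n (j : ZMod (X.N n)) = Enl.PN S.p n (j + t0 S s n) + 0 := fun j => by
    rw [H.hs, add_zero]
  ext j
  unfold reflT Rf
  rw [mem_filter, mem_range, mem_image]
  constructor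
  · rintro ⟨h1, h2, h3⟩
    obtain ⟨i, hi0, hi, -⟩ := turn_dvd S.poly H.n0 hs hτ h2 (by omega)
    have h4 := turn_at S.poly H.n0 hs hτ hi0 hi h2
    refine ⟨i, ?_, by omega⟩
    rw [mem_filter, mem_Icc]
    refine ⟨⟨hi0, ?_⟩, by rw [← h4, h3]⟩
    by_contra hcon
    push Not at hcon
    have h4 : (S.l + 1) * n ≤ i * n := Nat.mul_le_mul_right n hcon
    have h5 := H.tn
    have h6 := H.N
    have h7 : (S.l + 1) * n = S.l * n + n := by ring
    omega
  · rintro ⟨i, hi, rfl⟩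
    rw [mem_filter, mem_Icc] at hi
    obtain ⟨⟨hi1, hi2⟩, hi3⟩ := hi
    have h4 : n ≤ i * n := Nat.le_mul_of_pos_left n hi1
    have h5 := H.tn
    have h6 := H.N
    have h7 : i * n ≤ S.l * n := Nat.mul_le_mul_right n hi2
    have h10 : 0 < t0 S s n := by
      have h13 : S.tp * n < ⌊S.tp * n⌋₊ + 1 := Nat.lt_floor_add_one _
      have h14 : (⌊S.tp * n⌋₊ : ℝ) ≤ (t0 S s n : ℕ) := by
        unfold t0
        push_cast
        linarith [(Nat.cast_nonneg (s n) : (0 : ℝ) ≤ (s n : ℕ))]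
      have h15 := H.big
      have h16 := H.C1
      have h17 : 2 * e * n ≤ S.tp * n := mul_le_mul_of_nonneg_right he1 (Nat.cast_nonneg _)
      have : (0 : ℝ) < (t0 S s n : ℕ) := by linarith
      exact_mod_cast this
    refine ⟨by omega, by omega, ?_⟩
    rw [turn_at S.poly H.n0 hs hτ (i := i) (by omega) (by omega) (by omega), hi3]

/-- The phases in terms of the direction of the boundary. -/
theorem Sc.rhoP_eq (H : Sc X s e (Rf S) ja C n) (he1 : 2 * e ≤ S.tp) {τ : ℕ → ℤ}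
    (hτ : Bd (S.D n : Set (ℤ × ℤ)) (X.N n) (fun i => X.q n (i : ZMod (X.N n))) τ 1) :
    rhoP X s e (Rf S) n = rhoT θ (X.q n) (X.k n) τ (me e n) := by
  unfold rhoP rhoT
  rw [H.reflT_eq he1 hτ]

theorem rhoP_empty (X : BD S θ β) (s : ℕ → ℕ) (e : ℝ) (n : ℕ) : rhoP X s e ∅ n = fun _ => 0 := by
  unfold rhoP
  rw [image_empty, phP_empty]

end Vale.Agent.P167.N.QL
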