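import Vale.Agent.P167.N.QL.LkR
import Vale.Agent.P167.H975.LkJ
import Vale.Agent.P167.N.H167.Q.Shp

/-!
# P167, the range `0 < q < 1`, block Q-LAM (LK): the data of the enlargements

`lkD_fw`, `lkD_dob`: the enlargements of a polygon, with any base, translated, with free, wired or
Dobrushin boundary conditions, satisfy `LkD`.
-/

set_option autoImplicit false

namespace Vale.Agent.P167.N.QL

open Finset Filter Topology Vale.Agent.P167 Vale.Agent.P167.BR
open Vale.Agent.P167.E6 (IsPolygon Encloses dir face)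
open Vale.Agent.P167.FK (Bq Good Ex RSW eta0 eta1)
open Vale.Agent.P167.H871 (Bd)
open Vale.Agent.P167.H718 (Dob poly_add encl_add bd_add)
open Vale.Agent.P167.H601.LG (GeoN geoN_enl nm_of_Bq)
open Vale.Agent.P167.N.H167.Q (Bd3 Reg shp_enl_tr)
open Vale.Agent.P167.H825 (enl pdir)
open Vale.Agent.P167.H825.Reg
open Vale.Agent.P167.Enl
open Vale.Agent.P167.H975 (ccol ccol_jun ccol_bas ccol_col vec_dir qa_eq lkBq)

variable {l N : ℕ} {p : ZMod l → ℤ × ℤ} {S₀ : Finset (ℤ × ℤ)} {q : ZMod N → ℤ × ℤ} {n s k : ℕ}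
  {a : ℤ × ℤ} {τ : ℕ → ℤ} {D : Set (ℤ × ℤ)}

/-- The data for free or wired boundary conditions. -/
theorem lkD_fw (hp : IsPolygon p) (hD : Encloses p S₀) (hn : 0 < n) {t L : ℕ} {m : ℤ}
    (hm : 2 * m + 1 ≤ n) (hk : k = 0 ∨ k = l * n)
    (hu : Bd ((enl S₀ n : Finset (ℤ × ℤ)) : Set (ℤ × ℤ)) (l * n)
      (fun i => qN p n t (i : ZMod (l * n))) τ 1) :
    ∃ η, LkD n (l * n) (fun i => qN p n t i + a) ((enl S₀ n).image (· + a)) k τ L m η := by
  have hl : NeZero l := ⟨by have := hp.1; omega⟩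
  have hq := poly_add (isPolygon_qN hn hp t) a
  have hE := encl_add (encloses_qN hn hp hD t) a
  have hB := bd_add hu a
  have hs := qa_eq (a := a) hp hn t
  have hG : GeoN n (l * n) (fun i => qN p n t i + a) τ := geoN_enl hp hD hn hq hE hB
  have hv := vec_dir (q := fun i => qN p n t i + a) hn hp hs hB
  have hN : 0 < l * n := Nat.mul_pos (by have := hp.1; omega) hn
  rcases hk with rfl | rfl
  · obtain ⟨h1, h2⟩ := reg_wired_tr hp hD hn hm t a
    refine ⟨eta1, geoP_of hG, hq, hE, hB, Nat.zero_le _, h1,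
      Reg.of h2 fun x _ R _ hR => shp_enl_tr hp hD hn (by omega) a, fun h => absurd h (by omega),
      fun j hj _ => ⟨_, _, (hv 0).symm, (hv 0).symm, fun v _ _ => ?_⟩⟩
    rw [ccol_col (Or.inl (by omega)), decide_eq_true (Nat.zero_le j)]
    rfl
  · obtain ⟨h1, h2⟩ := reg_free_tr hp hD hn hm t a
    refine ⟨eta0, geoP_of hG, hq, hE, hB, le_rfl, h1,
      Reg.of h2 fun x _ R _ hR => shp_enl_tr hp hD hn (by omega) a, fun _ h => absurd h (by omega),
      fun j hj _ => ⟨_, _, (hv 0).symm, (hv _).symm, fun v _ _ => ?_⟩⟩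
    rw [ccol_col (Or.inl (by omega)), decide_eq_false (show ¬ l * n ≤ j by omega)]
    rfl

/-- The colours near the special points, Dobrushin boundary conditions. -/
theorem colD_dob {D : Finset (ℤ × ℤ)} {P : ℕ → ℤ × ℤ} (hs : ∀ j : ℕ, q (j : ZMod N) = P j)
    {rA rB : Fin 4} {L : ℕ} {m₀ : ℤ} (hRD : RD D P N k rA rB L) (g5 : 1 ≤ m₀)
    (g6 : 4 * (9 * (2 * m₀ + 3) + (2 * m₀ + 3)) < L) (hLn : L ≤ n) (hG : GeoP n N q)
    (hks : L ≤ k ∧ k + L ≤ N) (hk0 : 0 < k ∧ k < N) {j : ℕ} (hj : j < N) (hsp : FarI N k L j)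
    {v : ℤ × ℤ} (hv : v ∈ Bq (q (j : ZMod N)) m₀) (hvD : v ∉ D) :
    etaR D P N k rA rB (9 * (2 * m₀ + 3)) (2 * m₀ + 3) v = ccol N k q rB rA j v := by
  have hbox : ∀ z : ℤ × ℤ, v ∈ Bq z m₀ → v ∈ Bq z (9 * (2 * m₀ + 3)) := by
    intro z hz
    rw [lkBq] at *
    omega
  have hle := hG.le
  rw [hs] at hv
  by_cases hjk : j = k
  · rw [ccol_jun hk0 hjk, hs]
    have hA : v ∈ Bq (P k) (9 * (2 * m₀ + 3)) := by
      rw [hjk] at hv
      exact hbox _ hv
    have hB' : v ∉ Bq (P 0) (9 * (2 * m₀ + 3)) := fun hB' => hRD.boxes (by omega) hA hB'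
    rw [etaR_A hvD hA hB']
    by_cases h0 : 0 ≤ al rA (P k) v
    · rw [if_pos h0, decide_eq_true h0]
    · rw [if_neg h0, decide_eq_false h0]
      rfl
  · by_cases hj0 : j = 0
    · rw [ccol_bas hk0 hj0, hs]
      have hB' : v ∈ Bq (P 0) (9 * (2 * m₀ + 3)) := by
        rw [hj0] at hv
        exact hbox _ hv
      have hA : v ∉ Bq (P k) (9 * (2 * m₀ + 3)) := fun hA => hRD.boxes (by omega) hA hB'
      rw [etaR_B hvD hA hB']
      by_cases h0 : 0 ≤ al rB (P 0) v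
      · rw [if_pos h0, decide_eq_false (not_lt.2 h0)]
      · rw [if_neg h0, decide_eq_true (not_le.1 h0)]
        rfl
    · rw [ccol_col (Or.inr ⟨hjk, hj0⟩)]
      have hF : (L ≤ j ∧ j + L ≤ N) ∧ (j + L ≤ k ∨ k + L ≤ j) := by
        rcases hsp with h | ⟨h1, h2⟩
        · exact absurd hk0 h
        · exact ⟨by omega, by omega⟩
      have far0 : 4 * (2 * m₀ + 3) < nm (P j - P 0) := by
        by_contra hc
        push Not at hc
        rw [← hs j, ← hs 0] at hc
        have h3 := hG.near (x := j) (y := 0) hj.le (by omega) (d := 4 * (2 * m₀ + 3)) (by omega) hc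
        rcases abs_cases ((j : ℤ) - (0 : ℕ)) with ⟨x, y⟩ | ⟨x, y⟩ <;> rw [x] at h3 <;> omega
      have fark : 4 * (2 * m₀ + 3) < nm (P j - P k) := by
        by_contra hc
        push Not at hc
        rw [← hs j, ← hs k] at hc
        have h3 := hG.near (x := j) (y := k) hj.le hk0.2.le (d := 4 * (2 * m₀ + 3)) (by omega) hc
        rcases abs_cases ((j : ℤ) - k) with ⟨x, y⟩ | ⟨x, y⟩ <;> rw [x] at h3 <;> omega
      refine hRD.col (by omega) (by omega) g6 hvD hj.le ?_ fark far0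
      have := nm_of_Bq hv
      omega

/-- The data for Dobrushin boundary conditions. -/
theorem lkD_dob (hp : IsPolygon p) (hD : Encloses p S₀) {t ia σ : ℕ} {L : ℕ} {m₀ : ℤ}
    (b1 : 0 < ia) (b2 : ia < l) (g1 : L ≤ t) (g2 : t + L ≤ n) (g3 : L ≤ σ) (g4 : σ + L ≤ n)
    (g5 : 1 ≤ m₀) (g6 : 4 * (9 * (2 * m₀ + 3) + (2 * m₀ + 3)) < L)
    (hu : Bd ((enl S₀ n : Finset (ℤ × ℤ)) : Set (ℤ × ℤ)) (l * n)
      (fun i => qN p n t (i : ZMod (l * n))) τ 1) :
    ∃ η, LkD n (l * n) (fun i => qN p n t i + a) ((enl S₀ n).image (· + a)) (ia * n + σ - t) τ L m₀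
      η := by
  have hl : NeZero l := ⟨by have := hp.1; omega⟩
  have hn0 : 0 < n := by omega
  have hq := poly_add (isPolygon_qN hn0 hp t) a
  have hE := encl_add (encloses_qN hn0 hp hD t) a
  have hB := bd_add hu a
  have hs := qa_eq (a := a) hp hn0 t
  have e1 : 1 * n ≤ ia * n := Nat.mul_le_mul_right n b1
  have e2 : (ia + 1) * n ≤ l * n := Nat.mul_le_mul_right n b2
  rw [one_mul] at e1
  rw [add_mul, one_mul] at e2
  have hkt : ia * n + σ - t + t = ia * n + σ := by omega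
  have hk0 : 0 < ia * n + σ - t ∧ ia * n + σ - t < l * n := by omega
  have hks : L ≤ ia * n + σ - t ∧ ia * n + σ - t + L ≤ l * n := by omega
  have hG : GeoN n (l * n) (fun i => qN p n t i + a) τ := geoN_enl hp hD hn0 hq hE hB
  have hv := vec_dir (q := fun i => qN p n t i + a) hn0 hp hs hB
  have hRD := (rd_enl (S₀ := S₀) (n := n) (t := t) (L := (L : ℤ)) hp hD (by omega) b1 b2
    (by exact_mod_cast g1) (by exact_mod_cast g2) (by exact_mod_cast g3) (by exact_mod_cast g4)).tr a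
  refine ⟨etaR ((enl S₀ n).image (· + a)) (fun i => PN p n (i + t) + a) (l * n)
    (ia * n + σ - t) (pdir p ia) (pdir p 0) (9 * (2 * m₀ + 3)) (2 * m₀ + 3), geoP_of hG, hq, hE, hB,
    hk0.2.le, ?_, ?_, fun _ _ => hks, fun j hj hsp => ⟨pdir p 0, pdir p ia, ?_, ?_, fun v hv' hvD => ?_⟩⟩
  · exact hRD.dob (by omega) (by omega) g6 hq hE hs
  · refine Reg.of (hRD.reg g5 le_rfl le_rfl g6 fun x R b η hR hη => ?_)
      fun x _ R _ hR => shp_enl_tr hp hD hn0 (by omega) a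
    refine oneC_tr hp hD ?_ hn0 a b hη
    omega
  · rw [hv 0, zero_add, Nat.div_eq_of_lt (by omega)]
  · rw [hv (ia * n + σ - t), hkt]
    congr 2
    rw [add_comm, Nat.add_mul_div_right _ _ hn0, Nat.div_eq_of_lt (by omega), zero_add]
  · exact colD_dob hs hRD g5 g6 (by omega) (geoP_of hG) hks hk0 hj hsp hv' hvD

end Vale.Agent.P167.N.QL
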