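import Vale.Agent.P167.N.QL.Al2
import Vale.Agent.P167.N.QL.LkE
import Vale.Agent.P167.N.QL.Fam3
import Vale.Agent.P167.N.QL.Reg

/-!
# P167, the range `0 < q < 1`, block Q-LAM: definitions for the local inputs of the assembly

`WinI`: index windows. `KC`: killed centres. `PC`: positive centres. `NA`: the natural functionals on
the translates.
-/

set_option autoImplicit false

namespace Vale.Agent.P167.N.QL

open Finset Filter Vale.Agent.P167.BR Vale.Agent.P167.FK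
open Vale.Agent.P167.E6 (IsPolygon Encloses face dir)
open Vale.Agent.P167.H718 (Dob rc IsCl)
open Vale.Agent.P167.H192.Q (SRSW)
open Vale.Agent.P167.H542.Q (BD)
open Vale.Agent.P167.H975 (TX)
open Vale.Agent.P167.N.AW (Kil ExtI)

/-- The index window around `j` (around `N` for the base `j = 0`): straight legs of length `d`, the
turn is `t`. -/
structure WinI (d N : ℕ) (τ : ℕ → ℤ) (j : ℕ) (t : ℤ) : Prop where
  lt : j < N
  str : Str τ (jB N j) d
  le : d ≤ jB N j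
  turn : τ (jB N j) - τ (jB N j - 1) = t

/-- **A killed centre**, with all constants. -/
def KC {N : ℕ} (θ β : ℝ) (q : ZMod N → ℤ × ℤ) (D : Finset (ℤ × ℤ)) (k : ℕ) (ρ : ℕ → ℝ) (η : Cfg)
    (b B : ℝ) (Λ : ℤ) (KE : ℕ → ℤ) (CE : ℕ → ℝ) (z : ℤ × ℤ) (r : ℤ) : Prop :=
  ∃ I : ℤ → Cfg → ℝ, Kil b B (wP θ β q D k ρ) D z I r ∧
    ∀ E : ℕ, ExtI (2 * Real.cos θ) D η I {z} Λ E (KE E) (CE E) r

/-- The constants of the killed centres. -/
structure Kc (b B : ℝ) (Λ W : ℤ) (CE : ℕ → ℝ) : Prop where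
  bp : 0 < b
  b1 : b ≤ 1
  B1 : 1 ≤ B
  L1 : 1 ≤ Λ
  W1 : 1 ≤ W
  C1 : ∀ E, 1 ≤ CE E

/-- A centre with positive weights. -/
def PC {N : ℕ} (θ β : ℝ) (q : ZMod N → ℤ × ℤ) (D : Finset (ℤ × ℤ)) (k : ℕ) (ρ : ℕ → ℝ) (c0 : ℝ)
    (z : ℤ × ℤ) (r : ℤ) : Prop :=
  ∀ ω : Cfg, ∀ A ∈ pcs ω D, (∀ e ∈ A, hdv e ∈ Bq z r) → c0 ≤ wP θ β q D k ρ A

/-- The phases: charges at the corners in `C`; if `x`, the charge `-θ` at the index `1`. -/
noncomputable def phA {N : ℕ} (θ : ℝ) (q : ZMod N → ℤ × ℤ) (k : ℕ) (C : Finset ℕ) (m : ℕ)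
    (x : Bool) (j : ℕ) : ℝ := phP θ q k C m j - if x = true ∧ 1 ≤ j then θ else 0

/-- **The natural functional on the translate by `a`**; `x`: the charge `-θ` at the index `1`. -/
noncomputable def NA {S : CA.Dat} {θ β : ℝ} (X : BD S θ β) (s : ℕ → ℕ) (e : ℝ) (ja : Finset ℕ)
    (n : ℕ) (a : ℤ × ℤ) (x : Bool) : PD :=
  ⟨X.N n, fun i => X.q n i + a, (S.D n).image (· + a), X.k n,
    phA θ (fun i => X.q n i + a) (X.k n) ((Rf S).image fun i => i * n - t0 S s n) (me e n) x,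
    (ids S (Rf S) ja).image (jn (fun i => X.q n i + a) (X.k n) (t0 S s n) (me e n) n)⟩

/-- The parity of the base: on free or wired polygons the additional charge is there exactly if the
base is a site of the colour of the arc (free: odd, wired: even); on Dobrushin polygons there is no
additional charge. -/
def XOk (N k : ℕ) (q : ZMod N → ℤ × ℤ) (x : Bool) : Prop :=
  ((k = 0 ∨ k = N) ∧ (x = true ↔ (Even ((q 0).1 + (q 0).2) ↔ k = 0))) ∨
    (0 < k ∧ k < N ∧ x = false)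

end Vale.Agent.P167.N.QL
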