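import Vale.Agent.P167.N.QL.Mat
import Vale.Agent.P167.N.QL.Sp1

/-!
# P167, the range `0 < q < 1`, block Q-LAM: the natural functional with charges at the reflex corners

`Run`: phases with the two values `b`, `b + θ`; a run of the value `b + θ` which does not start at the
beginning of an arc starts at a site of the good parity (odd on the free arc, even on the wired arc).
`exists_zeroP`: if a closed strand has the phase difference `θ` (then its weight can be negative), then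
another strand has the weight zero. Hence the product of the weights is nonnegative, and if it is not
zero, then all weights are at least `2 cos θ` (`natP_nonneg`, `natP_ge`).
-/

set_option autoImplicit false

namespace Vale.Agent.P167.N.QL

open Finset Vale.Agent.P167 Vale.Agent.P167.BR
open Vale.Agent.P167.E6 (IsPolygon Encloses)
open Vale.Agent.P167.H718 (IsCl)
open Vale.Agent.P167.QB (Ard ep ep_succ ep_cases)
open Vale.Agent.P167.QX (wB lo hi)
open Vale.Agent.P167.H365.NQ (XW)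

variable {D : Finset (ℤ × ℤ)} {ω : Cfg} {N k : ℕ} {q : ZMod N → ℤ × ℤ} {A B C : Finset Ed}
  {θ β b : ℝ} {ρ : ℕ → ℝ} {t : ℕ}

/-- The good parity: odd sites on the free arc, even sites on the wired arc. -/
def GdR (q : ZMod N → ℤ × ℤ) (k r : ℕ) : Prop :=
  Even ((q (r : ZMod N)).1 + (q (r : ZMod N)).2) ↔ ¬ r < k

/-- Two-valued phases, the runs of the larger value start at good sites. -/
structure Run (N k : ℕ) (q : ZMod N → ℤ × ℤ) (θ b : ℝ) (ρ : ℕ → ℝ) : Prop where
  val : ∀ j < N, ρ j = b ∨ ρ j = b + θ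
  run : ∀ i j, i < j → j < N → (i < k ↔ j < k) → ρ i = b → ρ j = b + θ →
    ∃ r, i < r ∧ r ≤ j ∧ GdR q k r ∧ ∀ l, r ≤ l → l ≤ j → ρ l = b + θ

section

variable (hq : IsPolygon q) (hD : Encloses q D)
include hq hD

/-- Strands in one arc with the good inner parity are not closed. -/
theorem not_isCl_of (hA : A ∈ pcs ω D) (hl : ¬ IsLp D A) {r : ℕ}
    (hr : r < k ↔ lo q A < k) (hG : GdR q k r) (hp : ep q (lo q A + 1) = ep q r) :
    ¬ IsCl D q k A := by
  have h1 : ep q (lo q A) ≠ ep q r := by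
    rw [← hp]
    exact (ep_ne hq).symm
  rw [isCl_iff hq hD hA hl]
  unfold GdR at hG
  rw [Ne, ep_eq_iff] at h1
  have h2 := hi_lt hq hD hA hl
  by_cases hk' : lo q A < k
  · have hr' := hr.2 hk'
    rintro (⟨-, h3⟩ | ⟨h3, -⟩)
    · apply h1
      constructor
      · intro h4
        exact absurd h4 h3
      · intro h4
        exact absurd hr' (hG.1 h4)
    · omega
  · have hr' : ¬ r < k := fun h => hk' (hr.1 h)
    rintro (⟨h3, -⟩ | ⟨-, h3⟩)
    · omega
    · exact h1 (iff_of_true h3 (hG.2 hr'))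

/-- Closed strands have the bad inner parity. -/
theorem ne_of_isCl (hA : A ∈ pcs ω D) (hl : ¬ IsLp D A) (hC : IsCl D q k A) {r : ℕ}
    (hr : r < k ↔ lo q A < k) (hG : GdR q k r) : ep q r ≠ ep q (lo q A + 1) := by
  rw [isCl_iff hq hD hA hl] at hC
  intro hp
  have h1 : ep q (lo q A) ≠ ep q r := by
    rw [hp]
    exact (ep_ne hq).symm
  unfold GdR at hG
  rw [Ne, ep_eq_iff] at h1
  have h2 := hi_lt hq hD hA hl
  rcases hC with ⟨h3, h4⟩ | ⟨h3, h4⟩
  · have h5 : lo q A < k := by omega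
    have hr' := hr.2 h5
    apply h1
    constructor
    · intro h6
      exact absurd h6 h4
    · intro h6
      exact absurd hr' (hG.1 h6)
  · have hr' : ¬ r < k := fun h => absurd (hr.1 h) (by omega)
    exact h1 (iff_of_true h4 (hG.2 hr'))

/-- **A strand with the weight zero.** -/
theorem exists_zeroP (hR : Run N k q θ b ρ) (hθ : θ ≠ 0) (hA : A ∈ pcs ω D) (hl : ¬ IsLp D A)
    (hC : IsCl D q k A) (hs : ρ (hi q A) - ρ (lo q A) = θ) :
    ∃ C ∈ pcs ω D, ¬ IsLp D C ∧ lo q A < lo q C ∧ hi q C < hi q A ∧ ¬ IsCl D q k C ∧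
      ρ (hi q C) - ρ (lo q C) = θ := by
  classical
  obtain ⟨hA1, hA2⟩ := hi_lt hq hD hA hl
  have hkA : lo q A < k ↔ hi q A < k := by
    rw [isCl_iff hq hD hA hl] at hC
    rcases hC with ⟨h3, -⟩ | ⟨h3, -⟩ <;> omega
  have hlo : ρ (lo q A) = b := by
    rcases hR.val _ (show lo q A < N by omega) with h1 | h1
    · exact h1
    · exfalso
      rcases hR.val _ hA2 with h2 | h2 <;> rw [h1, h2] at hs
      · apply hθ
        linarith
      · apply hθ
        linarith
  have hhi : ρ (hi q A) = b + θ := by linarith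
  -- the outermost strands inside `A` whose upper foot is in a run
  obtain ⟨P, hP⟩ : ∃ P : Finset Ed → Prop, P = fun B => ¬ IsLp D B ∧ lo q A < lo q B ∧
    hi q B < hi q A ∧ ep q (lo q B + 1) ≠ ep q (lo q A + 1) ∧ ρ (hi q B) = b + θ ∧
    ∀ B' ∈ pcs ω D, ¬ IsLp D B' → lo q A < lo q B' → hi q B' < hi q A →
      ¬ (lo q B' < lo q B ∧ hi q B < hi q B') := ⟨_, rfl⟩
  -- every run in `A` gives such a strand
  have key : ∀ r j : ℕ, lo q A < r → r ≤ j → j ≤ hi q A → GdR q k r → 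
      (∀ l, r ≤ l → l ≤ j → ρ l = b + θ) → ∃ B ∈ pcs ω D, Ard q r B ∧ ¬ IsLp D B ∧
      lo q A < lo q B ∧ hi q B < hi q A ∧ ep q (lo q B + 1) ≠ ep q (lo q A + 1) ∧
      ∀ B' ∈ pcs ω D, ¬ IsLp D B' → lo q A < lo q B' → hi q B' < hi q A →
      ¬ (lo q B' < lo q B ∧ hi q B < hi q B') := by
    intro r j h1 h2 h3 h4 _
    have hrk : r < k ↔ lo q A < k := by omega
    have h5 := ne_of_isCl hq hD hA hl hC hrk h4
    obtain ⟨B, hB, g1, g2, g3, g4, g5⟩ := exists_outer hq hD hA (t := r) ⟨h1, by omega⟩ h5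
    exact ⟨B, hB, g1, ard_st hq hD hB g1, g2, g3, g4, g5⟩
  obtain ⟨r, hr1, hr2, hr3, hr4⟩ := hR.run _ _ hA1 hA2 hkA hlo hhi
  obtain ⟨B₀, hB₀, f1, f2, f3, f4, f5, f6⟩ := key r _ hr1 hr2 le_rfl hr3 hr4
  have hne : ((pcs ω D).filter P).Nonempty := by
    refine ⟨B₀, mem_filter.2 ⟨hB₀, ?_⟩⟩
    rw [hP]
    exact ⟨f2, f3, f4, f5, hr4 _ f1.2 f4.le, f6⟩
  obtain ⟨C, hCm, hmin⟩ := exists_min_image _ (fun B => lo q B) hne
  rw [mem_filter, hP] at hCm
  obtain ⟨hCp, c1, c2, c3, c4, c5, c6⟩ := hCm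
  obtain ⟨hC1, hC2⟩ := hi_lt hq hD hCp c1
  have hkC : lo q C < k ↔ hi q C < k := by omega
  -- the lower foot is not in a run
  have hloC : ρ (lo q C) = b := by
    rcases hR.val _ (show lo q C < N by omega) with h1 | h1
    · exact h1
    · exfalso
      obtain ⟨r', s1, s2, s3, s4⟩ := hR.run _ _ c2 (show lo q C < N by omega) (by omega) hlo h1
      obtain ⟨B, hB, g1, g2, g3, g4, g5, g6⟩ := key r' _ s1 s2 (by omega) s3 s4
      have hBC : B ≠ C := by
        rintro rfl
        have := g1.1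
        omega
      have h5 := nest hq hD hB hCp g2 c1 hBC
      have h6 := c6 B hB g2 g3 g4
      have h7 := g6 C hCp c1 c2 c3
      have h8 : hi q B < lo q C := by
        have := g1.1
        omega
      have h9 : ρ (hi q B) = b + θ := s4 _ g1.2 h8.le
      have h10 := hmin B (mem_filter.2 ⟨hB, by rw [hP]; exact ⟨g2, g3, g4, g5, h9, g6⟩⟩)
      have := g1.1
      omega
  refine ⟨C, hCp, c1, c2, c3, ?_, by rw [c5, hloC]; ring⟩
  -- the inner parity
  refine not_isCl_of hq hD hCp c1 (r := r) (by omega) hr3 ?_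
  have hrk : r < k ↔ lo q A < k := by omega
  have h5 := ne_of_isCl hq hD hA hl hC hrk hr3
  exact ep_two c4 h5.symm

end

/-! ### the weights -/

section

variable (h0 : 0 < θ) (h1 : θ < Real.pi / 2) (hβ : β = (θ - Real.pi) / 2)
include h0 h1

theorem sc_pos : 0 < Real.sin θ ∧ 0 < Real.cos θ ∧ Real.sin (2 * θ) = 2 * Real.sin θ * Real.cos θ :=
  ⟨Real.sin_pos_of_pos_of_lt_pi h0 (by linarith [Real.pi_pos]),
    Real.cos_pos_of_mem_Ioo ⟨by linarith [Real.pi_pos], h1⟩, Real.sin_two_mul θ⟩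

include hβ

/-- The weights of the strands with the phase differences `0`, `- θ`, `θ`. -/
theorem wP_val (hl : ¬ IsLp D A)
    (hs : ρ (hi q A) - ρ (lo q A) = 0 ∨ ρ (hi q A) - ρ (lo q A) = -θ ∨
      ρ (hi q A) - ρ (lo q A) = θ) :
    (wP θ β q D k ρ A = 0 ∧ ((lo q A < k ∧ k ≤ hi q A) ∨ ¬ IsCl D q k A)) ∨
      wP θ β q D k ρ A = 1 ∨ wP θ β q D k ρ A = 2 * Real.cos θ ∨
      wP θ β q D k ρ A = (2 * Real.cos θ)⁻¹ ∨
      (¬ (lo q A < k ∧ k ≤ hi q A) ∧ IsCl D q k A ∧ ρ (hi q A) - ρ (lo q A) = θ) := by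
  classical
  obtain ⟨s0, c0, s2⟩ := sc_pos h0 h1
  have e1 : Real.cos (θ / 2 + β) = Real.sin θ := by
    rw [hβ, show θ / 2 + (θ - Real.pi) / 2 = -(Real.pi / 2 - θ) by ring, Real.cos_neg,
      Real.cos_pi_div_two_sub]
  have e2 : Real.cos (θ / 2 + β - θ) = 0 := by
    rw [hβ, show θ / 2 + (θ - Real.pi) / 2 - θ = -(Real.pi / 2) by ring, Real.cos_neg,
      Real.cos_pi_div_two]
  have e3 : Real.cos (θ / 2 + β + θ) = Real.sin (2 * θ) := by
    rw [hβ, show θ / 2 + (θ - Real.pi) / 2 + θ = -(Real.pi / 2 - 2 * θ) by ring, Real.cos_neg,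
      Real.cos_pi_div_two_sub]
  have e4 : Real.sin (2 * θ) / Real.sin θ = 2 * Real.cos θ := by
    rw [s2, div_eq_iff s0.ne']
    ring
  have e5 : Real.sin θ / Real.sin (2 * θ) = (2 * Real.cos θ)⁻¹ := by
    rw [s2]
    field_simp
  have s2' : Real.sin (2 * θ) ≠ 0 := by
    rw [s2]
    positivity
  unfold wP wB
  rw [if_neg hl]
  by_cases hF : lo q A < k ∧ k ≤ hi q A
  · rw [if_pos hF]
    rcases hs with h | h | h <;> rw [h]
    · right; left
      rw [add_zero, e1, div_self s0.ne']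
    · left
      rw [← sub_eq_add_neg, e2, zero_div]
      exact ⟨rfl, Or.inl hF⟩
    · right; right; left
      rw [e3, e4]
  · rw [if_neg hF]
    by_cases hC : IsCl D q k A
    · rw [if_pos hC]
      rcases hs with h | h | h <;> rw [h]
      · right; left
        rw [add_zero, div_self s2']
      · right; right; right; left
        rw [show 2 * θ + -θ = θ by ring, e5]
      · right; right; right; right
        exact ⟨hF, hC, rfl⟩
    · rw [if_neg hC]
      rcases hs with h | h | h <;> rw [h]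
      · right; left
        rw [sub_zero, div_self s0.ne']
      · right; right; left
        rw [show θ - -θ = 2 * θ by ring, e4]
      · left
        rw [sub_self, Real.sin_zero, zero_div]
        exact ⟨rfl, Or.inr hC⟩

variable (hq : IsPolygon q) (hD : Encloses q D) (hR : Run N k q θ b ρ)
include hq hD hR

/-- **If no strand has the weight zero, then all weights are at least `2 cos θ`.** -/
theorem natP_ge (h2 : Real.pi / 3 ≤ θ) (hne : ∀ A ∈ pcs ω D, wP θ β q D k ρ A ≠ 0) (hA : A ∈ pcs ω D) :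
    2 * Real.cos θ ≤ wP θ β q D k ρ A := by
  obtain ⟨s0, c0, s2⟩ := sc_pos h0 h1
  have hc1 : 2 * Real.cos θ ≤ 1 := by
    have h3 : Real.cos θ ≤ Real.cos (Real.pi / 3) :=
      Real.cos_le_cos_of_nonneg_of_le_pi (by linarith [Real.pi_pos]) (by linarith [Real.pi_pos]) h2
    rw [Real.cos_pi_div_three] at h3
    linarith
  have hci : 1 ≤ (2 * Real.cos θ)⁻¹ := (one_le_inv₀ (by linarith)).2 hc1
  have dif : ∀ A ∈ pcs ω D, ¬ IsLp D A → ρ (hi q A) - ρ (lo q A) = 0 ∨
      ρ (hi q A) - ρ (lo q A) = -θ ∨ ρ (hi q A) - ρ (lo q A) = θ := by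
    intro A hA hl
    obtain ⟨g1, g2⟩ := hi_lt hq hD hA hl
    rcases hR.val _ g2 with h3 | h3 <;> rcases hR.val _ (g1.trans g2) with h4 | h4 <;> rw [h3, h4]
    · left; ring
    · right; left; ring
    · right; right; ring
    · left; ring
  by_cases hl : IsLp D A
  · rw [wP_lp hq hD hA hl c0.ne']
    exact hc1
  · rcases wP_val h0 h1 hβ (k := k) hl (dif A hA hl) with ⟨h3, -⟩ | h3 | h3 | h3 | ⟨-, h4, h5⟩
    · exact absurd h3 (hne A hA)
    · rw [h3]
      exact hc1
    · rw [h3]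
    · rw [h3]
      linarith
    · exfalso
      obtain ⟨C, hC, c1, c2, c3, c4, c5⟩ := exists_zeroP hq hD hR h0.ne' hA hl h4 h5
      have h6 := hne C hC
      apply h6
      obtain ⟨g1, g2⟩ := hi_lt hq hD hC c1
      unfold wP wB
      rw [if_neg c1, c5, sub_self, Real.sin_zero, zero_div, if_neg c4, if_neg]
      have hkA : ¬ (lo q A < k ∧ k ≤ hi q A) := by
        rw [isCl_iff hq hD hA hl] at h4
        rcases h4 with ⟨h3, -⟩ | ⟨h3, -⟩ <;> omega
      omega

/-- **The product of the weights is nonnegative.** -/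
theorem natP_nonneg (h2 : Real.pi / 3 ≤ θ) (ω : Cfg) : 0 ≤ XW D (wP θ β q D k ρ) ω := by
  classical
  obtain ⟨s0, c0, s2⟩ := sc_pos h0 h1
  unfold XW
  by_cases hne : ∀ A ∈ pcs ω D, wP θ β q D k ρ A ≠ 0
  · exact prod_nonneg fun A hA => le_trans (by linarith) (natP_ge h0 h1 hβ hq hD hR h2 hne hA)
  · push Not at hne
    obtain ⟨A, hA, h3⟩ := hne
    rw [prod_eq_zero hA h3]

end

end Vale.Agent.P167.N.QL
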