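import Vale.Agent.P167.N.QL.K6
import Vale.Agent.P167.N.QL.K4
import Vale.Agent.P167.N.QL.MatP
import Vale.Agent.P167.N.AX.Sit

/-!
# P167, the range `0 < q < 1`, block Q-LAM: a pair of charges in a box

* `in_box`: a strand inside a strand of a box of the polygon is in the box.
* `under_path`: a connection of two boundary sites in a box: the strands below it are in the box.
* `NZ q D κ t z r`: no strand in the box of radius `r` around `q κ` goes over `q t` and not over `q z`.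
* `TX_nz`: the local factor of the charges `θ` at `q t` and `-θ` at `q z` is comparable to the indicator
  of `NZ`.
-/

set_option autoImplicit false

namespace Vale.Agent.P167.N.QL

open Finset Relation
open Vale.Agent.P145.FB (PStep PConn)
open Vale.Agent.P167 Vale.Agent.P167.BR Vale.Agent.P167.FK
open Vale.Agent.P167.E6 (IsPolygon Encloses)
open Vale.Agent.P167.FKA (Loc)
open Vale.Agent.P167.H871 (IsC)
open Vale.Agent.P167.H632 (cs pr pr_or pr_not)
open Vale.Agent.P167.H192.TA (Pw sc sc_nx)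
open Vale.Agent.P167.H718 (IsXY IsCl)
open Vale.Agent.P167.H975 (TX)
open Vale.Agent.P167.H704.Q (bk bk_par)
open Vale.Agent.P167.QB (Ard ep ep_succ ep_cases sgm sum_two sgm_sub_bd)
open Vale.Agent.P167.QX (lo hi exists_xy lo_xy hi_xy)
open Vale.Agent.P167.N.NET (Mid mid_pos Ar Jn)

variable {n κ t z k : ℕ} {q : ZMod n → ℤ × ℤ} {D B : Finset (ℤ × ℤ)} {ω ω' : Cfg} {c : Bool}
  {x y i j : ℕ} {s v : ℤ × ℤ} {A C : Finset Ed} {r r' R : ℤ}

section poly

variable (hq : IsPolygon q) (hD : Encloses q D)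

include hq hD

/-- **A strand inside a strand of the box is in the box.** -/
theorem in_box (hW : Wn q κ R) (hr0 : 0 ≤ r) (hrR : r + 1 ≤ R) (hA : A ∈ pcs ω D)
    (hl : ¬ IsLp D A) (hin : ∀ e ∈ A, hdv e ∈ Bq (q (κ : ZMod n)) r) (hC : C ∈ pcs ω D)
    (hCl : ¬ IsLp D C) (h1 : lo q A < lo q C) (h2 : hi q C < hi q A) :
    ∀ e ∈ C, hdv e ∈ Bq (q (κ : ZMod n)) r := by
  obtain ⟨x, y, hxy⟩ := exists_xy hq hD hC hCl
  have hlo := lo_xy hq hD hC hxy
  have hhi := hi_xy hq hD hC hxy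
  have hx1 : lo q A < x := by
    have := min_le_left x y
    omega
  have hx2 : x < hi q A := by
    have := le_max_left x y
    omega
  have hev := hxy.2.2.2.2.1
  have hN : NoArm true D (Bq (q (κ : ZMod n)) r) (q (x : ZMod n)) ω := by
    by_contra hcon
    exact ns_of_arm hq hD hW hr0 hrR hxy.1.le (c := true) (by
      rw [Int.even_iff] at hev
      have : pr true = 0 := by decide
      omega) hcon A hA hl hin ⟨hx1, hx2.le⟩
  refine (strand_in hq hD hN hC hxy ?_).1
  have h3 := (be_even hq hD hev).1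
  show Pw _ _ (ls (be q (x : ZMod n)))
  rw [h3]

/-- **The strands below a connection of two boundary sites in the box.** -/
theorem under_path (hW : Wn q κ R) (hr0 : 0 ≤ r) (hrR : r + 1 ≤ R) (hij : i < j) (hj : j ≤ n)
    (hir : (κ : ℤ) - r ≤ i) (hjr : (j : ℤ) ≤ κ + r)
    (hp : ((q (i : ZMod n)).1 + (q (i : ZMod n)).2) % 2 = pr c)
    (hP : Pw (cs c ω ∩ ↑(Bq (q (κ : ZMod n)) r ∩ D)) (q (i : ZMod n)) (q (j : ZMod n)))
    (hA : A ∈ pcs ω D) (hl : ¬ IsLp D A)
    (hf : (i ≤ lo q A ∧ lo q A < j) ∨ (i ≤ hi q A ∧ hi q A < j)) :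
    (i ≤ lo q A ∧ hi q A < j) ∧ ∀ e ∈ A, hdv e ∈ Bq (q (κ : ZMod n)) r := by
  have hov := over_iff_of_join hq hD hA hl (by omega : i ≤ n) hj hp
    (H192.TA.Pw.mono (by
      rintro v ⟨h2, h3⟩
      exact ⟨h2, mem_coe.2 (mem_inter.1 (mem_coe.1 h3)).2⟩) hP)
  obtain ⟨g1, g2⟩ := hi_lt hq hD hA hl
  have hfe : i ≤ lo q A ∧ hi q A < j := by omega
  refine ⟨hfe, ?_⟩
  obtain ⟨x, y, hxy⟩ := exists_xy hq hD hA hl
  have hlo := lo_xy hq hD hA hxy
  have hhi := hi_xy hq hD hA hxy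
  have hx1 : i ≤ x := by
    have := min_le_left x y
    omega
  have hx2 : x < j := by
    have := le_max_left x y
    omega
  have hpj : ((q (j : ZMod n)).1 + (q (j : ZMod n)).2) % 2 = pr c := by
    have := Pw.parity hP
    rw [← this]
    exact hp
  -- the site of the other colour
  obtain ⟨x', hx1', hx2'⟩ := H685.LD.bk_side hq (!c) x
  have bx := bk_par (!c) (be q (x : ZMod n))
  rw [hx2'] at bx
  have hprf : pr c + pr (!c) = 1 := by cases c <;> decide
  have hxi : x' ≠ i := by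
    rintro rfl
    omega
  have hxj : x' ≠ j := by
    rintro rfl
    omega
  have h1 : i < x' ∧ x' < j := by omega
  obtain ⟨v0, hv0, hv0'⟩ := hW.zero (r := r) (by omega)
  obtain ⟨v1, hv1, hv1'⟩ := hW.one (r := r) hrR hr0
  obtain ⟨N, n1, n2, n3⟩ := exists_Nb (c := !c) hq hD (Bq_eq _ _) hij hj (by
      rw [Bool.not_not]; exact hp) (by rw [Bool.not_not]; exact hpj)
    (fun k k1 k2 v hv => in_isC (by
      rw [(hW.mono (r := r) (by omega)).near k (by omega) (by rw [abs_le]; omega), abs_lt]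
      omega) hv) ⟨v0, hv0', hv0⟩ ⟨v1, hv1', hv1⟩ (by rw [Bool.not_not]; exact hP)
  have hN : NoArm (!c) D (Bq (q (κ : ZMod n)) r) (q (x' : ZMod n)) ω := by
    intro s v hs hvs
    by_contra hv
    have e1 := n3 (q (x' : ZMod n)) s bx (by
      rw [inter_comm]
      exact hs)
    rw [n1 x' (by omega) bx, mid_pos hq hj (by omega), if_pos h1] at e1
    have e2 := n2 s v (by
      have := Pw.parity hs
      rw [← this]
      exact bx) hv hvs
    rw [e2] at e1
    exact one_ne_zero e1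
  refine (strand_in hq hD hN hA hxy ?_).1
  have e1 : sc (!c) (be q (x : ZMod n)) = bk (!c) (be q (x : ZMod n)) := rfl
  rw [e1, hx2']

end poly

/-- **No strand in the box goes over `q t` and not over `q z`.** -/
def NZ (q : ZMod n → ℤ × ℤ) (D : Finset (ℤ × ℤ)) (κ t z : ℕ) (r : ℤ) : Set Cfg :=
  {ω | ∀ A ∈ pcs ω D, ¬ IsLp D A → (∀ e ∈ A, hdv e ∈ Bq (q (κ : ZMod n)) r) →
    ¬ (lo q A < t ∧ t ≤ hi q A ∧ hi q A < z)}

theorem NZ_anti (h : r ≤ r') : NZ q D κ t z r' ⊆ NZ q D κ t z r := by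
  intro ω hω A hA hl hin
  exact hω A hA hl fun e he => bq_mn h (hin e he)

theorem NZ_congr (hω : ∀ v ∈ D, v ∈ Bq (q (κ : ZMod n)) r → ω v = ω' v) :
    ω ∈ NZ q D κ t z r → ω' ∈ NZ q D κ t z r := by
  intro h A hA hl hin
  refine h A ?_ hl hin
  refine H975.mem_pcs_agree hA (fun _ _ => Iff.rfl) (fun _ _ => Iff.rfl) fun e he hd => ?_
  exact (hω _ hd (hin e he)).symm

theorem NZ_loc (q : ZMod n → ℤ × ℤ) (D : Finset (ℤ × ℤ)) (κ t z : ℕ) (r : ℤ) :
    Loc (Bq (q (κ : ZMod n)) r ∩ D) ((NZ q D κ t z r).indicator (1 : Cfg → ℝ)) := by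
  intro ω ω' h
  have h1 : ω ∈ NZ q D κ t z r ↔ ω' ∈ NZ q D κ t z r :=
    ⟨NZ_congr fun v hv hv' => h v (mem_inter.2 ⟨hv', hv⟩),
      NZ_congr fun v hv hv' => (h v (mem_inter.2 ⟨hv', hv⟩)).symm⟩
  by_cases h2 : ω ∈ NZ q D κ t z r
  · rw [Set.indicator_of_mem h2, Set.indicator_of_mem (h1.1 h2)]
    rfl
  · rw [Set.indicator_of_notMem h2, Set.indicator_of_notMem fun h3 => h2 (h1.2 h3)]

/-- The phases of the pair in the window. -/
structure PhZ (θ : ℝ) (κ t z : ℕ) (R : ℤ) (ρ : ℕ → ℝ) : Prop where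
  lt : t < z
  zR : (z : ℤ) ≤ κ + R
  ph : ∃ b₀ : ℝ, ∀ j : ℕ, (κ : ℤ) - R ≤ j → (j : ℤ) ≤ κ + R →
    ρ j = b₀ + if t ≤ j ∧ j < z then θ else 0

variable {θ β : ℝ} {ρ : ℕ → ℝ}

/-- The phase difference of a strand of the window. -/
theorem PhZ.dif (hρ : PhZ θ κ t z R ρ) {a b : ℕ} (ha : (κ : ℤ) - R ≤ a) (hb : (b : ℤ) ≤ κ + R)
    (hab : a < b) : ρ b - ρ a = (if t ≤ b ∧ b < z then θ else 0) - if t ≤ a ∧ a < z then θ else 0 := by
  obtain ⟨b₀, h⟩ := hρ.ph
  rw [h b (by omega) hb, h a ha (by omega)]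
  ring

section poly

variable (hq : IsPolygon q) (hD : Encloses q D)

include hq hD

/-- No strand over `q t` in a small box: the event `NS` contains `NZ`. -/
theorem NZ_sub_NS (hW : Wn q κ R) {m : ℕ} (hm : (m : ℤ) ≤ R) (hz : (κ : ℤ) + m ≤ z)
    (hr : (m : ℤ) ≤ r) : NZ q D κ t z r ⊆ NS q D κ t m := by
  intro ω hω A hA hl hin hov
  obtain ⟨x, y, hxy⟩ := exists_xy hq hD hA hl
  obtain ⟨⟨f1, f2⟩, f3, f4⟩ := feet_in hq hD hW hm hA hxy hin
  have hhi := hi_xy hq hD hA hxy
  refine hω A hA hl (fun e he => bq_mn hr (hin e he)) ⟨hov.1, hov.2, ?_⟩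
  rw [abs_le] at f2 f4
  push_cast at f2 f4
  omega

/-- Strands in the box. -/
theorem feet_wn (hW : Wn q κ R) (hrR : r + 1 ≤ R) (hA : A ∈ pcs ω D) (hl : ¬ IsLp D A)
    (hin : ∀ e ∈ A, hdv e ∈ Bq (q (κ : ZMod n)) r) :
    (κ : ℤ) - r ≤ lo q A ∧ (hi q A : ℤ) + 1 ≤ κ + r ∧ lo q A < hi q A := by
  obtain ⟨x, y, hxy⟩ := exists_xy hq hD hA hl
  obtain ⟨⟨f1, f2⟩, f3, f4⟩ := feet_in hq hD hW (by omega) hA hxy hin
  have hlo := lo_xy hq hD hA hxy
  have hhi := hi_xy hq hD hA hxy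
  have := hxy.ne
  rw [abs_le] at f1 f2 f3 f4
  push_cast at f2 f4
  omega

open Classical in
/-- **The weight of a strand over `q z` and not over `q t`.** -/
theorem wP_zs (hs : Real.sin θ ≠ 0) (hc : Real.cos θ ≠ 0) (hA : A ∈ pcs ω D) (hl : ¬ IsLp D A)
    (hk : hi q A < k ∨ k ≤ lo q A) (hd : ρ (hi q A) - ρ (lo q A) = -θ) :
    wP θ β q D k ρ A = (2 * Real.cos θ) ^ ((if k ≤ lo q A then -1 else 1) * QB.sg q A) := by
  have hcl := isCl_iff (k := k) hq hD hA hl
  have g1 := (hi_lt hq hD hA hl).1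
  unfold wP QX.wB QB.sg
  rw [if_neg hl, if_neg (by omega), hd]
  have e1 : 2 * θ + -θ = θ := by ring
  have e2 : θ - -θ = 2 * θ := by ring
  rw [e1, e2, Real.sin_two_mul]
  by_cases hev : Even ((q (lo q A : ZMod n)).1 + (q (lo q A : ZMod n)).2)
  · have e3 : ep q (lo q A) = 1 := ep_even.2 hev
    rw [e3]
    rcases hk with hk | hk
    · rw [if_neg (by rw [hcl]; rintro (⟨-, h⟩ | ⟨h, -⟩) <;> [exact h hev; omega]), if_neg (by omega)]
      norm_num
      field_simp
    · rw [if_pos (hcl.2 (Or.inr ⟨hk, hev⟩)), if_pos hk]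
      norm_num
      field_simp
  · have e3 : ep q (lo q A) = -1 := ep_odd.2 hev
    rw [e3]
    rcases hk with hk | hk
    · rw [if_pos (hcl.2 (Or.inl ⟨hk, hev⟩)), if_neg (by omega)]
      norm_num
      field_simp
    · rw [if_neg (by rw [hcl]; rintro (⟨h, -⟩ | ⟨-, h⟩) <;> [omega; exact hev h]), if_pos hk]
      norm_num
      field_simp

open Classical in
/-- **The local factor around a pair of charges.** -/
theorem TX_nz (hs : Real.sin θ ≠ 0) (hc : Real.cos θ ≠ 0)
    (hβ : Real.cos (θ / 2 + β) = Real.sin θ) (hW : Wn q κ R) (hr0 : 0 ≤ r) (hrR : r + 1 ≤ R)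
    (hρ : PhZ θ κ t z R ρ) (hG : GdR q k t) (htR : (κ : ℤ) - R ≤ t)
    (ho : (κ : ℤ) + R ≤ k ∨ (k : ℤ) ≤ κ - R) :
    (ω ∉ NZ q D κ t z r → TX (wP θ β q D k ρ) D (q (κ : ZMod n)) r ω = 0) ∧
      (ω ∈ NZ q D κ t z r → ∃ e : ℤ, |e| ≤ 1 ∧
        TX (wP θ β q D k ρ) D (q (κ : ZMod n)) r ω = (2 * Real.cos θ) ^ e) := by
  have hlt := hρ.lt
  have hzR := hρ.zR
  have hWR := hW.lt
  constructor
  · intro hω
    unfold NZ at hω
    rw [Set.mem_ofPred_eq] at hω
    push Not at hω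
    obtain ⟨A, hA, hl, hin, h1, h2, h3⟩ := hω
    obtain ⟨f1, f2, f3⟩ := feet_wn hq hD hW hrR hA hl hin
    obtain ⟨C, hC, c1, c2, c3, c4, -⟩ := exists_vis hq hD hA (t := t) ⟨h1, h2⟩
    have hCl := ard_st hq hD hC c1
    obtain ⟨c5, c6⟩ := c1
    have hCin : ∀ e ∈ C, hdv e ∈ Bq (q (κ : ZMod n)) r := by
      by_cases hAC : C = A
      · rw [hAC]
        exact hin
      · have h6 := nest hq hD hC hA hCl hl hAC
        exact in_box hq hD hW hr0 hrR hA hl hin hC hCl (by omega) (by omega)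
    unfold TX
    refine prod_eq_zero (i := C) (mem_filter.2 ⟨hC, hCin⟩) ?_
    have hd := hρ.dif (a := lo q C) (b := hi q C) (by omega) (by omega) (by omega)
    rw [if_pos ⟨c6, by omega⟩, if_neg (by omega), sub_zero] at hd
    have hcl := not_isCl_of hq hD hC hCl (k := k) (r := t) (by omega) hG c4
    rw [wP_op hCl (by omega) hcl, hd, sub_self, Real.sin_zero, zero_div]
  · intro hω
    -- the strands over `z` and not over `t`
    set S := (pcs ω D).filter (fun A => ∀ e ∈ A, hdv e ∈ Bq (q (κ : ZMod n)) r) with hS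
    set T := S.filter (fun A => Ard q z A ∧ ¬ Ard q t A) with hT
    have hSl : ∀ A ∈ S, ¬ IsLp D A → (κ : ℤ) - r ≤ lo q A ∧ (hi q A : ℤ) + 1 ≤ κ + r ∧
        lo q A < hi q A := by
      intro A hA hl
      rw [hS, mem_filter] at hA
      exact feet_wn hq hD hW hrR hA.1 hl hA.2
    have hone : ∀ A ∈ S, A ∉ T → wP θ β q D k ρ A = 1 := by
      intro A hA hAT
      have hA' := hA
      rw [hS, mem_filter] at hA'
      by_cases hl : IsLp D A
      · exact wP_lp hq hD hA'.1 hl hc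
      · obtain ⟨f1, f2, f3⟩ := hSl A hA hl
        have h1 := hω A hA'.1 hl hA'.2
        have h2 : ¬ (Ard q z A ∧ ¬ Ard q t A) := fun h => hAT (mem_filter.2 ⟨hA, h⟩)
        unfold Ard at h2
        refine wP_one hs hc hβ ?_
        have hd := hρ.dif (a := lo q A) (b := hi q A) (by omega) (by omega) f3
        have h5 : (t ≤ hi q A ∧ hi q A < z) ↔ (t ≤ lo q A ∧ lo q A < z) := by omega
        rw [if_congr h5 rfl rfl, sub_self] at hd
        linarith
    have e1 : TX (wP θ β q D k ρ) D (q (κ : ZMod n)) r ω = ∏ A ∈ T, wP θ β q D k ρ A := by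
      unfold TX
      rw [← hS]
      exact (prod_subset (filter_subset _ _) hone).symm
    rw [e1]
    rcases T.eq_empty_or_nonempty with h0 | h0
    · exact ⟨0, by norm_num, by rw [h0, prod_empty, zpow_zero]⟩
    · obtain ⟨B, hB, hmin⟩ := exists_min_image _ (fun A => lo q A) h0
      have hB' := hB
      rw [hT, mem_filter] at hB'
      obtain ⟨hBS, hBz, hBt⟩ := hB'
      have hBS' := hBS
      rw [hS, mem_filter] at hBS'
      obtain ⟨hBp, hBin⟩ := hBS'
      have hBl := ard_st hq hD hBp hBz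
      obtain ⟨b1, b2, b3⟩ := hSl B hBS hBl
      unfold Ard at hBz hBt
      have hTe : T = (pcs ω D).filter (fun A => Ard q z A ∧ ¬ Ard q (lo q B) A) := by
        refine Finset.ext fun A => ?_
        constructor
        · intro hA
          have h4 := hmin A hA
          rw [hT, mem_filter, hS, mem_filter] at hA
          refine mem_filter.2 ⟨hA.1.1, hA.2.1, ?_⟩
          have h5 := hA.2.2
          unfold Ard
          omega
        · intro hA
          obtain ⟨hA, hAz, hAB⟩ := mem_filter.1 hA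
          have hAl := ard_st hq hD hA hAz
          unfold Ard at hAz hAB
          rw [hT, mem_filter, hS, mem_filter]
          unfold Ard
          refine ⟨⟨hA, ?_⟩, hAz, by omega⟩
          by_cases hBA : A = B
          · rw [hBA]
            exact hBin
          · have h6 := nest hq hD hA hBp hAl hBl hBA
            exact in_box hq hD hW hr0 hrR hBp hBl hBin hA hAl (by omega) (by omega)
      obtain ⟨a, -, ha⟩ := sum_two hq hD ω (w := lo q B) (w' := z) (by omega) (by omega)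
      rw [← hTe] at ha
      obtain ⟨ε, hε, hε1⟩ : ∃ ε : ℤ, ε = (if (k : ℤ) ≤ κ - R then -1 else 1) ∧ |ε| = 1 :=
        ⟨_, rfl, by split_ifs <;> norm_num⟩
      refine ⟨ε * ∑ A ∈ T, QB.sg q A, ?_, ?_⟩
      · rw [abs_mul, hε1, one_mul, ha]
        exact sgm_sub_bd hq _ _
      · have hc2 : (2 * Real.cos θ) ≠ 0 := mul_ne_zero two_ne_zero hc
        have hz : ∀ S' : Finset (Finset Ed), ∏ A ∈ S', (2 * Real.cos θ) ^ (ε * QB.sg q A) =
            (2 * Real.cos θ) ^ (ε * ∑ A ∈ S', QB.sg q A) := by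
          intro S'
          induction S' using Finset.induction_on with
          | empty => simp
          | insert A S' hA ih =>
            rw [prod_insert hA, sum_insert hA, ih, mul_add, zpow_add₀ hc2]
        rw [← hz]
        refine prod_congr rfl fun A hA => ?_
        rw [hT, mem_filter] at hA
        obtain ⟨hAS, hAz, hAt⟩ := hA
        have hAS' := hAS
        rw [hS, mem_filter] at hAS'
        have hAl := ard_st hq hD hAS'.1 hAz
        obtain ⟨f1, f2, f3⟩ := hSl A hAS hAl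
        unfold Ard at hAz hAt
        have hd := hρ.dif (a := lo q A) (b := hi q A) (by omega) (by omega) f3
        rw [if_neg (by omega), if_pos (by omega), zero_sub] at hd
        rw [wP_zs hq hD hs hc hAS'.1 hAl (by omega) hd, hε]
        congr 2
        rcases ho with ho | ho
        · rw [if_neg (by omega), if_neg (by omega)]
        · rw [if_pos (by omega), if_pos (by omega)]

end poly

end Vale.Agent.P167.N.QL
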