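import Vale.Agent.P167.N.QL.KcG
import Vale.Agent.P167.N.QL.In
import Vale.Agent.P167.N.QL.Pr1

/-!
# P167, the range `0 < q < 1`, block Q-LAM: the charge `-θ` at a flat site

`TX_inv`: one charge `-θ` in the window: the local factor is `(2 cos θ) ^ e`, `|e| ≤ 1` (alternation of
the strands over the site). `inv_flat`: the local factor is at most `(2 cos θ)⁻¹`.
-/

set_option autoImplicit false

namespace Vale.Agent.P167.N.QL

open Finset Vale.Agent.P167 Vale.Agent.P167.BR Vale.Agent.P167.FK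
open Vale.Agent.P167.E6 (IsPolygon Encloses)
open Vale.Agent.P167.H975 (TX)
open Vale.Agent.P167.QB (Ard sum_two sgm_sub_bd)
open Vale.Agent.P167.QX (lo hi)

variable {N κ k n d J : ℕ} {q : ZMod N → ℤ × ℤ} {D : Finset (ℤ × ℤ)} {τ : ℕ → ℤ} {r R : ℤ} {ω : Cfg}
  {θ β : ℝ} {ρ : ℕ → ℝ}

/-- The window of a straight index. -/
theorem wn_str' (hG : GeoP n N q)
    (hs : ∀ j : ℕ, q ((j + 1 : ℕ) : ZMod N) = q (j : ZMod N) + Top.vec (τ j))
    (hS : Str τ J d) (hd : d ≤ J) (hdN : J + d < N) (hR0 : 1 ≤ R) (hR : 3 * R < n)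
    (hRd : 2 * R ≤ d) : Wn q J R where
  le := by omega
  lt := by omega
  near := fun z _ hz' => by
    rw [abs_le] at hz'
    exact str_nm hs hS (by omega) (by omega)
  far := fun z hz hz' => by
    by_contra hcon
    push Not at hcon
    have hJN : J ≤ N := by omega
    rcases Nat.lt_or_ge z N with hzN | hzN
    · have h3 : J ≤ z + d ∧ z ≤ J + d := by
        rcases hG.near hz hJN hR hcon with h | h
        · rw [abs_le] at h
          omega
        · rcases abs_cases ((z : ℤ) - J) with ⟨a, b⟩ | ⟨a, b⟩ <;> rw [a] at h <;> omega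
      rw [str_nm hs hS h3.1 h3.2] at hcon
      omega
    · have hzN' : z = N := le_antisymm hz hzN
      rcases hG.near hz hJN hR hcon with h | h
      · rw [abs_le] at h
        omega
      · rcases abs_cases ((z : ℤ) - J) with ⟨a, b⟩ | ⟨a, b⟩ <;> rw [a] at h
        · have h3 : J ≤ 0 + d ∧ 0 ≤ J + d := by omega
          have h4 := str_nm hs hS h3.1 h3.2
          rw [hzN', ZMod.natCast_self] at hcon
          rw [Nat.cast_zero] at h4
          rw [h4] at hcon
          rcases abs_cases (((0 : ℕ) : ℤ) - J) with ⟨c, e⟩ | ⟨c, e⟩ <;> rw [c] at hcon <;>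
            push_cast at hcon <;> omega
        · omega

section poly

variable (hq : IsPolygon q) (hD : Encloses q D)

include hq hD

open Classical in
/-- **The local factor around a charge `-θ`.** -/
theorem TX_inv (hs : Real.sin θ ≠ 0) (hc : Real.cos θ ≠ 0)
    (hβ : Real.cos (θ / 2 + β) = Real.sin θ) (hW : Wn q κ R) (hr0 : 0 ≤ r) (hrR : r + 1 ≤ R)
    (hρ : ∃ b₀ : ℝ, ∀ j : ℕ, (κ : ℤ) - R ≤ j → (j : ℤ) < κ + R →
      ρ j = b₀ - if κ ≤ j then θ else 0)
    (ho : (κ : ℤ) + R ≤ k ∨ (k : ℤ) ≤ κ - R) :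
    ∃ e : ℤ, |e| ≤ 1 ∧ TX (wP θ β q D k ρ) D (q (κ : ZMod N)) r ω = (2 * Real.cos θ) ^ e := by
  have hWR := hW.lt
  have hWl := hW.le
  obtain ⟨b₀, hρ⟩ := hρ
  have hdif : ∀ {a b : ℕ}, (κ : ℤ) - R ≤ a → (b : ℤ) < κ + R → a < b →
      ρ b - ρ a = (if κ ≤ a then θ else 0) - if κ ≤ b then θ else 0 := by
    intro a b ha hb hab
    rw [hρ b (by omega) hb, hρ a ha (by omega)]
    ring
  set S := (pcs ω D).filter (fun A => ∀ e ∈ A, hdv e ∈ Bq (q (κ : ZMod N)) r) with hS
  set T := S.filter (fun A => Ard q κ A) with hT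
  have hSl : ∀ A ∈ S, ¬ IsLp D A → (κ : ℤ) - r ≤ lo q A ∧ (hi q A : ℤ) + 1 ≤ κ + r ∧
      lo q A < hi q A := by
    intro A hA hl
    rw [hS, mem_filter] at hA
    exact feet_wn hq hD hW hrR hA.1 hl hA.2
  have hone : ∀ A ∈ S, A ∉ T → wP θ β q D k ρ A = 1 := by
    intro A hA hAT
    have hA' := hA
    rw [hS, mem_filter] at hA'
    by_cases hl : IsLp D A
    · exact wP_lp hq hD hA'.1 hl hc
    · obtain ⟨f1, f2, f3⟩ := hSl A hA hl
      have h2 : ¬ Ard q κ A := fun h => hAT (mem_filter.2 ⟨hA, h⟩)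
      unfold Ard at h2
      refine wP_one hs hc hβ ?_
      have hd := hdif (a := lo q A) (b := hi q A) (by omega) (by omega) f3
      have h5 : (κ ≤ hi q A) ↔ (κ ≤ lo q A) := by omega
      rw [if_congr h5 rfl rfl, sub_self] at hd
      linarith
  have e1 : TX (wP θ β q D k ρ) D (q (κ : ZMod N)) r ω = ∏ A ∈ T, wP θ β q D k ρ A := by
    unfold TX
    rw [← hS]
    exact (prod_subset (filter_subset _ _) hone).symm
  rw [e1]
  rcases T.eq_empty_or_nonempty with h0 | h0
  · exact ⟨0, by norm_num, by rw [h0, prod_empty, zpow_zero]⟩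
  · obtain ⟨B, hB, hmin⟩ := exists_min_image _ (fun A => lo q A) h0
    have hB' := hB
    rw [hT, mem_filter] at hB'
    obtain ⟨hBS, hBz⟩ := hB'
    have hBS' := hBS
    rw [hS, mem_filter] at hBS'
    obtain ⟨hBp, hBin⟩ := hBS'
    have hBl := ard_st hq hD hBp hBz
    obtain ⟨b1, b2, b3⟩ := hSl B hBS hBl
    unfold Ard at hBz
    have hTe : T = (pcs ω D).filter (fun A => Ard q κ A ∧ ¬ Ard q (lo q B) A) := by
      refine Finset.ext fun A => ?_
      constructor
      · intro hA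
        have h4 := hmin A hA
        rw [hT, mem_filter, hS, mem_filter] at hA
        refine mem_filter.2 ⟨hA.1.1, hA.2, ?_⟩
        unfold Ard
        omega
      · intro hA
        obtain ⟨hA, hAz, hAB⟩ := mem_filter.1 hA
        have hAl := ard_st hq hD hA hAz
        unfold Ard at hAz hAB
        rw [hT, mem_filter, hS, mem_filter]
        unfold Ard
        refine ⟨⟨hA, ?_⟩, hAz⟩
        by_cases hBA : A = B
        · rw [hBA]
          exact hBin
        · have h6 := nest hq hD hA hBp hAl hBl hBA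
          exact in_box hq hD hW hr0 hrR hBp hBl hBin hA hAl (by omega) (by omega)
    obtain ⟨a, -, ha⟩ := sum_two hq hD ω (w := lo q B) (w' := κ) (by omega) (by omega)
    rw [← hTe] at ha
    obtain ⟨ε, hε, hε1⟩ : ∃ ε : ℤ, ε = (if (k : ℤ) ≤ κ - R then -1 else 1) ∧ |ε| = 1 :=
      ⟨_, rfl, by split_ifs <;> norm_num⟩
    refine ⟨ε * ∑ A ∈ T, QB.sg q A, ?_, ?_⟩
    · rw [abs_mul, hε1, one_mul, ha]
      exact sgm_sub_bd hq _ _
    · have hc2 : (2 * Real.cos θ) ≠ 0 := mul_ne_zero two_ne_zero hc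
      have hz : ∀ S' : Finset (Finset Ed), ∏ A ∈ S', (2 * Real.cos θ) ^ (ε * QB.sg q A) =
          (2 * Real.cos θ) ^ (ε * ∑ A ∈ S', QB.sg q A) := by
        intro S'
        induction S' using Finset.induction_on with
        | empty => simp
        | insert A S' hA ih =>
          rw [prod_insert hA, sum_insert hA, ih, mul_add, zpow_add₀ hc2]
      rw [← hz]
      refine prod_congr rfl fun A hA => ?_
      rw [hT, mem_filter] at hA
      obtain ⟨hAS, hAz⟩ := hA
      have hAS' := hAS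
      rw [hS, mem_filter] at hAS'
      have hAl := ard_st hq hD hAS'.1 hAz
      obtain ⟨f1, f2, f3⟩ := hSl A hAS hAl
      unfold Ard at hAz
      have hd := hdif (a := lo q A) (b := hi q A) (by omega) (by omega) f3
      rw [if_neg (by omega), if_pos (by omega), zero_sub] at hd
      rw [wP_zs hq hD hs hc hAS'.1 hAl (by omega) hd, hε]
      congr 2
      rcases ho with ho | ho
      · rw [if_neg (by omega), if_neg (by omega)]
      · rw [if_pos (by omega), if_pos (by omega)]

end poly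

/-- The phases of the window. -/
theorem rho_inv {c : ℝ} {d : ℕ} (hd : d ≤ J)
    (h : ∀ i, J < i + d → i ≤ J + d → 0 < i → ρ i - ρ (i - 1) = if i = J then c else 0) :
    ∀ i, J ≤ i + d → i ≤ J + d → ρ i = ρ (J - d) + if J ≤ i then (if d = 0 then 0 else c) else 0 := by
  intro i hi hi'
  obtain ⟨x, rfl⟩ : ∃ x, i = J - d + x := ⟨i + d - J, by omega⟩
  induction x with
  | zero =>
    rw [Nat.add_zero]
    by_cases h0 : d = 0
    · subst h0
      simp
    · rw [if_neg (by omega), add_zero]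
  | succ x ih =>
    have h1 := ih (by omega) (by omega)
    have h2 := h (J - d + (x + 1)) (by omega) (by omega) (by omega)
    rw [show J - d + (x + 1) - 1 = J - d + x by omega] at h2
    have h3 : ρ (J - d + (x + 1)) = ρ (J - d + x) + if J - d + (x + 1) = J then c else 0 := by
      linarith
    rw [h3, h1, if_neg (show ¬ d = 0 by omega)]
    by_cases h4 : J - d + (x + 1) = J
    · rw [if_pos h4, if_neg (by omega), if_pos (by omega), add_zero]
    · rw [if_neg h4, add_zero]
      congr 1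
      exact if_congr (by omega) rfl rfl

/-- **The charge `-θ` at a flat site of the other colour: the local factor is at most
`(2 cos θ)⁻¹`.** -/
theorem inv_flat (h1 : Ang θ) {N k n d L j : ℕ} {q : ZMod N → ℤ × ℤ} {D : Finset (ℤ × ℤ)}
    {τ : ℕ → ℤ} {m r : ℤ} {η ω : Cfg} {ρ : ℕ → ℝ} {β : ℝ} (h : LkD n N q D k τ L m η)
    (hβ : Real.cos (θ / 2 + β) = Real.sin θ)
    (hw : WinI d N τ j 0) (h0 : 0 < j) (hN : j + d < N) (hk : j + d < k ∨ k + d ≤ j)
    (_hp : Even ((q (j : ZMod N)).1 + (q (j : ZMod N)).2) ↔ j < k)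
    (hρ : ∀ i, j < i + d → i ≤ j + d → 0 < i → ρ i - ρ (i - 1) = if i = j then -θ else 0)
    (h3 : 3 * (r + 1) < n) (h4 : 2 * (r + 1) ≤ d) (hr : 1 ≤ r) :
    TX (wP θ β q D k ρ) D (q (j : ZMod N)) r ω ≤ (2 * Real.cos θ)⁻¹ := by
  have hj : jB N j = j := by
    unfold jB
    rw [if_neg (by omega)]
  have hst := hw.str
  have hle := hw.le
  rw [hj] at hst hle
  have hW := wn_str' (R := r + 1) h.geo h.step hst hle hN (by omega) h3 h4
  have hph := rho_inv hle hρ
  obtain ⟨e, he, hT⟩ := TX_inv (ω := ω) (k := k) (ρ := ρ) h.poly h.enc h1.sin_pos.ne' h1.cos_pos.ne' hβ hW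
    (by omega) le_rfl ⟨ρ (j - d), fun i i1 i2 => by
      rw [hph i (by omega) (by omega), if_neg (show ¬ d = 0 by omega)]
      split_ifs <;> ring⟩ (by omega)
  rw [hT, ← zpow_neg_one]
  rw [abs_le] at he
  exact zpow_le_zpow_right_of_le_one₀ h1.kit.pos h1.kit.lt.le he.1

end Vale.Agent.P167.N.QL
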