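import Vale.Agent.P167.N.QL.LkB
import Vale.Agent.P167.N.QL.KcF

/-!
# P167, the range `0 < q < 1`, block Q-LAM (LK): killed bases and killed flat sites
-/

set_option autoImplicit false

namespace Vale.Agent.P167.N.QL

open Finset Filter Vale.Agent.P167.BR Vale.Agent.P167.FK
open Vale.Agent.P167.H718 (Dob)
open Vale.Agent.P167.H192.Q (SRSW)
open Vale.Agent.P167.H975 (TX)

variable {θ : ℝ}

/-- **The killed bases compared with a killed flat site** (same kind of boundary). -/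
theorem lk_base (h1 : Ang θ) (hR : RSW (2 * Real.cos θ)) (hS : SRSW (2 * Real.cos θ)) :
    ∃ K C : ℝ, 1 ≤ K ∧ 0 < C ∧ ∀ {N k n d L N' k' n' L' j' : ℕ} {q : ZMod N → ℤ × ℤ}
      {q' : ZMod N' → ℤ × ℤ} {D D' : Finset (ℤ × ℤ)} {τ τ' : ℕ → ℤ} {m m' r R : ℤ}
      {η₀ η₀' η η' : Cfg} {ρ ρ' : ℕ → ℝ} {β : ℝ},
      LkD n N q D k τ L m η₀ → LkD n' N' q' D' k' τ' L' m' η₀' →
      Real.cos (θ / 2 + β) = Real.sin θ → Dob η D q k → Dob η' D' q' k' →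
      -- the base
      WinI d N τ 0 0 → 2 * d < N → (k = 0 ∨ k = N) →
      (((Even ((q 0).1 + (q 0).2) ↔ k = 0) ∧ (∀ i ≤ d, ρ i = ρ 0) ∧
          ∀ i < N, N ≤ i + d → ρ i = ρ 0 - 2 * θ) ∨
        ((Even ((q 0).1 + (q 0).2) ↔ k ≠ 0) ∧ (∀ i, 1 ≤ i → i ≤ d → ρ i = ρ 0 + θ) ∧
          ∀ i < N, N ≤ i + d → ρ i = ρ 0 - θ)) →
      -- the flat site
      WinI d N' τ' j' 0 → 0 < j' → j' + d < N' → FarI N' k' L' j' →
      (j' + d < k' ∨ k' + d ≤ j') → (k = 0 ↔ k' ≤ j') →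
      (Even ((q' (j' : ZMod N')).1 + (q' (j' : ZMod N')).2) ↔ k' ≤ j') →
      (∀ i, j' < i + d → i ≤ j' + d → 0 < i → ρ' i - ρ' (i - 1) = if i = j' then θ else 0) →
      3 * (R + 1) < n → 3 * (R + 1) < n' → 2 * (R + 1) ≤ d → R ≤ m → R ≤ m' → K ≤ r →
      K * r ≤ R →
      Ex (2 * Real.cos θ) D η (TX (wP θ β q D k ρ) D (q 0) r) ≤
        C * Ex (2 * Real.cos θ) D' η' (TX (wP θ β q' D' k' ρ') D' (q' (j' : ZMod N')) r) :=
  lk_base_of (kc_flat h1 hR) h1 hR hS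

end Vale.Agent.P167.N.QL
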