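import Vale.Agent.P167.QB.Alt

/-!
# P167, the range `0 < q < 1`, block Q-LAM: the non-crossing matching of the sides

`Ard q t A`: the strand `A` goes over the site `q t`. The sites which are visible from the inner side of
`A` have the parity of `q (lo A + 1)` (the inner parity of `A`).

* `nest`: two strands are nested or disjoint.
* `exists_vis`: over `q t`, inside `A` (or equal to `A`), there is a strand with the inner parity of
  `q t`, namely the innermost one.
* `exists_strict`: strictly inside `A` if the inner parity of `A` is the other one.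
* `exists_outer`: the outermost strand over `q t` strictly inside `A`; its inner parity is different
  from the one of `A`.
-/

set_option autoImplicit false

namespace Vale.Agent.P167.N.QL

open Finset Vale.Agent.P167 Vale.Agent.P167.BR
open Vale.Agent.P167.E6 (IsPolygon Encloses)
open Vale.Agent.P167.QB (Ard ep sg sgm sum_alt ard_lp non_cross ep_succ ep_cases sgm_cases)
open Vale.Agent.P167.QX (lo hi exists_xy lo_xy hi_xy)

variable {D : Finset (ℤ × ℤ)} {ω : Cfg} {n : ℕ} {q : ZMod n → ℤ × ℤ} {A B C : Finset Ed} {t w w' : ℕ}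

theorem ep_eq_of_sgm (hq : IsPolygon q) (h : sgm q w = sgm q w') : ep q w = ep q w' := by
  rcases ep_cases (q := q) 0 with h0 | h0 <;> rcases sgm_cases hq w with ⟨h1, h2⟩ | ⟨h1, h2⟩ <;>
    rcases sgm_cases hq w' with ⟨h3, h4⟩ | ⟨h3, h4⟩ <;> omega

theorem ep_ne {j : ℕ} (hq : IsPolygon q) : ep q (j + 1) ≠ ep q j := by
  rw [ep_succ hq]
  rcases ep_cases (q := q) j with h | h <;> rw [h] <;> norm_num

theorem ep_two {i j l : ℕ} (h1 : ep q i ≠ ep q j) (h2 : ep q j ≠ ep q l) : ep q i = ep q l := by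
  rcases ep_cases (q := q) i with h | h <;> rcases ep_cases (q := q) j with h' | h' <;>
    rcases ep_cases (q := q) l with h'' | h'' <;> rw [h, h'] at h1 <;> rw [h', h''] at h2 <;>
    rw [h, h''] <;> first | exact absurd rfl h1 | exact absurd rfl h2

theorem ep_even {j : ℕ} : ep q j = 1 ↔ Even ((q (j : ZMod n)).1 + (q (j : ZMod n)).2) := by
  unfold ep
  split_ifs with h
  · exact iff_of_true rfl h
  · exact iff_of_false (by norm_num) h

theorem ep_odd {j : ℕ} : ep q j = -1 ↔ ¬ Even ((q (j : ZMod n)).1 + (q (j : ZMod n)).2) := by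
  unfold ep
  split_ifs with h
  · exact iff_of_false (by norm_num) (not_not.2 h)
  · exact iff_of_true rfl h

theorem ep_eq_iff {i j : ℕ} : ep q i = ep q j ↔
    (Even ((q (i : ZMod n)).1 + (q (i : ZMod n)).2) ↔
      Even ((q (j : ZMod n)).1 + (q (j : ZMod n)).2)) := by
  rw [← ep_even, ← ep_even]
  rcases ep_cases (q := q) i with h | h <;> rcases ep_cases (q := q) j with h' | h' <;>
    rw [h, h'] <;> simp

section

variable (hq : IsPolygon q) (hD : Encloses q D)
include hq hD

/-- The strands over a site. -/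
theorem ard_st (hA : A ∈ pcs ω D) (h : Ard q t A) : ¬ IsLp D A := fun hl => ard_lp hq hD hA hl h

theorem hi_lt (hA : A ∈ pcs ω D) (hl : ¬ IsLp D A) : lo q A < hi q A ∧ hi q A < n := by
  obtain ⟨x, y, h⟩ := exists_xy hq hD hA hl
  rw [lo_xy hq hD hA h, hi_xy hq hD hA h]
  have h1 := h.ne
  have h2 := h.1
  have h3 := h.2.1
  rcases lt_or_gt_of_ne h1 with h4 | h4
  · rw [min_eq_left h4.le, max_eq_right h4.le]
    exact ⟨h4, h3⟩
  · rw [min_eq_right h4.le, max_eq_left h4.le]
    exact ⟨h4, h2⟩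

/-- **Two strands are nested or disjoint.** -/
theorem nest (hA : A ∈ pcs ω D) (hB : B ∈ pcs ω D) (hAl : ¬ IsLp D A) (hBl : ¬ IsLp D B)
    (hAB : A ≠ B) : (lo q A < lo q B ∧ hi q B < hi q A) ∨ (lo q B < lo q A ∧ hi q A < hi q B) ∨
      hi q A < lo q B ∨ hi q B < lo q A := by
  have h1 := non_cross hq hD hA hB hAl hBl hAB
  have h2 := hi_lt hq hD hA hAl
  have h3 := hi_lt hq hD hB hBl
  omega

/-- The feet of a strand have different parities. -/
theorem ep_feet (hA : A ∈ pcs ω D) (hl : ¬ IsLp D A) : ep q (lo q A) ≠ ep q (hi q A) := by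
  obtain ⟨x, y, h⟩ := exists_xy hq hD hA hl
  rw [lo_xy hq hD hA h, hi_xy hq hD hA h]
  have h1 := h.ne
  have hx : ep q x = 1 := ep_even.2 h.2.2.2.2.1
  have hy : ep q y = -1 := ep_odd.2 h.2.2.2.2.2
  rcases lt_or_gt_of_ne h1 with h4 | h4
  · rw [min_eq_left h4.le, max_eq_right h4.le, hx, hy]
    norm_num
  · rw [min_eq_right h4.le, max_eq_left h4.le, hx, hy]
    norm_num

/-- Sites with the same strands over them have the same parity. -/
theorem ep_of_same (hw : w ≤ n) (hw' : w' ≤ n)
    (h : ∀ B ∈ pcs ω D, Ard q w B ↔ Ard q w' B) : ep q w = ep q w' := by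
  classical
  refine ep_eq_of_sgm hq ?_
  rw [← sum_alt hq hD ω hw, ← sum_alt hq hD ω hw']
  refine sum_congr ?_ fun _ _ => rfl
  ext B
  rw [mem_filter, mem_filter]
  exact and_congr_right fun hB => h B hB

/-- **The innermost strand over a site**: it has the parity of the site. -/
theorem exists_vis (hA : A ∈ pcs ω D) (ht : Ard q t A) :
    ∃ C ∈ pcs ω D, Ard q t C ∧ lo q A ≤ lo q C ∧ hi q C ≤ hi q A ∧ ep q (lo q C + 1) = ep q t ∧
      ∀ B ∈ pcs ω D, Ard q t B → lo q B ≤ lo q C ∧ hi q C ≤ hi q B := by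
  classical
  have hne : ((pcs ω D).filter (Ard q t)).Nonempty := ⟨A, mem_filter.2 ⟨hA, ht⟩⟩
  obtain ⟨C, hC, hmax⟩ := exists_max_image _ (fun B => lo q B) hne
  rw [mem_filter] at hC
  obtain ⟨hC, hCt⟩ := hC
  have hCl := ard_st hq hD hC hCt
  obtain ⟨h1, h2⟩ := hi_lt hq hD hC hCl
  have hin : ∀ B ∈ pcs ω D, Ard q t B → lo q B ≤ lo q C ∧ hi q C ≤ hi q B := by
    intro B hB hBt
    have h3 := hmax B (mem_filter.2 ⟨hB, hBt⟩)
    by_cases hBC : B = C
    · rw [hBC]
      exact ⟨le_rfl, le_rfl⟩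
    · have h4 := nest hq hD hB hC (ard_st hq hD hB hBt) hCl hBC
      unfold Ard at hCt hBt
      omega
  obtain ⟨h5, h6⟩ := hin A hA ht
  refine ⟨C, hC, hCt, h5, h6, ?_, hin⟩
  unfold Ard at hCt
  refine ep_of_same hq hD (ω := ω) (by omega) (by omega) fun B hB => ?_
  by_cases hBC : B = C
  · rw [hBC]
    unfold Ard
    omega
  · constructor
    · intro h7
      have hBl := ard_st hq hD hB h7
      have h8 := nest hq hD hB hC hBl hCl hBC
      unfold Ard at h7 ⊢
      omega
    · intro h7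
      have hBl := ard_st hq hD hB h7
      obtain ⟨h9, h10⟩ := hin B hB h7
      have h8 := nest hq hD hB hC hBl hCl hBC
      have h11 := hi_lt hq hD hB hBl
      unfold Ard at h7 ⊢
      omega

/-- **Strictly inside `A`.** -/
theorem exists_strict (hA : A ∈ pcs ω D) (ht : Ard q t A) (hne : ep q t ≠ ep q (lo q A + 1)) :
    ∃ C ∈ pcs ω D, Ard q t C ∧ lo q A < lo q C ∧ hi q C < hi q A ∧ ep q (lo q C + 1) = ep q t ∧
      ∀ B ∈ pcs ω D, Ard q t B → lo q B ≤ lo q C ∧ hi q C ≤ hi q B := by
  obtain ⟨C, hC, h1, h2, h3, h4, h5⟩ := exists_vis hq hD hA ht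
  have hAC : C ≠ A := by
    rintro rfl
    exact hne h4.symm
  have h6 := nest hq hD hC hA (ard_st hq hD hC h1) (ard_st hq hD hA ht) hAC
  have h7 := hi_lt hq hD hC (ard_st hq hD hC h1)
  exact ⟨C, hC, h1, by omega, by omega, h4, h5⟩

/-- **The outermost strand over `q t` strictly inside `A`.** -/
theorem exists_outer (hA : A ∈ pcs ω D) (ht : Ard q t A) (hne : ep q t ≠ ep q (lo q A + 1)) :
    ∃ C ∈ pcs ω D, Ard q t C ∧ lo q A < lo q C ∧ hi q C < hi q A ∧
      ep q (lo q C + 1) ≠ ep q (lo q A + 1) ∧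
      ∀ B ∈ pcs ω D, ¬ IsLp D B → lo q A < lo q B → hi q B < hi q A →
        ¬ (lo q B < lo q C ∧ hi q C < hi q B) := by
  classical
  obtain ⟨C₀, hC₀, a1, a2, a3, -⟩ := exists_strict hq hD hA ht hne
  have hAl := ard_st hq hD hA ht
  have hne' : ((pcs ω D).filter fun B => Ard q t B ∧ lo q A < lo q B ∧ hi q B < hi q A).Nonempty :=
    ⟨C₀, mem_filter.2 ⟨hC₀, a1, a2, a3⟩⟩
  obtain ⟨C, hC, hmin⟩ := exists_min_image _ (fun B => lo q B) hne'
  rw [mem_filter] at hC
  obtain ⟨hC, hCt, h1, h2⟩ := hC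
  have hCl := ard_st hq hD hC hCt
  obtain ⟨h3, h4⟩ := hi_lt hq hD hC hCl
  have h0 := hi_lt hq hD hA hAl
  have hout : ∀ B ∈ pcs ω D, ¬ IsLp D B → lo q A < lo q B → hi q B < hi q A →
      ¬ (lo q B < lo q C ∧ hi q C < hi q B) := by
    rintro B hB hBl g1 g2 ⟨g3, g4⟩
    have h5 : Ard q t B := by
      unfold Ard at hCt ⊢
      omega
    have h6 := hmin B (mem_filter.2 ⟨hB, h5, g1, g2⟩)
    omega
  refine ⟨C, hC, hCt, h1, h2, ?_, hout⟩
  -- the sites `lo C` and `lo A + 1` have the same parity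
  have key : ep q (lo q C) = ep q (lo q A + 1) := by
    refine ep_of_same hq hD (ω := ω) (by omega) (by omega) fun B hB => ?_
    by_cases hBA : B = A
    · rw [hBA]
      unfold Ard
      omega
    · by_cases hBC : B = C
      · rw [hBC]
        unfold Ard
        omega
      · constructor
        · intro h7
          have hBl := ard_st hq hD hB h7
          have h8 := nest hq hD hB hC hBl hCl hBC
          have h9 := nest hq hD hB hA hBl hAl hBA
          have h10 := hi_lt hq hD hB hBl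
          have h11 := hout B hB hBl
          unfold Ard at h7 ⊢
          omega
        · intro h7
          have hBl := ard_st hq hD hB h7
          have h8 := nest hq hD hB hC hBl hCl hBC
          have h9 := nest hq hD hB hA hBl hAl hBA
          have h10 := hi_lt hq hD hB hBl
          unfold Ard at h7 ⊢
          omega
  rw [← key]
  exact ep_ne hq

end

end Vale.Agent.P167.N.QL
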