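import Vale.Agent.P167.N.QL.DsG
import Vale.Agent.P167.N.QL.Al1
import Vale.Agent.P167.N.QL.Al2
import Vale.Agent.P167.N.QL.Reg
import Vale.Agent.P167.N.QL.Mat
import Vale.Agent.P167.N.QL.K4
import Vale.Agent.P167.N.Base.Vr

/-!
# P167, the range `0 < q < 1`, block Q-LAM: the lower bounds for R2

`low_r2f`, `low_r2w`: the value of the functional with the phases of the image of R2 on the Dobrushin
square is at least a constant times the product of the mean values of the local factors.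
-/

set_option autoImplicit false

namespace Vale.Agent.P167.N.QL

open Finset Filter Vale.Agent.P167 Vale.Agent.P167.BR Vale.Agent.P167.FK
open Vale.Agent.P167.E6 (IsPolygon Encloses face dir)
open Vale.Agent.P167.FKA (Loc)
open Vale.Agent.P167.H718 (Dob rc IsCl)
open Vale.Agent.P167.H192.Q (SRSW)
open Vale.Agent.P167.H975 (TX)
open Vale.Agent.P167.QX (lo hi)
open Vale.Agent.P167.H601.LG (feet)
open Vale.Agent.P167.H632 (pr pr_or pr_not)
open Vale.Agent.P167.H825.Q (Bc)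
open Vale.Agent.P167.N.H167.Q (s_REG_tr)
open Vale.Agent.P167.Enl (kOf)
open Vale.Agent.P167.H318.LC (sqP sqS sq_poly sq_encl)
open Vale.Agent.P167.N.NET (Ar Hs VRS)
open Vale.Agent.P167.H760 (Tr)
open Vale.Agent.P167.H262 (mem_Rsq)
open Vale.Agent.P167.QB (Ard ep)

variable {θ : ℝ} {n m j z : ℕ} {a : ℤ × ℤ} {Q : ℝ} {w : Bool}

/-- **The Dobrushin square is regular**, with a small constant. -/
theorem ds_rg' (ms : ℕ) {σ₀ : ℝ} (hσ₀ : 0 < σ₀) : ∃ σ R : ℝ, 0 < σ ∧ σ ≤ σ₀ ∧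
    ∀ᶠ n : ℕ in atTop, ∀ a : ℤ × ℤ, ∃ η : Cfg,
    ∀ (ρ : ℕ → ℝ) (J : Finset ℕ), (dsP n a ρ J).Near → (dsP n a ρ J).Sep ⌊σ * n⌋₊ →
      J.card ≤ ms → (dsP n a ρ J).Rg n σ R ms η := by
  have h2 : (0 : ℝ) < 1 / 2 := by norm_num
  obtain ⟨c, hc, hR⟩ := s_REG_tr (sq_poly 0) (sq_encl 0) h2 (by norm_num) (bc := .dob 2 (1 / 2))
    ⟨by norm_num, by norm_num, by norm_num, by norm_num⟩
  obtain ⟨n₀, hn₀⟩ := eventually_atTop.1 hR
  refine ⟨min c σ₀, ((∑ w ∈ sqS, nm w : ℤ) + 1 : ℝ) * 2, lt_min hc hσ₀, min_le_right _ _, ?_⟩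
  filter_upwards [eventually_ge_atTop (max n₀ 1)] with n hn a
  have hn1 : 0 < n := by have := (le_max_right _ _).trans hn; omega
  have hn2 : n₀ ≤ 2 * n := by have := (le_max_left _ _).trans hn; omega
  obtain ⟨η, e1, e2⟩ := hn₀ (2 * n) hn2 a
  have e3 : ⌊(1 / 2 : ℝ) * ((2 * n : ℕ) : ℝ)⌋₊ = n := by
    have : (1 / 2 : ℝ) * ((2 * n : ℕ) : ℝ) = (n : ℝ) := by push_cast; ring
    rw [this, Nat.floor_natCast]
  have e4 : (Bc.dob 2 (1 / 2)).ka 4 (2 * n) n = 4 * n := by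
    show kOf 4 (2 * n) n 2 ⌊(1 / 2 : ℝ) * ((2 * n : ℕ) : ℝ)⌋₊ = 4 * n
    rw [e3]
    unfold kOf
    split_ifs <;> omega
  rw [e3, e4] at e1
  have hnn : (0 : ℝ) ≤ n := Nat.cast_nonneg _
  refine ⟨η, fun ρ J hN hS hJ => ⟨⟨ds_poly hn1 a, ds_encl hn1 a, ?_, hN, hS⟩, ?_, hJ,
    ⟨a, fun v hv => ?_⟩, e1, ?_⟩⟩
  · exact (geoP_enl (sq_poly 0) (sq_encl 0) (n := 2 * n) (by omega) (ds_poly hn1 a)
      (ds_encl hn1 a)).mono hn1 (by omega)
  · show 4 * n ≤ 4 * (2 * n)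
    omega
  · have h3 := enl_dia (Q := sqS) (n := 2 * n) (a := a) hv
    refine h3.trans (le_of_eq ?_)
    push_cast
    ring
  · refine e2.mono (Int.floor_le_floor ?_)
    have := min_le_left c σ₀
    push_cast
    nlinarith [mul_nonneg hc.le hnn]

/-- **The arm of the site is prolonged to the opposite side**, in the Dobrushin square. -/
theorem reach_ds (hQ : 0 < Q) (hQ1 : Q ≤ 1) (hV : VRS Q) (M : ℕ) : ∃ c1 : ℝ, 0 < c1 ∧
    ∀ {n z ρ : ℕ} {w : Bool} {a : ℤ × ℤ} {c : Bool} {η : Cfg}, MidW w n z → Good η →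
    ((dsq n a (z : ZMod (4 * (2 * n)))).1 + (dsq n a (z : ZMod (4 * (2 * n)))).2) % 2 = pr c →
    64 ≤ ρ → 4 * ρ ≤ n → 2 * n ≤ M * ρ →
    ∀ F : Cfg → ℝ, (∀ ω, 0 ≤ F ω) →
      Loc (dsD n a ∩ (dsJ n).biUnion fun j => Bq (dsq n a (j : ZMod (4 * (2 * n)))) ρ) F →
      c1 * Ex Q (dsD n a) η (fun ω => F ω * (NS (dsq n a) (dsD n a) z z ρ).indicator 1 ω) ≤
        Ex Q (dsD n a) η (fun ω => F ω * (HS (dsq n a) (dsD n a) (4 * n) z).indicator 1 ω) := by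
  obtain ⟨c1, hc1, -, H⟩ := reach_T hQ hQ1 hV M
  refine ⟨c1, hc1, ?_⟩
  intro n z ρ w a c η hz hη hp h64 h4 hM F hF0 hF
  have hn : 0 < n := by omega
  have hz' := hz
  obtain ⟨h5, h6⟩ := hz'
  have hs : sW w n = n ∨ sW w n = 5 * n := by unfold sW; split_ifs <;> omega
  have hJ := jn_ds hn a hz (R := (ρ : ℤ) + 1) (by omega)
  have e0 : pq (TW w (dsq n a (z : ZMod (4 * (2 * n))))) (dsq n a) (z : ZMod (4 * (2 * n))) =
      dsq n a (z : ZMod (4 * (2 * n))) := by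
    rw [ds_own hn a hz (by omega) (by omega)]
    refine Prod.ext ?_ rfl
    dsimp only
    ring
  have hopp : (w = false ∧ sW w n = n ∧ sW (!w) n = 5 * n) ∨
      (w = true ∧ sW w n = 5 * n ∧ sW (!w) n = n) := by
    unfold sW
    cases w <;> simp
  refine H (k := 4 * n) (ds_poly hn a) (ds_encl hn a) (TW_rt w _) hJ hη hp ρ (2 * n) (sW (!w) n)
    (sW (!w) n + 2 * n) h64 le_rfl (by omega) hM (by omega) (by omega) ?_ ?_ F _ hF0 hF ?_
  · -- the corridor is in the domain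
    intro v hv
    rw [mem_pre_ds hn a hz]
    rw [e0] at hv
    unfold corr at hv
    rw [mem_Rsq] at hv
    push_cast at hv
    omega
  · -- the end of the corridor
    rintro x ⟨x1, x2, x3, x4⟩
    rw [e0] at x1 x2 x3
    obtain ⟨j, hj⟩ : ∃ j : ℕ, (j : ℤ) =
        8 * n - z - (x.1 - (dsq n a (z : ZMod (4 * (2 * n)))).1) :=
      ⟨(8 * n - z - (x.1 - (dsq n a (z : ZMod (4 * (2 * n)))).1)).toNat, by omega⟩
    refine ⟨x4, j, by omega, by omega, ?_⟩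
    rw [ds_opp hn a hz (by omega) (by omega), hj]
    refine Prod.ext ?_ ?_
    · dsimp only
      ring
    · dsimp only
      rw [x1]
      push_cast
      ring
  · -- the boxes of the other centres
    intro v hv
    obtain ⟨u, rfl⟩ := (TW w (dsq n a (z : ZMod (4 * (2 * n))))).Q.surjective v
    rw [Equiv.symm_apply_apply]
    obtain ⟨-, hv⟩ := mem_inter.1 hv
    rw [mem_biUnion] at hv
    obtain ⟨j, hj, hv⟩ := hv
    rw [mBq, TW_Q] at hv
    have hfar : u ∈ tub false (dsq n a (z : ZMod (4 * (2 * n)))) ρ (ρ / 2) ∨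
        u ∈ corr (dsq n a (z : ZMod (4 * (2 * n)))) ρ (2 * n) →
        (dsq n a (z : ZMod (4 * (2 * n)))).1 - ρ ≤ u.1 ∧
          u.1 < (dsq n a (z : ZMod (4 * (2 * n)))).1 + ρ := by
      rintro (h | h)
      · exact (mem_tub h).2.2.1
      · unfold corr at h
        rw [mem_Rsq] at h
        omega
    have hcon : ¬ ((dsq n a (z : ZMod (4 * (2 * n)))).1 - ρ ≤ u.1 ∧
          u.1 < (dsq n a (z : ZMod (4 * (2 * n)))).1 + ρ) := by
      rintro ⟨u1, u2⟩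
      unfold dsJ at hj
      simp only [mem_insert, mem_singleton] at hj
      have hy : (dsq n a (j : ZMod (4 * (2 * n)))).2 = a.2 ∨
          (dsq n a (j : ZMod (4 * (2 * n)))).2 = a.2 + 2 * n := by
        rcases hj with rfl | rfl | rfl | rfl | rfl | rfl
        · left; rw [dg_S hn a (Nat.zero_le _)]
        · left; rw [dg_S hn a le_rfl]
        · right; rw [dg_N hn a le_rfl (by omega)]
        · right; rw [dg_N hn a (by omega) (by omega)]
        · right; rw [dg_N hn a (by omega) le_rfl]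
        · left; rw [dg_Z hn a le_rfl (by omega)]
      rcases hopp with ⟨rfl, e1, -⟩ | ⟨rfl, e1, -⟩
      · rw [e1] at h5 h6
        simp only [Bool.false_eq_true, if_false] at hv
        rw [dg_E hn a (show n ≤ z by omega) (by omega)] at hv u1 u2
        dsimp only at hv u1 u2
        omega
      · rw [e1] at h5 h6
        simp only [if_true] at hv
        rw [dg_W hn a (show 5 * n ≤ z by omega) (by omega)] at hv u1 u2
        dsimp only at hv u1 u2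
        omega
    rw [e0]
    exact ⟨fun h => hcon (hfar (Or.inl h)), fun h => hcon (hfar (Or.inr h))⟩

/-- The window of indices. -/
theorem wn_ds (hn : 0 < n) (a : ℤ × ℤ) (hz : MidW w n z) {R : ℤ} (hR : R + 1 < n) :
    Wn (dsq n a) z R := by
  have h4 := (jn_ds hn a hz hR).wn
  refine ⟨h4.le, h4.lt, fun y hy hy' => ?_, fun y hy hy' => ?_⟩
  · have h5 := h4.near y hy hy'
    unfold pq at h5
    rwa [nm_pq] at h5
  · have h5 := h4.far y hy hy'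
    unfold pq at h5
    rwa [nm_pq] at h5

/-- Mixed strands are not in the box of a killed site. -/
theorem hs_sub_ns (hn : 0 < n) (a : ℤ × ℤ) (hz : MidW w n z) {R r : ℤ} (hR : R + 1 < n)
    (hr : r ≤ R) : HS (dsq n a) (dsD n a) (4 * n) z ⊆ NS (dsq n a) (dsD n a) z z r := by
  intro ω hω A hA hl hin hov
  have h1 := hω A hA hl hov.1 hov.2
  obtain ⟨x, y, hxy⟩ := QX.exists_xy (ds_poly hn a) (ds_encl hn a) hA hl
  obtain ⟨⟨f1, f2⟩, f3, f4⟩ := feet_in (ds_poly hn a) (ds_encl hn a) (wn_ds hn a hz hR) hr hA hxy hin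
  rw [QX.lo_xy (ds_poly hn a) (ds_encl hn a) hA hxy, QX.hi_xy (ds_poly hn a) (ds_encl hn a) hA hxy]
    at h1
  rw [abs_le] at f1 f2 f3 f4
  obtain ⟨h5, h6⟩ := hz
  have hs : sW w n = n ∨ sW w n = 5 * n := by unfold sW; split_ifs <;> omega
  omega

/-- The phases of the two functionals, with a positive jump at `z`. -/
structure PhR2 (θ : ℝ) (w : Bool) (n z : ℕ) (ρ : ℕ → ℝ) : Prop where
  /-- the other strands -/
  sg : ∀ {q : ZMod (4 * (2 * n)) → ℤ × ℤ} {x y : ℕ}, x < y →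
    ¬ (x < z ∧ z ≤ y) ∨ (x < 4 * n ∧ 4 * n ≤ y) → SgA θ (bt θ) q (4 * n) x y (ρ y - ρ x)
  /-- the strands over `z` -/
  ov : ∀ {x y : ℕ}, x < y → x < z → z ≤ y → ¬ (x < 4 * n ∧ 4 * n ≤ y) → ρ y - ρ x = θ
  /-- the list of the jumps -/
  L : ∃ L : List (ℕ × ℝ), EqD (4 * (2 * n)) ρ (stp L) ∧ ∀ x ∈ L, x.1 ∈ dsJz n z

/-- The jumps in the window. -/
theorem PhR2.jump {ρ : ℕ → ℝ} (h : PhR2 θ w n z ρ) (hz : MidW w n z) {R : ℤ} (hR : R + 1 < n)
    {j : ℕ} (h1 : (z : ℤ) - R < j) (h2 : (j : ℤ) ≤ z + R) (hj : j ≠ z) : ρ j = ρ (j - 1) := by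
  obtain ⟨L, hE, hL⟩ := h.L
  obtain ⟨h5, h6⟩ := hz
  have hs : sW w n = n ∨ sW w n = 5 * n := by unfold sW; split_ifs <;> omega
  by_contra hcon
  have h3 : stp L j ≠ stp L (j - 1) := by
    intro h4
    apply hcon
    have h7 := hE (j - 1) j (by omega) (by omega)
    rw [h4, sub_self] at h7
    exact sub_eq_zero.1 h7
  obtain ⟨x, hx, rfl⟩ := stp_jump (by omega) h3
  have h8 := hL x hx
  unfold dsJz at h8
  simp only [mem_insert, mem_singleton] at h8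
  omega

theorem cenJ (n z : ℕ) : dsJ n ∪ {z} = dsJz n z := by
  ext j
  unfold dsJ dsJz
  simp only [mem_union, mem_insert, mem_singleton]
  tauto

section gen

variable {ρ : ℕ → ℝ} (h0 : 0 < θ) (h1 : θ < Real.pi / 2) (hn : 0 < n) (a : ℤ × ℤ)
  (hf : PhR2 θ w n z ρ) {ω : Cfg}
include h0 h1 hn hf

/-- If all the strands over `z` are mixed then all the weights are bounded below. -/
theorem w_hs (hω : ω ∈ HS (dsq n a) (dsD n a) (4 * n) z) :
    ∀ A ∈ pcs ω (dsD n a), wl θ ≤ wP θ (bt θ) (dsq n a) (dsD n a) (4 * n) ρ A := by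
  intro A hA
  refine wP_ge h0 h1 (ds_poly hn a) (ds_encl hn a) hA fun hl => ?_
  have hlt := (feet (ds_poly hn a) (ds_encl hn a) hA hl).1
  refine hf.sg hlt ?_
  by_cases h : lo (dsq n a) A < z ∧ z ≤ hi (dsq n a) A
  · exact Or.inr (hω A hA hl h.1 h.2)
  · exact Or.inl h

omit h0 h1 in
/-- Otherwise there is a strand with the weight `0`. -/
theorem w_zero (hz : MidW w n z)
    (hp : Even ((dsq n a (z : ZMod (4 * (2 * n)))).1 + (dsq n a (z : ZMod (4 * (2 * n)))).2) ↔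
      w = true) (hω : ω ∉ HS (dsq n a) (dsD n a) (4 * n) z) :
    ∃ A ∈ pcs ω (dsD n a), wP θ (bt θ) (dsq n a) (dsD n a) (4 * n) ρ A = 0 := by
  have hq := ds_poly hn a
  have hD := ds_encl hn a
  obtain ⟨h5, h6⟩ := hz
  have hs : (w = false ∧ sW w n = n) ∨ (w = true ∧ sW w n = 5 * n) := by
    unfold sW
    cases w <;> simp
  unfold HS at hω
  rw [Set.mem_ofPred_eq] at hω
  push Not at hω
  obtain ⟨A, hA, hl, a1, a2, a3⟩ := hω
  obtain ⟨C, hC, c1, c2, c3, c4, -⟩ := exists_vis hq hD hA (t := z) ⟨a1, a2⟩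
  have hCl := ard_st hq hD hC c1
  have hlt := (feet hq hD hC hCl).1
  have hmix : ¬ (lo (dsq n a) C < 4 * n ∧ 4 * n ≤ hi (dsq n a) C) := by
    rintro ⟨m1, m2⟩
    have := a3
    unfold Ard at c1
    rcases hs with ⟨-, e⟩ | ⟨-, e⟩
    · have := a3 (by omega)
      omega
    · by_cases h : lo (dsq n a) A < 4 * n
      · have := a3 h
        omega
      · omega
  refine ⟨C, hC, ?_⟩
  have hncl : ¬ IsCl (dsD n a) (dsq n a) (4 * n) C := by
    rw [isCl_iff hq hD hC hCl]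
    have e1 : ep (dsq n a) (lo (dsq n a) C) ≠ ep (dsq n a) z := by
      rw [← c4]
      exact (ep_ne hq).symm
    rw [Ne, ep_eq_iff, hp] at e1
    unfold Ard at c1
    rcases hs with ⟨rfl, e⟩ | ⟨rfl, e⟩
    · simp only [Bool.false_eq_true, iff_false, not_not] at e1
      rintro (⟨-, g⟩ | ⟨g, -⟩)
      · exact g e1
      · omega
    · simp only [iff_true] at e1
      rintro (⟨g, -⟩ | ⟨-, g⟩)
      · omega
      · exact e1 g
  rw [wP_op hCl hmix hncl, hf.ov hlt c1.1 c1.2 hmix, sub_self, Real.sin_zero, zero_div]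

end gen

theorem card_dsJz7 (n z : ℕ) : (dsJz n z).card ≤ 7 := by
  unfold dsJz
  exact (card_insert_le _ _).trans (Nat.succ_le_succ card_le_six)

theorem hs_le {ω : Cfg} {S : Set Cfg} : 0 ≤ S.indicator (1 : Cfg → ℝ) ω ∧
    S.indicator (1 : Cfg → ℝ) ω ≤ 1 := by
  by_cases h : ω ∈ S
  · rw [Set.indicator_of_mem h]
    exact ⟨zero_le_one, le_rfl⟩
  · rw [Set.indicator_of_notMem h]
    exact ⟨le_rfl, zero_le_one⟩

/-- The local factor at `z`. -/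
theorem TX_ds (hs : Real.sin θ ≠ 0) (hc : Real.cos θ ≠ 0) (hn : 0 < n) (a : ℤ × ℤ) {ρ : ℕ → ℝ}
    (hf : PhR2 θ w n z ρ) (hz : MidW w n z)
    (hp : Even ((dsq n a (z : ZMod (4 * (2 * n)))).1 + (dsq n a (z : ZMod (4 * (2 * n)))).2) ↔
      w = true) {r : ℤ} (h2 : 0 ≤ r) (h3 : r + 2 < n) (ω : Cfg) :
    TX (wP θ (bt θ) (dsq n a) (dsD n a) (4 * n) ρ) (dsD n a)
        (dsq n a (z : ZMod (4 * (2 * n)))) r ω =
      (NS (dsq n a) (dsD n a) z z r).indicator 1 ω := by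
  obtain ⟨hz1, hz2⟩ := id hz
  have hsw : (w = false ∧ sW w n = n) ∨ (w = true ∧ sW w n = 5 * n) := by
    unfold sW
    cases w <;> simp
  refine TX_o (ds_poly hn a) (ds_encl hn a) hs hc (cos_bt θ) (c := w)
    (wn_ds hn a hz (R := r + 1) (by omega)) h2 le_rfl (by omega) (by omega) ?_ ?_
    (fun j j1 j2 j3 => hf.jump hz (R := r + 1) (by omega) j1 j2 j3) ?_
  · rw [Int.even_iff] at hp
    cases w
    · have e : pr false = 1 := by decide
      rw [e]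
      simp only [Bool.false_eq_true, iff_false] at hp
      omega
    · have e : pr true = 0 := by decide
      rw [e]
      exact hp.2 rfl
  · rcases hsw with ⟨h4, h5⟩ | ⟨h4, h5⟩
    · exact Or.inl ⟨h4, by push_cast; omega⟩
    · exact Or.inr ⟨h4, by push_cast; omega⟩
  · have h4 := hf.ov (x := z - 1) (y := z) (by omega) (by omega) le_rfl (by omega)
    linarith

theorem win_ds {n j x : ℕ} {W : ℤ} (h : Win (4 * (2 * n)) j W x) :
    ((x : ℤ) - j ≤ W ∧ (j : ℤ) - x ≤ W) ∨ 8 * n - W ≤ (x : ℤ) - j ∨ 8 * n - W ≤ (j : ℤ) - x := by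
  unfold Win at h
  push_cast at h
  rcases abs_cases ((x : ℤ) - j) with ⟨h1, h2⟩ | ⟨h1, h2⟩ <;> rw [h1] at h <;> omega

/-- The strands in the box of another centre are not over `z`, or they are mixed. -/
theorem ov_ds {n j x y z : ℕ} {W : ℤ} (hj : j ∈ dsJ n) (hz : MidW w n z) (hW : 2 * W + 2 < n)
    (hx : Win (4 * (2 * n)) j W x) (hy : Win (4 * (2 * n)) j W y) (hyN : y < 8 * n) (hxy : x < y) :
    ¬ (x < z ∧ z ≤ y) ∨ (x < 4 * n ∧ 4 * n ≤ y) := by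
  obtain ⟨hz1, hz2⟩ := id hz
  have hsw : sW w n = n ∨ sW w n = 5 * n := by
    unfold sW
    cases w <;> simp
  have h1 := win_ds hx
  have h2 := win_ds hy
  unfold dsJ at hj
  simp only [mem_insert, mem_singleton] at hj
  by_contra hcon
  push Not at hcon
  obtain ⟨⟨c1, c2⟩, c3⟩ := hcon
  rcases hj with rfl | rfl | rfl | rfl | rfl | rfl <;> push_cast at h1 h2 <;>
    rcases hsw with e | e <;> rw [e] at hz1 hz2 <;> omega

/-- The positive centres. -/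
theorem pos_ds (h0 : 0 < θ) (h1 : θ < Real.pi / 2) (hn : 0 < n) (a : ℤ × ℤ) {ρ : ℕ → ℝ}
    (hf : PhR2 θ w n z ρ) (hz : MidW w n z) (hG : GeoP n (4 * (2 * n)) (dsq n a)) {j : ℕ}
    (hj : j ∈ dsJ n) {r : ℤ} (hr : 4 * r + 10 < n) (hr0 : 0 ≤ r) :
    ∀ ω : Cfg, ∀ A ∈ pcs ω (dsD n a),
      (∀ e ∈ A, hdv e ∈ Bq (dsq n a (j : ZMod (4 * (2 * n)))) r) →
      wl θ ≤ wP θ (bt θ) (dsq n a) (dsD n a) (4 * n) ρ A := by
  refine pos_of h0 h1 hG (ds_poly hn a) (ds_encl hn a) (c := j) ?_ (by omega) ?_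
  · unfold dsJ at hj
    simp only [mem_insert, mem_singleton] at hj
    omega
  · intro x y hxy hyN hx hy _
    exact hf.sg hxy (ov_ds hj hz (by omega) hx hy (by omega) hxy)

/-- The radii. -/
theorem rad_ds {ε : ℝ} (hε : 0 < ε) (hε1 : ε ≤ 1 / 64) : ∃ n₀ : ℕ, ∀ n : ℕ, n₀ ≤ n →
    ∃ r : ℕ, ⌊ε * (n : ℝ)⌋ = (r : ℤ) ∧ 64 ≤ r ∧ 64 * r ≤ n ∧ 2 * n ≤ ⌈4 / ε⌉₊ * r := by
  obtain ⟨n₀, hn₀⟩ := exists_nat_ge (65 / ε)
  refine ⟨n₀, fun n hn => ⟨⌊ε * (n : ℝ)⌋₊, ?_, ?_, ?_, ?_⟩⟩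
  · rw [Int.natCast_floor_eq_floor (by positivity)]
  all_goals
    have hεn : 65 ≤ ε * n := by
      have h3 : (n₀ : ℝ) ≤ n := by exact_mod_cast hn
      have h4 := hn₀.trans h3
      rw [div_le_iff₀ hε] at h4
      linarith
    have hr1 : (⌊ε * (n : ℝ)⌋₊ : ℝ) ≤ ε * n := Nat.floor_le (by positivity)
    have hr2 : ε * n < ⌊ε * (n : ℝ)⌋₊ + 1 := Nat.lt_floor_add_one _
  · exact Nat.le_floor (by push_cast; linarith)
  · have : ((64 * ⌊ε * (n : ℝ)⌋₊ : ℕ) : ℝ) ≤ (n : ℝ) := by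
      push_cast
      nlinarith [Nat.cast_nonneg (α := ℝ) n]
    exact_mod_cast this
  · have h3 : 4 / ε ≤ (⌈4 / ε⌉₊ : ℝ) := Nat.le_ceil _
    have h4 : ε * n / 2 ≤ ⌊ε * (n : ℝ)⌋₊ := by linarith
    have h5 : (2 * n : ℝ) = 4 / ε * (ε * n / 2) := by
      field_simp
      ring
    have h6 : ((2 * n : ℕ) : ℝ) ≤ ((⌈4 / ε⌉₊ * ⌊ε * (n : ℝ)⌋₊ : ℕ) : ℝ) := by
      push_cast
      rw [h5]
      exact mul_le_mul h3 h4 (by positivity) (by positivity)
    exact_mod_cast h6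

/-- **The lower bound**, for phases with a positive jump at `z`. -/
theorem low_r2 (h0 : 0 < θ) (h1 : Ang θ) (hR : RSW (2 * Real.cos θ))
    (hS : SRSW (2 * Real.cos θ)) (w : Bool) (ρf : ℕ → ℕ → ℕ → ℝ)
    (hf : ∀ n z : ℕ, 0 < n → MidW w n z → PhR2 θ w n z (ρf n z)) :
    ∃ ρ₁ : ℝ, 0 < ρ₁ ∧ ∀ ρ : ℝ, 0 < ρ → ρ ≤ ρ₁ →
    ∃ (c : ℝ) (n₀ : ℕ), 0 < c ∧ ∀ n : ℕ, n₀ ≤ n → ∀ (p : Bool) (z : ℕ), MidW w n z →
      (Even ((dsq n (ev p) (z : ZMod (4 * (2 * n)))).1 +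
        (dsq n (ev p) (z : ZMod (4 * (2 * n)))).2) ↔ w = true) →
      ∀ η : Cfg, Dob η (dsD n (ev p)) (dsq n (ev p)) (4 * n) →
      c * ∏ j ∈ dsJz n z, (dsP n (ev p) (ρf n z) (dsJz n z)).e θ (bt θ) η ⌊ρ * n⌋ j ≤
        VP θ (bt θ) (dsP n (ev p) (ρf n z) (dsJz n z)) := by
  have hK := h1.kit
  have hV : VRS (2 * Real.cos θ) := N.NET.vrs_of hK.pos hK.le (N.vr hK)
  obtain ⟨σ, R, hσ, hσ1, hrg⟩ := ds_rg' 7 (σ₀ := 1 / 64) (by norm_num)
  obtain ⟨ρ₁, hρ₁, H⟩ := low_pd h0 h1 (cos_bt θ) hR hS R 7 (wl_pos h0 h1.lt) hσ one_pos le_rfl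
    le_rfl
  refine ⟨min ρ₁ (1 / 64), lt_min hρ₁ (by norm_num), fun ρ hρ hρ1 => ?_⟩
  obtain ⟨ε, hε, hερ, H⟩ := H ρ hρ (hρ1.trans (min_le_left _ _))
  have hε8 : ε ≤ 1 / 64 := hερ.trans (hρ1.trans (min_le_right _ _))
  obtain ⟨c1, hc1, Hr⟩ := reach_ds hK.pos hK.le hV ⌈4 / ε⌉₊
  obtain ⟨c, n₁, hc, H⟩ := H c1 hc1
  obtain ⟨n₂, hn₂⟩ := eventually_atTop.1 hrg
  obtain ⟨n₃, hn₃⟩ := rad_ds hε hε8
  obtain ⟨n₄, hn₄⟩ := rad_ds hσ hσ1
  refine ⟨c, max (max n₁ n₂) (max (max n₃ n₄) 1000), hc, fun n hn p z hz hpar η' hη' => ?_⟩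
  have g1 : n₁ ≤ n := (le_max_left _ _).trans ((le_max_left _ _).trans hn)
  have g2 : n₂ ≤ n := (le_max_right _ _).trans ((le_max_left _ _).trans hn)
  have g3 : n₃ ≤ n := (le_max_left _ _).trans ((le_max_left _ _).trans ((le_max_right _ _).trans hn))
  have g5 : n₄ ≤ n := (le_max_right _ _).trans ((le_max_left _ _).trans ((le_max_right _ _).trans hn))
  have g4 : 1000 ≤ n := (le_max_right _ _).trans ((le_max_right _ _).trans hn)
  have hn0 : 0 < n := by omega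
  obtain ⟨a, ha⟩ : ∃ a, a = ev p := ⟨_, rfl⟩
  rw [← ha] at hpar hη' ⊢
  obtain ⟨η, hη⟩ := hn₂ n g2 a
  obtain ⟨hz1, hz2⟩ := id hz
  have hs : (w = false ∧ sW w n = n) ∨ (w = true ∧ sW w n = 5 * n) := by
    unfold sW
    cases w <;> simp
  have hph := hf n z hn0 hz
  obtain ⟨L, hE, hL⟩ := hph.L
  -- the radii
  obtain ⟨r, hrZ, hr64, hr4, hrM⟩ := hn₃ n g3
  obtain ⟨s, hsZ, -, hs4, -⟩ := hn₄ n g5
  have hσN : ⌊σ * (n : ℝ)⌋₊ = s := by
    have := Int.natCast_floor_eq_floor (a := σ * (n : ℝ)) (by positivity)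
    rw [hsZ] at this
    exact_mod_cast this
  -- the data are regular
  have hP : (dsP n a (ρf n z) (dsJz n z)).Rg n σ R 7 η := by
    refine hη (ρf n z) (dsJz n z) (near_ds hn0 hE ?_ ?_ hL) (sep_dsz hn0 (by omega) (by omega))
      (card_dsJz7 n z)
    · unfold dsJ dsJz
      intro j
      simp only [mem_insert, mem_singleton]
      tauto
    · unfold dsJz
      simp only [mem_insert, mem_singleton]
      omega
  have hdis : Disjoint (dsJ n) {z} := by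
    rw [disjoint_singleton_right]
    unfold dsJ
    simp only [mem_insert, mem_singleton]
    omega
  refine H n g1 (dsP n a (ρf n z) (dsJz n z)) η (dsJ n) {z} hP (cenJ n z) hdis ?_ ?_ ?_
    ((HS (dsq n a) (dsD n a) (4 * n) z).indicator 1) (fun ω => hs_le) ?_ ?_ η' hη'
  · -- positive weights
    intro j hj
    rw [hsZ]
    exact pos_ds h0 h1.lt hn0 a hph hz hP.ok.geo hj (by omega) (by omega)
  · -- the killed centre
    intro j hj
    rw [mem_singleton] at hj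
    subst hj
    rw [hsZ]
    exact ⟨_, kil_of_ind j le_rfl le_rfl (m := 1) le_rfl le_rfl fun r' ω h2 h3 =>
      Or.inl (TX_ds h1.sin_pos.ne' h1.cos_pos.ne' hn0 a hph hz hpar (by omega) (by omega) ω)⟩
  · -- the product is nonnegative
    intro ω
    show 0 ≤ ∏ A ∈ pcs ω (dsD n a), wP θ (bt θ) (dsq n a) (dsD n a) (4 * n) (ρf n z) A
    by_cases hω : ω ∈ HS (dsq n a) (dsD n a) (4 * n) z
    · exact prod_nonneg fun A hA => (wl_pos h0 h1.lt).le.trans (w_hs h0 h1.lt hn0 a hph hω A hA)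
    · obtain ⟨A, hA, h2⟩ := w_zero hn0 a hph hz hpar hω
      rw [prod_eq_zero hA h2]
  · -- the test function
    intro ω hω _
    refine w_hs h0 h1.lt hn0 a hph ?_
    by_contra h2
    exact hω (Set.indicator_of_notMem h2 _)
  · intro F hF hFl
    rw [hrZ] at hFl ⊢
    have e1 : ∀ ω, ∏ j ∈ ({z} : Finset ℕ), TX (wP θ (bt θ) (dsq n a) (dsD n a) (4 * n) (ρf n z))
        (dsD n a) (dsq n a (j : ZMod (4 * (2 * n)))) r ω =
        (NS (dsq n a) (dsD n a) z z r).indicator 1 ω := by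
      intro ω
      rw [prod_singleton]
      exact TX_ds h1.sin_pos.ne' h1.cos_pos.ne' hn0 a hph hz hpar (by omega) (by omega) ω
    have hpw : ((dsq n a (z : ZMod (4 * (2 * n)))).1 + (dsq n a (z : ZMod (4 * (2 * n)))).2) % 2 =
        pr w := by
      rw [Int.even_iff] at hpar
      cases w
      · have e : pr false = 1 := by decide
        rw [e]
        simp only [Bool.false_eq_true, iff_false] at hpar
        omega
      · have e : pr true = 0 := by decide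
        rw [e]
        exact hpar.2 rfl
    have key := Hr (a := a) (η := η) (c := w) hz hP.dob.good hpw hr64 (by omega) hrM F hF hFl
    change c1 * Ex (2 * Real.cos θ) (dsD n a) η (fun ω => F ω * ∏ j ∈ ({z} : Finset ℕ),
        TX (wP θ (bt θ) (dsq n a) (dsD n a) (4 * n) (ρf n z)) (dsD n a)
          (dsq n a (j : ZMod (4 * (2 * n)))) r ω) ≤
      Ex (2 * Real.cos θ) (dsD n a) η (fun ω => F ω * (∏ j ∈ ({z} : Finset ℕ),
        TX (wP θ (bt θ) (dsq n a) (dsD n a) (4 * n) (ρf n z)) (dsD n a)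
          (dsq n a (j : ZMod (4 * (2 * n)))) r ω) *
        (HS (dsq n a) (dsD n a) (4 * n) z).indicator 1 ω)
    simp only [e1]
    refine key.trans (FKA.Ex_mono hK.pos fun S _ => ?_)
    rw [mul_assoc]
    refine mul_le_mul_of_nonneg_left ?_ (hF _)
    by_cases h2 : cf (dsD n a) η S ∈ HS (dsq n a) (dsD n a) (4 * n) z
    · have h3 := hs_sub_ns hn0 a hz (R := (r : ℤ)) (by omega) le_rfl h2
      rw [Set.indicator_of_mem h2, Set.indicator_of_mem h3]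
      simp
    · rw [Set.indicator_of_notMem h2, mul_zero]

/-- The phases of the image of R2, `z` on the free arc. -/
theorem phZ_f (h0 : 0 < θ) (hn : 0 < n) (hz : MidW false n z) : PhR2 θ false n z (r2fI θ n z) where
  sg hxy h := sg_r2fi h0 hn hxy h
  ov {x y} hxy h1 h2 h3 := by
    obtain ⟨hz1, hz2⟩ := hz
    unfold sW at hz1 hz2
    simp only [Bool.false_eq_true, if_false] at hz1 hz2
    exact sg_r2fz h0 hn hxy ⟨h1, h2⟩ (by omega)
  L := ⟨[(z, θ), (4 * n, Real.pi / 2 - θ), (5 * n, -(θ / 2)), (7 * n, -(θ / 2))], EqD.rfl, by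
    unfold dsJz
    simp⟩

/-- The phases of the image of R2, `z` on the wired arc. -/
theorem phZ_w (h0 : 0 < θ) (hn : 0 < n) (hz : MidW true n z) : PhR2 θ true n z (r2wI θ n z) where
  sg hxy h := sg_r2wi h0 hn hxy h
  ov {x y} hxy h1 h2 h3 := by
    obtain ⟨hz1, hz2⟩ := hz
    unfold sW at hz1 hz2
    simp only [if_true] at hz1 hz2
    exact sg_r2wz h0 hn hxy ⟨h1, h2⟩ (by omega)
  L := ⟨[(n, -(θ / 2)), (3 * n, -(θ / 2)), (4 * n, Real.pi / 2 - θ), (z, θ)], EqD.rfl, by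
    unfold dsJz
    simp⟩

/-- **The lower bound for R2**, `z` on the free arc, an odd site. -/
theorem low_r2f (h0 : 0 < θ) (h1 : Ang θ) (hR : RSW (2 * Real.cos θ))
    (hS : SRSW (2 * Real.cos θ)) : ∃ ρ₁ : ℝ, 0 < ρ₁ ∧ ∀ ρ : ℝ, 0 < ρ → ρ ≤ ρ₁ →
    ∃ (c : ℝ) (n₀ : ℕ), 0 < c ∧ ∀ n : ℕ, n₀ ≤ n → ∀ (p : Bool) (z : ℕ), 2 * n ≤ z → z ≤ 2 * n + 1 →
      ¬ Even ((dsq n (ev p) (z : ZMod (4 * (2 * n)))).1 + (dsq n (ev p) (z : ZMod (4 * (2 * n)))).2) →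
      ∀ η : Cfg, Dob η (dsD n (ev p)) (dsq n (ev p)) (4 * n) →
      c * ∏ j ∈ dsJz n z, (dsP n (ev p) (r2fI θ n z) (dsJz n z)).e θ (bt θ) η ⌊ρ * n⌋ j ≤
        VP θ (bt θ) (dsP n (ev p) (r2fI θ n z) (dsJz n z)) := by
  obtain ⟨ρ₁, hρ₁, H⟩ := low_r2 h0 h1 hR hS false (r2fI θ) fun n z hn hz => phZ_f h0 hn hz
  refine ⟨ρ₁, hρ₁, fun ρ hρ hρ1 => ?_⟩
  obtain ⟨c, n₀, hc, H⟩ := H ρ hρ hρ1
  refine ⟨c, n₀, hc, fun n hn p z h2 h3 h4 η hη => H n hn p z ⟨?_, ?_⟩ (iff_of_false h4 (by simp))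
    η hη⟩
  · unfold sW
    simp only [Bool.false_eq_true, if_false]
    omega
  · unfold sW
    simp only [Bool.false_eq_true, if_false]
    omega

/-- **The lower bound for R2**, `z` on the wired arc, an even site. -/
theorem low_r2w (h0 : 0 < θ) (h1 : Ang θ) (hR : RSW (2 * Real.cos θ))
    (hS : SRSW (2 * Real.cos θ)) : ∃ ρ₁ : ℝ, 0 < ρ₁ ∧ ∀ ρ : ℝ, 0 < ρ → ρ ≤ ρ₁ →
    ∃ (c : ℝ) (n₀ : ℕ), 0 < c ∧ ∀ n : ℕ, n₀ ≤ n → ∀ (p : Bool) (z : ℕ), 6 * n ≤ z → z ≤ 6 * n + 1 →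
      Even ((dsq n (ev p) (z : ZMod (4 * (2 * n)))).1 + (dsq n (ev p) (z : ZMod (4 * (2 * n)))).2) →
      ∀ η : Cfg, Dob η (dsD n (ev p)) (dsq n (ev p)) (4 * n) →
      c * ∏ j ∈ dsJz n z, (dsP n (ev p) (r2wI θ n z) (dsJz n z)).e θ (bt θ) η ⌊ρ * n⌋ j ≤
        VP θ (bt θ) (dsP n (ev p) (r2wI θ n z) (dsJz n z)) := by
  obtain ⟨ρ₁, hρ₁, H⟩ := low_r2 h0 h1 hR hS true (r2wI θ) fun n z hn hz => phZ_w h0 hn hz
  refine ⟨ρ₁, hρ₁, fun ρ hρ hρ1 => ?_⟩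
  obtain ⟨c, n₀, hc, H⟩ := H ρ hρ hρ1
  refine ⟨c, n₀, hc, fun n hn p z h2 h3 h4 η hη => H n hn p z ⟨?_, ?_⟩ (iff_of_true h4 rfl) η hη⟩
  · unfold sW
    simp only [if_true]
    omega
  · unfold sW
    simp only [if_true]
    omega

end Vale.Agent.P167.N.QL
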