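import Vale.Agent.P167.N.QL.KcF
import Vale.Agent.P167.N.QL.KcR
import Vale.Agent.P167.N.QL.KcB
import Vale.Agent.P167.N.QL.Inv
import Vale.Agent.P167.N.QL.LkC
import Vale.Agent.P167.N.QL.LowR
import Vale.Agent.P167.N.QL.D0

/-!
# P167, the range `0 < q < 1`, block Q-LAM: the local inputs of the assembly (imports)
-/
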