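import Vale.Agent.P167.N.QL.Al8
import Vale.Agent.P167.N.QL.InS

/-!
# P167, the range `0 < q < 1`, block Q-LAM: assembly, the inequalities for the Dobrushin square
-/

set_option autoImplicit false

namespace Vale.Agent.P167.N.QL

open Finset Filter Vale.Agent.P167.BR Vale.Agent.P167.FK
open Vale.Agent.P167.E6 (IsPolygon Encloses face dir)
open Vale.Agent.P167.H718 (Dob rc IsCl)
open Vale.Agent.P167.H192.Q (SRSW)
open Vale.Agent.P167.H975 (TX)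

variable {θ : ℝ}

/-! ### real numbers -/

/-- Four values. -/
theorem four_val {A₁ A₂ B₁ B₂ V₁ V₂ W₁ W₂ C : ℝ} (hC : 0 < C) (hA₂ : 0 ≤ A₂) (hA₁ : 0 ≤ A₁)
    (hB₂ : 0 ≤ B₂) (hW₁ : 0 ≤ W₁) (h1 : A₁ ≤ C * V₁) (h2 : A₂ ≤ C * V₂)
    (h : V₁ * V₂ = W₁ * W₂) (h3 : W₁ ≤ C * B₁) (h4 : W₂ ≤ C * B₂) :
    A₁ * A₂ ≤ C ^ 4 * (B₁ * B₂) := by
  have hV₁ : 0 ≤ V₁ := by
    by_contra hc
    push Not at hc
    nlinarith
  calc A₁ * A₂ ≤ (C * V₁) * (C * V₂) :=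
        mul_le_mul h1 h2 hA₂ (mul_nonneg hC.le hV₁)
    _ = C ^ 2 * (W₁ * W₂) := by rw [← h]; ring
    _ ≤ C ^ 2 * (W₁ * (C * B₂)) :=
        mul_le_mul_of_nonneg_left (mul_le_mul_of_nonneg_left h4 hW₁) (by positivity)
    _ = C ^ 3 * (W₁ * B₂) := by ring
    _ ≤ C ^ 3 * (C * B₁ * B₂) :=
        mul_le_mul_of_nonneg_left (mul_le_mul_of_nonneg_right h3 hB₂) (by positivity)
    _ = _ := by ring

/-- The algebra of R2. -/
theorem r2_alg {VI VR WI WR J J' Jc Jc' F F' G G' b ζ c C : ℝ} (hc : 0 < c) (hC : 0 < C)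
    (hJ : 0 < J) (hJ' : 0 < J') (hJc : 0 < Jc) (hF : 0 < F) (hG : 0 < G)
    (hG' : 0 < G') (hζ : 0 ≤ ζ) (hVR : 0 ≤ VR) (hWI : 0 ≤ WI)
    (h : VI * VR = WI * WR) (h1 : c * (J' * G' * b) ≤ VI) (h2 : J ≤ C * VR)
    (h3 : WI ≤ C * (Jc' * F' * G')) (h4 : WR ≤ C * (Jc * F * ζ))
    (h5 : (Jc' * F' * G') * (Jc * F * G) ≤ C ^ 4 * (J' * J)) :
    b * (G' * G) ≤ C ^ 7 / c * ζ := by
  by_cases hb : b ≤ 0
  · have e1 : b * (G' * G) ≤ 0 := mul_nonpos_of_nonpos_of_nonneg hb (by positivity)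
    have e2 : 0 ≤ C ^ 7 / c * ζ := by positivity
    linarith
  push Not at hb
  have k1 : c * (J' * G' * b) * J ≤ C * (VI * VR) := by
    calc c * (J' * G' * b) * J ≤ c * (J' * G' * b) * (C * VR) :=
          mul_le_mul_of_nonneg_left h2 (by positivity)
      _ = C * (c * (J' * G' * b) * VR) := by ring
      _ ≤ C * (VI * VR) := mul_le_mul_of_nonneg_left (mul_le_mul_of_nonneg_right h1 hVR) hC.le
  have k2 : WI * WR ≤ C ^ 2 * ((Jc' * F' * G') * (Jc * F * ζ)) := by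
    calc WI * WR ≤ WI * (C * (Jc * F * ζ)) := mul_le_mul_of_nonneg_left h4 hWI
      _ ≤ (C * (Jc' * F' * G')) * (C * (Jc * F * ζ)) :=
          mul_le_mul_of_nonneg_right h3 (by positivity)
      _ = _ := by ring
  have k3 : c * (J' * G' * b) * J * G ≤ C ^ 7 * (J' * J) * ζ := by
    calc c * (J' * G' * b) * J * G ≤ C * (VI * VR) * G :=
          mul_le_mul_of_nonneg_right k1 hG.le
      _ = C * (WI * WR) * G := by rw [h]
      _ ≤ C * (C ^ 2 * ((Jc' * F' * G') * (Jc * F * ζ))) * G :=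
          mul_le_mul_of_nonneg_right (mul_le_mul_of_nonneg_left k2 hC.le) hG.le
      _ = C ^ 3 * ((Jc' * F' * G') * (Jc * F * G)) * ζ := by ring
      _ ≤ C ^ 3 * (C ^ 4 * (J' * J)) * ζ := by
          refine mul_le_mul_of_nonneg_right (mul_le_mul_of_nonneg_left h5 (by positivity)) hζ
      _ = _ := by ring
  have hJJ : 0 < J' * J := mul_pos hJ' hJ
  rw [div_mul_eq_mul_div, le_div_iff₀ hc]
  have k4 : (b * (G' * G) * c) * (J' * J) ≤ (C ^ 7 * ζ) * (J' * J) := by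
    calc (b * (G' * G) * c) * (J' * J) = c * (J' * G' * b) * J * G := by ring
      _ ≤ C ^ 7 * (J' * J) * ζ := k3
      _ = _ := by ring
  exact le_of_mul_le_mul_right k4 hJJ

/-! ### the values -/

section

variable (θ) (n : ℕ) (η : Bool → Cfg) (r : ℤ) (p : Bool)

/-- The free corners. -/
noncomputable def dF : ℝ :=
  dE θ n (ev p) (fwR θ n) (η p) r n * dE θ n (ev p) (fwR θ n) (η p) r (3 * n)

/-- The wired corners. -/
noncomputable def dG : ℝ :=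
  dE θ n (ev p) (fwI θ n) (η p) r (5 * n) * dE θ n (ev p) (fwI θ n) (η p) r (7 * n)

/-- Base and junction. -/
noncomputable def dJ (ρ : ℕ → ℝ) : ℝ :=
  dE θ n (ev p) ρ (η p) r 0 * dE θ n (ev p) ρ (η p) r (4 * n)

end

/-- The radius is small. -/
theorem rad_le {ρ : ℝ} (hρ1 : ρ ≤ 1 / 200) {n : ℕ} (hn : 12000 ≤ n) :
    2 * (⌊ρ * n⌋ + 1) ≤ ((n / 2 : ℕ) : ℤ) := by
  have hfl := fl200 hn
  have h2 : ⌊ρ * (n : ℝ)⌋ ≤ ⌊(1 / 200 : ℝ) * n⌋ :=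
    Int.floor_le_floor (mul_le_mul_of_nonneg_right hρ1 (Nat.cast_nonneg n))
  push_cast at hfl ⊢
  omega

theorem dE_pos_of (h0 : 0 < θ) (h1 : Ang θ) {n : ℕ} {φ : ℕ → ℝ} (hφ : DSp θ n φ)
    (hn : 0 < n) (a : ℤ × ℤ) (η : Cfg) (r : ℤ) (j : ℕ) : 0 < dE θ n a φ η r j :=
  e_pos (P := dsP n a φ ∅) h1.kit.pos (wl_pos h0 h1.lt)
    fun ω A hA _ => hφ.pos h0 h1.lt hn a ω A hA

/-- **The inequalities of the Dobrushin square.** -/
theorem ds_ineq (h0 : 0 < θ) (h1 : Ang θ) (hR : RSW (2 * Real.cos θ))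
    (hS : SRSW (2 * Real.cos θ)) :
    ∃ ρ₁ : ℝ, 0 < ρ₁ ∧ ∀ ρ : ℝ, 0 < ρ → ρ ≤ ρ₁ → ∃ (C : ℝ) (n₀ : ℕ), 0 < C ∧ ∀ n : ℕ, n₀ ≤ n →
      ∀ η : Bool → Cfg, (∀ p, Dob (η p) (dsD n (ev p)) (dsq n (ev p)) (4 * n)) →
      (∀ p : Bool, dG θ n η ⌊ρ * n⌋ p * dG θ n η ⌊ρ * n⌋ (!p) ≤
        C * (dF θ n η ⌊ρ * n⌋ p * dF θ n η ⌊ρ * n⌋ (!p))) ∧
      (∀ p : Bool, dF θ n η ⌊ρ * n⌋ p * dF θ n η ⌊ρ * n⌋ (!p) ≤
        C * (dG θ n η ⌊ρ * n⌋ p * dG θ n η ⌊ρ * n⌋ (!p))) ∧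
      (∀ (p : Bool) (z : ℕ), 2 * n ≤ z → z ≤ 2 * n + 1 →
        Even ((dsq n (ev p) (z : ZMod (4 * (2 * n)))).1 +
          (dsq n (ev p) (z : ZMod (4 * (2 * n)))).2) →
        dE θ n (ev (!p)) (r2fI θ n z) (η (!p)) ⌊ρ * n⌋ z *
            (dG θ n η ⌊ρ * n⌋ (!p) * dG θ n η ⌊ρ * n⌋ p) ≤
          C * dE θ n (ev p) (r2fR θ n z) (η p) ⌊ρ * n⌋ z) ∧
      (∀ (p : Bool) (z : ℕ), 6 * n ≤ z → z ≤ 6 * n + 1 →
        ¬ Even ((dsq n (ev p) (z : ZMod (4 * (2 * n)))).1 +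
          (dsq n (ev p) (z : ZMod (4 * (2 * n)))).2) →
        dE θ n (ev (!p)) (r2wI θ n z) (η (!p)) ⌊ρ * n⌋ z *
            (dF θ n η ⌊ρ * n⌋ (!p) * dF θ n η ⌊ρ * n⌋ p) ≤
          C * dE θ n (ev p) (r2wR θ n z) (η p) ⌊ρ * n⌋ z) := by
  obtain ⟨ρ₁, hρ₁, H1⟩ := ds_bd_pos h0 h1 hR hS
  obtain ⟨ρ₂, hρ₂, H2⟩ := ds_up_r2 h0 h1 hR hS
  obtain ⟨ρ₃, hρ₃, H3⟩ := low_r2f h0 h1 hR hS
  obtain ⟨ρ₄, hρ₄, H4⟩ := low_r2w h0 h1 hR hS
  refine ⟨min (min ρ₁ ρ₂) (min (min ρ₃ ρ₄) (1 / 200)), by positivity, fun ρ hρ hρ' => ?_⟩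
  obtain ⟨C₁, n₁, hC₁, H1⟩ := H1 ρ hρ (hρ'.trans ((min_le_left _ _).trans (min_le_left _ _)))
  obtain ⟨C₂, n₂, hC₂, H2⟩ := H2 ρ hρ (hρ'.trans ((min_le_left _ _).trans (min_le_right _ _)))
  obtain ⟨c₃, n₃, hc₃, H3⟩ := H3 ρ hρ (hρ'.trans ((min_le_right _ _).trans
    ((min_le_left _ _).trans (min_le_left _ _))))
  obtain ⟨c₄, n₄, hc₄, H4⟩ := H4 ρ hρ (hρ'.trans ((min_le_right _ _).trans
    ((min_le_left _ _).trans (min_le_right _ _))))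
  have hρ200 : ρ ≤ 1 / 200 := hρ'.trans ((min_le_right _ _).trans (min_le_right _ _))
  obtain ⟨M, hM⟩ : ∃ M : ℝ, M = max C₁ C₂ := ⟨_, rfl⟩
  have hM1 : C₁ ≤ M := by rw [hM]; exact le_max_left _ _
  have hM2 : C₂ ≤ M := by rw [hM]; exact le_max_right _ _
  have hM0 : 0 < M := hC₁.trans_le hM1
  refine ⟨max (M ^ 4) (max (M ^ 7 / c₃) (M ^ 7 / c₄)), max (max n₁ n₂) (max (max n₃ n₄) 12000),
    lt_max_of_lt_left (by positivity), fun n hn η hη => ?_⟩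
  have g1 : n₁ ≤ n := le_trans (le_trans (le_max_left _ _) (le_max_left _ _)) hn
  have g2 : n₂ ≤ n := le_trans (le_trans (le_max_right _ _) (le_max_left _ _)) hn
  have g3 : n₃ ≤ n := le_trans (le_trans (le_trans (le_max_left _ _) (le_max_left _ _))
    (le_max_right _ _)) hn
  have g4 : n₄ ≤ n := le_trans (le_trans (le_trans (le_max_right _ _) (le_max_left _ _))
    (le_max_right _ _)) hn
  have g5 : 12000 ≤ n := le_trans (le_trans (le_max_right _ _) (le_max_right _ _)) hn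
  have hn0 : 0 < n := by omega
  have hr := rad_le hρ200 g5
  obtain ⟨r, hr'⟩ : ∃ r : ℤ, r = ⌊ρ * (n : ℝ)⌋ := ⟨_, rfl⟩
  rw [← hr'] at hr ⊢
  have hs := h1.sin_pos
  have hc := h1.cos_pos
  have hgeo : ∀ p : Bool, GeoP (2 * n) (4 * (2 * n)) (dsq n (ev p)) := fun p => by
    obtain ⟨η₀, hL⟩ := ds_lkD g5 (ev p)
    exact hL.geo
  have P1 : DSp θ n (r1R θ n) := Or.inl rfl
  have P2 : DSp θ n (r1I θ n) := Or.inr (Or.inl rfl)
  have P3 : DSp θ n (fwR θ n) := Or.inr (Or.inr (Or.inl rfl))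
  have P4 : DSp θ n (fwI θ n) := Or.inr (Or.inr (Or.inr rfl))
  have pos : ∀ (φ : ℕ → ℝ), DSp θ n φ → ∀ (p : Bool) (j : ℕ), 0 < dE θ n (ev p) φ (η p) r j :=
    fun φ hφ p j => dE_pos_of h0 h1 hφ hn0 _ _ _ _
  have hF : ∀ p, 0 < dF θ n η r p := fun p => mul_pos (pos _ P3 p _) (pos _ P3 p _)
  have hGp : ∀ p, 0 < dG θ n η r p := fun p => mul_pos (pos _ P4 p _) (pos _ P4 p _)
  have hJ : ∀ φ, DSp θ n φ → ∀ p, 0 < dJ θ n η r p φ := fun φ hφ p =>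
    mul_pos (pos _ hφ p _) (pos _ hφ p _)
  -- the bounds
  have V1u : ∀ p, VP θ (bt θ) (dsP n (ev p) (r1R θ n) (dsJ n)) ≤ M * dJ θ n η r p (r1R θ n) := by
    intro p
    have h := (H1 n g1 (ev p) _ P1 (η p) (hη p)).1
    rw [← hr', pr_r1R g5 (hgeo p) hc hs.ne' hr] at h
    exact h.trans (mul_le_mul_of_nonneg_right hM1 (hJ _ P1 p).le)
  have V1l : ∀ p, dJ θ n η r p (r1R θ n) ≤ M * VP θ (bt θ) (dsP n (ev p) (r1R θ n) (dsJ n)) := by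
    intro p
    have h := (H1 n g1 (ev p) _ P1 (η p) (hη p)).2
    rw [← hr', pr_r1R g5 (hgeo p) hc hs.ne' hr] at h
    have hV : 0 ≤ VP θ (bt θ) (dsP n (ev p) (r1R θ n) (dsJ n)) := by
      by_contra hcon
      push Not at hcon
      have := hJ _ P1 p
      unfold dJ at this
      nlinarith
    exact h.trans (mul_le_mul_of_nonneg_right hM1 hV)
  have V1p : ∀ p, 0 ≤ VP θ (bt θ) (dsP n (ev p) (r1R θ n) (dsJ n)) := fun p => by
    by_contra hcon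
    push Not at hcon
    have h2 := V1l p
    have h3 := hJ _ P1 p
    nlinarith
  have e2 : ∀ p, ∏ j ∈ dsJ n, (dsP n (ev p) (r1I θ n) (dsJ n)).e θ (bt θ) (η p) r j =
      dJ θ n η r p (r1I θ n) * dF θ n η r p * dG θ n η r p := by
    intro p
    rw [pr_r1I g5 (hgeo p) hc hr]
    unfold dJ dF dG
    ring
  have V2l : ∀ p, dJ θ n η r p (r1I θ n) * dF θ n η r p * dG θ n η r p ≤
      C₁ * VP θ (bt θ) (dsP n (ev p) (r1I θ n) (dsJ n)) := by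
    intro p
    have h := (H1 n g1 (ev p) _ P2 (η p) (hη p)).2
    rwa [← hr', e2] at h
  have hpos2 : ∀ p, 0 < dJ θ n η r p (r1I θ n) * dF θ n η r p * dG θ n η r p := fun p =>
    mul_pos (mul_pos (hJ _ P2 p) (hF p)) (hGp p)
  have V2p : ∀ p, 0 ≤ VP θ (bt θ) (dsP n (ev p) (r1I θ n) (dsJ n)) := fun p => by
    by_contra hcon
    push Not at hcon
    have h2 := V2l p
    have h3 := hpos2 p
    nlinarith
  have V2l' : ∀ p, dJ θ n η r p (r1I θ n) * dF θ n η r p * dG θ n η r p ≤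
      M * VP θ (bt θ) (dsP n (ev p) (r1I θ n) (dsJ n)) := fun p =>
    (V2l p).trans (mul_le_mul_of_nonneg_right hM1 (V2p p))
  have V2u : ∀ p, VP θ (bt θ) (dsP n (ev p) (r1I θ n) (dsJ n)) ≤
      M * (dJ θ n η r p (r1I θ n) * dF θ n η r p * dG θ n η r p) := by
    intro p
    have h := (H1 n g1 (ev p) _ P2 (η p) (hη p)).1
    rw [← hr', e2] at h
    exact h.trans (mul_le_mul_of_nonneg_right hM1 (hpos2 p).le)
  have e3 : ∀ p, ∏ j ∈ dsJ n, (dsP n (ev p) (fwR θ n) (dsJ n)).e θ (bt θ) (η p) r j =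
      dJ θ n η r p (fwR θ n) * dF θ n η r p := by
    intro p
    rw [pr_fwR g5 (hgeo p) hc hs.ne' hr]
    unfold dJ dF
    ring
  have e4 : ∀ p, ∏ j ∈ dsJ n, (dsP n (ev p) (fwI θ n) (dsJ n)).e θ (bt θ) (η p) r j =
      dJ θ n η r p (fwR θ n) * dG θ n η r p := by
    intro p
    rw [pr_fwI g5 (hgeo p) hc hs.ne' hr]
    unfold dJ dG
    ring
  have q3 : ∀ p, 0 < dJ θ n η r p (fwR θ n) * dF θ n η r p := fun p => mul_pos (hJ _ P3 p) (hF p)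
  have q4 : ∀ p, 0 < dJ θ n η r p (fwR θ n) * dG θ n η r p := fun p => mul_pos (hJ _ P3 p) (hGp p)
  have V3 : ∀ p, VP θ (bt θ) (dsP n (ev p) (fwR θ n) (dsJ n)) ≤
        C₁ * (dJ θ n η r p (fwR θ n) * dF θ n η r p) ∧
      dJ θ n η r p (fwR θ n) * dF θ n η r p ≤
        C₁ * VP θ (bt θ) (dsP n (ev p) (fwR θ n) (dsJ n)) := by
    intro p
    have h := H1 n g1 (ev p) _ P3 (η p) (hη p)
    rwa [← hr', e3] at h
  have V4 : ∀ p, VP θ (bt θ) (dsP n (ev p) (fwI θ n) (dsJ n)) ≤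
        C₁ * (dJ θ n η r p (fwR θ n) * dG θ n η r p) ∧
      dJ θ n η r p (fwR θ n) * dG θ n η r p ≤
        C₁ * VP θ (bt θ) (dsP n (ev p) (fwI θ n) (dsJ n)) := by
    intro p
    have h := H1 n g1 (ev p) _ P4 (η p) (hη p)
    rwa [← hr', e4] at h
  have V3p : ∀ p, 0 ≤ VP θ (bt θ) (dsP n (ev p) (fwR θ n) (dsJ n)) := fun p => by
    by_contra hcon
    push Not at hcon
    have h2 := (V3 p).2
    have h3 := q3 p
    nlinarith
  have V4p : ∀ p, 0 ≤ VP θ (bt θ) (dsP n (ev p) (fwI θ n) (dsJ n)) := fun p => by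
    by_contra hcon
    push Not at hcon
    have h2 := (V4 p).2
    have h3 := q4 p
    nlinarith
  have hM4 : C₁ ^ 4 ≤ M ^ 4 := pow_le_pow_left₀ hC₁.le hM1 4
  -- the identities
  have I1 : ∀ p, VP θ (bt θ) (dsP n (ev (!p)) (r1I θ n) (dsJ n)) *
      VP θ (bt θ) (dsP n (ev p) (r1I θ n) (dsJ n)) =
      VP θ (bt θ) (dsP n (ev p) (r1R θ n) (dsJ n)) *
        VP θ (bt θ) (dsP n (ev (!p)) (r1R θ n) (dsJ n)) := by
    intro p
    have h := ds_two hs hc hn0 p (r1R θ n) (r1R θ n) (dsJ n) (dsJ n) (dsJ n) (dsJ n)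
    have k1 : ∀ a, VP θ (bt θ) (dsP n a (imR θ (dsT n) (4 * n) (r1R θ n)) (dsJ n)) =
        VP θ (bt θ) (dsP n a (r1I θ n) (dsJ n)) := fun a => VP_eqD (im_r1 hn0)
    rwa [k1, k1] at h
  have I2 : ∀ p, VP θ (bt θ) (dsP n (ev (!p)) (fwI θ n) (dsJ n)) *
      VP θ (bt θ) (dsP n (ev p) (fwI θ n) (dsJ n)) =
      VP θ (bt θ) (dsP n (ev p) (fwR θ n) (dsJ n)) *
        VP θ (bt θ) (dsP n (ev (!p)) (fwR θ n) (dsJ n)) := by
    intro p
    have h := ds_two hs hc hn0 p (fwR θ n) (fwR θ n) (dsJ n) (dsJ n) (dsJ n) (dsJ n)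
    have k1 : ∀ a, VP θ (bt θ) (dsP n a (imR θ (dsT n) (4 * n) (fwR θ n)) (dsJ n)) =
        VP θ (bt θ) (dsP n a (fwI θ n) (dsJ n)) := fun a => VP_eqD (im_fw hn0)
    rwa [k1, k1] at h
  have R1 : ∀ p, (dJ θ n η r (!p) (r1I θ n) * dF θ n η r (!p) * dG θ n η r (!p)) *
      (dJ θ n η r p (r1I θ n) * dF θ n η r p * dG θ n η r p) ≤
      M ^ 4 * (dJ θ n η r (!p) (r1R θ n) * dJ θ n η r p (r1R θ n)) := by
    intro p
    have h := four_val hM0 (hpos2 p).le (hpos2 (!p)).le (hJ _ P1 (!p)).le (V1p p)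
      (V2l' (!p)) (V2l' p) (I1 p) (V1u p) (V1u (!p))
    rwa [mul_comm (dJ θ n η r p (r1R θ n))] at h
  refine ⟨fun p => ?_, fun p => ?_, fun p z hz hz' hpar => ?_, fun p z hz hz' hpar => ?_⟩
  · have h := four_val hC₁ (q4 (!p)).le (q4 p).le (q3 (!p)).le (V3p p)
      (V4 p).2 (V4 (!p)).2 (by rw [mul_comm]; exact I2 p) (V3 p).1 (V3 (!p)).1
    have h' : (dG θ n η r p * dG θ n η r (!p)) *
        (dJ θ n η r p (fwR θ n) * dJ θ n η r (!p) (fwR θ n)) ≤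
        (C₁ ^ 4 * (dF θ n η r p * dF θ n η r (!p))) *
          (dJ θ n η r p (fwR θ n) * dJ θ n η r (!p) (fwR θ n)) := by
      linarith
    have h2 := le_of_mul_le_mul_right h' (mul_pos (hJ _ P3 p) (hJ _ P3 (!p)))
    exact h2.trans (mul_le_mul_of_nonneg_right (hM4.trans (le_max_left _ _))
      (mul_pos (hF p) (hF (!p))).le)
  · have h := four_val hC₁ (q3 (!p)).le (q3 p).le (q4 (!p)).le (V4p p)
      (V3 p).2 (V3 (!p)).2 (by rw [← I2 p, mul_comm]) (V4 p).1 (V4 (!p)).1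
    have h' : (dF θ n η r p * dF θ n η r (!p)) *
        (dJ θ n η r p (fwR θ n) * dJ θ n η r (!p) (fwR θ n)) ≤
        (C₁ ^ 4 * (dG θ n η r p * dG θ n η r (!p))) *
          (dJ θ n η r p (fwR θ n) * dJ θ n η r (!p) (fwR θ n)) := by
      linarith
    have h2 := le_of_mul_le_mul_right h' (mul_pos (hJ _ P3 p) (hJ _ P3 (!p)))
    exact h2.trans (mul_le_mul_of_nonneg_right (hM4.trans (le_max_left _ _))
      (mul_pos (hGp p) (hGp (!p))).le)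
  · -- R2, `z` on the free arc
    have hz2 : 2 * n ≤ z ∧ z ≤ 2 * n + 1 := ⟨hz, hz'⟩
    have hζ : 0 < dE θ n (ev p) (r2fR θ n z) (η p) r z :=
      e_pos (P := dsP n (ev p) (r2fR θ n z) ∅) h1.kit.pos (wl_pos h0 h1.lt)
        (pc_r2f h0 h1.lt g5 (hgeo p) hr hz2 (by unfold dsJz; simp))
    have k1 := H3 n g3 (!p) z hz hz' (by
      rw [ds_par hn0] at hpar ⊢
      cases p <;> simp only [ev, Bool.not_true, Bool.not_false, if_true, Bool.false_eq_true,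
        if_false] at hpar ⊢ <;> rw [Int.even_iff] at hpar ⊢ <;> omega) (η (!p)) (hη (!p))
    rw [← hr', pr_r2fI g5 (hgeo (!p)) hc hs.ne' hr hz2] at k1
    have k2 := H2 n g2 (ev p) z _ (Or.inl ⟨hz2, rfl⟩) (η p) (hη p)
    rw [← hr', pr_r2fR g5 (hgeo p) hc hs.ne' hr hz2] at k2
    have hI := ds_cmp hs hc hn0 p (r2fR θ n z) (r1R θ n) (dsJz n z) (dsJ n) (dsJ n) (dsJz n z)
    have j1 : ∀ a, VP θ (bt θ) (dsP n a (imR θ (dsT n) (4 * n) (r1R θ n)) (dsJ n)) =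
        VP θ (bt θ) (dsP n a (r1I θ n) (dsJ n)) := fun a => VP_eqD (im_r1 hn0)
    have j2 : ∀ a, VP θ (bt θ) (dsP n a (imR θ (dsT n) (4 * n) (r2fR θ n z)) (dsJz n z)) =
        VP θ (bt θ) (dsP n a (r2fI θ n z) (dsJz n z)) := fun a => VP_eqD (im_r2f hn0)
    rw [j1, j2] at hI
    have key := r2_alg (F' := dF θ n η r (!p)) (Jc' := dJ θ n η r (!p) (r1I θ n))
      (J := dJ θ n η r p (r1R θ n)) (J' := dJ θ n η r (!p) (r1R θ n))
      (Jc := dJ θ n η r p (r1I θ n)) (F := dF θ n η r p) (G := dG θ n η r p)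
      (G' := dG θ n η r (!p)) (b := dE θ n (ev (!p)) (r2fI θ n z) (η (!p)) r z)
      (ζ := dE θ n (ev p) (r2fR θ n z) (η p) r z) hc₃ hM0
      (hJ _ P1 p) (hJ _ P1 (!p)) (hJ _ P2 p) (hF p) (hGp p) (hGp (!p)) hζ.le (V1p p) (V2p (!p))
      hI (le_trans (le_of_eq (by unfold dJ dG; ring)) k1) (V1l p) (V2u (!p)) (by
        refine le_trans k2 (le_trans (le_of_eq (b := C₂ * (dJ θ n η r p (r1I θ n) * dF θ n η r p *
          dE θ n (ev p) (r2fR θ n z) (η p) r z)) (by unfold dJ dF; ring)) ?_)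
        exact mul_le_mul_of_nonneg_right hM2 (mul_pos (mul_pos (hJ _ P2 p) (hF p)) hζ).le) (R1 p)
    refine key.trans (mul_le_mul_of_nonneg_right ?_ hζ.le)
    exact (le_max_left _ _).trans (le_max_right _ _)
  · -- R2, `z` on the wired arc
    have hz2 : 6 * n ≤ z ∧ z ≤ 6 * n + 1 := ⟨hz, hz'⟩
    have hζ : 0 < dE θ n (ev p) (r2wR θ n z) (η p) r z :=
      e_pos (P := dsP n (ev p) (r2wR θ n z) ∅) h1.kit.pos (wl_pos h0 h1.lt)
        (pc_r2w h0 h1.lt g5 (hgeo p) hr hz2 (by unfold dsJz; simp))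
    have k1 := H4 n g4 (!p) z hz hz' (by
      rw [ds_par hn0] at hpar ⊢
      cases p <;> simp only [ev, Bool.not_true, Bool.not_false, if_true, Bool.false_eq_true,
        if_false] at hpar ⊢ <;> rw [Int.even_iff] at hpar ⊢ <;> omega) (η (!p)) (hη (!p))
    rw [← hr', pr_r2wI g5 (hgeo (!p)) hc hs.ne' hr hz2] at k1
    have k2 := H2 n g2 (ev p) z _ (Or.inr ⟨hz2, rfl⟩) (η p) (hη p)
    rw [← hr', pr_r2wR g5 (hgeo p) hc hs.ne' hr hz2] at k2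
    have hI := ds_cmp hs hc hn0 p (r2wR θ n z) (r1R θ n) (dsJz n z) (dsJ n) (dsJ n) (dsJz n z)
    have j1 : ∀ a, VP θ (bt θ) (dsP n a (imR θ (dsT n) (4 * n) (r1R θ n)) (dsJ n)) =
        VP θ (bt θ) (dsP n a (r1I θ n) (dsJ n)) := fun a => VP_eqD (im_r1 hn0)
    have j2 : ∀ a, VP θ (bt θ) (dsP n a (imR θ (dsT n) (4 * n) (r2wR θ n z)) (dsJz n z)) =
        VP θ (bt θ) (dsP n a (r2wI θ n z) (dsJz n z)) := fun a => VP_eqD (im_r2w hn0)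
    rw [j1, j2] at hI
    have key := r2_alg (F' := dG θ n η r (!p)) (Jc' := dJ θ n η r (!p) (r1I θ n))
      (J := dJ θ n η r p (r1R θ n)) (J' := dJ θ n η r (!p) (r1R θ n))
      (Jc := dJ θ n η r p (r1I θ n)) (F := dG θ n η r p) (G := dF θ n η r p)
      (G' := dF θ n η r (!p)) (b := dE θ n (ev (!p)) (r2wI θ n z) (η (!p)) r z)
      (ζ := dE θ n (ev p) (r2wR θ n z) (η p) r z) hc₄ hM0
      (hJ _ P1 p) (hJ _ P1 (!p)) (hJ _ P2 p) (hGp p) (hF p) (hF (!p)) hζ.le (V1p p) (V2p (!p))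
      hI (le_trans (le_of_eq (by unfold dJ dF; ring)) k1) (V1l p) (by
        have := V2u (!p)
        linarith) (by
        refine le_trans k2 (le_trans (le_of_eq (b := C₂ * (dJ θ n η r p (r1I θ n) * dG θ n η r p *
          dE θ n (ev p) (r2wR θ n z) (η p) r z)) (by unfold dJ dG; ring)) ?_)
        exact mul_le_mul_of_nonneg_right hM2 (mul_pos (mul_pos (hJ _ P2 p) (hGp p)) hζ).le) (by
        have := R1 p
        linarith)
    refine key.trans (mul_le_mul_of_nonneg_right ?_ hζ.le)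
    exact (le_max_right _ _).trans (le_max_right _ _)

end Vale.Agent.P167.N.QL
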