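import Vale.Agent.P167.N.QL.D0G
import Vale.Agent.P167.N.QL.Al1

/-!
# P167, the range `0 < q < 1`, block Q-LAM: the weights of D0

`sg_d0`: all strands except the mixed strands on the north side have positive weights; these have
weight `0` (`wP_d0`).
-/

set_option autoImplicit false

namespace Vale.Agent.P167.N.QL

open Finset Vale.Agent.P167 Vale.Agent.P167.BR Vale.Agent.P167.FK
open Vale.Agent.P167.E6 (IsPolygon Encloses dir face)
open Vale.Agent.P167.H601.LG (feet)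
open Vale.Agent.P167.H365.NQ (XW)
open Vale.Agent.P167.QX (wB lo hi)

variable {θ : ℝ} {n N x y : ℕ} {a : ℤ × ℤ} {ω : Cfg} {A : Finset Ed} {q : ZMod N → ℤ × ℤ}

/-- The index window. -/
theorem win_or {N c x : ℕ} {W : ℤ} (h : Win N c W x) :
    ((x : ℤ) - c ≤ W ∧ (c : ℤ) - x ≤ W) ∨ ((N : ℤ) - (x - c) ≤ W) ∨ (N : ℤ) - (c - x) ≤ W := by
  unfold Win at h
  rcases h with h | h
  · rw [abs_le] at h
    left
    omega
  · rcases abs_cases ((x : ℤ) - c) with ⟨e, -⟩ | ⟨e, -⟩ <;> rw [e] at h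
    · right; left
      exact h
    · right; right
      linarith

section sg

variable (h0 : 0 < θ) (h1 : Real.pi / 3 ≤ θ) (h2 : θ < Real.pi / 2) (hn : 0 < n) (hxy : x < y)

include hxy

/-- D0: the mixed strands on the north side. -/
theorem sg_d0e (h : 3 * n ≤ x ∧ x < 4 * n ∧ 4 * n ≤ y ∧ y < 5 * n) :
    d0I θ n y - d0I θ n x = Real.pi - θ := by
  unfold d0I
  rw [stp_sub_cons _ _ _ hxy.le, stp_sub_cons _ _ _ hxy.le, stp_sub_cons _ _ _ hxy.le,
    stp_sub_cons _ _ _ hxy.le, stp_sub_cons _ _ _ hxy.le, stp_sub_nil, jmp_out (by omega),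
    jmp_out (by omega), jmp_in ⟨h.2.1, h.2.2.1⟩, jmp_out (by omega), jmp_out (by omega)]
  ring

include h0 h1 h2 hn

/-- D0: the other strands. -/
theorem sg_d0 (h : ¬ (3 * n ≤ x ∧ x < 4 * n ∧ 4 * n ≤ y ∧ y < 5 * n)) :
    SgA θ (bt θ) q (4 * n) x y (d0I θ n y - d0I θ n x) := by
  unfold d0I
  rw [stp_sub_cons _ _ _ hxy.le, stp_sub_cons _ _ _ hxy.le, stp_sub_cons _ _ _ hxy.le,
    stp_sub_cons _ _ _ hxy.le, stp_sub_cons _ _ _ hxy.le, stp_sub_nil]
  obtain ⟨a1, a2⟩ := jmp_neg (c := n) (x := x) (y := y) (v := -(θ / 2)) (by linarith)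
  obtain ⟨a3, a4⟩ := jmp_neg (c := 3 * n) (x := x) (y := y) (v := -(θ / 2)) (by linarith)
  obtain ⟨a5, a6⟩ := jmp_neg (c := 5 * n) (x := x) (y := y) (v := -(θ / 2)) (by linarith)
  obtain ⟨a7, a8⟩ := jmp_neg (c := 7 * n) (x := x) (y := y) (v := -(θ / 2)) (by linarith)
  refine sgA_of h0 (fun k1 k2 => ?_) (fun k => ?_)
  · rw [jmp_in (c := 4 * n) ⟨k1, k2⟩]
    have k3 : jmp (3 * n) (-(θ / 2)) x y = -(θ / 2) ∨ jmp (5 * n) (-(θ / 2)) x y = -(θ / 2) := by
      by_cases k3 : 3 * n ≤ x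
      · right
        exact jmp_in ⟨by omega, by omega⟩
      · left
        exact jmp_in ⟨by omega, by omega⟩
    unfold bt
    rw [abs_le]
    constructor
    · linarith
    · rcases k3 with k3 | k3 <;> linarith
  · rcases k with k | k
    · rw [jmp_out (c := 4 * n) (by omega), jmp_out (c := 5 * n) (by omega),
        jmp_out (c := 7 * n) (by omega)]
      constructor <;> linarith
    · rw [jmp_out (c := 4 * n) (by omega), jmp_out (c := n) (by omega),
        jmp_out (c := 3 * n) (by omega)]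
      constructor <;> linarith

end sg

section w

variable (h0 : 0 < θ) (h1 : Real.pi / 3 ≤ θ) (h2 : θ < Real.pi / 2) (hn : 0 < n)
include h0 h1 h2 hn

/-- The weight of the mixed strands on the north side is `0`, the other weights are positive. -/
theorem wP_d0 (hA : A ∈ pcs ω (dsD n a)) :
    wl θ ≤ wP θ (bt θ) (dsq n a) (dsD n a) (4 * n) (d0I θ n) A ∨
      ((3 * n ≤ lo (dsq n a) A ∧ lo (dsq n a) A < 4 * n ∧ 4 * n ≤ hi (dsq n a) A ∧
        hi (dsq n a) A < 5 * n) ∧ ¬ IsLp (dsD n a) A ∧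
        wP θ (bt θ) (dsq n a) (dsD n a) (4 * n) (d0I θ n) A = 0) := by
  have hq := ds_poly hn a
  have hD := ds_encl hn a
  by_cases hl : IsLp (dsD n a) A
  · exact Or.inl (wP_ge h0 h2 hq hD hA fun h => absurd hl h)
  by_cases hx : 3 * n ≤ lo (dsq n a) A ∧ lo (dsq n a) A < 4 * n ∧ 4 * n ≤ hi (dsq n a) A ∧
      hi (dsq n a) A < 5 * n
  · refine Or.inr ⟨hx, hl, ?_⟩
    obtain ⟨h5, -, -, -⟩ := feet hq hD hA hl
    unfold wP wB
    rw [if_neg hl, if_pos ⟨hx.2.1, hx.2.2.1⟩, sg_d0e h5 hx]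
    have e : θ / 2 + bt θ + (Real.pi - θ) = Real.pi / 2 := by
      unfold bt
      ring
    rw [e, Real.cos_pi_div_two, zero_div]
  · refine Or.inl (wP_ge h0 h2 hq hD hA fun _ => ?_)
    obtain ⟨h5, -, -, -⟩ := feet hq hD hA hl
    exact sg_d0 h0 h1 h2 hn h5 hx

/-- The product of the weights is nonnegative. -/
theorem XW_d0 : 0 ≤ XW (dsD n a) (wP θ (bt θ) (dsq n a) (dsD n a) (4 * n) (d0I θ n)) ω := by
  refine prod_nonneg fun A hA => ?_
  rcases wP_d0 h0 h1 h2 hn hA with h | ⟨-, -, h⟩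
  · exact (wl_pos h0 h2).le.trans h
  · rw [h]

/-- The centres off the junction are positive. -/
theorem pos_d0 {n₀ c : ℕ} (hG : GeoP n₀ (4 * (2 * n)) (dsq n a)) {r : ℤ} (hr : 3 * (r + 1) < n₀)
    (hrn : 4 * (r + 1) < n) (hr0 : 0 ≤ r) (hc : c ∈ ({0, n, 3 * n, 5 * n, 7 * n} : Finset ℕ)) :
    ∀ ω : Cfg, ∀ A ∈ pcs ω (dsD n a), (∀ e ∈ A, hdv e ∈ Bq (dsq n a (c : ZMod _)) r) →
      wl θ ≤ wP θ (bt θ) (dsq n a) (dsD n a) (4 * n) (d0I θ n) A := by
  simp only [mem_insert, mem_singleton] at hc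
  refine pos_of h0 h2 hG (ds_poly hn a) (ds_encl hn a) (by omega) hr fun x y hxy hyN hx hy _ =>
    sg_d0 h0 h1 h2 hn hxy fun h => ?_
  rcases win_or hx with hx | hx | hx <;> rcases win_or hy with hy | hy | hy <;>
    rcases hc with rfl | rfl | rfl | rfl | rfl <;> push_cast at hx hy <;> omega

end w

end Vale.Agent.P167.N.QL
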