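import Vale.Agent.P167.N.QL.Sp3
import Vale.Agent.P167.N.QL.KcG

/-!
# P167, the range `0 < q < 1`, block Q-LAM: the geometry of the Dobrushin square
-/

set_option autoImplicit false

namespace Vale.Agent.P167.N.QL

open Finset Vale.Agent.P167 Vale.Agent.P167.BR Vale.Agent.P167.FK
open Vale.Agent.P167.E6 (IsPolygon Encloses dir face)
open Vale.Agent.P167.H825 (enl)
open Vale.Agent.P167.H318.LC (sqS)

variable {n : ℕ} {a v : ℤ × ℤ}

theorem dsT_0 (hn : 0 < n) {j : ℕ} (h : j < n) : dsT n j = 0 := by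
  rw [dsT_eq hn (by omega), if_pos h]

theorem dsT_1 (hn : 0 < n) {j : ℕ} (h : n ≤ j) (h' : j < 3 * n) : dsT n j = 1 := by
  rw [dsT_eq hn (by omega), if_neg (by omega), if_pos h']

theorem dsT_2 (hn : 0 < n) {j : ℕ} (h : 3 * n ≤ j) (h' : j < 5 * n) : dsT n j = 2 := by
  rw [dsT_eq hn (by omega), if_neg (by omega), if_neg (by omega), if_pos h']

theorem dsT_3 (hn : 0 < n) {j : ℕ} (h : 5 * n ≤ j) (h' : j < 7 * n) : dsT n j = 3 := by
  rw [dsT_eq hn (by omega), if_neg (by omega), if_neg (by omega), if_neg (by omega), if_pos h']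

section

variable (hn : 0 < n) (a)
include hn

theorem ds_stepv (j : ℕ) : dsq n a ((j + 1 : ℕ) : ZMod (4 * (2 * n))) =
    dsq n a (j : ZMod (4 * (2 * n))) + Top.vec (dsT n j) := (ds_bd hn a).step j

/-- The right half of the south side. -/
theorem ds_S {t : ℕ} (ht : t ≤ n) :
    dsq n a (t : ZMod (4 * (2 * n))) = (a.1 + n + t, a.2) := by
  have h := str_R (τ := dsT n) (J := 0) (ds_stepv a hn) t fun j _ h2 => by
    rw [dsT_0 hn (by omega), dsT_0 hn (by omega)]
  rw [zero_add] at h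
  rw [h, Nat.cast_zero, ds_zero hn a, dsT_0 hn (by omega)]
  have e : Top.vec 0 = (1, 0) := rfl
  rw [e]
  ext
  · simp
    ring
  · simp

/-- The east side. -/
theorem ds_E {t : ℕ} (ht : t ≤ 2 * n) :
    dsq n a ((n + t : ℕ) : ZMod (4 * (2 * n))) = (a.1 + 2 * n, a.2 + t) := by
  have h := str_R (τ := dsT n) (J := n) (ds_stepv a hn) t fun j h1 h2 => by
    rw [dsT_1 hn (by omega) (by omega), dsT_1 hn (by omega) (by omega)]
  rw [h, ds_S a hn le_rfl, dsT_1 hn (by omega) (by omega)]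
  have e : Top.vec 1 = (0, 1) := rfl
  rw [e]
  ext
  · simp
    ring
  · simp

/-- The north side. -/
theorem ds_N {t : ℕ} (ht : t ≤ 2 * n) :
    dsq n a ((3 * n + t : ℕ) : ZMod (4 * (2 * n))) = (a.1 + 2 * n - t, a.2 + 2 * n) := by
  have h := str_R (τ := dsT n) (J := 3 * n) (ds_stepv a hn) t fun j h1 h2 => by
    rw [dsT_2 hn (by omega) (by omega), dsT_2 hn (by omega) (by omega)]
  have h3 : dsq n a ((3 * n : ℕ) : ZMod (4 * (2 * n))) = (a.1 + 2 * n, a.2 + (2 * n : ℕ)) := by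
    rw [← ds_E a hn le_rfl, show n + 2 * n = 3 * n by ring]
  rw [h, h3, dsT_2 hn (by omega) (by omega)]
  have e : Top.vec 2 = (-1, 0) := rfl
  rw [e]
  ext
  · simp
    ring
  · simp

/-- The west side. -/
theorem ds_W {t : ℕ} (ht : t ≤ 2 * n) :
    dsq n a ((5 * n + t : ℕ) : ZMod (4 * (2 * n))) = (a.1, a.2 + 2 * n - t) := by
  have h := str_R (τ := dsT n) (J := 5 * n) (ds_stepv a hn) t fun j h1 h2 => by
    rw [dsT_3 hn (by omega) (by omega), dsT_3 hn (by omega) (by omega)]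
  have h3 : dsq n a ((5 * n : ℕ) : ZMod (4 * (2 * n))) =
      (a.1 + 2 * n - (2 * n : ℕ), a.2 + 2 * n) := by
    rw [← ds_N a hn le_rfl, show 3 * n + 2 * n = 5 * n by ring]
  rw [h, h3, dsT_3 hn (by omega) (by omega)]
  have e : Top.vec 3 = (0, -1) := rfl
  rw [e]
  ext
  · simp
  · simp
    ring

/-- The junction. -/
theorem ds_J : dsq n a ((4 * n : ℕ) : ZMod (4 * (2 * n))) = (a.1 + n, a.2 + 2 * n) := by
  have h := ds_N a hn (t := n) (by omega)
  rw [show 3 * n + n = 4 * n by ring] at h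
  rw [h]
  ext
  · dsimp only
    ring
  · rfl

omit hn in
/-- The squares. -/
theorem mem_dsD : v ∈ dsD n a ↔ (a.1 ≤ v.1 ∧ v.1 < a.1 + 2 * n) ∧ a.2 ≤ v.2 ∧ v.2 < a.2 + 2 * n := by
  unfold dsD enl sqS
  simp only [singleton_biUnion, mem_image, mem_product, mem_range]
  constructor
  · rintro ⟨u, ⟨w, ⟨h1, h2⟩, rfl⟩, rfl⟩
    simp only [Prod.fst_add, Prod.snd_add, mul_zero, zero_add]
    omega
  · rintro ⟨⟨h1, h2⟩, h3, h4⟩
    refine ⟨(v.1 - a.1, v.2 - a.2), ⟨((v.1 - a.1).toNat, (v.2 - a.2).toNat), ⟨?_, ?_⟩, ?_⟩, ?_⟩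
    · dsimp only
      omega
    · dsimp only
      omega
    · ext
      · simp only [mul_zero, zero_add]
        omega
      · simp only [mul_zero, zero_add]
        omega
    · ext
      · simp
      · simp

omit a in
/-- The junction is straight. -/
theorem ds_str {d : ℕ} (hd : d + 1 ≤ n) : Str (dsT n) (4 * n) d ∧ dsT n (4 * n) = dsT n (4 * n - 1) := by
  have key : ∀ j : ℕ, 3 * n ≤ j → j < 5 * n → dsT n j = 2 := fun j h1 h2 => dsT_2 hn h1 h2
  refine ⟨⟨fun i h1 h2 => ?_, fun i h1 h2 => ?_⟩, ?_⟩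
  · rw [key i (by omega) (by omega), key (4 * n) (by omega) (by omega)]
  · rw [key i (by omega) (by omega), key (4 * n - 1) (by omega) (by omega)]
  · rw [key (4 * n) (by omega) (by omega), key (4 * n - 1) (by omega) (by omega)]

/-- The window of the junction. -/
theorem ds_wn {n₀ : ℕ} (hG : GeoP n₀ (4 * (2 * n)) (dsq n a)) {R : ℤ} (hR0 : 0 ≤ R)
    (hR : 3 * R < n₀) (hRn : 2 * R + 1 < n) : Wn (dsq n a) (4 * n) R :=
  wn_str (d := n - 1) hG (ds_stepv a hn) (ds_str hn (by omega)).1 (by omega) (by omega) hR0 hR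
    (by omega)

end

end Vale.Agent.P167.N.QL
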