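import Vale.Agent.P167.N.QL.Ph
import Vale.Agent.P167.H562.Q.SM4

/-!
# P167, the range `0 < q < 1`, block Q-LAM: literal form of the inputs, with boundary phases

`natF`, `imF`: the data of the natural functionals with the phases `ρ n` and of their parity images.
`MomG`: exponential moments, weighted by `|TPq|`, of the number of the large pieces. `LamG`: the mean
value of `|TPq|` is bounded by the value `VP` of the functional. For `ρ = 0` and the images these are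
`MomT` and `LamT`.
-/

set_option autoImplicit false

namespace Vale.Agent.P167.N.QL

open Finset Filter Vale.Agent.P167.BR Vale.Agent.P167.FK
open Vale.Agent.P167.H718 (Dob)
open Vale.Agent.P167.H871 (Bd)
open Vale.Agent.P167.H542.Q (BD)
open Vale.Agent.P167.H562.MAJ (bigs)

variable {S : CA.Dat} {θ β : ℝ}

/-- The data of the natural functionals. -/
def natF (X : BD S θ β) (ρ : ℕ → ℕ → ℝ) (J : ℕ → Finset ℕ) (n : ℕ) : Set PD :=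
  {P | P = natP (X.q n) (S.D n) (X.k n) (ρ n) (J n)}

/-- The data of the parity images. -/
def imF (X : BD S θ β) (ρ : ℕ → ℕ → ℝ) (J : ℕ → Finset ℕ) (n : ℕ) : Set PD :=
  {P | ∃ (a : Fin 4) (τ : ℕ → ℤ),
    Bd (S.D n : Set (ℤ × ℤ)) (X.N n) (fun i => X.q n (i : ZMod (X.N n))) τ 1 ∧
    P = imP θ β (X.q n) (S.D n) (X.k n) (ρ n) (J n) τ (E6.dir a)}

/-- **Moments of the number of the large pieces**, weighted by the local factors. -/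
def MomG (θ β : ℝ) (L : Filter ℕ) (F : ℕ → Set PD) : Prop :=
  ∃ ρ₁ : ℝ, 0 < ρ₁ ∧ ∀ ρ : ℝ, 0 < ρ → ρ ≤ ρ₁ → ∀ κ s : ℝ, 0 < κ → 0 ≤ s →
    ∃ c C : ℝ, 0 < c ∧ 0 < C ∧ ∀ᶠ n : ℕ in L, ∀ P ∈ F n, ∀ z : ℤ × ℤ, ∃ Nc : Cfg → ℕ,
      (∀ ω ω' : Cfg, (∀ v : ℤ × ℤ, c * n < nm (v - z) → ω v = ω' v) → Nc ω = Nc ω') ∧
      (∀ ω, (bigs P.D P.D (κ * n) ω).card ≤ Nc ω) ∧
      ∀ η : Cfg, Dob η P.D P.q P.k →
        Ex (2 * Real.cos θ) P.D η
          (fun ω => |TPq θ β P ⌊ρ * n⌋ ω| * Real.exp (s * (Nc ω : ℝ))) ≤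
        C * Ex (2 * Real.cos θ) P.D η (fun ω => |TPq θ β P ⌊ρ * n⌋ ω|)

/-- **The mean value of the local factors.** -/
def LamG (θ β : ℝ) (L : Filter ℕ) (F : ℕ → Set PD) : Prop :=
  ∃ ρ₁ : ℝ, 0 < ρ₁ ∧ ∀ ρ : ℝ, 0 < ρ → ρ ≤ ρ₁ → ∃ C : ℝ, 0 < C ∧ ∀ᶠ n : ℕ in L, ∀ P ∈ F n,
    ∀ η : Cfg, Dob η P.D P.q P.k →
    Ex (2 * Real.cos θ) P.D η (fun ω => |TPq θ β P ⌊ρ * n⌋ ω|) ≤ C * VP θ β P

/-- The geometry of the data: polygon, domain, centres. -/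
structure PD.Ok (P : PD) (n L : ℕ) : Prop where
  poly : E6.IsPolygon P.q
  enc : E6.Encloses P.q P.D
  geo : GeoP n P.N P.q
  near : P.Near
  sep : P.Sep L

/-- The geometry of a family of data. -/
def OkG (L : Filter ℕ) (F : ℕ → Set PD) : Prop :=
  ∃ c : ℝ, 0 < c ∧ ∀ᶠ n : ℕ in L, ∀ P ∈ F n, P.Ok n ⌊c * n⌋₊

/-- The centres are far from the points of `Fz`. -/
def FarG (L : Filter ℕ) (F : ℕ → Set PD) (Fz : ℕ → Set (ℤ × ℤ)) : Prop :=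
  ∃ c : ℝ, 0 < c ∧ ∀ᶠ n : ℕ in L, ∀ P ∈ F n, ∀ z ∈ Fz n, ∀ j ∈ P.J,
    c * n < nm (P.q (j : ZMod P.N) - z)

end Vale.Agent.P167.N.QL
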