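import Vale.Agent.P167.N.QL.Sp2
import Vale.Agent.P167.N.QL.Defs
import Vale.Agent.P167.H135.Br.Main
import Vale.Agent.P167.H852.Q.Lx3

/-!
# P167, the range `0 < q < 1`, block Q-LAM: the special data are regular
-/

set_option autoImplicit false

namespace Vale.Agent.P167.N.QL

open Finset Filter Vale.Agent.P167.BR Vale.Agent.P167.FK
open Vale.Agent.P167.E6 (IsPolygon Encloses face dir)
open Vale.Agent.P167.H718 (Dob rc)
open Vale.Agent.P167.H718.Lam (Pg)
open Vale.Agent.P167.H167.Q (Reg BcIn)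
open Vale.Agent.P167.H825 (enl pdir ptau)
open Vale.Agent.P167.H825.Q (Bc)
open Vale.Agent.P167.H825.Reg (s_REG_tr)
open Vale.Agent.P167.Enl (PN qN uN bd_qN isPolygon_qN encloses_qN qN_nat kOf)
open Vale.Agent.P167.H318.LC (sqP sqS lP lS sq_poly sq_encl l_poly l_encl)
open Vale.Agent.P167.H135.Br (PG ok_pg exists_rad)
open Vale.Agent.P167.H852.Q.Lx (fwk fwη fw_dob)

variable {θ : ℝ} {n N x y z k : ℕ} {a : ℤ × ℤ} {ρ ρ' : ℕ → ℝ}

/-- The polygon of the data, with lifted directions and outside configuration. -/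
def PD.pg (P : PD) (τ : ℕ → ℤ) (η : Cfg) : Pg := ⟨P.N, P.q, P.D, P.k, τ, η⟩

/-- **Regular data**, with lifted directions and outside configuration. -/
structure POk (P : PD) (τ : ℕ → ℤ) (η : Cfg) (n : ℕ) (σ R : ℝ) : Prop where
  ok : (P.pg τ η).Ok n σ R
  near : P.Near
  sep : P.Sep ⌊σ * n⌋₊

/-! ### centres -/

/-- The centres of the functionals on the Dobrushin square. -/
def dsJ (n : ℕ) : Finset ℕ := {0, n, 3 * n, 4 * n, 5 * n, 7 * n}

/-- The centres, with a point `z`. -/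
def dsJz (n z : ℕ) : Finset ℕ := {0, n, 3 * n, 4 * n, 5 * n, 7 * n, z}

/-- The centres of the functionals on the L shape. -/
def lsJ (n : ℕ) : Finset ℕ := {0, 3 * n, 5 * n, 7 * n, 9 * n, 11 * n, 15 * n}

/-- The special indices are next to the centres. -/
theorem near_of {P : PD} {L : List (ℕ × ℝ)} (hE : EqD P.N P.ρ (stp L)) (hlt : ∀ j ∈ P.J, j < P.N)
    (h0 : 0 ∈ P.J) (hL : ∀ x ∈ L, ∃ i ∈ P.J, |(i : ℤ) - x.1| ≤ 2)
    (hk : 0 < P.k → P.k < P.N → ∃ i ∈ P.J, |(i : ℤ) - P.k| ≤ 2) : P.Near := by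
  refine ⟨hlt, h0, fun j hj hjN h => ?_⟩
  rcases h with h | h
  · have h1 : stp L j ≠ stp L (j - 1) := by
      intro h2
      apply h
      have h3 := hE (j - 1) j (by omega) hjN
      rw [h2, sub_self] at h3
      exact sub_eq_zero.1 h3
    obtain ⟨x, hx, rfl⟩ := stp_jump hj h1
    exact hL x hx
  · subst h
    exact hk hj hjN

section ds

variable (hn : 0 < n)
include hn

theorem near_ds {L : List (ℕ × ℝ)} (hE : EqD (4 * (2 * n)) ρ (stp L)) {J : Finset ℕ}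
    (hJ : dsJ n ⊆ J) (hlt : ∀ j ∈ J, j < 4 * (2 * n)) (hL : ∀ x ∈ L, x.1 ∈ J) :
    (dsP n a ρ J).Near := by
  refine near_of hE hlt (hJ (by unfold dsJ; simp)) (fun x hx => ⟨x.1, hL x hx, by simp⟩)
    fun _ _ => ⟨4 * n, hJ (by unfold dsJ; simp), ?_⟩
  show |((4 * n : ℕ) : ℤ) - ((4 * n : ℕ) : ℤ)| ≤ 2
  simp

theorem sep_ds {L : ℕ} (hL : L ≤ n) : (dsP n a ρ (dsJ n)).Sep L := by
  intro i hi j hj hij
  change i ∈ dsJ n at hi
  change j ∈ dsJ n at hj
  show i + L ≤ j ∧ j + L ≤ i + 4 * (2 * n)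
  unfold dsJ at hi hj
  simp only [mem_insert, mem_singleton] at hi hj
  omega

theorem sep_dsz {L : ℕ} (hL : L + 1 ≤ n)
    (hz : (2 * n ≤ z ∧ z ≤ 2 * n + 1) ∨ (6 * n ≤ z ∧ z ≤ 6 * n + 1)) :
    (dsP n a ρ (dsJz n z)).Sep L := by
  intro i hi j hj hij
  change i ∈ dsJz n z at hi
  change j ∈ dsJz n z at hj
  show i + L ≤ j ∧ j + L ≤ i + 4 * (2 * n)
  unfold dsJz at hi hj
  simp only [mem_insert, mem_singleton] at hi hj
  omega

theorem sep_ls {b : Bool} {L : ℕ} (hL : L ≤ n) : (lsP b n a ρ (lsJ n)).Sep L := by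
  intro i hi j hj hij
  change i ∈ lsJ n at hi
  change j ∈ lsJ n at hj
  show i + L ≤ j ∧ j + L ≤ i + 8 * (2 * n)
  unfold lsJ at hi hj
  simp only [mem_insert, mem_singleton] at hi hj
  omega

theorem near_r1 : (dsP n a (r1R θ n) (dsJ n)).Near := by
  refine near_ds hn (L := [(4 * n, Real.pi / 2 - θ)]) EqD.rfl (Subset.refl _) ?_ ?_
  · unfold dsJ
    simp only [mem_insert, mem_singleton]
    omega
  · unfold dsJ
    simp

theorem near_r1i : (dsP n a (imR θ (dsT n) (4 * n) (r1R θ n)) (dsJ n)).Near := by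
  refine near_ds hn (im_r1 hn) (Subset.refl _) ?_ ?_
  · unfold dsJ
    simp only [mem_insert, mem_singleton]
    omega
  · unfold dsJ
    simp

theorem near_d0 : (dsP n a (fun _ => 0) (dsJ n)).Near := by
  refine near_ds hn (L := []) (EqD.of (c := 0) fun _ _ => by rw [stp_nil, add_zero])
    (Subset.refl _) ?_ ?_
  · unfold dsJ
    simp only [mem_insert, mem_singleton]
    omega
  · simp

theorem near_d0i : (dsP n a (imR θ (dsT n) (4 * n) fun _ => 0) (dsJ n)).Near := by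
  refine near_ds hn (im_d0 hn) (Subset.refl _) ?_ ?_
  · unfold dsJ
    simp only [mem_insert, mem_singleton]
    omega
  · unfold dsJ
    simp

theorem near_fw : (dsP n a (fwR θ n) (dsJ n)).Near := by
  refine near_ds hn (L := [(n, -(θ / 2)), (3 * n, -(θ / 2)), (4 * n, Real.pi / 2 - θ / 2)])
    EqD.rfl (Subset.refl _) ?_ ?_
  · unfold dsJ
    simp only [mem_insert, mem_singleton]
    omega
  · unfold dsJ
    simp

theorem near_fwi : (dsP n a (imR θ (dsT n) (4 * n) (fwR θ n)) (dsJ n)).Near := by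
  refine near_ds hn (im_fw hn) (Subset.refl _) ?_ ?_
  · unfold dsJ
    simp only [mem_insert, mem_singleton]
    omega
  · unfold dsJ
    simp

theorem near_r2f (hz : z < 4 * (2 * n)) : (dsP n a (r2fR θ n z) (dsJz n z)).Near := by
  refine near_ds hn (L := [(n, -(θ / 2)), (z, -θ), (3 * n, -(θ / 2)), (4 * n, Real.pi / 2)])
    EqD.rfl ?_ ?_ ?_
  · unfold dsJ dsJz
    intro j
    simp only [mem_insert, mem_singleton]
    tauto
  · unfold dsJz
    simp only [mem_insert, mem_singleton]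
    omega
  · unfold dsJz
    simp

theorem near_r2fi (hz : z < 4 * (2 * n)) :
    (dsP n a (imR θ (dsT n) (4 * n) (r2fR θ n z)) (dsJz n z)).Near := by
  refine near_ds hn (im_r2f hn) ?_ ?_ ?_
  · unfold dsJ dsJz
    intro j
    simp only [mem_insert, mem_singleton]
    tauto
  · unfold dsJz
    simp only [mem_insert, mem_singleton]
    omega
  · unfold dsJz
    simp

theorem near_r2w (hz : z < 4 * (2 * n)) : (dsP n a (r2wR θ n z) (dsJz n z)).Near := by
  refine near_ds hn (L := [(4 * n, Real.pi / 2), (5 * n, -(θ / 2)), (z, -θ), (7 * n, -(θ / 2))])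
    EqD.rfl ?_ ?_ ?_
  · unfold dsJ dsJz
    intro j
    simp only [mem_insert, mem_singleton]
    tauto
  · unfold dsJz
    simp only [mem_insert, mem_singleton]
    omega
  · unfold dsJz
    simp

theorem near_r2wi (hz : z < 4 * (2 * n)) :
    (dsP n a (imR θ (dsT n) (4 * n) (r2wR θ n z)) (dsJz n z)).Near := by
  refine near_ds hn (im_r2w hn) ?_ ?_ ?_
  · unfold dsJ dsJz
    intro j
    simp only [mem_insert, mem_singleton]
    tauto
  · unfold dsJz
    simp only [mem_insert, mem_singleton]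
    omega
  · unfold dsJz
    simp

omit hn in
theorem lsK_out {b : Bool} (h1 : 0 < lsK b n) (h2 : lsK b n < 8 * (2 * n)) : False := by
  unfold lsK at h1 h2
  cases b
  · simp only [Bool.false_eq_true, if_false] at h2
    omega
  · simp only [if_true] at h1
    omega

theorem near_l {b c : Bool} : (lsP b n a (lR θ n c) (lsJ n)).Near := by
  refine near_of (L := [(3 * n, -(θ / 2)), (5 * n, -(θ / 2)), (rz n c, θ), (9 * n, -(θ / 2)),
    (11 * n, -(θ / 2))]) EqD.rfl ?_ ?_ ?_ ?_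
  · show ∀ j ∈ lsJ n, j < 8 * (2 * n)
    unfold lsJ
    simp only [mem_insert, mem_singleton]
    omega
  · show 0 ∈ lsJ n
    unfold lsJ
    simp
  · show ∀ x ∈ _, ∃ i ∈ lsJ n, _
    unfold lsJ rz
    simp only [List.mem_cons, List.not_mem_nil, or_false]
    rintro x (rfl | rfl | rfl | rfl | rfl)
    · exact ⟨3 * n, by simp, by simp⟩
    · exact ⟨5 * n, by simp, by simp⟩
    · refine ⟨7 * n, by simp, ?_⟩
      cases c
      · simp
      · simp only [if_true]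
        push_cast
        rw [abs_le]
        constructor <;> linarith
    · exact ⟨9 * n, by simp, by simp⟩
    · exact ⟨11 * n, by simp, by simp⟩
  · intro h1 h2
    exact (lsK_out h1 h2).elim

theorem near_li {b c : Bool} : (lsP b n a (imR θ (lsT n) (lsK b n) (lR θ n c)) (lsJ n)).Near := by
  refine near_of (im_l hn b c) ?_ ?_ ?_ ?_
  · show ∀ j ∈ lsJ n, j < 8 * (2 * n)
    unfold lsJ
    simp only [mem_insert, mem_singleton]
    omega
  · show 0 ∈ lsJ n
    unfold lsJ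
    simp
  · show ∀ x ∈ _, ∃ i ∈ lsJ n, _
    unfold lsJ
    cases c
    · simp only [Bool.false_eq_true, if_false, List.mem_cons, List.not_mem_nil, or_false]
      rintro x (rfl | rfl)
      · exact ⟨7 * n, by simp, by simp⟩
      · exact ⟨15 * n, by simp, by simp⟩
    · simp only [if_true, List.mem_cons, List.not_mem_nil, or_false]
      rintro x (rfl | rfl | rfl)
      · exact ⟨7 * n, by simp, by simp⟩
      · refine ⟨7 * n, by simp, ?_⟩
        push_cast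
        rw [abs_le]
        constructor <;> linarith
      · exact ⟨15 * n, by simp, by simp⟩
  · intro h1 h2
    exact (lsK_out h1 h2).elim

end ds

/-! ### regularity -/

theorem ev_two {p : ℕ → Prop} (h : ∀ᶠ n : ℕ in atTop, p n) : ∀ᶠ n : ℕ in atTop, p (2 * n) :=
  (tendsto_id.const_mul_atTop' (by norm_num : (0 : ℕ) < 2)).eventually h

theorem floor_half (n : ℕ) : ⌊(1 / 2 : ℝ) * ((2 * n : ℕ) : ℝ)⌋₊ = n := by
  have : (1 / 2 : ℝ) * ((2 * n : ℕ) : ℝ) = n := by push_cast; ring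
  rw [this, Nat.floor_natCast]

theorem floor_le_half {σ : ℝ} (hσ : 0 < σ) (hσ1 : σ ≤ 1 / 4) {n : ℕ} (hn : 2 ≤ n) :
    ⌊σ * ((2 * n : ℕ) : ℝ)⌋₊ + 1 ≤ n := by
  have h1 : ((⌊σ * ((2 * n : ℕ) : ℝ)⌋₊ : ℕ) : ℝ) ≤ σ * ((2 * n : ℕ) : ℝ) :=
    Nat.floor_le (by positivity)
  have h2 : (2 : ℝ) ≤ n := by exact_mod_cast hn
  have h3 : ((⌊σ * ((2 * n : ℕ) : ℝ)⌋₊ + 1 : ℕ) : ℝ) ≤ (n : ℝ) := by
    push_cast at h1 ⊢
    nlinarith
  exact_mod_cast h3

/-- **The Dobrushin squares are regular.** -/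
theorem ds_ok : ∃ σ₀ : ℝ, 0 < σ₀ ∧ ∀ σ R : ℝ, 0 < σ → σ ≤ σ₀ → 4 ≤ R → ∀ᶠ n : ℕ in atTop,
    ∀ a : ℤ × ℤ, ∃ η : Cfg, ((dsP n a ρ ∅).pg (dsT n) η).Ok (2 * n) σ R := by
  obtain ⟨c, hc, h⟩ := s_REG_tr (sq_poly 0) (sq_encl 0) (tp := 1 / 2) (by norm_num) (by norm_num)
    (bc := Bc.dob 2 (1 / 2)) ⟨by norm_num, by norm_num, by norm_num, by norm_num⟩
  refine ⟨min c (1 / 4), lt_min hc (by norm_num), fun σ R hσ hσ1 hR => ?_⟩
  have a1 : σ ≤ c := hσ1.trans (min_le_left _ _)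
  have a2 : σ ≤ 1 / 4 := hσ1.trans (min_le_right _ _)
  filter_upwards [ev_two h, eventually_ge_atTop 2] with n hn hn2 a
  obtain ⟨η, h1, h2⟩ := hn a
  have e1 : Bc.ka 4 (2 * n) ⌊(1 / 2 : ℝ) * ((2 * n : ℕ) : ℝ)⌋₊ (Bc.dob 2 (1 / 2)) = 4 * n := by
    show kOf 4 (2 * n) ⌊(1 / 2 : ℝ) * ((2 * n : ℕ) : ℝ)⌋₊ 2 ⌊(1 / 2 : ℝ) * ((2 * n : ℕ) : ℝ)⌋₊ = _
    rw [floor_half]
    unfold kOf
    rw [if_pos (by omega)]
    omega
  rw [e1, floor_half] at h1
  have hL := floor_le_half hσ a2 hn2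
  refine ⟨η, ok_pg (p := sqP 0) (S₀ := sqS) (n := 2 * n) (s := n) (k := 4 * n) (a := a)
    (τ := dsT n) (η := η) (M := 0) (sq_poly 0) (sq_encl 0) (by omega) ?_ ?_ ?_ ?_ ?_ ?_ ?_ h1 ?_⟩
  · intro w hw
    unfold sqS at hw
    rw [mem_singleton] at hw
    rw [hw]
    decide
  · push_cast
    linarith
  · push_cast
    linarith
  · exact bd_qN (by omega) (sq_poly 0) (sq_encl 0) (by omega)
  · omega
  · right
    omega
  · right; right
    exact ⟨2, n, by omega, by omega, by omega, by omega, by omega⟩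
  · refine h2.mono ?_
    exact Int.floor_le_floor (mul_le_mul_of_nonneg_right a1 (by positivity))

/-- **The L shapes are regular.** -/
theorem ls_ok : ∀ σ R : ℝ, 0 < σ → σ ≤ 1 / 4 → 8 ≤ R → ∀ n : ℕ, 2 ≤ n →
    ∀ (b : Bool) (a : ℤ × ℤ), ((lsP b n a ρ ∅).pg (lsT n) (fwη b)).Ok (2 * n) σ R := by
  intro σ R hσ hσ1 hR n hn b a
  have hL := floor_le_half hσ hσ1 hn
  obtain ⟨h1, h2⟩ := fw_dob (l_poly 1) (l_encl 1) (n := 2 * n) (by omega)
    (m₀ := ⌊σ * ((2 * n : ℕ) : ℝ)⌋) (by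
      have h1 : (⌊σ * ((2 * n : ℕ) : ℝ)⌋ : ℝ) ≤ σ * ((2 * n : ℕ) : ℝ) := Int.floor_le _
      have h2 : (2 : ℝ) ≤ n := by exact_mod_cast hn
      have h3 : ((2 * ⌊σ * ((2 * n : ℕ) : ℝ)⌋ + 1 : ℤ) : ℝ) ≤ (((2 * n : ℕ) : ℤ) : ℝ) := by
        push_cast at h1 ⊢
        nlinarith
      exact_mod_cast h3) n a b
  have e : fwk b (8 * (2 * n)) = lsK b n := rfl
  rw [e] at h1
  refine ok_pg (p := lP 1) (S₀ := lS 1) (n := 2 * n) (s := n) (k := lsK b n) (a := a)
    (τ := lsT n) (η := fwη b) (M := 1) (l_poly 1) (l_encl 1) (by omega) ?_ ?_ ?_ ?_ ?_ ?_ ?_ h1 h2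
  · decide
  · push_cast
    linarith
  · push_cast
    linarith
  · exact bd_qN (by omega) (l_poly 1) (l_encl 1) (by omega)
  · omega
  · right
    omega
  · unfold lsK
    cases b
    · right; left
      rfl
    · left
      rfl

end Vale.Agent.P167.N.QL
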