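import Vale.Agent.P167.N.QL.Far
import Vale.Agent.P167.N.QL.Sp3

/-!
# P167, the range `0 < q < 1`, block Q-LAM: coordinates of the Dobrushin square

`dg_S`, `dg_E`, `dg_N`, `dg_W`, `dg_Z`: the sites of the sides. `mem_ds`: the squares.
`jn_E`, `jn_W`: the canonical windows at the middle of the east side and of the west side.
-/

set_option autoImplicit false

namespace Vale.Agent.P167.N.QL

open Finset Vale.Agent.P167 Vale.Agent.P167.BR Vale.Agent.P167.FK
open Vale.Agent.P167.E6 (IsPolygon Encloses face dir)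
open Vale.Agent.P167.H825 (enl pdir)
open Vale.Agent.P167.Enl (PN qN PN_lin PN_add_l qN_nat)
open Vale.Agent.P167.H318.LC (sqP sqS sq_poly sq_encl sq_pdir)
open Vale.Agent.P167.H760 (Tr)
open Vale.Agent.P167.H632 (pr pr_or pr_not)
open Vale.Agent.P167.N.NET (Ar Hs)

variable {n m j z : ℕ} {a : ℤ × ℤ}

/-- The sides of the square. -/
theorem PN_leg (hm : 0 < m) {i j : ℕ} (hi : i < 4) (hj : j ≤ m) :
    PN (sqP 0) m (i * m + j) = (m : ℤ) • sqP 0 (i : ZMod 4) + (j : ℤ) • dir (Fin.ofNat 4 i) := by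
  rcases Nat.lt_or_ge j m with h | h
  · rw [PN_lin (p := sqP 0) hm h, sq_pdir 0 i (by omega), zero_add]
  · obtain rfl : j = m := le_antisymm hj h
    have e : i * j + j = (i + 1) * j + 0 := by ring
    rw [e, PN_lin (p := sqP 0) hm hm]
    interval_cases i
    · have e1 : sqP 0 ((1 : ℕ) : ZMod 4) = (1, 0) := rfl
      have e2 : sqP 0 ((0 : ℕ) : ZMod 4) = (0, 0) := rfl
      have e3 : dir (Fin.ofNat 4 0) = (1, 0) := rfl
      rw [e1, e2, e3]
      simp
    · have e1 : sqP 0 ((2 : ℕ) : ZMod 4) = (1, 1) := rfl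
      have e2 : sqP 0 ((1 : ℕ) : ZMod 4) = (1, 0) := rfl
      have e3 : dir (Fin.ofNat 4 1) = (0, 1) := rfl
      rw [e1, e2, e3]
      simp
    · have e1 : sqP 0 ((3 : ℕ) : ZMod 4) = (0, 1) := rfl
      have e2 : sqP 0 ((2 : ℕ) : ZMod 4) = (1, 1) := rfl
      have e3 : dir (Fin.ofNat 4 2) = (-1, 0) := rfl
      rw [e1, e2, e3]
      simp
    · have e1 : sqP 0 ((4 : ℕ) : ZMod 4) = (0, 0) := rfl
      have e2 : sqP 0 ((3 : ℕ) : ZMod 4) = (0, 1) := rfl
      have e3 : dir (Fin.ofNat 4 3) = (0, -1) := rfl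
      rw [e1, e2, e3]
      simp

theorem ds_PN (hn : 0 < n) (a : ℤ × ℤ) (j : ℕ) :
    dsq n a (j : ZMod (4 * (2 * n))) = PN (sqP 0) (2 * n) (j + n) + a := by
  unfold dsq
  rw [qN_nat (p := sqP 0) (n := 2 * n) (by omega) n j]

/-- The south side, first half. -/
theorem dg_S (hn : 0 < n) (a : ℤ × ℤ) (hj : j ≤ n) :
    dsq n a (j : ZMod (4 * (2 * n))) = (a.1 + n + j, a.2) := by
  rw [ds_PN hn]
  have h := PN_leg (m := 2 * n) (i := 0) (j := j + n) (by omega) (by norm_num) (by omega)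
  rw [zero_mul, zero_add] at h
  rw [h]
  have e2 : sqP 0 ((0 : ℕ) : ZMod 4) = (0, 0) := rfl
  have e3 : dir (Fin.ofNat 4 0) = (1, 0) := rfl
  rw [e2, e3]
  refine Prod.ext ?_ ?_ <;> simp
  ring

/-- The east side. -/
theorem dg_E (hn : 0 < n) (a : ℤ × ℤ) (h1 : n ≤ j) (h2 : j ≤ 3 * n) :
    dsq n a (j : ZMod (4 * (2 * n))) = (a.1 + 2 * n, a.2 + (j - n)) := by
  rw [ds_PN hn]
  have h := PN_leg (m := 2 * n) (i := 1) (j := j - n) (by omega) (by norm_num) (by omega)
  rw [show 1 * (2 * n) + (j - n) = j + n by omega] at h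
  rw [h]
  have e2 : sqP 0 ((1 : ℕ) : ZMod 4) = (1, 0) := rfl
  have e3 : dir (Fin.ofNat 4 1) = (0, 1) := rfl
  rw [e2, e3]
  refine Prod.ext ?_ ?_
  · simp
    ring
  · simp [Nat.cast_sub h1]
    ring

/-- The north side. -/
theorem dg_N (hn : 0 < n) (a : ℤ × ℤ) (h1 : 3 * n ≤ j) (h2 : j ≤ 5 * n) :
    dsq n a (j : ZMod (4 * (2 * n))) = (a.1 + (5 * n - j), a.2 + 2 * n) := by
  rw [ds_PN hn]
  have h := PN_leg (m := 2 * n) (i := 2) (j := j - 3 * n) (by omega) (by norm_num) (by omega)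
  rw [show 2 * (2 * n) + (j - 3 * n) = j + n by omega] at h
  rw [h]
  have e2 : sqP 0 ((2 : ℕ) : ZMod 4) = (1, 1) := rfl
  have e3 : dir (Fin.ofNat 4 2) = (-1, 0) := rfl
  rw [e2, e3]
  refine Prod.ext ?_ ?_
  · simp [Nat.cast_sub h1]
    ring
  · simp
    ring

/-- The west side. -/
theorem dg_W (hn : 0 < n) (a : ℤ × ℤ) (h1 : 5 * n ≤ j) (h2 : j ≤ 7 * n) :
    dsq n a (j : ZMod (4 * (2 * n))) = (a.1, a.2 + (7 * n - j)) := by
  rw [ds_PN hn]
  have h := PN_leg (m := 2 * n) (i := 3) (j := j - 5 * n) (by omega) (by norm_num) (by omega)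
  rw [show 3 * (2 * n) + (j - 5 * n) = j + n by omega] at h
  rw [h]
  have e2 : sqP 0 ((3 : ℕ) : ZMod 4) = (0, 1) := rfl
  have e3 : dir (Fin.ofNat 4 3) = (0, -1) := rfl
  rw [e2, e3]
  refine Prod.ext ?_ ?_
  · simp
  · simp [Nat.cast_sub h1]
    ring

/-- The south side, second half. -/
theorem dg_Z (hn : 0 < n) (a : ℤ × ℤ) (h1 : 7 * n ≤ j) (h2 : j ≤ 8 * n) :
    dsq n a (j : ZMod (4 * (2 * n))) = (a.1 + (j - 7 * n), a.2) := by
  rw [ds_PN hn]
  have h := PN_leg (m := 2 * n) (i := 0) (j := j - 7 * n) (by omega) (by norm_num) (by omega)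
  rw [zero_mul, zero_add] at h
  rw [show j + n = (j - 7 * n) + 4 * (2 * n) by omega, PN_add_l (by omega), h]
  have e2 : sqP 0 ((0 : ℕ) : ZMod 4) = (0, 0) := rfl
  have e3 : dir (Fin.ofNat 4 0) = (1, 0) := rfl
  rw [e2, e3]
  refine Prod.ext ?_ ?_
  · simp [Nat.cast_sub h1]
    ring
  · simp

/-- The squares. -/
theorem mem_ds {v : ℤ × ℤ} : v ∈ dsD n a ↔
    (a.1 ≤ v.1 ∧ v.1 < a.1 + 2 * n) ∧ a.2 ≤ v.2 ∧ v.2 < a.2 + 2 * n := by
  unfold dsD enl sqS
  rw [singleton_biUnion, mem_image]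
  constructor
  · rintro ⟨w, hw, rfl⟩
    rw [mem_image] at hw
    obtain ⟨⟨x, y⟩, h1, rfl⟩ := hw
    rw [mem_product, mem_range, mem_range] at h1
    simp only [Prod.fst_add, Prod.snd_add]
    push_cast
    omega
  · rintro ⟨⟨h1, h2⟩, h3, h4⟩
    refine ⟨v - a, ?_, sub_add_cancel v a⟩
    rw [mem_image]
    refine ⟨((v.1 - a.1).toNat, (v.2 - a.2).toNat), ?_, ?_⟩
    · rw [mem_product, mem_range, mem_range]
      dsimp only
      omega
    · refine Prod.ext ?_ ?_
      · simp only [Prod.fst_sub]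
        omega
      · simp only [Prod.snd_sub]
        omega

/-! ### the windows at the middle of the east side and of the west side -/

/-- The direction of the side: east (`w = false`) or west. -/
def dW (w : Bool) : Fin 4 := if w then 3 else 1

/-- The first index of the side. -/
def sW (w : Bool) (n : ℕ) : ℕ := if w then 5 * n else n

/-- The middle of the side, or the next site. -/
def MidW (w : Bool) (n z : ℕ) : Prop := sW w n + n ≤ z ∧ z ≤ sW w n + n + 1

/-- The frame. -/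
def TW (w : Bool) (p : ℤ × ℤ) : Tr := mvT p p (dW w)

theorem TW_rt (w : Bool) (p : ℤ × ℤ) : Rt (TW w p) (dW w) := rt_mvT Iff.rfl _

theorem TW_S (w : Bool) (p v : ℤ × ℤ) : (TW w p).S v =
    if w then (p.1 + (v.2 - p.2), p.2 - (v.1 - p.1)) else (p.1 - (v.2 - p.2), p.2 + (v.1 - p.1)) := by
  unfold TW
  rw [mvT_S]
  cases w
  · refine Prod.ext ?_ ?_
    · simp [dW, dir]
      ring
    · simp [dW, dir]
  · refine Prod.ext ?_ ?_
    · simp [dW, dir]
    · simp [dW, dir]
      ring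

theorem TW_Q (w : Bool) (p v : ℤ × ℤ) : (TW w p).Q v =
    if w then (p.1 + (v.2 - p.2), p.2 - (v.1 - p.1) - 1)
      else (p.1 - (v.2 - p.2) - 1, p.2 + (v.1 - p.1)) := by
  have h := TW_S w p v
  unfold TW at h ⊢
  rw [mvT_Q, h]
  cases w
  · simp [dW, face]
    ring
  · simp [dW, face]
    ring

section win

variable {w : Bool} (hn : 0 < n) (a : ℤ × ℤ) (hz : MidW w n z)
include hn hz

/-- The coordinates on the side. -/
theorem ds_own (h1 : sW w n ≤ j) (h2 : j ≤ sW w n + 2 * n) :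
    pq (TW w (dsq n a (z : ZMod (4 * (2 * n))))) (dsq n a) (j : ZMod (4 * (2 * n))) =
      ((dsq n a (z : ZMod (4 * (2 * n)))).1 + ((j : ℤ) - z), (dsq n a (z : ZMod (4 * (2 * n)))).2) := by
  unfold pq
  rw [Equiv.symm_apply_eq, TW_S]
  obtain ⟨h3, h4⟩ := hz
  cases w
  · unfold sW at *
    simp only [Bool.false_eq_true, if_false] at *
    rw [dg_E hn a h1 (by omega), dg_E hn a (show n ≤ z by omega) (by omega)]
    dsimp only
    refine Prod.ext ?_ ?_
    · dsimp only
      ring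
    · dsimp only
      ring
  · unfold sW at *
    simp only [if_true] at *
    rw [dg_W hn a h1 (by omega), dg_W hn a (show 5 * n ≤ z by omega) (by omega)]
    dsimp only
    refine Prod.ext ?_ ?_
    · dsimp only
      ring
    · dsimp only
      ring

/-- The coordinates on the opposite side. -/
theorem ds_opp (h1 : sW (!w) n ≤ j) (h2 : j ≤ sW (!w) n + 2 * n) :
    pq (TW w (dsq n a (z : ZMod (4 * (2 * n))))) (dsq n a) (j : ZMod (4 * (2 * n))) =
      ((dsq n a (z : ZMod (4 * (2 * n)))).1 + (8 * n - (j : ℤ) - z),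
        (dsq n a (z : ZMod (4 * (2 * n)))).2 + 2 * n) := by
  unfold pq
  rw [Equiv.symm_apply_eq, TW_S]
  obtain ⟨h3, h4⟩ := hz
  cases w
  · unfold sW at *
    simp only [Bool.false_eq_true, if_false, Bool.not_false, if_true] at *
    rw [dg_W hn a h1 (by omega), dg_E hn a (show n ≤ z by omega) (by omega)]
    dsimp only
    refine Prod.ext ?_ ?_
    · dsimp only
      ring
    · dsimp only
      ring
  · unfold sW at *
    simp only [if_true, Bool.not_true, Bool.false_eq_true, if_false] at *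
    rw [dg_E hn a h1 (by omega), dg_W hn a (show 5 * n ≤ z by omega) (by omega)]
    dsimp only
    refine Prod.ext ?_ ?_
    · dsimp only
      ring
    · dsimp only
      ring

/-- The squares in the frame. -/
theorem mem_pre_ds {v : ℤ × ℤ} :
    v ∈ (TW w (dsq n a (z : ZMod (4 * (2 * n))))).pre (dsD n a) ↔
      ((dsq n a (z : ZMod (4 * (2 * n)))).2 ≤ v.2 ∧
        v.2 < (dsq n a (z : ZMod (4 * (2 * n)))).2 + 2 * n) ∧
      (dsq n a (z : ZMod (4 * (2 * n)))).1 - (z - sW w n) ≤ v.1 ∧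
        v.1 < (dsq n a (z : ZMod (4 * (2 * n)))).1 - (z - sW w n) + 2 * n := by
  rw [Tr.mem_pre, TW_Q, mem_ds]
  obtain ⟨h3, h4⟩ := hz
  cases w
  · unfold sW at *
    simp only [Bool.false_eq_true, if_false] at *
    rw [dg_E hn a (show n ≤ z by omega) (by omega)]
    dsimp only
    omega
  · unfold sW at *
    simp only [if_true] at *
    rw [dg_W hn a (show 5 * n ≤ z by omega) (by omega)]
    dsimp only
    push_cast
    omega

/-- The other sites are far. -/
theorem ds_far {R : ℤ} (hR : R + 1 < n) (hj : j ≤ 4 * (2 * n)) (h : R < |(j : ℤ) - z|) :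
    R < nm (dsq n a (j : ZMod (4 * (2 * n))) - dsq n a (z : ZMod (4 * (2 * n)))) := by
  by_contra hcon
  push Not at hcon
  rw [nmle] at hcon
  simp only [Prod.fst_sub, Prod.snd_sub] at hcon
  have h' : ¬ |(j : ℤ) - z| ≤ R := not_le.2 h
  rw [abs_le] at h'
  obtain ⟨h3, h4⟩ := hz
  cases w
  · unfold sW at *
    simp only [Bool.false_eq_true, if_false] at *
    rw [dg_E hn a (show n ≤ z by omega) (by omega)] at hcon
    rcases Nat.lt_or_ge j n with g1 | g1
    · rw [dg_S hn a g1.le] at hcon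
      dsimp only at hcon
      omega
    rcases Nat.lt_or_ge j (3 * n) with g2 | g2
    · rw [dg_E hn a g1 g2.le] at hcon
      dsimp only at hcon
      omega
    rcases Nat.lt_or_ge j (5 * n) with g3 | g3
    · rw [dg_N hn a g2 g3.le] at hcon
      dsimp only at hcon
      omega
    rcases Nat.lt_or_ge j (7 * n) with g4 | g4
    · rw [dg_W hn a g3 g4.le] at hcon
      dsimp only at hcon
      omega
    · rw [dg_Z hn a g4 (by omega)] at hcon
      dsimp only at hcon
      omega
  · unfold sW at *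
    simp only [if_true] at *
    rw [dg_W hn a (show 5 * n ≤ z by omega) (by omega)] at hcon
    rcases Nat.lt_or_ge j n with g1 | g1
    · rw [dg_S hn a g1.le] at hcon
      dsimp only at hcon
      omega
    rcases Nat.lt_or_ge j (3 * n) with g2 | g2
    · rw [dg_E hn a g1 g2.le] at hcon
      dsimp only at hcon
      omega
    rcases Nat.lt_or_ge j (5 * n) with g3 | g3
    · rw [dg_N hn a g2 g3.le] at hcon
      dsimp only at hcon
      omega
    rcases Nat.lt_or_ge j (7 * n) with g4 | g4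
    · rw [dg_W hn a g3 g4.le] at hcon
      dsimp only at hcon
      omega
    · rw [dg_Z hn a g4 (by omega)] at hcon
      dsimp only at hcon
      omega

/-- **The canonical window.** -/
theorem jn_ds {R : ℤ} (hR : R + 1 < n) :
    JN false (pq (TW w (dsq n a (z : ZMod (4 * (2 * n))))) (dsq n a))
      ((TW w (dsq n a (z : ZMod (4 * (2 * n))))).pre (dsD n a)) z R := by
  have hz' := hz
  obtain ⟨h3, h4⟩ := hz'
  have hs : sW w n ≤ 5 * n := by unfold sW; split_ifs <;> omega
  have hs' : n ≤ sW w n := by unfold sW; split_ifs <;> omega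
  have e0 : pq (TW w (dsq n a (z : ZMod (4 * (2 * n))))) (dsq n a) (z : ZMod (4 * (2 * n))) =
      dsq n a (z : ZMod (4 * (2 * n))) := by
    rw [ds_own hn a hz (by omega) (by omega)]
    refine Prod.ext ?_ rfl
    dsimp only
    ring
  refine ⟨by omega, by push_cast; omega, fun i hi => ?_, fun i hi => ?_, fun v hv => ?_,
    fun j hj hjR => ?_⟩
  · rw [ds_own hn a hz (by omega) (by omega), e0]
    refine Prod.ext ?_ rfl
    dsimp only
    push_cast
    ring
  · rw [ds_own hn a hz (by omega) (by omega), e0]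
    simp only [Bool.false_eq_true, if_false]
    refine Prod.ext ?_ rfl
    dsimp only
    rw [Nat.cast_sub (by omega)]
    ring
  · rw [e0, mBq] at hv
    rw [mem_pre_ds hn a hz, e0]
    simp only [Bool.false_eq_true, false_and, or_false]
    omega
  · unfold pq
    rw [nm_pq]
    exact ds_far hn a hz hR hj hjR

end win

end Vale.Agent.P167.N.QL
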