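import Vale.Agent.P167.N.QL.LocP
import Vale.Agent.P167.H871.DomE

/-!
# P167, the range `0 < q < 1`, block Q-LAM: the number of the corners

`card_turn`: the number of the convex corners is the number of the reflex corners plus `4`.
-/

set_option autoImplicit false

namespace Vale.Agent.P167.N.QL

open Finset
open Vale.Agent.P167.E6 (IsPolygon Encloses dir face)
open Vale.Agent.P167.H825 (enl pdir)
open Vale.Agent.P167.H871 (Bd exists_bd)

/-- **The turning number.** -/
theorem card_turn (S : CA.Dat) : (Tn S \ Rf S).card = (Rf S).card + 4 := by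
  obtain ⟨u, hu⟩ := exists_bd S.poly S.enc
  have hs : ∀ j : ℕ, S.p (j : ZMod S.l) = Enl.PN S.p 1 (j + 0) + 0 := by
    intro j
    unfold Enl.PN
    simp
  have h1 : ∀ i ∈ Icc 1 S.l, u i - u (i - 1) = H825.tn (pdir S.p (i - 1)) (pdir S.p i) := by
    intro i hi
    rw [mem_Icc] at hi
    exact turn_at S.poly one_pos hs hu (i := i) (j := i) (by omega) (by omega) (by omega)
  have hsum : ∑ j ∈ range S.l, (u (j + 1) - u j) = 4 := by
    have hper := hu.per 0
    rw [zero_add, mul_one] at hper
    rw [sum_range_sub, hper]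
    ring
  have himg : Icc 1 S.l = (range S.l).image Nat.succ := by
    ext i
    rw [mem_Icc, mem_image]
    constructor
    · intro h
      exact ⟨i - 1, by rw [mem_range]; omega, by omega⟩
    · rintro ⟨j, hj, rfl⟩
      rw [mem_range] at hj
      omega
  have hS : ∑ i ∈ Icc 1 S.l, (u i - u (i - 1)) = 4 := by
    rw [himg, sum_image (fun a _ b _ h => Nat.succ_injective h), ← hsum]
    exact sum_congr rfl fun j _ => by rw [Nat.succ_eq_add_one, Nat.add_sub_cancel]
  rw [sum_congr rfl h1] at hS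
  have hT : ∑ i ∈ Tn S, H825.tn (pdir S.p (i - 1)) (pdir S.p i) = 4 := by
    rw [← hS]
    unfold Tn
    exact sum_filter_ne_zero _
  rw [← sum_sdiff (Rf_sub S)] at hT
  have e1 : ∑ i ∈ Tn S \ Rf S, H825.tn (pdir S.p (i - 1)) (pdir S.p i) =
      ((Tn S \ Rf S).card : ℤ) := by
    rw [sum_congr rfl (g := fun _ => (1 : ℤ)) fun i hi => ?_, sum_const, nsmul_eq_mul, mul_one]
    rw [Finset.mem_sdiff] at hi
    exact tn_of_Tn hi.1 hi.2
  have e2 : ∑ i ∈ Rf S, H825.tn (pdir S.p (i - 1)) (pdir S.p i) = -((Rf S).card : ℤ) := by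
    rw [sum_congr rfl (g := fun _ => (-1 : ℤ)) fun i hi => tn_of_Rf hi, sum_const, nsmul_eq_mul]
    ring
  rw [e1, e2] at hT
  omega

end Vale.Agent.P167.N.QL
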