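import Vale.Agent.P167.N.QL.LkT
import Vale.Agent.P167.H975.LkC

/-!
# P167, the range `0 < q < 1`, block Q-LAM (LK): polygons and symmetries of the lattice

`Rt T r`: `T` is a rotation by `r` right angles followed by an even translation. `mvT x y r`: the one
which maps `x` to `y`. `pq T q`: the polygon in the frame. `wP_pq`: the weights in the frame.
-/

set_option autoImplicit false

namespace Vale.Agent.P167.N.QL

open Finset Vale.Agent.P167 Vale.Agent.P167.BR Vale.Agent.P167.FK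
open Vale.Agent.P167.E6 (IsPolygon Encloses dir face)
open Vale.Agent.P167.H760 (Tr Co)
open Vale.Agent.P167.H718 (IsXY IsCl Cl)
open Vale.Agent.P167.QX (lo hi wB)

variable {T : Tr} {r : Fin 4} {N k : ℕ} {q : ZMod N → ℤ × ℤ} {D : Finset (ℤ × ℤ)} {ω : Cfg}
  {A : Finset Ed} {θ β : ℝ} {ρ : ℕ → ℝ} {τ : ℕ → ℤ} {x y : ℤ × ℤ}

theorem ed_ext {e e' : Ed} (h1 : ls e = ls e') (h2 : rs e = rs e') : e = e' := by
  obtain ⟨r, hr⟩ := exists_ce_ls e
  obtain ⟨r', hr'⟩ := exists_ce_ls e'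
  have e1 := ce_even (BR.even_ls e) r
  have e2 := ce_even (BR.even_ls e') r'
  rw [← hr] at e1
  rw [← hr'] at e2
  have h3 : ls e + dir r = ls e + dir r' := by
    rw [← e1.2.1, h2, e2.2.1, h1]
  have h4 : r = r' := E2.add_dir_inj h3
  rw [hr, hr', h1, h4]

/-- Rotations by `r` right angles, with even translations. -/
structure Rt (T : Tr) (r : Fin 4) : Prop where
  o : T.o = false
  dr : ∀ z s, T.S (z + dir s) = T.S z + dir (s + r)
  fc : ∀ z s, T.Q (face z s) = face (T.S z) (s + r)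

/-- The rotation by `r` right angles which maps `x` to `y`. -/
def mvT (x y : ℤ × ℤ) (r : Fin 4) : Tr := (Tr.tr (-x)).comp (Tr.fr y r)

theorem mvT_S (x y z : ℤ × ℤ) (r : Fin 4) :
    (mvT x y r).S z = y + (z - x).1 • dir r + (z - x).2 • dir (r + 1) := by
  have h := Tr.fr_S y r (z - x)
  rw [← h, sub_eq_add_neg]
  rfl

theorem mvT_cen (x y : ℤ × ℤ) (r : Fin 4) : (mvT x y r).S x = y := by
  rw [mvT_S, sub_self]
  simp

theorem mvT_Q (x y v : ℤ × ℤ) (r : Fin 4) : (mvT x y r).Q v = face ((mvT x y r).S v) r := by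
  have h := Tr.fr_Q y r (v - x)
  rw [sub_eq_add_neg] at h
  exact h

theorem rp_o (r : Fin 4) : (Tr.rp r).o = false := by fin_cases r <;> rfl

theorem mvT_o (h : Even (x.1 + x.2) ↔ Even (y.1 + y.2)) (r : Fin 4) : (mvT x y r).o = false := by
  have h1 : (mvT x y r).o = xor (!decide (Even ((-x).1 + (-x).2)))
      (xor (Tr.rp r).o (!decide (Even (y.1 + y.2)))) := rfl
  have h2 : Even ((-x).1 + (-x).2) ↔ Even (x.1 + x.2) := by
    rw [show (-x).1 + (-x).2 = -(x.1 + x.2) by simp only [Prod.fst_neg, Prod.snd_neg]; ring, even_neg]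
  rw [h1, rp_o]
  simp only [h2, h]
  by_cases h3 : Even (y.1 + y.2) <;> simp [h3]

theorem rt_mvT (h : Even (x.1 + x.2) ↔ Even (y.1 + y.2)) (r : Fin 4) : Rt (mvT x y r) r where
  o := mvT_o h r
  dr z s := by
    rw [mvT_S, mvT_S]
    fin_cases r <;> fin_cases s <;> (ext <;> simp [dir] <;> ring)
  fc z s := by
    rw [mvT_Q, mvT_S, mvT_S]
    fin_cases r <;> fin_cases s <;> (ext <;> simp [dir, face] <;> ring)

/-! ### the frame -/

/-- The parity of the sites. -/
theorem par_T (ho : T.o = false) (z : ℤ × ℤ) :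
    Even ((T.S z).1 + (T.S z).2) ↔ Even (z.1 + z.2) := by
  by_cases h : Even (z.1 + z.2)
  · have h1 := (ce_even h 0).1
    have h2 := T.lf (ce z 0)
    rw [ho] at h2
    simp only [Bool.false_eq_true, if_false] at h2
    rw [h1] at h2
    have := BR.even_ls (T.E (ce z 0))
    rw [h2] at this
    exact ⟨fun _ => h, fun _ => this⟩
  · have h1 := (ce_odd h 0).1
    have h2 := T.rt (ce z 0)
    rw [ho] at h2
    simp only [Bool.false_eq_true, if_false] at h2
    rw [h1] at h2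
    have := BR.odd_rs (T.E (ce z 0))
    rw [h2] at this
    exact ⟨fun h' => absurd h' this, fun h' => absurd h' h⟩

/-- The polygon in the frame. -/
def pq (T : Tr) (q : ZMod N → ℤ × ℤ) : ZMod N → ℤ × ℤ := fun i => T.S.symm (q i)

theorem S_pq (T : Tr) (q : ZMod N → ℤ × ℤ) (i : ZMod N) : T.S (pq T q i) = q i :=
  Equiv.apply_symm_apply _ _

namespace Rt

variable (h : Rt T r)
include h

theorem dr' (z : ℤ × ℤ) (s : Fin 4) : T.S.symm (z + dir s) = T.S.symm z + dir (s - r) := by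
  rw [Equiv.symm_apply_eq, h.dr, sub_add_cancel, Equiv.apply_symm_apply]

theorem poly (hq : IsPolygon q) : IsPolygon (pq T q) :=
  ⟨hq.1, fun i j e => hq.2.1 (T.S.symm.injective e), fun i => by
    obtain ⟨s, hs⟩ := hq.2.2 i
    exact ⟨s - r, by unfold pq; rw [hs, h.dr']⟩⟩

theorem encl (hD : Encloses q D) : Encloses (pq T q) (T.pre D) := by
  intro v s
  rw [T.mem_pre, T.mem_pre, h.fc, h.fc, show s - 1 + r = s + r - 1 by abel, ← hD (T.S v) (s + r)]
  constructor
  · rintro ⟨i, h1, h2⟩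
    refine ⟨i, ?_, ?_⟩
    · rw [← h1, S_pq]
    · rw [← h.dr, ← h2, S_pq]
  · rintro ⟨i, h1, h2⟩
    refine ⟨i, ?_, ?_⟩
    · unfold pq
      rw [h1, Equiv.symm_apply_apply]
    · unfold pq
      rw [h2, ← h.dr, Equiv.symm_apply_apply]

end Rt

theorem nm_pq (T : Tr) (z z' : ℤ × ℤ) : nm (T.S.symm z - T.S.symm z') = nm (z - z') := by
  rw [← T.dS (T.S.symm z), Equiv.apply_symm_apply, Equiv.apply_symm_apply]

theorem geoP_pq {n : ℕ} (T : Tr) (hG : GeoP n N q) : GeoP n N (pq T q) :=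
  ⟨hG.pos, hG.le, fun hx hy _ hd hn => hG.near hx hy hd (by rwa [← nm_pq T]), fun x y => by
    unfold pq
    rw [nm_pq]
    exact hG.lip x y⟩

/-- The edges which cross the sides. -/
theorem be_pq (h : Rt T r) (hq : IsPolygon q) (i : ZMod N) : T.E (be (pq T q) i) = be q i := by
  have ho := h.o
  have hl : ∀ e, ls (T.E e) = T.S (ls e) := fun e => by rw [T.lf, ho]; rfl
  have hr : ∀ e, rs (T.E e) = T.S (rs e) := fun e => by rw [T.rt, ho]; rfl
  have hp := par_T ho (pq T q i)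
  rw [S_pq] at hp
  have hL := BR.even_ls (be q i)
  have hR := BR.odd_rs (be q i)
  have hL' := BR.even_ls (be (pq T q) i)
  have hR' := BR.odd_rs (be (pq T q) i)
  rcases be_sides hq i with ⟨a1, a2⟩ | ⟨a1, a2⟩ <;>
    rcases be_sides (h.poly hq) i with ⟨b1, b2⟩ | ⟨b1, b2⟩
  · exact ed_ext (by rw [hl, b1, a1, S_pq]) (by rw [hr, b2, a2, S_pq])
  · exfalso
    rw [a1] at hL
    rw [b1] at hR'
    exact hR' (hp.1 hL)
  · exfalso
    rw [a1] at hR
    rw [b1] at hL'
    exact hR (hp.2 hL')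
  · exact ed_ext (by rw [hl, b2, a2, S_pq]) (by rw [hr, b1, a1, S_pq])

theorem mem_be_pq (h : Rt T r) (hq : IsPolygon q) (i : ZMod N) : be q i ∈ T.imE A ↔ be (pq T q) i ∈ A := by
  rw [← be_pq h hq, T.mem_imE]

theorem lo_pq (h : Rt T r) (hq : IsPolygon q) : lo q (T.imE A) = lo (pq T q) A := by
  unfold lo
  simp only [mem_be_pq h hq]

theorem hi_pq (h : Rt T r) (hq : IsPolygon q) : hi q (T.imE A) = hi (pq T q) A := by
  unfold hi
  simp only [mem_be_pq h hq]

theorem isXY_pq (h : Rt T r) (hq : IsPolygon q) {x y : ℕ} : IsXY q (T.imE A) x y ↔ IsXY (pq T q) A x y := by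
  have hp := fun i : ZMod N => par_T h.o (pq T q i)
  simp only [S_pq] at hp
  unfold IsXY
  simp only [mem_be_pq h hq, hp]

/-- The loops. -/
theorem isLp_pq (h : T.o = false) : IsLp D (T.imE A) ↔ IsLp (T.pre D) A := by
  unfold IsLp
  constructor
  · intro h1 e he
    have := h1 _ (T.mem_imE.2 he)
    rw [T.hd, h] at this
    rw [T.mem_pre]
    exact this
  · intro h1 e he
    obtain ⟨e, rfl⟩ := T.E.surjective e
    rw [T.hd, h]
    have := h1 e (T.mem_imE.1 he)
    rw [T.mem_pre] at this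
    exact this

theorem isCl_pq (h : Rt T r) (hq : IsPolygon q) : IsCl D q k (T.imE A) ↔ IsCl (T.pre D) (pq T q) k A := by
  unfold IsCl
  rw [isLp_pq h.o]
  simp only [isXY_pq h hq]

theorem wB_pq (h : Rt T r) (hq : IsPolygon q) (t : ℝ) :
    wB θ β q D k (T.imE A) t = wB θ β (pq T q) (T.pre D) k A t := by
  have h1 := isLp_pq (D := D) (A := A) h.o
  have h2 := isCl_pq (D := D) (k := k) (A := A) h hq
  unfold wB
  rw [lo_pq h hq, hi_pq h hq]
  by_cases c1 : IsLp (T.pre D) A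
  · rw [if_pos c1, if_pos (h1.2 c1)]
  · rw [if_neg c1, if_neg fun h' => c1 (h1.1 h')]
    by_cases c2 : lo (pq T q) A < k ∧ k ≤ hi (pq T q) A
    · rw [if_pos c2, if_pos c2]
    · rw [if_neg c2, if_neg c2]
      by_cases c3 : IsCl (T.pre D) (pq T q) k A
      · rw [if_pos c3, if_pos (h2.2 c3)]
      · rw [if_neg c3, if_neg fun h' => c3 (h2.1 h')]

/-- **The weights in the frame.** -/
theorem wP_pq (h : Rt T r) (hq : IsPolygon q) :
    wP θ β q D k ρ (T.imE A) = wP θ β (pq T q) (T.pre D) k ρ A := by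
  unfold wP
  rw [wB_pq h hq, lo_pq h hq, hi_pq h hq]

end Vale.Agent.P167.N.QL
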