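import Vale.Agent.P167.N.QL.K6
import Vale.Agent.P167.N.QL.LkV

/-!
# P167, the range `0 < q < 1`, block Q-LAM: the arm of a killed site is prolonged to the opposite side

`reach`: a site `q κ` of a flat part of the boundary which has an arm to the distance `ρ` is joined to
the opposite side of the domain with a probability bounded below (in the canonical window: the boundary
goes to the right, the domain is above). `HS q D k t`: all the strands over `q t` are mixed.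
`reach_T`: the same in all directions, in terms of the strands.
-/

set_option autoImplicit false

namespace Vale.Agent.P167.N.QL

open Finset Relation
open Vale.Agent.P145.FB (PStep)
open Vale.Agent.P167 Vale.Agent.P167.BR Vale.Agent.P167.FK
open Vale.Agent.P167.E6 (IsPolygon Encloses face dir)
open Vale.Agent.P167.H871 (IsC)
open Vale.Agent.P167.H632 (cs pr pr_or pr_not)
open Vale.Agent.P167.H192.TA (Pw)
open Vale.Agent.P167.H816
open Vale.Agent.P167.H262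
open Vale.Agent.P167.H760 (Tr Co)
open Vale.Agent.P167.QX (lo hi)
open Vale.Agent.P167.N.NET (Ar Fr Quad Fan fan_of Jn HK1 HK1_sub Vc Nx Beg Exi Bd Bd_anti VT Vs Hs Cor
  VRS VT_arch arch mem_arch net1 bd_of bd_bot bd_top bd_left bd_right turn_HT VT_nonneg)

variable {n κ t k : ℕ} {q : ZMod n → ℤ × ℤ} {D B : Finset (ℤ × ℤ)} {ω ω' η : Cfg} {c b : Bool}
  {s v : ℤ × ℤ} {r r' R : ℤ} {Q : ℝ}

/-- The corridor to the opposite side. -/
noncomputable def corr (p : ℤ × ℤ) (ρ H : ℕ) : Finset (ℤ × ℤ) :=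
  Rsq (p.1 + (ρ / 8 : ℕ)) (p.1 + (ρ / 4 : ℕ)) p.2 (p.2 + H)

/-- **The arm of the site is prolonged to the opposite side.** -/
theorem reach (hQ : 0 < Q) (hQ1 : Q ≤ 1) (hV : VRS Q) (M : ℕ) : ∃ c1 : ℝ, 0 < c1 ∧ c1 ≤ 1 ∧
    ∀ {n κ : ℕ} {q : ZMod n → ℤ × ℤ} {D : Finset (ℤ × ℤ)} {η : Cfg} {c : Bool} {R : ℤ},
    IsPolygon q → Encloses q D → JN false q D κ R → Good η →
    ((q (κ : ZMod n)).1 + (q (κ : ZMod n)).2) % 2 = pr c →
    ∀ ρ H a a' : ℕ, 64 ≤ ρ → (ρ : ℤ) + 1 ≤ R → ρ < H → H ≤ M * ρ →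
    corr (q (κ : ZMod n)) ρ H ⊆ D →
    Hs c ((q (κ : ZMod n)).2 + H) ((q (κ : ZMod n)).1 + (ρ / 8 : ℕ))
      ((q (κ : ZMod n)).1 + (ρ / 4 : ℕ)) ⊆ Ar q c a a' →
    ∀ F : Cfg → ℝ, (∀ ω, 0 ≤ F ω) →
      (∀ ω ω' : Cfg, (∀ v, v ∉ tub false (q (κ : ZMod n)) ρ (ρ / 2) →
        v ∉ corr (q (κ : ZMod n)) ρ H → ω' v = ω v) → F ω' = F ω) →
      c1 * Ex Q D η (fun ω => F ω * (NS q D κ κ ρ).indicator 1 ω) ≤
        Ex Q D η (fun ω => F ω * (Jn c ↑D (Ar q c κ κ) (Ar q c a a')).indicator 1 ω) := by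
  obtain ⟨c1, hc1, hc11, H1⟩ := step1 hQ hQ1 hV
  obtain ⟨k, hk, hk1, H2⟩ := hV (16 * M)
  refine ⟨k * c1, mul_pos hk hc1, mul_le_one₀ hk1 hc1.le hc11, ?_⟩
  intro n κ q D η c R hq hD hJ hη hp ρ H a a' h1 h2 h3 h4 hTD hTop F hF0 hF
  have hle := hJ.le
  have hlt := hJ.lt
  obtain ⟨p, hpp⟩ : ∃ p, p = q (κ : ZMod n) := ⟨_, rfl⟩
  have hpe := pr_not c
  have hpo := pr_or c
  have k1 := H1 hq hD hJ hη le_rfl (by omega) hp ρ (ρ / 2) (by omega) (by omega) (by omega) (by omega)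
    F hF0 fun ω ω' hω => hF ω ω' fun v hv _ => hω v hv
  rw [← hpp] at hF hTD hTop k1
  have hG := quad_two (r := (ρ : ℤ)) hq hD hJ.wn (by omega) h2 (t := κ) (m := κ + ρ / 2)
    (d := κ + (ρ - 1)) (by omega) (by omega) le_rfl (by omega) c
  rw [← hpp] at hG
  have hvt := (H2 c (p.1 + (ρ / 8 : ℕ)) (p.1 + (ρ / 4 : ℕ)) p.2 (p.2 + H) (by omega) (by omega)).2
    (by
      have e1 : ρ ≤ 16 * (ρ / 4 - ρ / 8) := by omega
      have e2 : H ≤ 16 * M * (ρ / 4 - ρ / 8) := by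
        calc H ≤ M * ρ := h4
          _ ≤ M * (16 * (ρ / 4 - ρ / 8)) := Nat.mul_le_mul_left M e1
          _ = 16 * M * (ρ / 4 - ρ / 8) := by ring
      have e3 : (H : ℤ) ≤ ((16 * M : ℕ) : ℤ) * (((ρ / 4 : ℕ) : ℤ) - ((ρ / 8 : ℕ) : ℤ)) := by
        rw [← Nat.cast_sub (by omega)]
        exact_mod_cast e2
      calc p.2 + (H : ℤ) - p.2 = H := by ring
        _ ≤ _ := e3
        _ = _ := by push_cast; ring)
  have hBG : (↑(Bq p ρ ∩ D) : Set (ℤ × ℤ)) ⊆ ↑D := coe_subset.2 inter_subset_right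
  have hnet := net1 (e := c) (T := corr p ρ H)
    (A := Hs c p.2 (p.1 + (ρ / 8 : ℕ)) (p.1 + (ρ / 4 : ℕ)))
    (B := Hs c (p.2 + H) (p.1 + (ρ / 8 : ℕ)) (p.1 + (ρ / 4 : ℕ))) hQ hQ1 hη hTD
    (G := Bq p ρ ∩ D) inter_subset_right hG (fan_int hq hD c (Bq_eq p ρ))
    (bd_bot fun v hv => by unfold corr at hv; rw [mem_Rsq] at hv; omega)
    (fun x hx => ?_) (fun v hv hv' y hy hyG => ?_)
    (bd_top fun v hv => by unfold corr at hv; rw [mem_Rsq] at hv; omega)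
    (fun x hx hx' => ?_) hF0 (fun ω ω' hω => hF ω ω' fun v _ hv => hω v fun h' =>
      hv (mem_sdiff.1 h').1)
  · rw [mul_assoc]
    refine (mul_le_mul_of_nonneg_left k1 hk.le).trans ((mul_le_mul_of_nonneg_right hvt ?_).trans
      (hnet.trans ?_))
    · exact FKA.Ex_nonneg hQ fun _ _ => mul_nonneg (hF0 _) (Set.indicator_nonneg
        (fun _ _ => zero_le_one) _)
    · refine FKA.Ex_mono hQ fun S _ => mul_le_mul_of_nonneg_left ?_ (hF0 _)
      refine Set.indicator_le_indicator_of_subset (fun ω hω => ?_) (fun _ => zero_le_one) _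
      exact Jn.mono (Set.union_subset hBG (coe_subset.2 hTD)) subset_rfl hTop (HK1_sub hω)
  · -- the beginning of the corridor
    obtain ⟨x1, x2, x3, x4⟩ := hx
    refine ⟨(x.1 - 1, x.2), ?_, ⟨Or.inr (by ring), Or.inl rfl, x4⟩, (x.1 - 1, x.2), ?_,
      ⟨Or.inl rfl, Or.inl rfl, by dsimp only; omega⟩⟩
    · rw [hpp] at x1 x2 x3 ⊢
      refine mem_coe.2 (hJ.mem_up (by omega) ?_ (by dsimp only; omega))
      rw [mBq]
      dsimp only
      omega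
    · exact hJ.mem_Ar (by rw [← hpp]; exact x1) (by rw [← hpp]; dsimp only; omega)
        (by rw [← hpp]; dsimp only; push_cast; omega) (by rw [← hpp]; dsimp only; omega)
        (by rw [← hpp]; dsimp only; omega) (by dsimp only; omega)
  · -- the exit of the corridor
    have hvD : v ∈ D := hTD (mem_coe.1 hv)
    have hvT : v ∈ corr p ρ H := mem_coe.1 hv
    unfold corr at hvT
    rw [mem_Rsq] at hvT
    have hvB : v ∉ Bq p ρ := fun h5 => hv' (mem_coe.2 (mem_inter.2 ⟨h5, hvD⟩))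
    rw [mBq] at hvB
    obtain ⟨g, hg, hgy⟩ := hyG
    have hg' := mem_inter.1 (mem_coe.1 hg)
    have hgB := hg'.1
    rw [mBq] at hgB
    obtain ⟨y1, y2, y3⟩ := hy
    obtain ⟨g1, g2, g3⟩ := hgy
    have e1 : y.2 = p.2 + ρ := by omega
    refine ⟨(y.1 - 1, y.2 - 1), ?_, ⟨Or.inr (by ring), Or.inr (by ring), y3⟩, (y.1 - 1, y.2), ?_,
      ⟨Or.inl rfl, Or.inr (by ring), by dsimp only; omega⟩⟩
    · rw [hpp] at hvT hvB e1 ⊢
      refine mem_coe.2 (hJ.mem_up (by omega) ?_ (by dsimp only; omega))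
      rw [mBq]
      dsimp only
      omega
    · refine ⟨by dsimp only; omega, Or.inl ⟨(y.1 - 1, y.2), ?_, ⟨Or.inl rfl, Or.inl rfl⟩⟩⟩
      rw [mBq]
      dsimp only
      omega
  · -- the end of the corridor is far from the box
    exfalso
    obtain ⟨x1, x2, x3, x4⟩ := hx
    obtain ⟨g, hg, g1, g2, g3⟩ := hx'
    have hg' := (mem_inter.1 (mem_coe.1 hg)).1
    rw [mBq] at hg'
    omega

/-- **All the strands over `q t` are mixed.** -/
def HS (q : ZMod n → ℤ × ℤ) (D : Finset (ℤ × ℤ)) (k t : ℕ) : Set Cfg :=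
  {ω | ∀ A ∈ pcs ω D, ¬ IsLp D A → lo q A < t → t ≤ hi q A → lo q A < k ∧ k ≤ hi q A}

/-- A connection of `q t` to the other arc. -/
theorem hs_of_join (hq : IsPolygon q) (hD : Encloses q D) {a a' : ℕ} (ht : t ≤ n) (ha' : a' ≤ n)
    (hs : (t < k ∧ k ≤ a) ∨ (k ≤ t ∧ a' ≤ k))
    (h : ω ∈ Jn c ↑D (Ar q c t t) (Ar q c a a')) : ω ∈ HS q D k t := by
  intro A hA hl h1 h2
  obtain ⟨u, ⟨hu, i, i1, i2, rfl⟩, v, ⟨hv, m, m1, m2, rfl⟩, h3⟩ := h
  obtain rfl : i = t := le_antisymm i2 i1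
  have h4 := (over_iff_of_join hq hD hA hl ht (m2.trans ha') hu h3).1 ⟨h1, h2⟩
  omega

section transport

variable {T : Tr} {r₀ : Fin 4} (hT : Rt T r₀) (hq : IsPolygon q)
include hT hq

theorem ns_pq : T.C ω ∈ NS q D κ t r ↔ ω ∈ NS (pq T q) (T.pre D) κ t r := by
  have e : pcs (T.C ω) D = (pcs ω (T.pre D)).image T.imE := by
    conv_lhs => rw [← T.im_pre (D := D)]
    exact T.pcsT
  have key : ∀ A : Finset Ed, (¬ IsLp D (T.imE A) → (∀ e ∈ T.imE A, hdv e ∈ Bq (q (κ : ZMod n)) r) →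
      ¬ (lo q (T.imE A) < t ∧ t ≤ hi q (T.imE A))) ↔
      (¬ IsLp (T.pre D) A → (∀ e ∈ A, hdv e ∈ Bq (pq T q (κ : ZMod n)) r) →
        ¬ (lo (pq T q) A < t ∧ t ≤ hi (pq T q) A)) := by
    intro A
    have h1 := in_T (T := T) (c := pq T q (κ : ZMod n)) (r := r) hT.o (A := A)
    rw [S_pq] at h1
    rw [lo_pq hT hq, hi_pq hT hq, isLp_pq hT.o, h1]
  constructor
  · intro h A hA
    exact (key A).1 (h _ (by rw [e]; exact mem_image_of_mem _ hA))
  · intro h B hB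
    rw [e] at hB
    obtain ⟨A, hA, rfl⟩ := mem_image.1 hB
    exact (key A).2 (h A hA)

theorem hs_pq : T.C ω ∈ HS q D k t ↔ ω ∈ HS (pq T q) (T.pre D) k t := by
  have e : pcs (T.C ω) D = (pcs ω (T.pre D)).image T.imE := by
    conv_lhs => rw [← T.im_pre (D := D)]
    exact T.pcsT
  have key : ∀ A : Finset Ed, (¬ IsLp D (T.imE A) → lo q (T.imE A) < t → t ≤ hi q (T.imE A) →
      lo q (T.imE A) < k ∧ k ≤ hi q (T.imE A)) ↔
      (¬ IsLp (T.pre D) A → lo (pq T q) A < t → t ≤ hi (pq T q) A →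
        lo (pq T q) A < k ∧ k ≤ hi (pq T q) A) := by
    intro A
    rw [lo_pq hT hq, hi_pq hT hq, isLp_pq hT.o]
  constructor
  · intro h A hA
    exact (key A).1 (h _ (by rw [e]; exact mem_image_of_mem _ hA))
  · intro h B hB
    rw [e] at hB
    obtain ⟨A, hA, rfl⟩ := mem_image.1 hB
    exact (key A).2 (h A hA)

end transport

/-- **The arm of the site is prolonged to the other arc**, in all directions. -/
theorem reach_T (hQ : 0 < Q) (hQ1 : Q ≤ 1) (hV : VRS Q) (M : ℕ) : ∃ c1 : ℝ, 0 < c1 ∧ c1 ≤ 1 ∧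
    ∀ {n κ k : ℕ} {q : ZMod n → ℤ × ℤ} {D : Finset (ℤ × ℤ)} {η : Cfg} {c : Bool} {R : ℤ} {T : Tr}
      {r₀ : Fin 4},
    IsPolygon q → Encloses q D → Rt T r₀ → JN false (pq T q) (T.pre D) κ R → Good η →
    ((q (κ : ZMod n)).1 + (q (κ : ZMod n)).2) % 2 = pr c →
    ∀ ρ H a a' : ℕ, 64 ≤ ρ → (ρ : ℤ) + 1 ≤ R → ρ < H → H ≤ M * ρ → a' ≤ n →
    (κ < k ∧ k ≤ a) ∨ (k ≤ κ ∧ a' ≤ k) →
    corr (pq T q (κ : ZMod n)) ρ H ⊆ T.pre D →
    Hs c ((pq T q (κ : ZMod n)).2 + H) ((pq T q (κ : ZMod n)).1 + (ρ / 8 : ℕ))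
      ((pq T q (κ : ZMod n)).1 + (ρ / 4 : ℕ)) ⊆ Ar (pq T q) c a a' →
    ∀ (F : Cfg → ℝ) (S : Finset (ℤ × ℤ)), (∀ ω, 0 ≤ F ω) → FKA.Loc S F →
      (∀ v ∈ S, T.Q.symm v ∉ tub false (pq T q (κ : ZMod n)) ρ (ρ / 2) ∧
        T.Q.symm v ∉ corr (pq T q (κ : ZMod n)) ρ H) →
      c1 * Ex Q D η (fun ω => F ω * (NS q D κ κ ρ).indicator 1 ω) ≤
        Ex Q D η (fun ω => F ω * (HS q D k κ).indicator 1 ω) := by
  obtain ⟨c1, hc1, hc11, H1⟩ := reach hQ hQ1 hV M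
  refine ⟨c1, hc1, hc11, ?_⟩
  intro n κ k q D η c R T r₀ hq hD hT hJ hη hp ρ H a a' h1 h2 h3 h4 ha' hs hTD hTop F S hF0 hF hS
  have hle := hJ.le
  have hlt := hJ.lt
  have hp' : ((pq T q (κ : ZMod n)).1 + (pq T q (κ : ZMod n)).2) % 2 = pr c := by
    have h5 := par_T hT.o (pq T q (κ : ZMod n))
    rw [S_pq, Int.even_iff, Int.even_iff] at h5
    have h6 := pr_or c
    omega
  have hη' : Good (T.Ci η) := T.good_T' (by rw [T.C_Ci]; exact hη)
  have key := H1 (hT.poly hq) (hT.encl hD) hJ hη' hp' ρ H a a' h1 h2 h3 h4 hTD hTop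
    (fun ω => F (T.C ω)) (fun ω => hF0 _) fun ω ω' hω => by
      refine hF _ _ fun v hv => ?_
      rw [T.C_apply', T.C_apply', hω _ (hS v hv).1 (hS v hv).2]
  rw [← T.Ex_pre Q D η, ← T.Ex_pre Q D η]
  refine le_trans (le_of_eq ?_) (key.trans ?_)
  · congr 2
    funext ω
    congr 1
    by_cases h5 : T.C ω ∈ NS q D κ κ ρ
    · rw [Set.indicator_of_mem h5, Set.indicator_of_mem ((ns_pq hT hq).1 h5)]
      rfl
    · rw [Set.indicator_of_notMem h5, Set.indicator_of_notMem fun h6 => h5 ((ns_pq hT hq).2 h6)]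
  · refine FKA.Ex_mono hQ fun S' _ => mul_le_mul_of_nonneg_left ?_ (hF0 _)
    by_cases h5 : cf (T.pre D) (T.Ci η) S' ∈ Jn c ↑(T.pre D) (Ar (pq T q) c κ κ) (Ar (pq T q) c a a')
    · have h6 := hs_of_join (k := k) (hT.poly hq) (hT.encl hD) (by omega) ha' hs h5
      rw [Set.indicator_of_mem h5, Set.indicator_of_mem ((hs_pq hT hq).2 h6)]
      rfl
    · rw [Set.indicator_of_notMem h5]
      exact Set.indicator_nonneg (fun _ _ => zero_le_one) _

end Vale.Agent.P167.N.QL
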