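import Vale.Agent.P167.N.QL.Ph
import Vale.Agent.P167.N.H852.Q.Y2

/-!
# P167, the range `0 < q < 1`, block Q-LAM: strands with boundary phases

`local_of_small`: a small strand with a phase difference is near a centre. `large_of_ne_one`: a piece
with weight different from one is in the box of a centre or large.
-/

set_option autoImplicit false

namespace Vale.Agent.P167.N.QL

open Finset Filter Vale.Agent.P167.BR Vale.Agent.P167.FK
open Vale.Agent.P167.E6 (IsPolygon Encloses face dir)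
open Vale.Agent.P167.H601.LG (feet nm_be nm_tri' nm_comm nm_of_Bq one_le_diam)
open Vale.Agent.P167.QX (wB wB_zero lo hi)
open Vale.Agent.P167.H542.Q (cB)

variable {θ β : ℝ} {ω : Cfg} {A : Finset Ed} {P : PD} {n : ℕ}

theorem eq_of_none {ρ : ℕ → ℝ} {x y : ℕ} (hxy : x ≤ y) (h : ∀ j, x < j → j ≤ y → ρ j = ρ (j - 1)) :
    ρ y = ρ x := by
  induction y, hxy using Nat.le_induction with
  | base => rfl
  | succ m hm ih =>
    rw [h (m + 1) (by omega) le_rfl, Nat.add_sub_cancel]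
    exact ih fun j h1 h2 => h j h1 (by omega)

/-- The bound of the weights. -/
theorem abs_wP_le (h0 : 0 < θ) (h1 : Ang θ) (hβ : Real.cos (θ / 2 + β) = Real.sin θ)
    {N : ℕ} (q : ZMod N → ℤ × ℤ) (D : Finset (ℤ × ℤ)) (k : ℕ) (ρ : ℕ → ℝ) (A : Finset Ed) :
    |wP θ β q D k ρ A| ≤ (cB θ)⁻¹ := Vale.Agent.P167.N.H852.Q.abs_wB_le h0 h1 hβ A _

/-- **A small strand with a phase difference is near a centre.** -/
theorem local_of_small (hG : GeoP n P.N P.q) (hN : P.Near) (hq : IsPolygon P.q)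
    (hD : Encloses P.q P.D) (hA : A ∈ pcs ω P.D) (hl : ¬ IsLp P.D A)
    (hw : P.ρ (hi P.q A) ≠ P.ρ (lo P.q A) ∨ (lo P.q A < P.k ∧ P.k ≤ hi P.q A)) {m : ℤ}
    (hm : 3 * (m + 2) < n) (hd : ∀ e ∈ A, ∀ e' ∈ A, nm (hdv e - hdv e') ≤ m) :
    ∃ j ∈ P.J, ∀ e ∈ A, nm (hdv e - P.q (j : ZMod P.N)) ≤ 3 * m + 7 := by
  obtain ⟨h1, h2, h3, h4⟩ := feet hq hD hA hl
  have hm0 : 0 ≤ m := (H825.Reg.nm_nn _).trans (hd _ h3 _ h3)
  set x := lo P.q A
  set y := hi P.q A
  have e1 := nm_be (q := P.q) (x : ZMod P.N)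
  have e2 := nm_be (q := P.q) (y : ZMod P.N)
  have e3 := hd _ h3 _ h4
  have hxy : nm (P.q (x : ZMod P.N) - P.q (y : ZMod P.N)) ≤ m + 2 := by
    have k1 := nm_tri' (P.q (x : ZMod P.N)) (hdv (be P.q (x : ZMod P.N))) (P.q (y : ZMod P.N))
    have k2 := nm_tri' (hdv (be P.q (x : ZMod P.N))) (hdv (be P.q (y : ZMod P.N)))
      (P.q (y : ZMod P.N))
    rw [nm_comm] at e1
    omega
  -- every edge is close to the first foot
  have hx : ∀ e ∈ A, ∀ j : ℕ, nm (P.q (x : ZMod P.N) - P.q (j : ZMod P.N)) ≤ 2 * (m + 2) + 2 →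
      nm (hdv e - P.q (j : ZMod P.N)) ≤ 3 * m + 7 := by
    intro e he j hj
    have k1 := nm_tri' (hdv e) (hdv (be P.q (x : ZMod P.N))) (P.q (j : ZMod P.N))
    have k2 := nm_tri' (hdv (be P.q (x : ZMod P.N))) (P.q (x : ZMod P.N)) (P.q (j : ZMod P.N))
    have k3 := hd _ he _ h3
    omega
  rcases hG.near (by omega) h2.le hm hxy with h5 | h5
  · rw [abs_of_nonpos (by omega)] at h5
    obtain ⟨j, j1, j2, j3, j4⟩ : ∃ j, x < j ∧ j ≤ y ∧ j < P.N ∧
        (P.ρ j ≠ P.ρ (j - 1) ∨ j = P.k) := by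
      rcases hw with hw | ⟨w1, w2⟩
      · by_contra hcon
        push Not at hcon
        exact hw (eq_of_none h1.le fun j h6 h7 => (hcon j h6 h7 (by omega)).1)
      · exact ⟨P.k, w1, w2, by omega, Or.inr rfl⟩
    obtain ⟨i, hi, hij⟩ := hN.near j (by omega) j3 j4
    refine ⟨i, hi, fun e he => hx e he i ?_⟩
    have k1 := hG.lip x i
    have k2 : |(x : ℤ) - i| ≤ 2 * (m + 2) + 2 := by
      rw [abs_le] at hij ⊢
      constructor <;> omega
    omega
  · rw [abs_of_nonpos (by omega)] at h5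
    refine ⟨0, hN.zero, fun e he => hx e he 0 ?_⟩
    have k1 := hG.lip x 0
    rw [abs_of_nonneg (by omega)] at k1
    push_cast at k1 ⊢
    omega

/-- **A piece with weight different from one is in the box of a centre or large.** -/
theorem large_of_ne_one (hs : Real.sin θ ≠ 0) (hc : Real.cos θ ≠ 0)
    (hβ : Real.cos (θ / 2 + β) = Real.sin θ) (hG : GeoP n P.N P.q) (hN : P.Near)
    (hq : IsPolygon P.q) (hD : Encloses P.q P.D) (hA : A ∈ pcs ω P.D)
    (hw : wP θ β P.q P.D P.k P.ρ A ≠ 1) {r : ℤ} (hr : r ≤ n) (hout : ¬ P.In r A) :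
    ∃ e ∈ A, ∃ e' ∈ A, (r : ℝ) / 16 ≤ nm (hdv e - hdv e') := by
  have hl : ¬ IsLp P.D A := fun hl => hw (wP_lp hq hD hA hl hc)
  have hK : P.ρ (hi P.q A) ≠ P.ρ (lo P.q A) ∨ (lo P.q A < P.k ∧ P.k ≤ hi P.q A) := by
    by_contra hcon
    push Not at hcon
    exact hw (wP_one hs hc hβ hcon.1)
  obtain ⟨f, hf, f', hf', h2⟩ := one_le_diam hA hl
  by_cases hr16 : r ≤ 16
  · refine ⟨f, hf, f', hf', ?_⟩
    have e1 : (r : ℝ) ≤ 16 := by exact_mod_cast hr16
    have e2 : (1 : ℝ) ≤ nm (hdv f - hdv f') := by exact_mod_cast h2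
    linarith
  · push Not at hr16
    by_contra hc
    push Not at hc
    -- all edges are close to each other
    have hd : ∀ e ∈ A, ∀ e' ∈ A, nm (hdv e - hdv e') ≤ r / 16 := by
      intro e he e' he'
      have h3 := hc e he e' he'
      have h4 : (16 * nm (hdv e - hdv e') : ℤ) < r := by
        have : ((16 * nm (hdv e - hdv e') : ℤ) : ℝ) < (r : ℝ) := by
          push_cast
          linarith
        exact_mod_cast this
      omega
    obtain ⟨j, j1, j3⟩ := local_of_small hG hN hq hD hA hl hK (m := r / 16) (by omega) hd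
    refine hout ⟨j, j1, fun e he => ?_⟩
    have h3 := j3 e he
    have h4 : nm (hdv e - P.q (j : ZMod P.N)) < r := by omega
    unfold Bq
    unfold nm at h4
    rw [max_lt_iff, abs_lt, abs_lt] at h4
    simp only [Prod.fst_sub, Prod.snd_sub] at h4
    rw [Finset.mem_product, Finset.mem_Ico, Finset.mem_Ico]
    omega

end Vale.Agent.P167.N.QL
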