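import Vale.Agent.P167.N.NET.QuadE

/-!
# P167, the range `0 < q < 1`, block Q-LAM: duality of quads in a box of a polygon domain

`D`: the domain of the polygon `q`, `B`: a box, the positions `a, …, d` of the polygon are inside `B`,
the positions `0` and `1` are not.

* `exists_Nb`: the potential of a path in `B ∩ D`.
* `quad_int`: duality in `B ∩ D`.
-/

set_option autoImplicit false

namespace Vale.Agent.P167.N.QL

open Finset
open Vale.Agent.P145.FB Vale.Agent.P167 Vale.Agent.P167.H871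
open Vale.Agent.P167.H632 (cs pr pr_or pr_not)
open Vale.Agent.P167.H192.TA
open Vale.Agent.P167.E6 (dir face IsPolygon Encloses)
open Vale.Agent.P167.N.NET
open Relation (ReflTransGen)

variable {n : ℕ} {q : ZMod n → ℤ × ℤ} {D B : Finset (ℤ × ℤ)} {c : Bool} {ω : Cfg}
  {a b m d i j : ℕ}

/-- **The potential of a path** in `B ∩ D`. -/
theorem exists_Nb (hq : IsPolygon q) (hD : Encloses q D) {a1 b1 a2 b2 : ℤ}
    (hBe : B = Ico a1 b1 ×ˢ Ico a2 b2) (hij : i < j) (hj : j ≤ n)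
    (hi : ((q (i : ZMod n)).1 + (q (i : ZMod n)).2) % 2 = pr (!c))
    (hjc : ((q (j : ZMod n)).1 + (q (j : ZMod n)).2) % 2 = pr (!c))
    (hB : ∀ k : ℕ, i < k → k < j → ∀ v, IsC v (q (k : ZMod n)) → v ∈ B)
    (h0 : ∃ v, v ∉ B ∧ IsC v (q 0)) (h1 : ∃ v, v ∉ B ∧ IsC v (q 1))
    (hP : Pw (cs (!c) ω ∩ ↑(B ∩ D)) (q (i : ZMod n)) (q (j : ZMod n))) :
    ∃ N : ℤ × ℤ → ZMod 2, (∀ k : ℕ, k ≤ n →
        ((q (k : ZMod n)).1 + (q (k : ZMod n)).2) % 2 = pr c →
        N (q (k : ZMod n)) = Mid q i j (q (k : ZMod n))) ∧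
      (∀ s v : ℤ × ℤ, (s.1 + s.2) % 2 = pr c → v ∉ B → IsC v s → N s = 0) ∧
      ∀ x y : ℤ × ℤ, (x.1 + x.2) % 2 = pr c → Pw (cs c ω ∩ ↑(B ∩ D)) x y → N x = N y := by
  classical
  obtain ⟨ε, e1, e2⟩ := path_chain hi hP
  set M := Mid q i j with hM
  have hcl : Closed c (fun v => ε v + inI D v * (M (c1 c v) + M (c2 c v))) := by
    refine closed_of ?_
    intro x hx
    rw [deg_add, e2 x hx]
    have h2 : deg (fun v => inI D v * (M (c1 c v) + M (c2 c v))) x =
        ∑ r : Fin 4, inI D (face x r) * (M (x + dir r) + M (x + dir (r + 1))) := by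
      unfold deg
      exact sum_congr rfl fun r _ => by beta_reduce; rw [c_face M hx]
    rw [h2]
    by_cases h3 : ∃ k, q k = x
    · obtain ⟨k, rfl⟩ := h3
      rw [fan hq hD, mid_rel hq hij hj hi hjc k hx, z2_add_self]
    · push Not at h3
      rw [fan_off hD h3, add_zero, if_neg (fun h => h3 _ h.symm), if_neg (fun h => h3 _ h.symm),
        add_zero]
  have hM0 : ∀ s v, v ∉ B → IsC v s → M s = 0 := by
    intro s v hvB hs
    rw [hM, Mid, if_neg]
    rintro ⟨k, k1, k2, rfl⟩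
    exact hvB (hB k k1 k2 v hs)
  have hsu : ∀ v, (fun v => ε v + inI D v * (M (c1 c v) + M (c2 c v))) v ≠ 0 →
      (a1 ≤ v.1 ∧ v.1 < b1) ∧ a2 ≤ v.2 ∧ v.2 < b2 := by
    intro v hv
    have hvB : v ∈ B := by
      by_contra hvB
      have h2 : ε v = 0 := by
        by_contra h2
        exact hvB (mem_inter.1 (e1 v h2).1).1
      have h4 : ∀ s, Cor c v s → IsC v s := fun s hs => ⟨hs.1, hs.2.1⟩
      beta_reduce at hv
      rw [h2, hM0 _ _ hvB (h4 _ (c1_cor c v)), hM0 _ _ hvB (h4 _ (c2_cor c v))] at hv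
      exact hv (by ring)
    rw [hBe, mem_product, mem_Ico, mem_Ico] at hvB
    exact hvB
  obtain ⟨N, n1, n2⟩ := exists_pot2 hcl hsu
  have far : ∀ s v : ℤ × ℤ, (s.1 + s.2) % 2 = pr c → v ∉ B → IsC v s → N s = 0 := by
    intro s v hs hv hvs
    refine n2 s hs ?_
    rw [hBe, mem_product, mem_Ico, mem_Ico] at hv
    obtain ⟨h2, h3⟩ := hvs
    omega
  -- `N` vanishes along the contour
  have hN0 : ∀ k : ℕ, k ≤ n → ((q (k : ZMod n)).1 + (q (k : ZMod n)).2) % 2 = pr c →
      N (q (k : ZMod n)) = 0 := by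
    intro k
    induction k using Nat.strong_induction_on with
    | _ k ih =>
      intro hk hkc
      rcases Nat.lt_or_ge k 2 with h2 | h2
      · rcases Nat.lt_or_ge k 1 with h3 | h3
        · obtain rfl : k = 0 := by omega
          obtain ⟨v, hv, hvs⟩ := h0
          rw [Nat.cast_zero] at hkc ⊢
          exact far _ v hkc hv hvs
        · obtain rfl : k = 1 := by omega
          obtain ⟨v, hv, hvs⟩ := h1
          rw [Nat.cast_one] at hkc ⊢
          exact far _ v hkc hv hvs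
      · obtain ⟨l, rfl⟩ : ∃ l, k = l + 2 := ⟨k - 2, by omega⟩
        have hl1 : ((q ((l + 1 : ℕ) : ZMod n)).1 + (q ((l + 1 : ℕ) : ZMod n)).2) % 2 = pr (!c) := by
          have h4 := par_next (c := c) hq ((l + 1 : ℕ) : ZMod n)
          rw [← Nat.cast_succ] at h4
          exact h4.1 hkc
        have hl0 := par_nat hq (l + 2) l (by omega) hkc
        have h3 := ih l (by omega) (by omega) hl0
        have h4 := fan hq hD N ((l + 1 : ℕ) : ZMod n)
        have h5 : ∑ r : Fin 4, (N (q ((l + 1 : ℕ) : ZMod n) + dir r) +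
            N (q ((l + 1 : ℕ) : ZMod n) + dir (r + 1))) = 0 := by
          rw [Fin.sum_univ_four, show (0 : Fin 4) + 1 = 1 from rfl,
            show (1 : Fin 4) + 1 = 2 from rfl, show (2 : Fin 4) + 1 = 3 from rfl,
            show (3 : Fin 4) + 1 = 0 from rfl]
          linear_combination z2_add_self (N (q ((l + 1 : ℕ) : ZMod n) + dir 0)) +
            z2_add_self (N (q ((l + 1 : ℕ) : ZMod n) + dir 1)) +
            z2_add_self (N (q ((l + 1 : ℕ) : ZMod n) + dir 2)) +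
            z2_add_self (N (q ((l + 1 : ℕ) : ZMod n) + dir 3))
        have h6 : ∑ r : Fin 4, inI D (face (q ((l + 1 : ℕ) : ZMod n)) r) *
            (N (q ((l + 1 : ℕ) : ZMod n) + dir r) + N (q ((l + 1 : ℕ) : ZMod n) + dir (r + 1))) =
            ∑ r : Fin 4, (N (q ((l + 1 : ℕ) : ZMod n) + dir r) +
            N (q ((l + 1 : ℕ) : ZMod n) + dir (r + 1))) := by
          refine sum_congr rfl fun r _ => ?_
          unfold inI
          by_cases h7 : face (q ((l + 1 : ℕ) : ZMod n)) r ∈ D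
          · rw [if_pos h7, one_mul]
          · have h8 : ε (face (q ((l + 1 : ℕ) : ZMod n)) r) = 0 := by
              by_contra h8
              exact h7 (mem_inter.1 (e1 _ h8).1).2
            have h9 := n1 (face (q ((l + 1 : ℕ) : ZMod n)) r)
            unfold inI at h9
            rw [if_neg h7, h8, c_face N hl1] at h9
            rw [if_neg h7, h9]
            ring
        rw [h4, h5] at h6
        have e3 : ((l + 1 : ℕ) : ZMod n) + 1 = ((l + 2 : ℕ) : ZMod n) := by push_cast; ring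
        have e4 : ((l + 1 : ℕ) : ZMod n) - 1 = ((l : ℕ) : ZMod n) := by push_cast; ring
        rw [e3, e4, h3, add_zero] at h6
        exact h6
  refine ⟨fun s => N s + M s, fun k hk hkc => ?_, fun s v hs hv hvs => ?_, fun x y hx hxy => ?_⟩
  · show N _ + M _ = _
    rw [hN0 k hk hkc, zero_add]
  · show N _ + M _ = _
    rw [far s v hs hv hvs, hM0 s v hv hvs, add_zero]
  · refine pot_path (N := fun s => N s + M s)
      (ε := fun v => ε v + (1 + inI D v) * (M (c1 c v) + M (c2 c v))) (fun v => ?_)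
      (fun v hv hvc => ?_) hx hxy
    · linear_combination n1 v
    · have h2 : ε v = 0 := by
        by_contra h2
        have := (e1 v h2).2
        rw [hvc] at this
        cases c <;> simp at this
      rw [h2]
      unfold inI
      rw [if_pos (mem_inter.1 hv).2]
      linear_combination z2_add_self (M (c1 c v) + M (c2 c v))

/-- The sum over the contour, from the inside. -/
theorem contour_sum_b (hq : IsPolygon q) (hD : Encloses q D) (f : ℤ × ℤ → ZMod 2) :
    ∑ p ∈ ((B ∩ D) ×ˢ (univ : Finset (Fin 4))) with rf p.1 p.2 ∉ D,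
      f (st p.1 p.2) * f (st p.1 p.2 + dir p.2) =
    ∑ k ∈ range n, if face (q (k : ZMod n)) (E2.ro q (k : ZMod n)) ∈ B then
      f (q (k : ZMod n)) * f (q ((k + 1 : ℕ) : ZMod n)) else 0 := by
  have hn := hq.1
  have : NeZero n := ⟨by omega⟩
  rw [← sum_filter]
  symm
  refine sum_bij (fun k _ => (face (q (k : ZMod n)) (E2.ro q (k : ZMod n)),
    E2.ro q (k : ZMod n))) ?_ ?_ ?_ ?_
  · intro k hk
    rw [mem_filter] at hk
    have h1 := (hD _ _).1 ⟨(k : ZMod n), rfl, E2.ro_spec hq (k : ZMod n)⟩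
    simp only [mem_filter, mem_product, mem_univ, and_true, mem_inter]
    refine ⟨⟨hk.2, h1.1⟩, ?_⟩
    rw [rf_face]
    exact h1.2
  · intro k hk l hl h
    rw [mem_filter, mem_range] at hk hl
    obtain ⟨h1, h2⟩ := Prod.ext_iff.1 h
    dsimp only at h1 h2
    rw [h2] at h1
    have h5 : q (k : ZMod n) = q (l : ZMod n) := by
      rw [← st_face (q (k : ZMod n)) (E2.ro q (l : ZMod n)), h1, st_face]
    exact q_inj hq hk.1 hl.1 h5
  · rintro ⟨u, s⟩ h
    simp only [mem_filter, mem_product, mem_univ, and_true, mem_inter] at h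
    obtain ⟨⟨h1, h2⟩, h3⟩ := h
    obtain ⟨k, k1, k2⟩ := (hD (st u s) s).2 ⟨by rw [face_st]; exact h2, by
      rw [face_st']; exact h3⟩
    have k3 : s = E2.ro q k := E2.ro_unique hq (by rw [k1]; exact k2)
    have k4 : ((k.val : ℕ) : ZMod n) = k := ZMod.natCast_zmod_val k
    have k5 : face (q k) (E2.ro q k) = u := by rw [← k3, k1, face_st]
    refine ⟨k.val, ?_, ?_⟩
    · rw [mem_filter, mem_range, k4, k5]
      exact ⟨ZMod.val_lt k, h1⟩
    · rw [k4, k5, ← k3]
  · intro k _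
    dsimp only
    rw [st_face, Nat.cast_succ, ← E2.ro_spec hq]

/-- **Duality in `B ∩ D`.** -/
theorem quad_int (hq : IsPolygon q) (hD : Encloses q D) {a1 b1 a2 b2 : ℤ}
    (hBe : B = Ico a1 b1 ×ˢ Ico a2 b2) (hab : a ≤ b) (hbm : b ≤ m) (hmd : m ≤ d) (hd : d ≤ n)
    (hB : ∀ k : ℕ, a ≤ k → k ≤ d → ∀ v, IsC v (q (k : ZMod n)) → v ∈ B)
    (h0 : ∃ v, v ∉ B ∧ IsC v (q 0)) (h1 : ∃ v, v ∉ B ∧ IsC v (q 1)) :
    Quad c ↑(B ∩ D) (Ar q c b m) (Fr q c B a d) (Ar q (!c) a b) (Ar q (!c) m d) := by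
  classical
  refine ⟨fun u hu => hu.1, fun u hu => hu.1, fun u hu => hu.1, fun u hu => hu.1,
    fun ω => ⟨?_, fun hno => ?_⟩⟩
  · -- exclusion
    rintro ⟨x, ⟨hx, k, k1, k2, rfl⟩, s, ⟨hs, hs2⟩, hxs⟩ ⟨y, ⟨hy, i, i1, i2, rfl⟩, z, ⟨hz, j, j1, j2, rfl⟩,
      hyz⟩
    have p1 := par_odd hq hx hy
    have p2 := par_odd hq hx hz
    obtain ⟨N, n1, n2, n3⟩ := exists_Nb (c := c) hq hD hBe (show i < j by omega) (j2.trans hd) hy hz
      (fun k g1 g2 => hB k (by omega) (by omega)) h0 h1 hyz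
    have e1 := n3 _ _ hx hxs
    rw [n1 k (by omega) hx, mid_pos hq (j2.trans hd) (by omega), if_pos (by omega)] at e1
    have e2 : N s = 0 := by
      rcases hs2 with ⟨v, hv, hvs⟩ | ⟨l, l1, l2, rfl⟩
      · exact n2 s v hs hv hvs
      · rw [n1 l l1 hs, mid_pos hq (j2.trans hd) l1, if_neg (by omega)]
    rw [e2] at e1
    exact one_ne_zero e1
  · -- existence
    by_contra hno'
    set f := fC c ↑(B ∩ D) (Ar q c b m) (Ar q (!c) a b) ω with hf
    have fF : ∀ s ∈ Fr q c B a d, f s = 0 := by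
      intro s hs
      rw [hf, fC_c hs.1, if_neg]
      rintro ⟨x, hx, h⟩
      exact hno' ⟨x, hx, s, hs, h⟩
    have fX2 : ∀ s ∈ Ar q c b m, f s = 1 := by
      intro s hs
      rw [hf, fC_c hs.1, if_pos (Cl_seed hs)]
    have fX1 : ∀ s ∈ Ar q (!c) a b, f s = 1 := by
      intro s hs
      rw [hf, fC_n hs.1, if_pos (Cl_seed hs)]
    have fX3 : ∀ s ∈ Ar q (!c) m d, f s = 0 := by
      intro s hs
      rw [hf, fC_n hs.1, if_neg]
      rintro ⟨x, hx, h⟩
      exact hno ⟨x, hx, s, hs, h⟩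
    have hst := stokes (B ∩ D) f fC_sq
    have hsub : ∑ p ∈ ((B ∩ D) ×ˢ (univ : Finset (Fin 4))) with rf p.1 p.2 ∉ D,
        f (st p.1 p.2) * f (st p.1 p.2 + dir p.2) = 0 := by
      rw [← hst]
      refine sum_subset (fun p hp => ?_) fun p hp hp' => ?_
      · rw [mem_filter] at hp ⊢
        exact ⟨hp.1, fun h => hp.2 (mem_inter.1 h).2⟩
      · rw [mem_filter] at hp hp'
        have g1 : rf p.1 p.2 ∈ D := by
          by_contra h
          exact hp' ⟨hp.1, h⟩
        have g2 : rf p.1 p.2 ∉ B := fun h => hp.2 (mem_inter.2 ⟨h, g1⟩)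
        have g3 := isC_st (rf p.1 p.2) (p.2 + 2)
        rw [st_dir, st_rf] at g3
        by_cases g4 : ((st p.1 p.2).1 + (st p.1 p.2).2) % 2 = pr c
        · rw [fF _ ⟨g4, Or.inl ⟨_, g2, g3.2⟩⟩, zero_mul]
        · rw [fF (st p.1 p.2 + dir p.2) ⟨(dir_par _ _).2 (pr_ne.1 g4), Or.inl ⟨_, g2, g3.1⟩⟩,
            mul_zero]
    rw [contour_sum_b hq hD] at hsub
    set φ : ℕ → ZMod 2 := fun k => if face (q (k : ZMod n)) (E2.ro q (k : ZMod n)) ∈ B then
      f (q (k : ZMod n)) * f (q ((k + 1 : ℕ) : ZMod n)) else 0 with hφ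
    change ∑ k ∈ range n, φ k = 0 at hsub
    have z1 : ∀ k : ℕ, f (q (k : ZMod n)) = 0 ∨ f (q ((k + 1 : ℕ) : ZMod n)) = 0 → φ k = 0 := by
      intro k h
      rw [hφ]
      beta_reduce
      split_ifs
      · rcases h with h | h <;> rw [h] <;> ring
      · rfl
    have s1 : ∑ k ∈ Ico 0 a, φ k = 0 := by
      refine sum_eq_zero fun k hk => z1 k ?_
      rw [mem_Ico] at hk
      rcases par_cases hq c k with ⟨g, -⟩ | ⟨-, g⟩
      · exact Or.inl (fF _ ⟨g, Or.inr ⟨k, by omega, Or.inl (by omega), rfl⟩⟩)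
      · exact Or.inr (fF _ ⟨g, Or.inr ⟨k + 1, by omega, Or.inl (by omega), rfl⟩⟩)
    have s4 : ∑ k ∈ Ico m n, φ k = 0 := by
      refine sum_eq_zero fun k hk => z1 k ?_
      rw [mem_Ico] at hk
      rcases Nat.lt_or_ge k d with hkd | hkd
      · rcases par_cases hq c k with ⟨-, g⟩ | ⟨g, -⟩
        · exact Or.inr (fX3 _ ⟨g, k + 1, by omega, by omega, rfl⟩)
        · exact Or.inl (fX3 _ ⟨g, k, by omega, by omega, rfl⟩)
      · rcases par_cases hq c k with ⟨g, -⟩ | ⟨-, g⟩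
        · exact Or.inl (fF _ ⟨g, Or.inr ⟨k, by omega, Or.inr (by omega), rfl⟩⟩)
        · exact Or.inr (fF _ ⟨g, Or.inr ⟨k + 1, by omega, Or.inr (by omega), rfl⟩⟩)
    have inB : ∀ k, a ≤ k → k ≤ d → face (q (k : ZMod n)) (E2.ro q (k : ZMod n)) ∈ B :=
      fun k g1 g2 => hB k g1 g2 _ (isC_face _ _)
    have s2 : ∑ k ∈ Ico a b, φ k = f (q (b : ZMod n)) *
        (if ((q (b : ZMod n)).1 + (q (b : ZMod n)).2) % 2 = pr c then 1 else 0) := by
      have h2 := tel (fun k => f (q (k : ZMod n)) *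
        (if ((q (k : ZMod n)).1 + (q (k : ZMod n)).2) % 2 = pr c then 1 else 0)) hab
      have h3 : f (q (a : ZMod n)) *
          (if ((q (a : ZMod n)).1 + (q (a : ZMod n)).2) % 2 = pr c then 1 else 0) = 0 := by
        split_ifs with g
        · rw [fF _ ⟨g, Or.inr ⟨a, by omega, Or.inl le_rfl, rfl⟩⟩, zero_mul]
        · rw [mul_zero]
      beta_reduce at h2
      rw [h3, zero_add] at h2
      rw [← h2]
      refine sum_congr rfl fun k hk => ?_
      rw [mem_Ico] at hk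
      rw [hφ]
      beta_reduce
      rw [if_pos (inB k hk.1 (by omega))]
      rcases par_cases hq c k with ⟨g, g'⟩ | ⟨g, g'⟩
      · rw [if_pos g, if_neg (pr_ne.2 g'), fX1 _ ⟨g', k + 1, by omega, by omega, rfl⟩]
        ring
      · rw [if_pos g', if_neg (pr_ne.2 g), fX1 (q (k : ZMod n)) ⟨g, k, by omega, by omega, rfl⟩]
        ring
    have s3 : ∑ k ∈ Ico b m, φ k = f (q (b : ZMod n)) *
        (if ((q (b : ZMod n)).1 + (q (b : ZMod n)).2) % 2 = pr (!c) then 1 else 0) := by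
      have h2 := tel (fun k => f (q (k : ZMod n)) *
        (if ((q (k : ZMod n)).1 + (q (k : ZMod n)).2) % 2 = pr (!c) then 1 else 0)) hbm
      have h3 : f (q (m : ZMod n)) *
          (if ((q (m : ZMod n)).1 + (q (m : ZMod n)).2) % 2 = pr (!c) then 1 else 0) = 0 := by
        split_ifs with g
        · rw [fX3 _ ⟨g, m, by omega, by omega, rfl⟩, zero_mul]
        · rw [mul_zero]
      beta_reduce at h2
      rw [h3, add_zero] at h2
      rw [← h2]
      refine sum_congr rfl fun k hk => ?_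
      rw [mem_Ico] at hk
      rw [hφ]
      beta_reduce
      rw [if_pos (inB k (by omega) (by omega))]
      rcases par_cases hq c k with ⟨g, g'⟩ | ⟨g, g'⟩
      · rw [if_pos g', if_neg (pr_ne'.2 g), fX2 (q (k : ZMod n)) ⟨g, k, by omega, by omega, rfl⟩]
        ring
      · rw [if_pos g, if_neg (pr_ne'.2 g'), fX2 _ ⟨g', k + 1, by omega, by omega, rfl⟩]
        ring
    rw [range_eq_Ico, ← sum_Ico_consecutive φ (Nat.zero_le a) (show a ≤ n by omega),
      ← sum_Ico_consecutive φ hab (show b ≤ n by omega),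
      ← sum_Ico_consecutive φ hbm (show m ≤ n by omega), s1, s2, s3, s4] at hsub
    by_cases g : ((q (b : ZMod n)).1 + (q (b : ZMod n)).2) % 2 = pr c
    · rw [if_pos g, if_neg (pr_ne'.2 g), fX2 _ ⟨g, b, le_rfl, hbm, rfl⟩] at hsub
      revert hsub
      decide
    · rw [if_neg g, if_pos (pr_ne.1 g), fX1 _ ⟨pr_ne.1 g, b, hab, le_rfl, rfl⟩] at hsub
      revert hsub
      decide

end Vale.Agent.P167.N.QL
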