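import Vale.Agent.P167.N.QL.K1
import Vale.Agent.P167.N.QL.K2
import Vale.Agent.P167.FKA.Basic

/-!
# P167, the range `0 < q < 1`, block Q-LAM: strands over a killed site in a box

* `Wn q κ R`: the position `κ` of the polygon is the centre of a window: the sites of the polygon in the
  box of radius `R` around `q κ` are the positions `κ - R, …, κ + R`, at the distances `|z - κ|`.
* `NS q D κ t r`: no strand in the box of radius `r` around `q κ` goes over `q t`.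
* `ns_iff`: this is the event that `q t` is joined by its colour to the outside of the box.
-/

set_option autoImplicit false

namespace Vale.Agent.P167.N.QL

open Finset Relation
open Vale.Agent.P145.FB (PStep PConn)
open Vale.Agent.P167 Vale.Agent.P167.BR Vale.Agent.P167.FK
open Vale.Agent.P167.E6 (IsPolygon Encloses)
open Vale.Agent.P167.FKA (Loc)
open Vale.Agent.P167.H871 (IsC)
open Vale.Agent.P167.H632 (cs pr)
open Vale.Agent.P167.H192.TA (Pw sc sc_nx)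
open Vale.Agent.P167.H318 (st)
open Vale.Agent.P167.H718 (IsXY)
open Vale.Agent.P167.H704.Q (bk bk_par)
open Vale.Agent.P167.QX (lo hi exists_xy lo_xy hi_xy)
open Vale.Agent.P167.N.NET (Mid mid_pos)

variable {n κ t : ℕ} {q : ZMod n → ℤ × ℤ} {D B : Finset (ℤ × ℤ)} {ω ω' : Cfg} {c : Bool} {x y : ℕ}
  {z s v : ℤ × ℤ} {A : Finset Ed} {r r' R : ℤ}

theorem nmle {v : ℤ × ℤ} {r : ℤ} : nm v ≤ r ↔ (-r ≤ v.1 ∧ v.1 ≤ r) ∧ -r ≤ v.2 ∧ v.2 ≤ r := by
  unfold nm
  rw [max_le_iff, abs_le, abs_le]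

theorem mBq : v ∈ Bq z R ↔ (z.1 - R ≤ v.1 ∧ v.1 < z.1 + R) ∧ z.2 - R ≤ v.2 ∧ v.2 < z.2 + R := by
  simp only [Bq, Finset.mem_product, Finset.mem_Ico]

theorem Bq_eq (z : ℤ × ℤ) (R : ℤ) :
    Bq z R = Ico (z.1 - R) (z.1 + R) ×ˢ Ico (z.2 - R) (z.2 + R) := by
  ext v
  rw [mBq, mem_product, mem_Ico, mem_Ico]

/-- The corners of the squares of the box are near. -/
theorem near_isC (hv : v ∈ Bq z R) (h : IsC v s) : nm (s - z) ≤ R := by
  rw [mBq] at hv
  obtain ⟨h1, h2⟩ := h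
  rw [nmle]
  simp only [Prod.fst_sub, Prod.snd_sub]
  omega

/-- The squares at a near site are in the box. -/
theorem in_isC (hs : nm (s - z) < R) (h : IsC v s) : v ∈ Bq z R := by
  rw [mBq]
  obtain ⟨h1, h2⟩ := h
  have hs' : nm (s - z) ≤ R - 1 := by omega
  rw [nmle] at hs'
  simp only [Prod.fst_sub, Prod.snd_sub] at hs'
  omega

/-- A far site is a corner of a square off the box. -/
theorem far_isC (h : R ≤ nm (s - z)) : ∃ v, IsC v s ∧ v ∉ Bq z R := by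
  have h' : ¬ nm (s - z) ≤ R - 1 := by omega
  rw [nmle] at h'
  simp only [Prod.fst_sub, Prod.snd_sub] at h'
  simp only [mBq]
  have h' : R ≤ s.1 - z.1 ∨ R ≤ s.2 - z.2 ∨ s.1 - z.1 ≤ -R ∨ s.2 - z.2 ≤ -R := by omega
  rcases h' with h | h | h | h
  · exact ⟨(s.1, s.2), ⟨Or.inl rfl, Or.inl rfl⟩, by dsimp only; omega⟩
  · exact ⟨(s.1, s.2), ⟨Or.inl rfl, Or.inl rfl⟩, by dsimp only; omega⟩
  · exact ⟨(s.1 - 1, s.2), ⟨Or.inr (by ring), Or.inl rfl⟩, by dsimp only; omega⟩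
  · exact ⟨(s.1, s.2 - 1), ⟨Or.inl rfl, Or.inr (by ring)⟩, by dsimp only; omega⟩

/-- **A window of the polygon.** -/
structure Wn (q : ZMod n → ℤ × ℤ) (κ : ℕ) (R : ℤ) : Prop where
  /-- the position `0` is far -/
  le : R ≤ κ
  /-- the position `n` is far -/
  lt : κ + R ≤ n
  /-- the distances in the window -/
  near : ∀ z : ℕ, z ≤ n → |(z : ℤ) - κ| ≤ R → nm (q (z : ZMod n) - q (κ : ZMod n)) = |(z : ℤ) - κ|
  /-- the other sites are far -/
  far : ∀ z : ℕ, z ≤ n → R < |(z : ℤ) - κ| → R < nm (q (z : ZMod n) - q (κ : ZMod n))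

theorem Wn.mono (h : Wn q κ R) (hr : r ≤ R) : Wn q κ r where
  le := by have := h.le; omega
  lt := by have := h.lt; omega
  near := fun z hz hr' => h.near z hz (hr'.trans hr)
  far := fun z hz hr' => by
    rcases lt_or_ge R |(z : ℤ) - κ| with h1 | h1
    · have := h.far z hz h1
      omega
    · rw [h.near z hz h1]
      exact hr'

/-- The distances from `q κ`. -/
theorem Wn.idx (h : Wn q κ R) (hr : r ≤ R) {z : ℕ} (hz : z ≤ n)
    (h1 : nm (q (z : ZMod n) - q (κ : ZMod n)) ≤ r) : |(z : ℤ) - κ| ≤ r := by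
  by_contra hcon
  push Not at hcon
  have := (h.mono hr).far z hz hcon
  omega

/-- The position `0` is far. -/
theorem Wn.zero (h : Wn q κ R) (hr : r ≤ R) : ∃ v, IsC v (q 0) ∧ v ∉ Bq (q (κ : ZMod n)) r := by
  refine far_isC ?_
  have h1 := h.le
  rcases lt_or_ge R |((0 : ℕ) : ℤ) - κ| with h2 | h2
  · have := h.far 0 (Nat.zero_le _) h2
    rw [Nat.cast_zero] at this
    omega
  · have := h.near 0 (Nat.zero_le _) h2
    rw [Nat.cast_zero] at this
    rw [this, Nat.cast_zero]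
    rcases abs_cases ((0 : ℤ) - κ) with ⟨a1, a2⟩ | ⟨a1, a2⟩ <;> omega

theorem Wn.one (h : Wn q κ R) (hr : r + 1 ≤ R) (hr0 : 0 ≤ r) :
    ∃ v, IsC v (q 1) ∧ v ∉ Bq (q (κ : ZMod n)) r := by
  refine far_isC ?_
  have h1 := h.le
  have h3 := h.lt
  have h4 : 1 ≤ n := by omega
  rcases lt_or_ge R |((1 : ℕ) : ℤ) - κ| with h2 | h2
  · have := h.far 1 h4 h2
    rw [Nat.cast_one] at this
    omega
  · have := h.near 1 h4 h2
    rw [Nat.cast_one] at this
    rw [this, Nat.cast_one]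
    rcases abs_cases ((1 : ℤ) - κ) with ⟨a1, a2⟩ | ⟨a1, a2⟩ <;> omega

/-- **No strand in the box goes over `q t`.** -/
def NS (q : ZMod n → ℤ × ℤ) (D : Finset (ℤ × ℤ)) (κ t : ℕ) (r : ℤ) : Set Cfg :=
  {ω | ∀ A ∈ pcs ω D, ¬ IsLp D A → (∀ e ∈ A, hdv e ∈ Bq (q (κ : ZMod n)) r) →
    ¬ (lo q A < t ∧ t ≤ hi q A)}

theorem bq_mn {z : ℤ × ℤ} (h : r ≤ r') : Bq z r ⊆ Bq z r' := by
  intro v hv
  rw [mBq] at *
  omega

theorem NS_anti (h : r ≤ r') : NS q D κ t r' ⊆ NS q D κ t r := by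
  intro ω hω A hA hl hin
  exact hω A hA hl fun e he => bq_mn h (hin e he)

theorem pw_of_pconn {F : Set (ℤ × ℤ)} {u v : ℤ × ℤ} (h : PConn F Set.univ u v) : Pw F u v := by
  obtain ⟨-, h⟩ := h
  induction h with
  | refl => exact ReflTransGen.refl
  | tail _ h ih => exact ih.tail h.1

theorem Pw.mono' {F G : Set (ℤ × ℤ)} {u v : ℤ × ℤ} (h : F ⊆ G) (h1 : Pw F u v) : Pw G u v :=
  H192.TA.Pw.mono h h1

section poly

variable (hq : IsPolygon q) (hD : Encloses q D)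

include hq hD

/-- The feet of a strand in the box. -/
theorem feet_in (hW : Wn q κ R) (hrR : r ≤ R) (hA : A ∈ pcs ω D) (hxy : IsXY q A x y)
    (hin : ∀ e ∈ A, hdv e ∈ Bq (q (κ : ZMod n)) r) :
    (|(x : ℤ) - κ| ≤ r ∧ |((x + 1 : ℕ) : ℤ) - κ| ≤ r) ∧
      |(y : ℤ) - κ| ≤ r ∧ |((y + 1 : ℕ) : ℤ) - κ| ≤ r := by
  have key : ∀ z : ℕ, z < n → be q (z : ZMod n) ∈ A →
      |(z : ℤ) - κ| ≤ r ∧ |((z + 1 : ℕ) : ℤ) - κ| ≤ r := by
    intro z hz hzA
    have h1 := hin _ hzA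
    have h2 : IsC (hdv (be q (z : ZMod n))) (q (z : ZMod n)) ∧
        IsC (hdv (be q (z : ZMod n))) (q ((z : ZMod n) + 1)) := by
      have c1 := (sc_isC true (be q (z : ZMod n))).1
      have c2 := (sc_isC false (be q (z : ZMod n))).1
      change IsC _ (ls (be q (z : ZMod n))) at c1
      change IsC _ (rs (be q (z : ZMod n))) at c2
      rcases be_sides hq (z : ZMod n) with ⟨h3, h4⟩ | ⟨h3, h4⟩
      · rw [← h3, ← h4]
        exact ⟨c1, c2⟩
      · rw [← h3, ← h4]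
        exact ⟨c2, c1⟩
    refine ⟨hW.idx hrR hz.le (near_isC h1 h2.1), hW.idx hrR (by omega) ?_⟩
    push_cast
    exact near_isC h1 h2.2
  exact ⟨key x hxy.1 hxy.2.2.1, key y hxy.2.1 hxy.2.2.2.1⟩

/-- **An arm excludes the strands over its site.** -/
theorem ns_of_arm (hW : Wn q κ R) (hr0 : 0 ≤ r) (hrR : r + 1 ≤ R) (ht : t ≤ n)
    (hp : ((q (t : ZMod n)).1 + (q (t : ZMod n)).2) % 2 = pr c)
    (h : ¬ NoArm c D (Bq (q (κ : ZMod n)) r) (q (t : ZMod n)) ω) : ω ∈ NS q D κ t r := by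
  intro A hA hl hin hov
  obtain ⟨x, y, hxy⟩ := exists_xy hq hD hA hl
  rw [lo_xy hq hD hA hxy, hi_xy hq hD hA hxy] at hov
  obtain ⟨⟨f1, f2⟩, f3, f4⟩ := feet_in hq hD hW (by omega) hA hxy hin
  unfold NoArm at h
  push Not at h
  obtain ⟨s, v, hs, hvs, hv⟩ := h
  -- the path of the other colour
  have hpath := pw_of_pconn (H685.LD.side_path hq hD (!c) hA hxy
    (G := Bq (q (κ : ZMod n)) r) fun g hg _ => hin g hg)
  obtain ⟨x', hx1, hx2⟩ := H685.LD.bk_side hq (!c) x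
  obtain ⟨y', hy1, hy2⟩ := H685.LD.bk_side hq (!c) y
  have bx := bk_par (!c) (be q (x : ZMod n))
  have by' := bk_par (!c) (be q (y : ZMod n))
  rw [hx2] at hpath bx
  rw [hy2] at hpath by'
  have hprf : pr c + pr (!c) = 1 := by cases c <;> decide
  have hxt : x' ≠ t := by
    rintro rfl
    omega
  have hyt : y' ≠ t := by
    rintro rfl
    omega
  have hx' : |(x' : ℤ) - κ| ≤ r := by
    rcases hx1 with rfl | rfl
    · exact f1
    · exact f2
  have hy' : |(y' : ℤ) - κ| ≤ r := by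
    rcases hy1 with rfl | rfl
    · exact f3
    · exact f4
  rw [abs_le] at hx' hy'
  have hxn := hxy.1
  have hyn := hxy.2.1
  obtain ⟨v0, hv0, hv0'⟩ := hW.zero (r := r) (by omega)
  obtain ⟨v1, hv1, hv1'⟩ := hW.one (r := r) hrR hr0
  -- the two ends in their order
  have key : ∀ i j : ℕ, i < t → t < j → j ≤ n → (κ : ℤ) - r ≤ i → (j : ℤ) ≤ κ + r →
      ((q (i : ZMod n)).1 + (q (i : ZMod n)).2) % 2 = pr (!c) →
      ((q (j : ZMod n)).1 + (q (j : ZMod n)).2) % 2 = pr (!c) →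
      Pw (cs (!c) ω ∩ ↑(Bq (q (κ : ZMod n)) r ∩ D)) (q (i : ZMod n)) (q (j : ZMod n)) →
      False := by
    intro i j h1 h2 h3 h4 h5 h6 h7 h8
    obtain ⟨N, n1, n2, n3⟩ := exists_Nb (c := c) hq hD (Bq_eq _ _) (h1.trans h2) h3 h6 h7
      (fun k k1 k2 v hv => in_isC (by
        rw [(hW.mono (r := r) (by omega)).near k (by omega) (by rw [abs_le]; omega), abs_lt]
        omega) hv) ⟨v0, hv0', hv0⟩ ⟨v1, hv1', hv1⟩ h8
    have e1 := n3 (q (t : ZMod n)) s hp (by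
      rw [inter_comm]
      exact hs)
    rw [n1 t ht hp, mid_pos hq h3 ht, if_pos ⟨h1, h2⟩] at e1
    have e2 := n2 s v (by
      have := Pw.parity hs
      rw [← this]
      exact hp) hv hvs
    rw [e2] at e1
    exact one_ne_zero e1
  rw [inter_comm] at hpath
  rcases Nat.lt_or_ge x y with hlt | hge
  · rw [min_eq_left hlt.le, max_eq_right hlt.le] at hov
    exact key x' y' (by omega) (by omega) (by omega) (by omega) (by omega) bx by' hpath
  · rw [min_eq_right hge, max_eq_left hge] at hov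
    exact key y' x' (by omega) (by omega) (by omega) (by omega) (by omega) by' bx
      (H192.TA.Pw.symm hpath)

/-- The strand of the zero type over `q t`. -/
theorem exists_zt (hW : Wn q κ R) (hrR : r ≤ R) (ht : t < n)
    (hp : ((q (t : ZMod n)).1 + (q (t : ZMod n)).2) % 2 = pr c)
    (h : NoArm c D (Bq (q (κ : ZMod n)) r) (q (t : ZMod n)) ω) :
    ∃ A ∈ pcs ω D, ∃ x y, IsXY q A x y ∧ (if c = true then y < t ∧ t ≤ x else x < t ∧ t ≤ y) ∧
      ¬ IsLp D A ∧ ∀ e ∈ A, hdv e ∈ Bq (q (κ : ZMod n)) r := by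
  cases c
  · obtain ⟨A, h1, x, y, h2, h3, h4, h5, h6⟩ := chain_false hq hD ht (by
      rw [Int.even_iff]
      have : pr false = 1 := by decide
      omega) h (hW.zero hrR)
    exact ⟨A, h1, x, y, h2, by simpa using ⟨h3, h4⟩, h5, h6⟩
  · obtain ⟨A, h1, x, y, h2, h3, h4, h5, h6⟩ := chain_true hq hD ht (by
      rw [Int.even_iff]
      have : pr true = 0 := by decide
      omega) h (hW.zero hrR)
    exact ⟨A, h1, x, y, h2, by simpa using ⟨h3, h4⟩, h5, h6⟩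

/-- **No strand over the site: an arm of the site.** -/
theorem ns_iff (hW : Wn q κ R) (hr0 : 0 ≤ r) (hrR : r + 1 ≤ R) (ht : t < n)
    (hp : ((q (t : ZMod n)).1 + (q (t : ZMod n)).2) % 2 = pr c) :
    ω ∈ NS q D κ t r ↔ ¬ NoArm c D (Bq (q (κ : ZMod n)) r) (q (t : ZMod n)) ω := by
  refine ⟨fun h1 h2 => ?_, ns_of_arm hq hD hW hr0 hrR ht.le hp⟩
  obtain ⟨A, hA, x, y, hxy, h3, h4, h5⟩ := exists_zt hq hD hW (by omega) ht hp h2
  refine h1 A hA h4 h5 ?_
  rw [lo_xy hq hD hA hxy, hi_xy hq hD hA hxy]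
  cases c
  · simp only [Bool.false_eq_true, if_false] at h3
    omega
  · simp only [if_true] at h3
    omega

/-- The event reads the squares of the domain in the box. -/
theorem NS_congr (hW : Wn q κ R) (hr0 : 0 ≤ r) (hrR : r + 1 ≤ R) (ht : t < n)
    (hω : ∀ v ∈ D, v ∈ Bq (q (κ : ZMod n)) r → ω v = ω' v) :
    ω ∈ NS q D κ t r → ω' ∈ NS q D κ t r := by
  obtain ⟨c, hp⟩ : ∃ c, ((q (t : ZMod n)).1 + (q (t : ZMod n)).2) % 2 = pr c := by
    rcases Int.emod_two_eq ((q (t : ZMod n)).1 + (q (t : ZMod n)).2) with h | h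
    · exact ⟨true, h⟩
    · exact ⟨false, h⟩
  rw [ns_iff hq hD hW hr0 hrR ht hp, ns_iff hq hD hW hr0 hrR ht hp]
  intro h1 h2
  refine h1 fun s v hs hv => h2 s v (Pw.mono' ?_ hs) hv
  rintro u ⟨h3, h4⟩
  have h5 := mem_inter.1 (mem_coe.1 h4)
  refine ⟨?_, h4⟩
  have h6 := hω u h5.1 h5.2
  change ω u = c at h3
  show ω' u = c
  rw [← h6]
  exact h3

theorem NS_loc (hW : Wn q κ R) (hr0 : 0 ≤ r) (hrR : r + 1 ≤ R) (ht : t < n) :
    Loc (Bq (q (κ : ZMod n)) r ∩ D) ((NS q D κ t r).indicator (1 : Cfg → ℝ)) := by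
  intro ω ω' h
  have h1 : ω ∈ NS q D κ t r ↔ ω' ∈ NS q D κ t r :=
    ⟨NS_congr hq hD hW hr0 hrR ht fun v hv hv' => h v (mem_inter.2 ⟨hv', hv⟩),
      NS_congr hq hD hW hr0 hrR ht fun v hv hv' => (h v (mem_inter.2 ⟨hv', hv⟩)).symm⟩
  by_cases h2 : ω ∈ NS q D κ t r
  · rw [Set.indicator_of_mem h2, Set.indicator_of_mem (h1.1 h2)]
    rfl
  · rw [Set.indicator_of_notMem h2, Set.indicator_of_notMem fun h3 => h2 (h1.2 h3)]

/-- **A connection to a far site of the polygon.** -/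
theorem ns_of_join {m : ℕ} (hW : Wn q κ R) (hrR : r ≤ R) (ht : t ≤ n) (hm : m ≤ n)
    (hmr : (κ : ℤ) + r < m ∨ (m : ℤ) ≤ κ - r)
    (hp : ((q (t : ZMod n)).1 + (q (t : ZMod n)).2) % 2 = pr c)
    (h : Pw (cs c ω ∩ ↑D) (q (t : ZMod n)) (q (m : ZMod n))) : ω ∈ NS q D κ t r := by
  intro A hA hl hin hov
  rw [over_iff_of_join hq hD hA hl ht hm hp h] at hov
  obtain ⟨x, y, hxy⟩ := exists_xy hq hD hA hl
  rw [lo_xy hq hD hA hxy, hi_xy hq hD hA hxy] at hov
  obtain ⟨⟨f1, f2⟩, f3, f4⟩ := feet_in hq hD hW hrR hA hxy hin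
  rw [abs_le] at f1 f2 f3 f4
  omega

end poly

end Vale.Agent.P167.N.QL
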