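import Vale.Agent.P167.N.QL.K3
import Vale.Agent.P167.N.NET.Vrs

/-!
# P167, the range `0 < q < 1`, block Q-LAM: extension of the arm of a killed site

`JN b q D κ R`: the boundary goes to the right after `q κ`; before `q κ` it goes to the right
(`b = false`) or upwards (`b = true`, reflex corner). `step1`: an arm of `q t` is joined to the right
part of the boundary. `step2`: it is joined to a far site of the right part of the boundary.
-/

set_option autoImplicit false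

namespace Vale.Agent.P167.N.QL

open Finset Relation
open Vale.Agent.P145.FB (PStep)
open Vale.Agent.P167 Vale.Agent.P167.BR Vale.Agent.P167.FK
open Vale.Agent.P167.E6 (IsPolygon Encloses face dir)
open Vale.Agent.P167.H871 (IsC)
open Vale.Agent.P167.H632 (cs pr pr_or pr_not)
open Vale.Agent.P167.H192.TA (Pw)
open Vale.Agent.P167.H816
open Vale.Agent.P167.H262
open Vale.Agent.P167.N.NET (Ar Fr Quad Fan fan_of Jn HK1 HK1_sub Vc Nx Beg Exi Bd Bd_anti VT Vs Hs Cor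
  VRS VT_arch arch mem_arch net1 bd_of bd_bot bd_top bd_left bd_right turn_HT VT_nonneg)

variable {n κ t : ℕ} {q : ZMod n → ℤ × ℤ} {D B : Finset (ℤ × ℤ)} {ω ω' η : Cfg} {c b : Bool}
  {s v : ℤ × ℤ} {r r' R : ℤ} {Q : ℝ}

/-- **The canonical windows.** -/
structure JN (b : Bool) (q : ZMod n → ℤ × ℤ) (D : Finset (ℤ × ℤ)) (κ : ℕ) (R : ℤ) : Prop where
  /-- the position `0` is far -/
  le : R ≤ κ
  /-- the position `n` is far -/
  lt : κ + R ≤ n
  /-- the right part -/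
  right : ∀ i : ℕ, (i : ℤ) ≤ R →
    q ((κ + i : ℕ) : ZMod n) = ((q (κ : ZMod n)).1 + i, (q (κ : ZMod n)).2)
  /-- the left part -/
  left : ∀ i : ℕ, (i : ℤ) ≤ R → q ((κ - i : ℕ) : ZMod n) =
    if b = true then ((q (κ : ZMod n)).1, (q (κ : ZMod n)).2 - i)
      else ((q (κ : ZMod n)).1 - i, (q (κ : ZMod n)).2)
  /-- the domain -/
  dom : ∀ v ∈ Bq (q (κ : ZMod n)) R,
    (v ∈ D ↔ (q (κ : ZMod n)).2 ≤ v.2 ∨ (b = true ∧ v.1 < (q (κ : ZMod n)).1))
  /-- the other sites are far -/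
  far : ∀ z : ℕ, z ≤ n → R < |(z : ℤ) - κ| → R < nm (q (z : ZMod n) - q (κ : ZMod n))

theorem nm_h (i : ℤ) : nm ((i, 0) : ℤ × ℤ) = |i| := by
  unfold nm
  simp

theorem nm_v (i : ℤ) : nm ((0, i) : ℤ × ℤ) = |i| := by
  unfold nm
  simp

theorem JN.wn (h : JN b q D κ R) : Wn q κ R where
  le := h.le
  lt := h.lt
  near := fun z hz hz' => by
    rw [abs_le] at hz'
    rcases Nat.le_total κ z with h1 | h1
    · obtain ⟨i, rfl⟩ := Nat.exists_eq_add_of_le h1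
      rw [h.right i (by push_cast at hz'; omega)]
      have e : (((q (κ : ZMod n)).1 + (i : ℤ), (q (κ : ZMod n)).2) : ℤ × ℤ) - q (κ : ZMod n) =
          ((i : ℤ), 0) := by
        ext <;> simp
      rw [e, nm_h]
      push_cast
      congr 1
      ring
    · obtain ⟨i, rfl⟩ := Nat.exists_eq_add_of_le h1
      have h2 := h.left i (by push_cast at hz'; omega)
      rw [show z + i - i = z by omega] at h2
      rw [h2]
      split_ifs
      · have e : (((q ((z + i : ℕ) : ZMod n)).1, (q ((z + i : ℕ) : ZMod n)).2 - (i : ℤ)) : ℤ × ℤ) -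
            q ((z + i : ℕ) : ZMod n) = (0, -(i : ℤ)) := by
          ext <;> simp
        rw [e, nm_v]
        push_cast
        congr 1
        ring
      · have e : (((q ((z + i : ℕ) : ZMod n)).1 - (i : ℤ), (q ((z + i : ℕ) : ZMod n)).2) : ℤ × ℤ) -
            q ((z + i : ℕ) : ZMod n) = (-(i : ℤ), 0) := by
          ext <;> simp
        rw [e, nm_h]
        push_cast
        congr 1
        ring
  far := h.far

/-- The squares of a box in a polygon domain. -/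
theorem fan_int (hq : IsPolygon q) (hD : Encloses q D) (e : Bool) {a1 b1 a2 b2 : ℤ}
    (hB : B = Ico a1 b1 ×ˢ Ico a2 b2) : Fan e (↑(B ∩ D) : Set (ℤ × ℤ)) := by
  have key : ∀ (x : ℤ × ℤ) (r s : Fin 4), dir r ≠ dir s → face x r ∈ D → face x (r - 1) ∉ D →
      face x s ∈ D → face x (s - 1) ∈ D := by
    intro x r s hrs h1 h2 h3
    by_contra h4
    obtain ⟨i, g1, g2⟩ := (hD x r).2 ⟨h1, h2⟩
    obtain ⟨j, g3, g4⟩ := (hD x s).2 ⟨h3, h4⟩
    have : i = j := hq.2.1 (g1.trans g3.symm)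
    rw [this, g4] at g2
    exact hrs (add_left_cancel g2).symm
  have f0 : ∀ m k : ℤ, face (m + 1, k + 1) 0 = (m + 1, k + 1) := by intro m k; simp [face]
  have f1 : ∀ m k : ℤ, face (m + 1, k + 1) 1 = (m, k + 1) := by intro m k; simp [face]
  have f2 : ∀ m k : ℤ, face (m + 1, k + 1) 2 = (m, k) := by intro m k; simp [face]
  have f3 : ∀ m k : ℤ, face (m + 1, k + 1) 3 = (m + 1, k) := by intro m k; simp [face]
  have hm : ∀ m k : ℤ, (m, k) ∈ (↑(B ∩ D) : Set (ℤ × ℤ)) ↔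
      ((a1 ≤ m ∧ m < b1) ∧ a2 ≤ k ∧ k < b2) ∧ (m, k) ∈ D := by
    intro m k
    rw [mem_coe, mem_inter, hB, mem_product, mem_Ico, mem_Ico]
  refine fan_of ?_ ?_
  · intro m k h1 h2
    rw [hm] at h1 h2 ⊢
    rw [hm]
    by_contra h
    have h5 : (m + 1, k) ∉ D := fun h6 => h (Or.inl ⟨by omega, h6⟩)
    have h6 : (m, k + 1) ∉ D := fun h6 => h (Or.inr ⟨by omega, h6⟩)
    have := key (m + 1, k + 1) 0 2 (by simp [dir]) (by rw [f0]; exact h2.2)
      (by rw [show (0 - 1 : Fin 4) = 3 from rfl, f3]; exact h5) (by rw [f2]; exact h1.2)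
    rw [show (2 - 1 : Fin 4) = 1 from rfl, f1] at this
    exact h6 this
  · intro m k h1 h2
    rw [hm] at h1 h2 ⊢
    rw [hm]
    by_contra h
    have h5 : (m, k) ∉ D := fun h6 => h (Or.inl ⟨by omega, h6⟩)
    have h6 : (m + 1, k + 1) ∉ D := fun h6 => h (Or.inr ⟨by omega, h6⟩)
    have := key (m + 1, k + 1) 1 3 (by simp [dir]) (by rw [f1]; exact h1.2)
      (by rw [show (1 - 1 : Fin 4) = 0 from rfl, f0]; exact h6) (by rw [f3]; exact h2.2)
    rw [show (3 - 1 : Fin 4) = 2 from rfl, f2] at this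
    exact h5 this

/-- The sites of the right part of the boundary. -/
theorem JN.mem_Ar (h : JN b q D κ R) {a a' : ℕ} {x : ℤ × ℤ} {c : Bool} (hx2 : x.2 = (q (κ : ZMod n)).2)
    (h0 : 0 ≤ x.1 - (q (κ : ZMod n)).1)
    (h1 : (κ : ℤ) + (x.1 - (q (κ : ZMod n)).1) ≤ a') (h2 : (a : ℤ) ≤ κ + (x.1 - (q (κ : ZMod n)).1))
    (h3 : x.1 - (q (κ : ZMod n)).1 ≤ R) (hp : (x.1 + x.2) % 2 = pr c) : x ∈ Ar q c a a' := by
  obtain ⟨i, hi⟩ : ∃ i : ℕ, (i : ℤ) = x.1 - (q (κ : ZMod n)).1 :=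
    ⟨(x.1 - (q (κ : ZMod n)).1).toNat, Int.toNat_of_nonneg h0⟩
  refine ⟨hp, κ + i, by omega, by omega, ?_⟩
  rw [h.right i (by omega)]
  ext
  · dsimp only
    omega
  · exact hx2.symm

/-- The arm event, in the form of a connection. -/
theorem jn_of_ns (hq : IsPolygon q) (hD : Encloses q D) (hW : Wn q κ R) (hr0 : 0 ≤ r)
    (hrR : r + 1 ≤ R) (ht : t < n) {a d : ℕ}
    (hp : ((q (t : ZMod n)).1 + (q (t : ZMod n)).2) % 2 = pr c) (h : ω ∈ NS q D κ t r) :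
    ω ∈ Jn c (↑(Bq (q (κ : ZMod n)) r ∩ D)) (Ar q c t t) (Fr q c (Bq (q (κ : ZMod n)) r) a d) := by
  rw [ns_iff hq hD hW hr0 hrR ht hp] at h
  unfold NoArm at h
  push Not at h
  obtain ⟨s, v, hs, hvs, hv⟩ := h
  refine ⟨q (t : ZMod n), ⟨hp, t, le_rfl, le_rfl, rfl⟩, s, ⟨?_, Or.inl ⟨v, hv, hvs⟩⟩, ?_⟩
  · have := H192.TA.Pw.parity hs
    rw [← this]
    exact hp
  · rw [inter_comm]
    exact hs

/-- A quad of the box, with the site `q t` and the window. -/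
theorem quad_two (hq : IsPolygon q) (hD : Encloses q D) (hW : Wn q κ R) (hr0 : 0 ≤ r)
    (hrR : r + 1 ≤ R) {m d : ℕ} (htm : t ≤ m) (hmd : m ≤ d) (hκt : κ ≤ t)
    (hd : (d : ℤ) < κ + r) (c : Bool) :
    Quad c ↑(Bq (q (κ : ZMod n)) r ∩ D) (Ar q c t t) (Ar q c m d) (Ar q (!c) t m)
      (Fr q (!c) (Bq (q (κ : ZMod n)) r) t d) := by
  obtain ⟨v0, hv0, hv0'⟩ := hW.zero (r := r) (by omega)
  obtain ⟨v1, hv1, hv1'⟩ := hW.one (r := r) hrR hr0
  have hlt := hW.lt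
  have h := quad_int (c := !c) hq hD (Bq_eq (q (κ : ZMod n)) r) (le_refl t) htm hmd
    (by omega) (fun k k1 k2 v hv => in_isC (by
        rw [(hW.mono (r := r) (by omega)).near k (by omega) (by rw [abs_le]; omega), abs_lt]
        omega) hv) ⟨v0, hv0', hv0⟩ ⟨v1, hv1', hv1⟩
  have h2 := h.other
  rw [Bool.not_not] at h2
  exact h2

/-- A quad of the box, with the site `q t` and the outside. -/
theorem quad_one (hq : IsPolygon q) (hD : Encloses q D) (hW : Wn q κ R) (hr0 : 0 ≤ r)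
    (hrR : r + 1 ≤ R) {a d : ℕ} (hat : a ≤ t) (htd : t ≤ d) (ha : (κ : ℤ) - r < a)
    (hd : (d : ℤ) < κ + r) (c : Bool) :
    Quad c ↑(Bq (q (κ : ZMod n)) r ∩ D) (Ar q c t t) (Fr q c (Bq (q (κ : ZMod n)) r) a d)
      (Ar q (!c) a t) (Ar q (!c) t d) := by
  obtain ⟨v0, hv0, hv0'⟩ := hW.zero (r := r) (by omega)
  obtain ⟨v1, hv1, hv1'⟩ := hW.one (r := r) hrR hr0
  have hlt := hW.lt
  exact quad_int (c := c) hq hD (Bq_eq (q (κ : ZMod n)) r) hat (le_refl t) htd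
    (by omega) (fun k k1 k2 v hv => in_isC (by
        rw [(hW.mono (r := r) (by omega)).near k (by omega) (by rw [abs_le]; omega), abs_lt]
        omega) hv) ⟨v0, hv0', hv0⟩ ⟨v1, hv1', hv1⟩

/-- The squares above the right part. -/
theorem JN.mem_up (h : JN b q D κ R) (hr : r ≤ R) (hv : v ∈ Bq (q (κ : ZMod n)) r)
    (h2 : (q (κ : ZMod n)).2 ≤ v.2) : v ∈ Bq (q (κ : ZMod n)) r ∩ D :=
  mem_inter.2 ⟨hv, (h.dom v (bq_mn hr hv)).2 (Or.inl h2)⟩

/-- **The second step**: from the right part of the boundary to a far site of it. -/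
theorem step2 (hQ : 0 < Q) (hQ1 : Q ≤ 1) (hV : VRS Q) (M : ℕ) : ∃ c2 : ℝ, 0 < c2 ∧ c2 ≤ 1 ∧
    ∀ {n κ t : ℕ} {q : ZMod n → ℤ × ℤ} {D : Finset (ℤ × ℤ)} {η : Cfg} {b c : Bool} {R r : ℤ},
    IsPolygon q → Encloses q D → JN b q D κ R → Good η → κ ≤ t → t ≤ κ + 1 → r + 1 ≤ R →
    ∀ a a' m1 m2 b' b₁ h d : ℕ, 2 ≤ a → a < a' → a' ≤ m1 → m1 ≤ m2 → m2 < b' → b' < b₁ →
      (b₁ : ℤ) < r → (d : ℤ) ≤ r → h < d → d ≤ M * (a' - a) → d ≤ M * (b₁ - b') →
      b₁ - a ≤ M * (d - h) →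
    ∀ F : Cfg → ℝ, (∀ ω, 0 ≤ F ω) →
      (∀ ω ω' : Cfg, (∀ v, v ∉ arch ((q (κ : ZMod n)).1 + a) ((q (κ : ZMod n)).1 + a')
          ((q (κ : ZMod n)).1 + b') ((q (κ : ZMod n)).1 + b₁) (q (κ : ZMod n)).2
          (q (κ : ZMod n)).2 ((q (κ : ZMod n)).2 + h) ((q (κ : ZMod n)).2 + d) → ω' v = ω v) →
        F ω' = F ω) →
      c2 * Ex Q D η (fun ω => F ω * (Jn c ↑(Bq (q (κ : ZMod n)) r ∩ D) (Ar q c t t)
          (Ar q c (κ + m1) (κ + m2))).indicator 1 ω) ≤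
        Ex Q D η (fun ω => F ω * (Jn c ↑(Bq (q (κ : ZMod n)) r ∩ D) (Ar q c t t)
          (Ar q c (κ + b') (κ + b₁))).indicator 1 ω) := by
  obtain ⟨k, hk, hk1, H⟩ := VT_arch hQ hQ1 hV M
  refine ⟨k, hk, hk1, ?_⟩
  intro n κ t q D η b c R r hq hD hJ hη hκt htκ hrR a a' m1 m2 b' b₁ h d h1 h2 h3 h4 h5 h6 h7 h8 h9 n1
    n2 n3 F hF0 hF
  obtain ⟨p, hp⟩ : ∃ p, p = q (κ : ZMod n) := ⟨_, rfl⟩
  rw [← hp] at hF ⊢
  set T := arch (p.1 + a) (p.1 + a') (p.1 + b') (p.1 + b₁) p.2 p.2 (p.2 + h) (p.2 + d) with hT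
  have hr0 : 0 ≤ r := by omega
  have hsub : ∀ {x y z : ℕ}, x ≤ M * (y - z) → z < y → (x : ℤ) ≤ M * ((y : ℤ) - z) := by
    intro x y z hxy hzy
    have : (x : ℤ) ≤ ((M * (y - z) : ℕ) : ℤ) := by exact_mod_cast hxy
    rwa [Nat.cast_mul, Nat.cast_sub hzy.le] at this
  have hTi : T ⊆ Bq p r ∩ D := by
    intro v hv
    rw [hT, mem_arch] at hv
    rw [hp] at hv ⊢
    refine hJ.mem_up (by omega) ?_ (by omega)
    rw [mBq]
    omega
  have hG := quad_two (r := r) hq hD hJ.wn hr0 hrR (t := t) (m := κ + m1) (d := κ + m2)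
    (by omega) (by omega) hκt (by push_cast; omega) c
  rw [← hp] at hG
  have hvt := (H c (p.1 + a) (p.1 + a') (p.1 + b') (p.1 + b₁) p.2 p.2 (p.2 + h) (p.2 + d)
    (by omega) (by omega) (by omega) (by omega) (by omega) (by omega)
    (by have := hsub n1 (by omega); linarith)
    (by have := hsub n2 (by omega); linarith)
    (by
      have h10 : ((b₁ - a : ℕ) : ℤ) ≤ M * ((d : ℤ) - h) := hsub n3 h9
      rw [Nat.cast_sub (by omega)] at h10
      linarith)).1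
  rw [← hT] at hvt
  have hnet := net1 (e := c) (A := Hs c p.2 (p.1 + a) (p.1 + a'))
    (B := Hs c p.2 (p.1 + b') (p.1 + b₁)) hQ hQ1 hη (hTi.trans inter_subset_right)
    (G := Bq p r ∩ D) inter_subset_right hG (fan_int hq hD c (Bq_eq p r))
    (bd_bot fun v hv => by rw [hT, mem_arch] at hv; omega)
    (fun x hx => ?_) (fun v hv hv' => absurd (mem_coe.2 (hTi (mem_coe.1 hv))) hv')
    (bd_bot fun v hv => by rw [hT, mem_arch] at hv; omega)
    (fun x hx _ => ?_) hF0 (fun ω ω' hω => hF ω ω' fun v hv => hω v fun h' =>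
      hv (mem_sdiff.1 h').1)
  · refine (mul_le_mul_of_nonneg_right hvt ?_).trans (hnet.trans ?_)
    · exact FKA.Ex_nonneg hQ fun _ _ => mul_nonneg (hF0 _) (Set.indicator_nonneg
        (fun _ _ => zero_le_one) _)
    · refine FKA.Ex_mono hQ fun S _ => mul_le_mul_of_nonneg_left ?_ (hF0 _)
      refine Set.indicator_le_indicator_of_subset (fun ω hω => ?_) (fun _ => zero_le_one) _
      refine Jn.mono ?_ subset_rfl ?_ (HK1_sub hω)
      · rw [← coe_union, union_eq_left.2 hTi]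
      · rintro x ⟨x1, x2, x3, x4⟩
        exact hJ.mem_Ar (by rw [x1, hp]) (by rw [← hp]; omega) (by rw [← hp]; push_cast; omega)
          (by rw [← hp]; push_cast; omega) (by rw [← hp]; omega) x4
  · obtain ⟨x1, x2, x3, x4⟩ := hx
    have hpe := pr_not c
    have hpo := pr_or c
    refine ⟨(x.1 - 1, x.2), ?_, ⟨Or.inr (by ring), Or.inl rfl, x4⟩, (x.1 - 1, x.2), ?_,
      ⟨Or.inl rfl, Or.inl rfl, by dsimp only; omega⟩⟩
    · rw [hp] at x1 x2 x3 ⊢
      refine mem_coe.2 (hJ.mem_up (by omega) ?_ (by dsimp only; omega))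
      rw [mBq]
      dsimp only
      omega
    · exact hJ.mem_Ar (by rw [← hp]; exact x1) (by rw [← hp]; dsimp only; omega)
        (by rw [← hp]; dsimp only; push_cast; omega) (by rw [← hp]; dsimp only; omega)
        (by rw [← hp]; dsimp only; omega) (by dsimp only; omega)
  · obtain ⟨x1, x2, x3, x4⟩ := hx
    have hpe := pr_not c
    have hpo := pr_or c
    refine ⟨(x.1 - 1, x.2), ?_, ⟨Or.inr (by ring), Or.inl rfl, x4⟩, (x.1 - 1, x.2), ?_,
      ⟨Or.inl rfl, Or.inl rfl, by dsimp only; omega⟩⟩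
    · rw [hp] at x1 x2 x3 ⊢
      refine mem_coe.2 (hJ.mem_up (by omega) ?_ (by dsimp only; omega))
      rw [mBq]
      dsimp only
      omega
    · have hlt := hJ.lt
      obtain ⟨p1, j, j1, j2, j3⟩ := hJ.mem_Ar (a := κ + m2) (a' := n) (x := (x.1 - 1, x.2)) (c := !c)
        (by rw [← hp]; exact x1) (by rw [← hp]; dsimp only; omega)
        (by rw [← hp]; dsimp only; omega) (by rw [← hp]; dsimp only; push_cast; omega)
        (by rw [← hp]; dsimp only; omega) (by dsimp only; omega)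
      exact ⟨p1, Or.inr ⟨j, j2, Or.inr j1, j3⟩⟩

end Vale.Agent.P167.N.QL
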