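import Vale.Agent.P167.N.QL.K5

/-!
# P167, the range `0 < q < 1`, block Q-LAM: extension of the arm of a killed site, first step

`step1`: given the arm of `q t` in the box, the site `q t` is joined in the box to the right part of
the boundary with a probability bounded below. `ext_land`: the two steps together.
-/

set_option autoImplicit false

namespace Vale.Agent.P167.N.QL

open Finset Relation
open Vale.Agent.P145.FB (PStep)
open Vale.Agent.P167 Vale.Agent.P167.BR Vale.Agent.P167.FK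
open Vale.Agent.P167.E6 (IsPolygon Encloses face dir)
open Vale.Agent.P167.H871 (IsC)
open Vale.Agent.P167.H632 (cs pr pr_or pr_not)
open Vale.Agent.P167.H192.TA (Pw)
open Vale.Agent.P167.H816
open Vale.Agent.P167.H262
open Vale.Agent.P167.N.NET (Ar Fr Quad Fan fan_of Jn HK1 HK1_sub Vc Nx Beg Exi Bd Bd_anti VT Vs Hs Cor
  VRS VT_arch arch mem_arch net1 bd_of bd_bot bd_top bd_left bd_right turn_HT VT_nonneg)

variable {n κ t : ℕ} {q : ZMod n → ℤ × ℤ} {D B : Finset (ℤ × ℤ)} {ω ω' η : Cfg} {c b : Bool}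
  {s v : ℤ × ℤ} {r r' R : ℤ} {Q : ℝ}

/-- The tube of the first step. -/
noncomputable def tub (b : Bool) (p : ℤ × ℤ) (ρ m : ℕ) : Finset (ℤ × ℤ) :=
  if b = true then Rsq (p.1 - ρ) p.1 (p.2 - ρ + 1) (p.2 - m) ∪
      arch (p.1 - ρ) (p.1 - m) (p.1 + m) (p.1 + ρ - 1) (p.2 - ρ + 1) p.2 (p.2 + m) (p.2 + ρ)
    else arch (p.1 - ρ + 1) (p.1 - m) (p.1 + m) (p.1 + ρ - 1) p.2 p.2 (p.2 + m) (p.2 + ρ)

/-- The beginning of the tube. -/
def tubA (b c : Bool) (p : ℤ × ℤ) (ρ m : ℕ) : Set (ℤ × ℤ) :=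
  if b = true then Vs c p.1 (p.2 - ρ + 1) (p.2 - m) else Hs c p.2 (p.1 - ρ + 1) (p.1 - m)

theorem mem_tub {p : ℤ × ℤ} {ρ m : ℕ} : v ∈ tub b p ρ m →
    (b = true ∨ p.2 ≤ v.2) ∧ (p.2 ≤ v.2 ∨ v.1 < p.1) ∧
    (p.1 - ρ ≤ v.1 ∧ v.1 < p.1 + ρ) ∧ (p.2 - ρ < v.2 ∧ v.2 < p.2 + ρ) := by
  intro hv
  unfold tub at hv
  split_ifs at hv with hb
  · rw [mem_union, mem_Rsq, mem_arch] at hv
    refine ⟨Or.inl hb, ?_⟩
    omega
  · rw [mem_arch] at hv
    omega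

/-- The lower bound of the tube. -/
theorem vt_tub (hQ : 0 < Q) (hQ1 : Q ≤ 1) (hV : VRS Q) : ∃ k : ℝ, 0 < k ∧ k ≤ 1 ∧
    ∀ (b c : Bool) (p : ℤ × ℤ) (ρ m : ℕ), 4 ≤ m → 2 * m ≤ ρ → ρ ≤ 2 * m + 1 →
      k ≤ VT Q c (tub b p ρ m) (tubA b c p ρ m) (Hs c p.2 (p.1 + m) (p.1 + ρ - 1)) := by
  obtain ⟨k, hk, hk1, H⟩ := VT_arch hQ hQ1 hV 6
  obtain ⟨k', hk', hk1', H'⟩ := hV 6
  refine ⟨k * k', mul_pos hk hk', mul_le_one₀ hk1 hk'.le hk1', fun b c p ρ m h1 h2 h3 => ?_⟩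
  cases b
  · unfold tub tubA
    rw [if_neg (by decide), if_neg (by decide)]
    have h4 := (H c (p.1 - ρ + 1) (p.1 - m) (p.1 + m) (p.1 + ρ - 1) p.2 p.2 (p.2 + m) (p.2 + ρ)
      (by omega) (by omega) (by omega) (by omega) (by omega) (by omega) (by push_cast; omega)
      (by push_cast; omega) (by push_cast; omega)).1
    exact (mul_le_of_le_one_right hk.le hk1').trans h4
  · unfold tub tubA
    rw [if_pos rfl, if_pos rfl]
    have h4 := (H c (p.1 - ρ) (p.1 - m) (p.1 + m) (p.1 + ρ - 1) (p.2 - ρ + 1) p.2 (p.2 + m)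
      (p.2 + ρ) (by omega) (by omega) (by omega) (by omega) (by omega) (by omega)
      (by push_cast; omega) (by push_cast; omega) (by push_cast; omega)).1
    have h5 := (H' c (p.1 - ρ) p.1 (p.2 - ρ + 1) (p.2 - m) (by omega) (by omega)).1
      (by push_cast; omega)
    refine le_trans (mul_le_mul h4 h5 hk'.le (VT_nonneg hQ _ _ _ _)) ?_
    refine (turn_HT (e := c) hQ hQ1 (by omega) (by omega) (fun v hv hv' => ?_) ?_ ?_
      (fun x hx => ⟨hx.1, by have := hx.2.1; omega, by have := hx.2.2.1; omega, hx.2.2.2⟩)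
      (fun x hx => by have := hx.1; omega)).2
    · rw [mem_arch] at hv
      rw [mem_Rsq] at hv'
      omega
    · exact bd_bot fun v hv => by rw [mem_arch] at hv; omega
    · rintro x ⟨x1, x2, x3, x4⟩
      refine bd_of (v := (x.1, p.2 - 1)) (fun hv => ?_)
        ⟨Or.inl rfl, Or.inr (by dsimp only; omega), x4⟩
      rw [mem_arch] at hv
      dsimp only at hv
      omega

/-- The left part of the boundary. -/
theorem JN.mem_ArL (h : JN b q D κ R) {a a' : ℕ} {x : ℤ × ℤ} {c : Bool} {i : ℕ}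
    (hx : x = if b = true then ((q (κ : ZMod n)).1, (q (κ : ZMod n)).2 - i)
      else ((q (κ : ZMod n)).1 - i, (q (κ : ZMod n)).2)) (hi : (i : ℤ) ≤ R)
    (h1 : κ - i ≤ a') (h2 : a ≤ κ - i) (hp : (x.1 + x.2) % 2 = pr c) : x ∈ Ar q c a a' :=
  ⟨hp, κ - i, h2, h1, by rw [h.left i hi, hx]⟩

/-- **The first step.** -/
theorem step1 (hQ : 0 < Q) (hQ1 : Q ≤ 1) (hV : VRS Q) : ∃ c1 : ℝ, 0 < c1 ∧ c1 ≤ 1 ∧
    ∀ {n κ t : ℕ} {q : ZMod n → ℤ × ℤ} {D : Finset (ℤ × ℤ)} {η : Cfg} {b c : Bool} {R : ℤ},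
    IsPolygon q → Encloses q D → JN b q D κ R → Good η → κ ≤ t → t ≤ κ + 1 →
    ((q (t : ZMod n)).1 + (q (t : ZMod n)).2) % 2 = pr c →
    ∀ ρ m : ℕ, 4 ≤ m → 2 * m ≤ ρ → ρ ≤ 2 * m + 1 → (ρ : ℤ) + 1 ≤ R →
    ∀ F : Cfg → ℝ, (∀ ω, 0 ≤ F ω) →
      (∀ ω ω' : Cfg, (∀ v, v ∉ tub b (q (κ : ZMod n)) ρ m → ω' v = ω v) → F ω' = F ω) →
      c1 * Ex Q D η (fun ω => F ω * (NS q D κ t ρ).indicator 1 ω) ≤
        Ex Q D η (fun ω => F ω * (Jn c ↑(Bq (q (κ : ZMod n)) ρ ∩ D) (Ar q c t t)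
          (Ar q c (κ + m) (κ + (ρ - 1)))).indicator 1 ω) := by
  obtain ⟨k, hk, hk1, H⟩ := vt_tub hQ hQ1 hV
  refine ⟨k, hk, hk1, ?_⟩
  intro n κ t q D η b c R hq hD hJ hη hκt htκ htc ρ m h1 h2 h3 h4 F hF0 hF
  have hle := hJ.le
  have hlt := hJ.lt
  obtain ⟨p, hp⟩ : ∃ p, p = q (κ : ZMod n) := ⟨_, rfl⟩
  have hpe := pr_not c
  have hpo := pr_or c
  have hTi : tub b p ρ m ⊆ Bq p ρ ∩ D := by
    intro v hv
    have h5 := mem_tub hv
    have h6 : v ∈ Bq (q (κ : ZMod n)) ρ := by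
      rw [← hp, mBq]
      omega
    rw [hp]
    refine mem_inter.2 ⟨h6, (hJ.dom v (bq_mn (by omega) h6)).2 ?_⟩
    rw [← hp]
    rcases h5.2.1 with h7 | h7
    · exact Or.inl h7
    · rcases h5.1 with h8 | h8
      · exact Or.inr ⟨h8, h7⟩
      · exact Or.inl h8
  have hG := quad_one (r := (ρ : ℤ)) hq hD hJ.wn (by omega) h4 (t := t) (a := κ - (ρ - 1))
    (d := κ + (ρ - 1)) (by omega) (by omega) (by omega) (by omega) c
  rw [← hp] at hG
  have hvt := H b c p ρ m h1 h2 h3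
  rw [← hp] at hF
  have hBd : ∀ x : ℤ × ℤ, x.2 = p.2 → p.1 + m ≤ x.1 → (x.1 + x.2) % 2 = pr c →
      x ∈ Bd c (tub b p ρ m) := by
    intro x h5 h6 h7
    refine bd_of (v := (x.1, p.2 - 1)) (fun hv => ?_)
      ⟨Or.inl rfl, Or.inr (by dsimp only; omega), h7⟩
    have h8 := (mem_tub hv).2.1
    dsimp only at h8
    omega
  have hnet := net1 (e := c) (A := tubA b c p ρ m)
    (B := Hs c p.2 (p.1 + m) (p.1 + ρ - 1)) hQ hQ1 hη (hTi.trans inter_subset_right)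
    (G := Bq p ρ ∩ D) inter_subset_right hG (fan_int hq hD c (Bq_eq p ρ))
    (fun x hx => ?_)
    (fun x hx => ?_) (fun v hv hv' => absurd (mem_coe.2 (hTi (mem_coe.1 hv))) hv')
    (fun x hx => hBd x hx.1 hx.2.1 hx.2.2.2)
    (fun x hx _ => ?_) hF0 (fun ω ω' hω => hF ω ω' fun v hv => hω v fun h' =>
      hv (mem_sdiff.1 h').1)
  · rw [← hp]
    refine (mul_le_mul_of_nonneg_right hvt ?_).trans ((mul_le_mul_of_nonneg_left ?_ ?_).trans
      (hnet.trans ?_))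
    · exact FKA.Ex_nonneg hQ fun _ _ => mul_nonneg (hF0 _) (Set.indicator_nonneg
        (fun _ _ => zero_le_one) _)
    · refine FKA.Ex_mono hQ fun S _ => mul_le_mul_of_nonneg_left ?_ (hF0 _)
      refine Set.indicator_le_indicator_of_subset (fun ω hω => ?_) (fun _ => zero_le_one) _
      rw [hp]
      exact jn_of_ns hq hD hJ.wn (by omega) h4 (by omega) htc hω
    · exact VT_nonneg hQ _ _ _ _
    · refine FKA.Ex_mono hQ fun S _ => mul_le_mul_of_nonneg_left ?_ (hF0 _)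
      refine Set.indicator_le_indicator_of_subset (fun ω hω => ?_) (fun _ => zero_le_one) _
      refine Jn.mono ?_ subset_rfl ?_ (HK1_sub hω)
      · rw [← coe_union, union_eq_left.2 hTi]
      · rintro x ⟨x1, x2, x3, x4⟩
        exact hJ.mem_Ar (by rw [x1, hp]) (by rw [← hp]; omega) (by rw [← hp]; push_cast; omega)
          (by rw [← hp]; push_cast; omega) (by rw [← hp]; omega) x4
  · -- the beginning of the tube is on its boundary
    unfold tubA at hx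
    split_ifs at hx with hb
    · obtain ⟨x1, x2, x3, x4⟩ := hx
      refine bd_of (v := (p.1, x.2 - 1)) (fun hv => ?_)
        ⟨Or.inl x1, Or.inr (by dsimp only; omega), x4⟩
      have h8 := (mem_tub hv).2.1
      dsimp only at h8
      omega
    · obtain ⟨x1, x2, x3, x4⟩ := hx
      refine bd_of (v := (x.1, p.2 - 1)) (fun hv => ?_)
        ⟨Or.inl rfl, Or.inr (by dsimp only; omega), x4⟩
      have h8 := (mem_tub hv).1
      dsimp only at h8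
      rcases h8 with h8 | h8
      · exact hb h8
      · omega
  · -- next to the left part
    unfold tubA at hx
    split_ifs at hx with hb
    · obtain ⟨x1, x2, x3, x4⟩ := hx
      obtain ⟨i, hi⟩ : ∃ i : ℕ, (i : ℤ) = p.2 - x.2 - 1 := ⟨(p.2 - x.2 - 1).toNat, by omega⟩
      refine ⟨(p.1 - 1, x.2), ?_, ⟨Or.inr (by dsimp only; omega), Or.inl rfl, x4⟩,
        (p.1, x.2 + 1), ?_, ⟨Or.inr (by dsimp only; omega), Or.inr rfl, by dsimp only; omega⟩⟩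
      · have h6 : ((p.1 - 1, x.2) : ℤ × ℤ) ∈ Bq (q (κ : ZMod n)) ρ := by
          rw [← hp, mBq]
          dsimp only
          omega
        rw [hp] at h6 ⊢
        refine mem_coe.2 (mem_inter.2 ⟨h6, (hJ.dom _ (bq_mn (by omega) h6)).2 (Or.inr ⟨hb, ?_⟩)⟩)
        dsimp only
        omega
      · refine hJ.mem_ArL (i := i) ?_ (by omega) (by omega) (by omega) (by dsimp only; omega)
        rw [if_pos hb, ← hp, hi]
        ext
        · rfl
        · dsimp only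
          ring
    · obtain ⟨x1, x2, x3, x4⟩ := hx
      obtain ⟨i, hi⟩ : ∃ i : ℕ, (i : ℤ) = p.1 - x.1 - 1 := ⟨(p.1 - x.1 - 1).toNat, by omega⟩
      refine ⟨(x.1, x.2), ?_, ⟨Or.inl rfl, Or.inl rfl, x4⟩,
        (x.1 + 1, x.2), ?_, ⟨Or.inr rfl, Or.inl rfl, by dsimp only; omega⟩⟩
      · have h6 : ((x.1, x.2) : ℤ × ℤ) ∈ Bq (q (κ : ZMod n)) ρ := by
          rw [← hp, mBq]
          dsimp only
          omega
        rw [hp]
        refine mem_coe.2 (mem_inter.2 ⟨h6, (hJ.dom _ (bq_mn (by omega) h6)).2 (Or.inl ?_)⟩)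
        rw [← hp, x1]
      · refine hJ.mem_ArL (i := i) ?_ (by omega) (by omega) (by omega) (by dsimp only; omega)
        rw [if_neg hb, ← hp, hi]
        ext
        · dsimp only
          ring
        · exact x1
  · -- next to the right part
    obtain ⟨x1, x2, x3, x4⟩ := hx
    refine ⟨(x.1 - 1, x.2), ?_, ⟨Or.inr (by ring), Or.inl rfl, x4⟩, (x.1 - 1, x.2), ?_,
      ⟨Or.inl rfl, Or.inl rfl, by dsimp only; omega⟩⟩
    · rw [hp] at x1 x2 x3 ⊢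
      refine mem_coe.2 (hJ.mem_up (by omega) ?_ (by dsimp only; omega))
      rw [mBq]
      dsimp only
      omega
    · exact hJ.mem_Ar (by rw [← hp]; exact x1) (by rw [← hp]; dsimp only; omega)
        (by rw [← hp]; dsimp only; push_cast; omega) (by rw [← hp]; dsimp only; omega)
        (by rw [← hp]; dsimp only; omega) (by dsimp only; omega)

/-- The tube of the second step. -/
noncomputable def tub2 (p : ℤ × ℤ) (ρ L : ℕ) : Finset (ℤ × ℤ) :=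
  arch (p.1 + (ρ / 8 : ℕ)) (p.1 + (ρ / 4 : ℕ)) (p.1 + (2 * L : ℕ)) (p.1 + (3 * L : ℕ)) p.2 p.2
    (p.2 + (2 * L : ℕ)) (p.2 + (3 * L : ℕ))

/-- The squares of the second tube. -/
theorem mem_tub2 {p : ℤ × ℤ} {ρ L : ℕ} (hρ : ρ ≤ 2 * L) (hL : 0 < L) (h : v ∈ tub2 p ρ L) :
    p.2 ≤ v.2 ∧ v.2 < p.2 + 3 * L ∧ p.1 + (ρ / 8 : ℕ) ≤ v.1 ∧ v.1 < p.1 + 3 * L ∧
      (v.1 < p.1 + (ρ / 4 : ℕ) ∨ p.2 + 2 * L ≤ v.2 ∨ p.1 + 2 * L ≤ v.1) := by
  unfold tub2 at h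
  rw [mem_arch] at h
  push_cast at h ⊢
  omega

/-- **The arm of the site is prolonged to the right part of the boundary.** -/
theorem ext_land (hQ : 0 < Q) (hQ1 : Q ≤ 1) (hV : VRS Q) (M₀ : ℕ) : ∃ c1 : ℝ, 0 < c1 ∧ c1 ≤ 1 ∧
    ∀ {n κ t : ℕ} {q : ZMod n → ℤ × ℤ} {D : Finset (ℤ × ℤ)} {η : Cfg} {b c : Bool} {R : ℤ},
    IsPolygon q → Encloses q D → JN b q D κ R → Good η → κ ≤ t → t ≤ κ + 1 →
    ((q (t : ZMod n)).1 + (q (t : ZMod n)).2) % 2 = pr c →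
    ∀ ρ L : ℕ, 64 ≤ ρ → ρ ≤ 2 * L → L ≤ M₀ * ρ → 4 * (L : ℤ) + 1 ≤ R →
    ∀ F : Cfg → ℝ, (∀ ω, 0 ≤ F ω) →
      (∀ ω ω' : Cfg, (∀ v, v ∉ tub b (q (κ : ZMod n)) ρ (ρ / 2) → v ∉ tub2 (q (κ : ZMod n)) ρ L →
        ω' v = ω v) → F ω' = F ω) →
      c1 * Ex Q D η (fun ω => F ω * (NS q D κ t ρ).indicator 1 ω) ≤
        Ex Q D η (fun ω => F ω * (Jn c ↑(Bq (q (κ : ZMod n)) (4 * L) ∩ D) (Ar q c t t)
          (Ar q c (κ + 2 * L) (κ + 3 * L))).indicator 1 ω) := by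
  obtain ⟨c1, hc1, hc11, H1⟩ := step1 hQ hQ1 hV
  obtain ⟨c2, hc2, hc21, H2⟩ := step2 hQ hQ1 hV (48 * M₀ + 3)
  refine ⟨c2 * c1, mul_pos hc2 hc1, mul_le_one₀ hc21 hc1.le hc11, ?_⟩
  intro n κ t q D η b c R hq hD hJ hη hκt htκ htc ρ L h1 h2 h3 h4 F hF0 hF
  have hρL : (ρ : ℤ) ≤ 4 * L := by omega
  have k1 := H1 hq hD hJ hη hκt htκ htc ρ (ρ / 2) (by omega) (by omega) (by omega) (by omega)
    F hF0 fun ω ω' hω => hF ω ω' fun v hv _ => hω v hv
  have hM1 : 3 * L ≤ (48 * M₀ + 3) * (ρ / 4 - ρ / 8) := by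
    have e1 : ρ ≤ 16 * (ρ / 4 - ρ / 8) := by omega
    calc 3 * L ≤ 3 * (M₀ * (16 * (ρ / 4 - ρ / 8))) :=
          Nat.mul_le_mul_left 3 (h3.trans (Nat.mul_le_mul_left M₀ e1))
      _ = 48 * M₀ * (ρ / 4 - ρ / 8) := by ring
      _ ≤ _ := Nat.mul_le_mul_right _ (by omega)
  have hM2 : 3 * L ≤ (48 * M₀ + 3) * (3 * L - 2 * L) := by
    have e1 : 3 * L - 2 * L = L := by omega
    rw [e1]
    exact Nat.mul_le_mul_right L (by omega)
  have k2 := H2 hq hD hJ hη hκt htκ (r := 4 * (L : ℤ)) h4 (ρ / 8) (ρ / 4) (ρ / 2) (ρ - 1) (2 * L)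
    (3 * L) (2 * L) (3 * L) (by omega) (by omega) (by omega) (by omega) (by omega) (by omega)
    (by push_cast; omega) (by push_cast; omega) (by omega) hM1 hM2
    (le_trans (Nat.sub_le _ _) hM2) (c := c) F hF0 fun ω ω' hω => hF ω ω' fun v _ hv => hω v hv
  rw [mul_assoc]
  refine (mul_le_mul_of_nonneg_left (k1.trans ?_) hc2.le).trans k2
  refine FKA.Ex_mono hQ fun S _ => mul_le_mul_of_nonneg_left ?_ (hF0 _)
  refine Set.indicator_le_indicator_of_subset ?_ (fun _ => zero_le_one) _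
  refine Jn.mono ?_ subset_rfl subset_rfl
  exact coe_subset.2 (inter_subset_inter_right (bq_mn hρL))

/-- The connection to the right part excludes the strands over the site. -/
theorem ns_of_land (hq : IsPolygon q) (hD : Encloses q D) (hW : Wn q κ R) {a a' : ℕ} {r₁ : ℤ}
    (ht : t ≤ n)
    (hrR : r ≤ R) (ha : κ + r < a) (ha' : a' ≤ n)
    (h : ω ∈ Jn c ↑(Bq (q (κ : ZMod n)) r₁ ∩ D) (Ar q c t t) (Ar q c a a')) :
    ω ∈ NS q D κ t r := by
  obtain ⟨u, ⟨hu, k, k1, k2, rfl⟩, v, ⟨hv, m, m1, m2, rfl⟩, h1⟩ := h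
  obtain rfl : k = t := le_antisymm k2 k1
  refine ns_of_join hq hD hW hrR ht (m := m) (by omega) (Or.inl (by omega)) hu
    (H192.TA.Pw.mono ?_ h1)
  rintro v ⟨h2, h3⟩
  exact ⟨h2, mem_coe.2 (mem_inter.1 (mem_coe.1 h3)).2⟩

end Vale.Agent.P167.N.QL
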