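import Vale.Agent.P167.N.QL.LkV
import Vale.Agent.P167.H975.LkI

/-!
# P167, the range `0 < q < 1`, block Q-LAM (LK): windows of polygons

`Win0`: two polygons agree in a window of indices. `IMP`: the sides in a box correspond, with the
phases; then the weights of the pieces in the box agree (`wP_near`). `imp_mid`, `imp_base`: windows
without the base, around the base. `dom_win`: the domains agree in the box.
-/

set_option autoImplicit false

namespace Vale.Agent.P167.N.QL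

open Finset Vale.Agent.P167 Vale.Agent.P167.BR
open Vale.Agent.P167.E6 (IsPolygon Encloses dir face)
open Vale.Agent.P167.E2 (ro ro_spec ro_unique)
open Vale.Agent.P167.FK (Bq)
open Vale.Agent.P167.H718 (IsXY IsCl Cl isCl_strand)
open Vale.Agent.P167.QX (lo hi wB exists_xy lo_xy hi_xy)
open Vale.Agent.P167.H975 (lkBq nm_of_face nm_of_be agr_of)

variable {n n' k k' : ℕ} {q : ZMod n → ℤ × ℤ} {q' : ZMod n' → ℤ × ℤ} {D D' : Finset (ℤ × ℤ)}
  {ω : Cfg} {A : Finset Ed} {θ β : ℝ} {ρ ρ' : ℕ → ℝ} {τ τ' : ℕ → ℤ} {c : ℤ × ℤ} {r R : ℤ}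
  {σ : ℕ → ℕ} {J J' d n₀ n₀' : ℕ}

/-- Correspondence of the sides in a box, with the phases. -/
structure IMP (q : ZMod n → ℤ × ℤ) (k : ℕ) (ρ : ℕ → ℝ) (q' : ZMod n' → ℤ × ℤ) (k' : ℕ)
    (ρ' : ℕ → ℝ) (c : ℤ × ℤ) (r : ℤ) (σ : ℕ → ℕ) : Prop where
  map : ∀ j < n, hdv (be q (j : ZMod n)) ∈ Bq c r → σ j < n' ∧
    be q' ((σ j : ℕ) : ZMod n') = be q (j : ZMod n) ∧ (σ j < k' ↔ j < k)
  mono : ∀ i j : ℕ, j < n → i < j → hdv (be q (i : ZMod n)) ∈ Bq c r →
    hdv (be q (j : ZMod n)) ∈ Bq c r → σ i < σ j ∧ ρ' (σ j) - ρ' (σ i) = ρ j - ρ i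

theorem IMP.le (h : IMP q k ρ q' k' ρ' c R σ) (hr : r ≤ R) : IMP q k ρ q' k' ρ' c r σ :=
  ⟨fun j hj hb => h.map j hj (bq_sub hr hb), fun i j hj hij hi hb =>
    h.mono i j hj hij (bq_sub hr hi) (bq_sub hr hb)⟩

theorem isLp_near (hDD : ∀ v ∈ Bq c r, v ∈ D ↔ v ∈ D') (hB : ∀ e ∈ A, hdv e ∈ Bq c r) :
    IsLp D' A ↔ IsLp D A :=
  forall₂_congr fun e he => (hDD _ (hB e he)).symm

theorem isXY_near (hq : IsPolygon q) (hD : Encloses q D) (hq' : IsPolygon q') (hD' : Encloses q' D')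
    (hDD : ∀ v ∈ Bq c r, v ∈ D ↔ v ∈ D') (hσ : IMP q k ρ q' k' ρ' c r σ)
    (hB : ∀ e ∈ A, hdv e ∈ Bq c r) {x y : ℕ} (hxy : IsXY q A x y) : IsXY q' A (σ x) (σ y) := by
  obtain ⟨hx, hy, h1, h2, h3, h4⟩ := hxy
  obtain ⟨a1, a2, -⟩ := hσ.map x hx (hB _ h1)
  obtain ⟨b1, b2, -⟩ := hσ.map y hy (hB _ h2)
  refine ⟨a1, b1, ?_, ?_, ?_, ?_⟩
  · rw [a2]; exact h1
  · rw [b2]; exact h2
  · by_contra hc
    have h5 := (be_odd hq' hD' hc).2.2.2
    rw [a2, ← hDD _ (hB _ h1)] at h5
    exact h5 (be_even hq hD h3).2.2.1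
  · intro hc
    have h5 := (be_even hq' hD' hc).2.2.1
    rw [b2, ← hDD _ (hB _ h2)] at h5
    exact (be_odd hq hD h4).2.2.2 h5

/-- **The weights agree.** -/
theorem wP_near (hc : Real.cos θ ≠ 0) (hq : IsPolygon q) (hD : Encloses q D) (hq' : IsPolygon q')
    (hD' : Encloses q' D') (hDD : ∀ v ∈ Bq c (r + 1), v ∈ D ↔ v ∈ D')
    (hσ : IMP q k ρ q' k' ρ' c r σ) (hA : A ∈ pcs ω D) (hB : ∀ e ∈ A, hdv e ∈ Bq c r) :
    wP θ β q' D' k' ρ' A = wP θ β q D k ρ A := by
  classical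
  have hr : ∀ v ∈ Bq c r, v ∈ D ↔ v ∈ D' := fun v hv => hDD v (bq_sub (by omega) hv)
  have hA' : A ∈ pcs ω D' := mem_pcs_near hDD hA hB
  have hlp := isLp_near hr hB
  by_cases hl : IsLp D A
  · rw [wP_lp hq hD hA hl hc, wP_lp hq' hD' hA' (hlp.2 hl) hc]
  · have hl' : ¬ IsLp D' A := fun h' => hl (hlp.1 h')
    obtain ⟨x, y, hxy⟩ := exists_xy hq hD hA hl
    have hxy' := isXY_near hq hD hq' hD' hr hσ hB hxy
    have hcl := isCl_strand (k := k) hq hD hA hl hxy
    have hcl' := isCl_strand (k := k') hq' hD' hA' hl' hxy'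
    have hne := hxy.ne
    have hlo := lo_xy hq hD hA hxy
    have hhi := hi_xy hq hD hA hxy
    have hlo' := lo_xy hq' hD' hA' hxy'
    have hhi' := hi_xy hq' hD' hA' hxy'
    obtain ⟨hx, hy, h1, h2, -, -⟩ := hxy
    have kx := (hσ.map x hx (hB _ h1)).2.2
    have ky := (hσ.map y hy (hB _ h2)).2.2
    have hClt : Cl k' (σ x) (σ y) ↔ Cl k x y := by
      unfold Cl
      rcases Nat.lt_or_gt_of_ne hne with hlt | hlt
      · have := (hσ.mono x y hy hlt (hB _ h1) (hB _ h2)).1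
        omega
      · have := (hσ.mono y x hx hlt (hB _ h2) (hB _ h1)).1
        omega
    unfold wP wB
    rw [if_neg hl, if_neg hl', hlo, hhi, hlo', hhi']
    simp only [hcl, hcl', hClt]
    rcases Nat.lt_or_gt_of_ne hne with hlt | hlt
    · obtain ⟨g1, g2⟩ := hσ.mono x y hy hlt (hB _ h1) (hB _ h2)
      rw [min_eq_left hlt.le, max_eq_right hlt.le, min_eq_left g1.le, max_eq_right g1.le, g2]
      have e1 : (σ x < k' ∧ k' ≤ σ y) ↔ (x < k ∧ k ≤ y) := by omega
      simp only [e1]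
    · obtain ⟨g1, g2⟩ := hσ.mono y x hx hlt (hB _ h2) (hB _ h1)
      rw [min_eq_right hlt.le, max_eq_left hlt.le, min_eq_right g1.le, max_eq_left g1.le, g2]
      have e1 : (σ y < k' ∧ k' ≤ σ x) ↔ (y < k ∧ k ≤ x) := by omega
      simp only [e1]

/-! ### windows -/

/-- The sides agree if their ends agree. -/
theorem be_loc0 (hq : IsPolygon q) (hq' : IsPolygon q') {i : ZMod n} {i' : ZMod n'}
    (h1 : q' i' = q i) (h2 : q' (i' + 1) = q (i + 1)) : be q' i' = be q i := by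
  have h : ro q i = ro q' i' := by
    apply ro_unique hq'
    rw [h1, h2, ro_spec hq i]
  unfold be
  rw [← h, h1]

/-- The paths agree in the window of radius `d` around `J`. -/
def Win0 (q : ZMod n → ℤ × ℤ) (q' : ZMod n' → ℤ × ℤ) (J J' d : ℕ) : Prop :=
  ∀ m ≤ 2 * d + 1, q' ((J' - d + m : ℕ) : ZMod n') = q ((J - d + m : ℕ) : ZMod n)

theorem Win0.be (h : Win0 q q' J J' d) (hq : IsPolygon q) (hq' : IsPolygon q') {m : ℕ}
    (hm : m ≤ 2 * d) : be q' ((J' - d + m : ℕ) : ZMod n') = be q ((J - d + m : ℕ) : ZMod n) := by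
  refine be_loc0 hq hq' (h m (by omega)) ?_
  have h1 := h (m + 1) (by omega)
  rw [← add_assoc, ← add_assoc, Nat.cast_add _ 1, Nat.cast_add (J - d + m) 1, Nat.cast_one,
    Nat.cast_one] at h1
  exact h1

theorem Win0.cen (h : Win0 q q' J J' d) (h1 : d ≤ J) (h1' : d ≤ J') :
    q' (J' : ZMod n') = q (J : ZMod n) := by
  have := h d (by omega)
  rwa [show J' - d + d = J' by omega, show J - d + d = J by omega] at this

/-- **Windows without the base.** -/
theorem imp_mid (h : Win0 q q' J J' d) (hq : IsPolygon q) (hq' : IsPolygon q')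
    (h1 : d ≤ J) (h1' : d ≤ J') (h2' : J' + d < n')
    (hnear : ∀ j < n, hdv (BR.be q (j : ZMod n)) ∈ Bq c r → J ≤ j + d ∧ j ≤ J + d)
    (hk : ∀ j, J ≤ j + d → j ≤ J + d → (j + J' - J < k' ↔ j < k))
    (hρ : ∀ j, J ≤ j + d → j ≤ J + d → ρ' (j + J' - J) - ρ' J' = ρ j - ρ J) :
    IMP q k ρ q' k' ρ' c r (fun j => j + J' - J) where
  map j hj hb := by
    obtain ⟨a, b⟩ := hnear j hj hb
    refine ⟨by omega, ?_, hk j a b⟩
    have e := h.be hq hq' (m := j + d - J) (by omega)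
    have e1 : J' - d + (j + d - J) = j + J' - J := by omega
    have e2 : J - d + (j + d - J) = j := by omega
    rw [e1, e2] at e
    exact e
  mono i j hj hij hi hb := by
    obtain ⟨a, b⟩ := hnear j hj hb
    obtain ⟨a', b'⟩ := hnear i (by omega) hi
    have e1 := hρ j a b
    have e2 := hρ i a' b'
    exact ⟨by omega, by linarith⟩

/-- **Windows around the base.** -/
theorem imp_base (h : Win0 q q' n n' d) (hq : IsPolygon q) (hq' : IsPolygon q')
    (h1 : 2 * d < n) (h1' : 2 * d < n')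
    (hnear : ∀ j < n, hdv (BR.be q (j : ZMod n)) ∈ Bq c r → n ≤ j + d ∨ j ≤ d)
    (hk : ∀ j ≤ d, (j < k' ↔ j < k)) (hk' : ∀ j < n, n ≤ j + d → (j + n' - n < k' ↔ j < k))
    (hρ : ∀ j ≤ d, ρ' j - ρ' 0 = ρ j - ρ 0)
    (hρ' : ∀ j < n, n ≤ j + d → ρ' (j + n' - n) - ρ' 0 = ρ j - ρ 0) :
    IMP q k ρ q' k' ρ' c r (fun j => if n ≤ j + d then j + n' - n else j) where
  map j hj hb := by
    by_cases a : n ≤ j + d
    · simp only [if_pos a]
      refine ⟨by omega, ?_, hk' j hj a⟩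
      have e := h.be hq hq' (m := j + d - n) (by omega)
      have e1 : n' - d + (j + d - n) = j + n' - n := by omega
      have e2 : n - d + (j + d - n) = j := by omega
      rw [e1, e2] at e
      exact e
    · simp only [if_neg a]
      have b : j ≤ d := by
        rcases hnear j hj hb with b | b
        · exact absurd b a
        · exact b
      refine ⟨by omega, ?_, hk j b⟩
      have e := h.be hq hq' (m := j + d) (by omega)
      have e1 : n' - d + (j + d) = n' + j := by omega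
      have e2 : n - d + (j + d) = n + j := by omega
      rw [e1, e2, Nat.cast_add, Nat.cast_add, ZMod.natCast_self, ZMod.natCast_self, zero_add,
        zero_add] at e
      exact e
  mono i j hj hij hi hb := by
    have a := hnear j hj hb
    have b := hnear i (by omega) hi
    by_cases a1 : n ≤ i + d
    · have a2 : n ≤ j + d := by omega
      have e1 := hρ' j hj a2
      have e2 := hρ' i (by omega) a1
      simp only [if_pos a1, if_pos a2]
      exact ⟨by omega, by linarith⟩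
    · have b1 : i ≤ d := by omega
      have e2 := hρ i b1
      by_cases a2 : n ≤ j + d
      · have e1 := hρ' j hj a2
        simp only [if_neg a1, if_pos a2]
        exact ⟨by omega, by linarith⟩
      · have e1 := hρ j (by omega)
        simp only [if_neg a1, if_neg a2]
        exact ⟨by omega, by linarith⟩

/-! ### the box -/

/-- Near sides are in the window. -/
theorem near_winP (hG : GeoP n₀ n q) [NeZero n] (hJ : J ≤ n) (hd : d ≤ J)
    (h3 : 3 * (R + 1) < n₀) (hR : 2 * (R + 1) ≤ d) {i : ZMod n}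
    (h : nm (q i - q (J : ZMod n)) ≤ R + 1) : ∃ m ≤ 2 * d, i = ((J - d + m : ℕ) : ZMod n) := by
  have hi : ((i.val : ℕ) : ZMod n) = i := ZMod.natCast_zmod_val i
  have hlt := ZMod.val_lt i
  rw [← hi] at h
  rcases hG.near hlt.le hJ h3 h with h1 | h1
  · rw [abs_le] at h1
    refine ⟨i.val + d - J, by omega, ?_⟩
    rw [show J - d + (i.val + d - J) = i.val by omega, hi]
  · rcases abs_cases ((i.val : ℤ) - J) with ⟨a, b⟩ | ⟨a, b⟩ <;> rw [a] at h1
    · omega
    · refine ⟨i.val + n + d - J, by omega, ?_⟩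
      rw [show J - d + (i.val + n + d - J) = i.val + n by omega, Nat.cast_add, ZMod.natCast_self,
        add_zero, hi]

/-- **The domains agree.** -/
theorem dom_win (hG : GeoP n₀ n q) (hG' : GeoP n₀' n' q') (hq : IsPolygon q)
    (hD : Encloses q D) (hq' : IsPolygon q') (hD' : Encloses q' D') (hJ : J ≤ n) (hd : d ≤ J)
    (hJ' : J' ≤ n') (hd' : d ≤ J') (hR1 : 1 ≤ R) (h3 : 3 * (R + 1) < n₀) (h3' : 3 * (R + 1) < n₀')
    (hR : 2 * (R + 1) ≤ d) (h : Win0 q q' J J' d) :
    ∀ v ∈ Bq (q (J : ZMod n)) R, v ∈ D ↔ v ∈ D' := by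
  have hn : NeZero n := ⟨by have := hq.1; omega⟩
  have hn' : NeZero n' := ⟨by have := hq'.1; omega⟩
  have hc := h.cen hd hd'
  have step : ∀ m ≤ 2 * d, q' ((J' - d + m : ℕ) : ZMod n') = q ((J - d + m : ℕ) : ZMod n) + 0 ∧
      q' (((J' - d + m : ℕ) : ZMod n') + 1) = q (((J - d + m : ℕ) : ZMod n) + 1) + 0 := by
    intro m hm
    refine ⟨by rw [h m (by omega), add_zero], ?_⟩
    have h1 := h (m + 1) (by omega)
    rw [← add_assoc, ← add_assoc, Nat.cast_add _ 1, Nat.cast_add (J - d + m) 1, Nat.cast_one,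
      Nat.cast_one] at h1
    rw [h1, add_zero]
  have hro : ro q (J : ZMod n) = ro q' (J' : ZMod n') := by
    apply ro_unique hq'
    have h1 := (step d (by omega)).2
    rw [show J' - d + d = J' by omega, show J - d + d = J by omega] at h1
    rw [h1, hc, ro_spec hq, add_zero]
  have key := agr_of (t := 0) (c := q (J : ZMod n)) (R := R) hD hD' (fun i s hs => ?_) (fun i s hs => ?_)
    (v₀ := face (q (J : ZMod n)) (ro q (J : ZMod n))) ?_ (E2.enc_out hq hD).1 ?_
  · intro v hv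
    have := key v hv
    rwa [add_zero] at this
  · obtain ⟨m, hm, rfl⟩ := near_winP hG hJ hd h3 hR (nm_of_face hs)
    exact ⟨_, step m hm⟩
  · rw [add_zero, ← hc] at hs
    obtain ⟨m, hm, rfl⟩ := near_winP hG' hJ' hd' h3' hR (nm_of_face hs)
    exact ⟨_, step m hm⟩
  · rw [lkBq]
    generalize ro q (J : ZMod n) = s
    fin_cases s <;> simp [face] <;> omega
  · rw [add_zero, ← hc, hro]
    exact (E2.enc_out hq' hD').1

/-! ### straight legs -/

/-- The polygon is straight on both sides of `J`. -/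
def Str (τ : ℕ → ℤ) (J d : ℕ) : Prop :=
  (∀ i, J ≤ i → i ≤ J + d → τ i = τ J) ∧ ∀ i, J ≤ i + d → i < J → τ i = τ (J - 1)

theorem Str.mono {d' : ℕ} (h : Str τ J d) (hd : d' ≤ d) : Str τ J d' :=
  ⟨fun i h1 h2 => h.1 i h1 (by omega), fun i h1 h2 => h.2 i (by omega) h2⟩

section

variable (hs : ∀ j : ℕ, q ((j + 1 : ℕ) : ZMod n) = q (j : ZMod n) + Top.vec (τ j))
include hs

theorem str_R (m : ℕ) (h : ∀ j, J ≤ j → j < J + m → τ j = τ J) :
    q ((J + m : ℕ) : ZMod n) = q (J : ZMod n) + (m : ℤ) • Top.vec (τ J) := by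
  induction m with
  | zero => simp
  | succ m ih =>
    have h1 := hs (J + m)
    rw [← add_assoc, h1, ih fun j a b => h j a (by omega), h (J + m) (by omega) (by omega)]
    push_cast
    rw [add_smul, one_smul, add_assoc]

theorem str_L (m : ℕ) (hm : m ≤ J) (h : ∀ j, J ≤ j + m → j < J → τ j = τ (J - 1)) :
    q ((J - m : ℕ) : ZMod n) = q (J : ZMod n) - (m : ℤ) • Top.vec (τ (J - 1)) := by
  induction m with
  | zero => simp
  | succ m ih =>
    have h1 := hs (J - (m + 1))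
    have h2 := ih (by omega) fun j a b => h j (by omega) b
    rw [show J - (m + 1) + 1 = J - m by omega, h2, h (J - (m + 1)) (by omega) (by omega)] at h1
    rw [eq_sub_iff_add_eq, ← sub_eq_iff_eq_add] at *
    push_cast
    rw [add_smul, one_smul, ← h1]
    abel

end

/-- Windows of straight legs agree. -/
theorem win0_of (hs : ∀ j : ℕ, q ((j + 1 : ℕ) : ZMod n) = q (j : ZMod n) + Top.vec (τ j))
    (hs' : ∀ j : ℕ, q' ((j + 1 : ℕ) : ZMod n') = q' (j : ZMod n') + Top.vec (τ' j))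
    (hd : d ≤ J) (hd' : d ≤ J') (h : Str τ J d) (h' : Str τ' J' d)
    (hc : q' (J' : ZMod n') = q (J : ZMod n))
    (hout : Top.vec (τ J) = Top.vec (τ' J')) (hinn : Top.vec (τ (J - 1)) = Top.vec (τ' (J' - 1))) :
    Win0 q q' J J' d := by
  intro m hm
  rcases le_total m d with h1 | h1
  · obtain ⟨x, rfl⟩ := Nat.exists_eq_add_of_le h1
    rw [show J' - (m + x) + m = J' - x by omega, show J - (m + x) + m = J - x by omega,
      str_L hs x (by omega) fun j a b => h.2 j (by omega) b,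
      str_L hs' x (by omega) fun j a b => h'.2 j (by omega) b, hinn, hc]
  · obtain ⟨x, rfl⟩ := Nat.exists_eq_add_of_le h1
    rw [show J' - d + (d + x) = J' + x by omega, show J - d + (d + x) = J + x by omega,
      str_R hs x fun j a b => h.1 j a (by omega),
      str_R hs' x fun j a b => h'.1 j a (by omega), hout, hc]

end Vale.Agent.P167.N.QL
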