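import Vale.Agent.P167.N.QL.K6
import Vale.Agent.P167.N.QL.LkX
import Vale.Agent.P167.N.AW.Sit

/-!
# P167, the range `0 < q < 1`, block Q-LAM: the windows of the polygons at the killed centres

`jn_dom`, `jn_of`: canonical windows of polygons with a straight or a reflex turn. `extI_can`: extension
of the indicators of the killed centres.
-/

set_option autoImplicit false

namespace Vale.Agent.P167.N.QL

open Finset Vale.Agent.P167 Vale.Agent.P167.BR Vale.Agent.P167.FK
open Vale.Agent.P167.E6 (IsPolygon Encloses dir face)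
open Vale.Agent.P167.QX (lo hi)
open Vale.Agent.P167.H871 (IsC)
open Vale.Agent.P167.H632 (cs pr pr_or pr_not)
open Vale.Agent.P167.H192.TA (Pw)
open Vale.Agent.P167.H975 (box_conn lkBq)
open Vale.Agent.P167.N.NET (Ar Jn VRS)
open Vale.Agent.P167.N.AW (ExtI)
open Vale.Agent.P167.H601.S2 (Off)

variable {n n₀ κ t d : ℕ} {q : ZMod n → ℤ × ℤ} {D : Finset (ℤ × ℤ)} {ω ω' η : Cfg} {c b : Bool}
  {s v : ℤ × ℤ} {r r' R : ℤ} {Q : ℝ} {τ : ℕ → ℤ}

/-- The domain near a straight part or a reflex corner of the boundary. -/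
theorem jn_dom (hD : Encloses q D) (hR0 : 0 ≤ R) (hdR : R + 2 ≤ d)
    (hr : ∀ i : ℕ, i ≤ d → q ((κ + i : ℕ) : ZMod n) =
      ((q (κ : ZMod n)).1 + i, (q (κ : ZMod n)).2))
    (hl : ∀ i : ℕ, i ≤ d → q ((κ - i : ℕ) : ZMod n) =
      if b = true then ((q (κ : ZMod n)).1, (q (κ : ZMod n)).2 - i)
        else ((q (κ : ZMod n)).1 - i, (q (κ : ZMod n)).2))
    (hnear : ∀ i : ZMod n, nm (q i - q (κ : ZMod n)) ≤ R + 1 →
      (∃ m : ℕ, m < d ∧ i = ((κ + m : ℕ) : ZMod n)) ∨
        ∃ m : ℕ, 1 ≤ m ∧ m ≤ d ∧ m ≤ κ ∧ i = ((κ - m : ℕ) : ZMod n)) :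
    ∀ v ∈ Bq (q (κ : ZMod n)) R,
      (v ∈ D ↔ (q (κ : ZMod n)).2 ≤ v.2 ∨ (b = true ∧ v.1 < (q (κ : ZMod n)).1)) := by
  obtain ⟨c, hc⟩ : ∃ c, c = q (κ : ZMod n) := ⟨_, rfl⟩
  rw [← hc] at hr hl hnear ⊢
  -- the steps near `c`
  have step : ∀ i : ZMod n, nm (q i - c) ≤ R + 1 →
      (q (i + 1) = q i + (1, 0) ∧ (q i).2 = c.2 ∧ (b = true → c.1 ≤ (q i).1)) ∨
      (b = true ∧ q (i + 1) = q i + (0, 1) ∧ (q i).1 = c.1 ∧ (q i).2 < c.2) := by
    intro i hi
    rcases hnear i hi with ⟨m, hm, rfl⟩ | ⟨m, hm1, hm, hmκ, rfl⟩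
    · left
      have e1 := hr m hm.le
      have e2 := hr (m + 1) hm
      rw [← add_assoc, Nat.cast_add _ 1, Nat.cast_one] at e2
      rw [e1, e2]
      refine ⟨?_, rfl, fun _ => ?_⟩
      · ext
        · simp only [Prod.fst_add]; push_cast; ring
        · simp only [Prod.snd_add]; ring
      · dsimp only
        omega
    · have e1 := hl m hm
      have e2 := hl (m - 1) (by omega)
      rw [show κ - (m - 1) = κ - m + 1 by omega, Nat.cast_add _ 1, Nat.cast_one] at e2
      rcases Bool.eq_false_or_eq_true b with hb | hb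
      · right
        rw [if_pos hb] at e1 e2
        rw [e1, e2]
        refine ⟨hb, ?_, rfl, ?_⟩
        · ext
          · simp only [Prod.fst_add]; ring
          · simp only [Prod.snd_add]; omega
        · dsimp only
          omega
      · left
        have hb' : ¬ b = true := by rw [hb]; decide
        rw [if_neg hb'] at e1 e2
        rw [e1, e2]
        refine ⟨?_, rfl, fun h => absurd h hb'⟩
        ext
        · simp only [Prod.fst_add]; omega
        · simp only [Prod.snd_add]; ring
  -- existence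
  have exR : ∀ z : ℤ × ℤ, z.2 = c.2 → (b = true → c.1 ≤ z.1) → -R ≤ z.1 - c.1 → z.1 - c.1 ≤ R →
      ∃ i, q i = z ∧ q (i + 1) = z + dir 0 := by
    intro z z2 zb z3 z4
    rcases le_or_gt c.1 z.1 with h1 | h1
    · obtain ⟨m, hm⟩ : ∃ m : ℕ, (m : ℤ) = z.1 - c.1 := ⟨(z.1 - c.1).toNat, by omega⟩
      refine ⟨((κ + m : ℕ) : ZMod n), ?_, ?_⟩
      · rw [hr m (by omega)]
        ext
        · dsimp only; omega
        · exact z2.symm
      · have e2 := hr (m + 1) (by omega)
        rw [← add_assoc, Nat.cast_add _ 1, Nat.cast_one] at e2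
        rw [e2]
        ext
        · simp [dir]; omega
        · simp [dir, z2]
    · have hb' : ¬ b = true := fun h => by have := zb h; omega
      obtain ⟨m, hm⟩ : ∃ m : ℕ, (m : ℤ) = c.1 - z.1 := ⟨(c.1 - z.1).toNat, by omega⟩
      refine ⟨((κ - m : ℕ) : ZMod n), ?_, ?_⟩
      · rw [hl m (by omega), if_neg hb']
        ext
        · dsimp only; omega
        · exact z2.symm
      · by_cases hmκ : m ≤ κ
        · have e2 := hl (m - 1) (by omega)
          rw [show κ - (m - 1) = κ - m + 1 by omega, Nat.cast_add _ 1, Nat.cast_one,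
            if_neg hb'] at e2
          rw [e2]
          ext
          · simp only [Prod.fst_add, dir]; simp; omega
          · simp only [Prod.snd_add, dir]; simp; omega
        · exfalso
          have e1 := hl m (by omega)
          have e2 := hl (m - 1) (by omega)
          rw [show κ - m = 0 by omega, if_neg hb'] at e1
          rw [show κ - (m - 1) = 0 by omega, if_neg hb', e1] at e2
          have := congrArg Prod.fst e2
          dsimp only at this
          omega
  have exL : ∀ z : ℤ × ℤ, b = true → z.1 = c.1 → z.2 < c.2 → c.2 - z.2 ≤ R + 1 →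
      ∃ i, q i = z ∧ q (i + 1) = z + dir 1 := by
    intro z hb z1 z2 z3
    obtain ⟨m, hm⟩ : ∃ m : ℕ, (m : ℤ) = c.2 - z.2 := ⟨(c.2 - z.2).toNat, by omega⟩
    have e1 := hl m (by omega)
    have e2 := hl (m - 1) (by omega)
    rw [if_pos hb] at e1 e2
    by_cases hmκ : m ≤ κ
    · rw [show κ - (m - 1) = κ - m + 1 by omega, Nat.cast_add _ 1, Nat.cast_one] at e2
      refine ⟨((κ - m : ℕ) : ZMod n), ?_, ?_⟩
      · rw [e1]
        ext
        · exact z1.symm
        · dsimp only; omega
      · rw [e2]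
        ext
        · simp only [Prod.fst_add, dir]; simp; omega
        · simp only [Prod.snd_add, dir]; simp; omega
    · exfalso
      rw [show κ - m = 0 by omega] at e1
      rw [show κ - (m - 1) = 0 by omega, e1] at e2
      have := congrArg Prod.snd e2
      dsimp only at this
      omega
  have hc0 : c ∈ D := by
    obtain ⟨i, h1, h2⟩ := exR c rfl (fun _ => le_rfl) (by omega) (by omega)
    have h3 := (hD c 0).1 ⟨i, h1, h2⟩
    have h4 : face c 0 = c := by
      unfold face
      ext <;> simp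
    rw [h4] at h3
    exact h3.1
  intro v hv
  have hcB : c ∈ Bq c R := by
    rw [lkBq] at hv ⊢
    omega
  have key := box_conn (c := c) (R := R)
    (P := fun v => (v ∈ D ↔ (c.2 ≤ v.2 ∨ (b = true ∧ v.1 < c.1))))
    (fun v k1 k2 => ?_) (fun v k1 k2 => ?_) hcB hv
  · exact key.1 ⟨fun _ => Or.inl le_rfl, fun _ => hc0⟩
  · -- a vertical side
    rw [lkBq] at k1 k2
    simp only [Prod.fst_add, Prod.snd_add] at k1 k2
    have a1 := hD (v + (1, 0)) 1
    have a2 := hD (v + (1, 1)) 3
    have e1 : face (v + (1, 0)) 1 = v := by unfold face; ext <;> simp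
    have e2 : face (v + (1, 0)) (1 - 1) = v + (1, 0) := by unfold face; ext <;> simp
    have e3 : face (v + (1, 1)) 3 = v + (1, 0) := by unfold face; ext <;> simp
    have e4 : face (v + (1, 1)) (3 - 1) = v := by unfold face; ext <;> simp
    rw [e1, e2] at a1
    rw [e3, e4] at a2
    have b2 : ¬ (v + (1, 0) ∈ D ∧ v ∉ D) := by
      intro h
      obtain ⟨i, h1, h2⟩ := a2.2 h
      have h3 := step i (by
        rw [h1, nmle]
        simp only [Prod.fst_sub, Prod.snd_sub, Prod.fst_add, Prod.snd_add]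
        omega)
      rw [h2, h1] at h3
      rcases h3 with ⟨h3, -, -⟩ | ⟨-, h3, -, -⟩
      · have := congrArg Prod.fst h3
        simp [dir] at this
      · have := congrArg Prod.snd h3
        simp [dir] at this
        omega
    have b1 : (v ∈ D ∧ v + (1, 0) ∉ D) ↔ (b = true ∧ v.1 + 1 = c.1 ∧ v.2 < c.2) := by
      constructor
      · intro h
        obtain ⟨i, h1, h2⟩ := a1.2 h
        have h3 := step i (by
          rw [h1, nmle]
          simp only [Prod.fst_sub, Prod.snd_sub, Prod.fst_add, Prod.snd_add]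
          omega)
        rw [h2, h1] at h3
        rcases h3 with ⟨h3, -, -⟩ | ⟨hb, -, h4, h5⟩
        · have := congrArg Prod.fst h3
          simp [dir] at this
        · simp only [Prod.fst_add, Prod.snd_add] at h4 h5
          exact ⟨hb, h4, by omega⟩
      · rintro ⟨hb, h4, h5⟩
        exact a1.1 (exL _ hb (by simp only [Prod.fst_add]; omega)
          (by simp only [Prod.snd_add]; omega) (by simp only [Prod.snd_add]; omega))
    show (v ∈ D ↔ (c.2 ≤ v.2 ∨ (b = true ∧ v.1 < c.1))) ↔
      (v + (1, 0) ∈ D ↔ (c.2 ≤ (v + (1, 0)).2 ∨ (b = true ∧ (v + (1, 0)).1 < c.1)))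
    simp only [Prod.fst_add, Prod.snd_add, add_zero]
    by_cases hb : b = true
    · subst hb
      simp only [true_and] at b1 ⊢
      by_cases h1 : v ∈ D <;> by_cases h2 : v + (1, 0) ∈ D
      · simp only [h1, h2, true_and, not_true_eq_false, false_iff, true_iff] at b1 ⊢
        omega
      · simp only [h1, h2, true_and, not_false_eq_true, true_iff, false_iff] at b1 ⊢
        omega
      · exact absurd ⟨h2, h1⟩ b2
      · simp only [h1, h2, false_and, false_iff] at b1 ⊢
        omega
    · obtain rfl : b = false := by simpa using hb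
      simp only [Bool.false_eq_true, false_and, or_false, iff_false] at b1 ⊢
      have h5 : v ∈ D ↔ v + (1, 0) ∈ D := by tauto
      rw [h5]
  · -- a horizontal side
    rw [lkBq] at k1 k2
    simp only [Prod.fst_add, Prod.snd_add] at k1 k2
    have a1 := hD (v + (0, 1)) 0
    have a2 := hD (v + (1, 1)) 2
    have e1 : face (v + (0, 1)) 0 = v + (0, 1) := by unfold face; ext <;> simp
    have e2 : face (v + (0, 1)) (0 - 1) = v := by unfold face; ext <;> simp
    have e3 : face (v + (1, 1)) 2 = v := by unfold face; ext <;> simp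
    have e4 : face (v + (1, 1)) (2 - 1) = v + (0, 1) := by unfold face; ext <;> simp
    rw [e1, e2] at a1
    rw [e3, e4] at a2
    have b2 : ¬ (v ∈ D ∧ v + (0, 1) ∉ D) := by
      intro h
      obtain ⟨i, h1, h2⟩ := a2.2 h
      have h3 := step i (by
        rw [h1, nmle]
        simp only [Prod.fst_sub, Prod.snd_sub, Prod.fst_add, Prod.snd_add]
        omega)
      rw [h2, h1] at h3
      rcases h3 with ⟨h3, -, -⟩ | ⟨-, h3, -, -⟩
      · have := congrArg Prod.fst h3
        simp [dir] at this
        omega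
      · have := congrArg Prod.snd h3
        simp [dir] at this
    have b1 : (v + (0, 1) ∈ D ∧ v ∉ D) ↔ (v.2 + 1 = c.2 ∧ (b = true → c.1 ≤ v.1)) := by
      constructor
      · intro h
        obtain ⟨i, h1, h2⟩ := a1.2 h
        have h3 := step i (by
          rw [h1, nmle]
          simp only [Prod.fst_sub, Prod.snd_sub, Prod.fst_add, Prod.snd_add]
          omega)
        rw [h2, h1] at h3
        rcases h3 with ⟨-, h4, h5⟩ | ⟨-, h3, -, -⟩
        · simp only [Prod.fst_add, Prod.snd_add, add_zero] at h4 h5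
          exact ⟨h4, h5⟩
        · have := congrArg Prod.snd h3
          simp [dir] at this
      · rintro ⟨h4, h5⟩
        refine a1.1 (exR _ (by simp only [Prod.snd_add]; omega) (fun h => ?_) ?_ ?_)
        · have := h5 h
          simp only [Prod.fst_add]; omega
        · simp only [Prod.fst_add]; omega
        · simp only [Prod.fst_add]; omega
    show (v ∈ D ↔ (c.2 ≤ v.2 ∨ (b = true ∧ v.1 < c.1))) ↔
      (v + (0, 1) ∈ D ↔ (c.2 ≤ (v + (0, 1)).2 ∨ (b = true ∧ (v + (0, 1)).1 < c.1)))
    simp only [Prod.fst_add, Prod.snd_add, add_zero]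
    by_cases hb : b = true
    · subst hb
      simp only [true_and, true_imp_iff] at b1 ⊢
      by_cases h1 : v ∈ D <;> by_cases h2 : v + (0, 1) ∈ D
      · simp only [h1, h2, not_true_eq_false, and_false, false_iff, true_iff] at b1 ⊢
        omega
      · exact absurd ⟨h1, h2⟩ b2
      · simp only [h1, h2, not_false_eq_true, true_and, true_iff, false_iff] at b1 ⊢
        omega
      · simp only [h1, h2, false_and, false_iff] at b1 ⊢
        omega
    · obtain rfl : b = false := by simpa using hb
      simp only [Bool.false_eq_true, false_and, or_false, false_imp_iff, and_true] at b1 ⊢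
      by_cases h1 : v ∈ D <;> by_cases h2 : v + (0, 1) ∈ D
      · simp only [h1, h2, not_true_eq_false, and_false, false_iff, true_iff] at b1 ⊢
        omega
      · exact absurd ⟨h1, h2⟩ b2
      · simp only [h1, h2, not_false_eq_true, true_and, true_iff, false_iff] at b1 ⊢
        omega
      · simp only [h1, h2, false_and, false_iff] at b1 ⊢
        omega

/-- **Windows of polygons**: straight legs, the turn is `0` (flat) or `-1` (reflex). -/
structure SW (n₀ : ℕ) (b : Bool) (q : ZMod n → ℤ × ℤ) (D : Finset (ℤ × ℤ)) (τ : ℕ → ℤ)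
    (κ d : ℕ) : Prop where
  geo : GeoP n₀ n q
  poly : IsPolygon q
  enc : Encloses q D
  step : ∀ j : ℕ, q ((j + 1 : ℕ) : ZMod n) = q (j : ZMod n) + Top.vec (τ j)
  str : Str τ κ d
  le : d ≤ κ
  lt : κ + d ≤ n
  turn : τ κ - τ (κ - 1) = if b = true then -1 else 0

/-- The canonical window in the direction `0`. -/
theorem SW.jn (h : SW n₀ b q D τ κ d) (h0 : Top.vec (τ κ) = (1, 0)) (hR1 : 0 ≤ R)
    (hRd : 2 * (R + 1) < d) (h3 : 3 * (R + 1) < n₀) : JN b q D κ R := by
  have hle := h.le
  have hlt := h.lt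
  have hr : ∀ i : ℕ, i ≤ d → q ((κ + i : ℕ) : ZMod n) =
      ((q (κ : ZMod n)).1 + i, (q (κ : ZMod n)).2) := by
    intro i hi
    rw [str_R h.step i fun j a c => h.str.1 j a (by omega), h0]
    ext
    · simp
    · simp
  have hl : ∀ i : ℕ, i ≤ d → q ((κ - i : ℕ) : ZMod n) =
      if b = true then ((q (κ : ZMod n)).1, (q (κ : ZMod n)).2 - i)
        else ((q (κ : ZMod n)).1 - i, (q (κ : ZMod n)).2) := by
    intro i hi
    rw [str_L h.step i (by omega) fun j a c => h.str.2 j (by omega) c]
    have ht := h.turn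
    split_ifs with hb
    · rw [if_pos hb] at ht
      have e : Top.vec (τ (κ - 1)) = (0, 1) := by
        have e1 : τ κ % 4 = 0 := by
          have h5 := congrArg Prod.fst h0
          unfold Top.vec Top.dx at h5
          dsimp only at h5
          split_ifs at h5 with h6 h7
          · exact h6
          · exact absurd h5 (by norm_num)
        rw [show (0, 1) = Top.vec 1 from rfl]
        refine Top.vec_congr ?_
        omega
      rw [e]
      ext
      · simp
      · simp
    · rw [if_neg hb] at ht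
      rw [show τ (κ - 1) = τ κ by omega, h0]
      ext
      · simp
      · simp
  -- the norm on the legs
  have hnm : ∀ z : ℕ, |(z : ℤ) - κ| ≤ d → nm (q (z : ZMod n) - q (κ : ZMod n)) = |(z : ℤ) - κ| := by
    intro z hz
    rcases le_total κ z with h1 | h1
    · obtain ⟨i, rfl⟩ := Nat.exists_eq_add_of_le h1
      have h2 : |((κ + i : ℕ) : ℤ) - κ| = i := by
        push_cast
        rw [add_sub_cancel_left, Nat.abs_cast]
      rw [h2] at hz ⊢
      rw [hr i (by omega)]
      have e : (((q (κ : ZMod n)).1 + (i : ℤ), (q (κ : ZMod n)).2) : ℤ × ℤ) - q (κ : ZMod n) =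
          ((i : ℤ), 0) := by ext <;> simp
      rw [e, nm_h, Nat.abs_cast]
    · obtain ⟨i, rfl⟩ : ∃ i, z = κ - i := ⟨κ - z, by omega⟩
      have hi : i ≤ κ ∨ κ < i := le_or_gt _ _
      rcases hi with hi | hi
      · have h2 : |((κ - i : ℕ) : ℤ) - κ| = i := by
          rw [Nat.cast_sub hi, sub_sub_cancel_left, abs_neg, Nat.abs_cast]
        rw [h2] at hz ⊢
        rw [hl i (by omega)]
        split_ifs with hb
        · have e : (((q (κ : ZMod n)).1, (q (κ : ZMod n)).2 - (i : ℤ)) : ℤ × ℤ) -
              q (κ : ZMod n) = (0, -(i : ℤ)) := by ext <;> simp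
          rw [e, nm_v, abs_neg, Nat.abs_cast]
        · have e : (((q (κ : ZMod n)).1 - (i : ℤ), (q (κ : ZMod n)).2) : ℤ × ℤ) -
              q (κ : ZMod n) = (-(i : ℤ), 0) := by ext <;> simp
          rw [e, nm_h, abs_neg, Nat.abs_cast]
      · rw [show κ - i = κ - κ by omega]
        have h2 : |((κ - κ : ℕ) : ℤ) - κ| = κ := by
          rw [Nat.sub_self, Nat.cast_zero, zero_sub, abs_neg, Nat.abs_cast]
        have h3 : κ ≤ d := by
          rw [show κ - i = κ - κ by omega, h2] at hz
          omega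
        rw [h2, hl κ h3]
        split_ifs with hb
        · have e : (((q (κ : ZMod n)).1, (q (κ : ZMod n)).2 - (κ : ℤ)) : ℤ × ℤ) -
              q (κ : ZMod n) = (0, -(κ : ℤ)) := by ext <;> simp
          rw [e, nm_v, abs_neg, Nat.abs_cast]
        · have e : (((q (κ : ZMod n)).1 - (κ : ℤ), (q (κ : ZMod n)).2) : ℤ × ℤ) -
              q (κ : ZMod n) = (-(κ : ℤ), 0) := by ext <;> simp
          rw [e, nm_h, abs_neg, Nat.abs_cast]
  -- near sites have near indices
  have hnr : ∀ z : ℕ, z ≤ n → ∀ a : ℤ, 0 ≤ a → a ≤ R + 1 →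
      nm (q (z : ZMod n) - q (κ : ZMod n)) ≤ a → |(z : ℤ) - κ| ≤ a := by
    intro z hz a ha0 ha hza
    rcases h.geo.near hz (by omega) (d := a) (by omega) hza with h4 | h4
    · rw [hnm z (by omega)] at hza
      exact hza
    · exfalso
      rcases abs_cases ((z : ℤ) - κ) with ⟨e1, e2⟩ | ⟨e1, e2⟩ <;> rw [e1] at h4 <;> omega
  refine ⟨by omega, by omega, fun i hi => hr i (by omega), fun i hi => hl i (by omega), ?_,
    fun z hz h4 => ?_⟩
  · have hn : NeZero n := ⟨by have := h.poly.1; omega⟩
    refine jn_dom (d := d) h.enc hR1 (by omega) hr hl fun i hi => ?_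
    have e : ((i.val : ℕ) : ZMod n) = i := ZMod.natCast_zmod_val i
    have hlt' := ZMod.val_lt i
    rw [← e] at hi
    have h4 := hnr i.val hlt'.le (R + 1) (by omega) le_rfl hi
    rw [abs_le] at h4
    rcases le_or_gt κ i.val with h5 | h5
    · left
      exact ⟨i.val - κ, by omega, by rw [show κ + (i.val - κ) = i.val by omega, e]⟩
    · right
      exact ⟨κ - i.val, by omega, by omega, by omega,
        by rw [show κ - (κ - i.val) = i.val by omega, e]⟩
  · by_contra hcon
    push Not at hcon
    have := hnr z hz R hR1 (by omega) hcon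
    omega

/-- The tubes are in the domain, next to the centre, and do not meet small boxes around the sites of
the right part of the boundary. -/
theorem JN.tubs (h : JN b q D κ R) {ρ L : ℕ} (hρ : ρ ≤ 2 * L) (hL : 0 < L)
    (hR : 4 * (L : ℤ) + 1 ≤ R) (hv : v ∈ tub b (q (κ : ZMod n)) ρ (ρ / 2) ∨
      v ∈ tub2 (q (κ : ZMod n)) ρ L) :
    v ∈ D ∧ v ∈ Bq (q (κ : ZMod n)) (4 * L) ∧
      ∀ m e : ℕ, ρ + e ≤ m → m + e ≤ 2 * L → v ∉ Bq (q ((κ + m : ℕ) : ZMod n)) e := by
  have key : v ∈ D ∧ v ∈ Bq (q (κ : ZMod n)) (4 * L) := by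
    rcases hv with hv | hv
    · have h1 := mem_tub hv
      refine ⟨(h.dom v ?_).2 ?_, ?_⟩
      · rw [mBq]
        omega
      · rcases h1.2.1 with h2 | h2
        · exact Or.inl h2
        · rcases h1.1 with h3 | h3
          · exact Or.inr ⟨h3, h2⟩
          · exact Or.inl h3
      · rw [mBq]
        omega
    · have h1 := mem_tub2 hρ hL hv
      refine ⟨(h.dom v ?_).2 (Or.inl h1.1), ?_⟩
      · rw [mBq]
        omega
      · rw [mBq]
        omega
  refine ⟨key.1, key.2, fun m e h1 h2 h3 => ?_⟩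
  rw [h.right m (by omega), mBq] at h3
  dsimp only at h3
  rcases hv with hv | hv
  · have h4 := mem_tub hv
    omega
  · have h4 := mem_tub2 hρ hL hv
    omega

end Vale.Agent.P167.N.QL
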