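import Vale.Agent.P167.N.QL.LkZ
import Vale.Agent.P167.N.QL.K3

/-!
# P167, the range `0 < q < 1`, block Q-LAM (LK): the comparison of the arms

`armI`: the indicator that `z` is joined by its colour to the outside of the box. `lkA`: the comparison
of the probabilities of the arms at corresponding sites near two indices with the same local geometry,
also between a base and an interior index.
-/

set_option autoImplicit false

namespace Vale.Agent.P167.N.QL

open Finset Relation Vale.Agent.P167 Vale.Agent.P167.BR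
open Vale.Agent.P145.FB (PStep)
open Vale.Agent.P167.E6 (IsPolygon Encloses dir face)
open Vale.Agent.P167.FK (Bq Good Ex RSW)
open Vale.Agent.P167.FKA (Loc)
open Vale.Agent.P167.H192.Q (SRSW)
open Vale.Agent.P167.H192.TA (Pw)
open Vale.Agent.P167.H632 (cs pr)
open Vale.Agent.P167.H718 (Dob)
open Vale.Agent.P167.H760 (Tr Co)
open Vale.Agent.P167.H871 (Bd vec_fin IsC)
open Vale.Agent.P167.N.H167.Q (Bd3 Reg)

variable {N k N' k' : ℕ} {q : ZMod N → ℤ × ℤ} {q' : ZMod N' → ℤ × ℤ} {D D' B : Finset (ℤ × ℤ)}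
  {ω ω' η η' η₀ η₀' : Cfg} {θ β Q : ℝ} {τ τ' : ℕ → ℤ} {z z' u v : ℤ × ℤ} {c : Bool}
  {r R m m' : ℤ} {J J' j j' d n n' L L' : ℕ} {T : Tr} {s : Fin 4}

/-- The steps by corners. -/
theorem pstep_iff {F : Set (ℤ × ℤ)} : PStep F u v ↔
    ∃ w ∈ F, Co w u ∧ Co w v ∧ u ≠ v ∧ (Even (u.1 + u.2) ↔ Even (v.1 + v.2)) := by
  unfold PStep
  constructor
  · rintro ⟨h1, h2, h3⟩
    refine ⟨_, h3, ?_, ?_, ?_, ?_⟩
    · unfold Co
      dsimp only
      omega
    · unfold Co
      dsimp only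
      omega
    · rintro rfl
      omega
    · rw [Int.even_iff, Int.even_iff]
      omega
  · rintro ⟨w, hw, ⟨h1, h2⟩, ⟨h3, h4⟩, h5, h6⟩
    rw [Int.even_iff, Int.even_iff] at h6
    have h7 : ¬ (u.1 = v.1 ∧ u.2 = v.2) := fun h => h5 (Prod.ext h.1 h.2)
    refine ⟨by omega, by omega, ?_⟩
    have h8 : (min u.1 v.1, min u.2 v.2) = w := by
      refine Prod.ext ?_ ?_
      · show min u.1 v.1 = w.1
        omega
      · show min u.2 v.2 = w.2
        omega
    rwa [h8]

theorem pstep_T (ho : T.o = false) {F F' : Set (ℤ × ℤ)} (hF : ∀ w, w ∈ F → T.Q w ∈ F')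
    (h : PStep F u v) : PStep F' (T.S u) (T.S v) := by
  rw [pstep_iff] at h ⊢
  obtain ⟨w, hw, h1, h2, h3, h4⟩ := h
  refine ⟨T.Q w, hF w hw, (T.co _ _).2 h1, (T.co _ _).2 h2, fun h => h3 (T.S.injective h), ?_⟩
  rw [par_T ho, par_T ho]
  exact h4

theorem pw_T (ho : T.o = false) {F F' : Set (ℤ × ℤ)} (hF : ∀ w, w ∈ F → T.Q w ∈ F')
    (h : Pw F u v) : Pw F' (T.S u) (T.S v) := by
  induction h with
  | refl => exact ReflTransGen.refl
  | tail _ h ih => exact ih.tail (pstep_T ho hF h)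

open Classical in
/-- The indicator of the arm. -/
noncomputable def armI (c : Bool) (D B : Finset (ℤ × ℤ)) (z : ℤ × ℤ) (ω : Cfg) : ℝ :=
  if NoArm c D B z ω then 0 else 1

theorem armI_nonneg : 0 ≤ armI c D B z ω := by
  unfold armI
  split_ifs <;> norm_num

theorem noArm_congr (h : ∀ v ∈ D ∩ B, ω v = ω' v) (hN : NoArm c D B z ω) : NoArm c D B z ω' := by
  intro s v hs hv
  refine hN s v (H192.TA.Pw.mono ?_ hs) hv
  rintro w ⟨h1, h2⟩
  refine ⟨?_, h2⟩
  have h3 := h w (mem_coe.1 h2)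
  change ω' w = c at h1
  show ω w = c
  rw [h3]
  exact h1

theorem armI_loc (c : Bool) (D B : Finset (ℤ × ℤ)) (z : ℤ × ℤ) : Loc (B ∩ D) (armI c D B z) := by
  classical
  intro ω ω' h
  unfold armI
  have e : NoArm c D B z ω ↔ NoArm c D B z ω' :=
    ⟨noArm_congr fun v hv => h v (by rw [inter_comm]; exact hv),
      noArm_congr fun v hv => (h v (by rw [inter_comm]; exact hv)).symm⟩
  exact if_congr e rfl rfl

theorem armI_locD (c : Bool) (D B : Finset (ℤ × ℤ)) (z : ℤ × ℤ) : Loc D (armI c D B z) :=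
  fun ω ω' h => armI_loc c D B z ω ω' fun v hv => h v (mem_inter.1 hv).2

/-- **Transport of the arms.** -/
theorem armI_T {p p' : ℤ × ℤ} (hW : SameW T D η p D' η' p' R) (hr : r ≤ R) (ω : Cfg) :
    armI c D' (Bq p' r) (T.S z) (T.C ω) = armI c D (Bq p r) z ω := by
  classical
  obtain rfl := hW.cen
  have ho := hW.o
  have hC : ∀ w, T.C ω (T.Q w) = ω w := fun w => by
    rw [T.C_apply, ho]
    rfl
  have e : NoArm c D' (Bq (T.S p) r) (T.S z) (T.C ω) ↔ NoArm c D (Bq p r) z ω := by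
    constructor
    · intro h s v hs hv
      have h1 := h (T.S s) (T.Q v) (pw_T ho (fun w hw => ?_) hs) ((T.co v s).2 hv)
      · exact (bq_T T).1 h1
      · obtain ⟨h2, h3⟩ := hw
        rw [mem_coe, mem_inter] at h3
        refine ⟨?_, ?_⟩
        · show T.C ω (T.Q w) = c
          rw [hC]
          exact h2
        · rw [mem_coe, mem_inter]
          exact ⟨(hW.dom w (bq_sub hr h3.2)).1 h3.1, (bq_T T).2 h3.2⟩
    · intro h s v hs hv
      obtain ⟨v, rfl⟩ := T.Q.surjective v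
      obtain ⟨s, rfl⟩ := T.S.surjective s
      have key : ∀ y, Pw (cs c (T.C ω) ∩ ↑(D' ∩ Bq (T.S p) r)) (T.S z) y →
          ∃ x, T.S x = y ∧ Pw (cs c ω ∩ ↑(D ∩ Bq p r)) z x := by
        intro y hy
        induction hy with
        | refl => exact ⟨z, rfl, ReflTransGen.refl⟩
        | @tail b e _ h2 ih =>
          obtain ⟨x, rfl, h3⟩ := ih
          obtain ⟨e, rfl⟩ := T.S.surjective e
          refine ⟨e, rfl, h3.tail ?_⟩
          rw [pstep_iff] at h2 ⊢
          obtain ⟨w, hw, h4, h5, h6, h7⟩ := h2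
          obtain ⟨w, rfl⟩ := T.Q.surjective w
          obtain ⟨h8, h9⟩ := hw
          rw [mem_coe, mem_inter] at h9
          have h10 := (bq_T T).1 h9.2
          rw [par_T ho, par_T ho] at h7
          refine ⟨w, ⟨?_, ?_⟩, (T.co _ _).1 h4, (T.co _ _).1 h5, fun h => h6 (by rw [h]), h7⟩
          · show ω w = c
            rw [← hC]
            exact h8
          · rw [mem_coe, mem_inter]
            exact ⟨(hW.dom w (bq_sub hr h10)).2 h9.1, h10⟩
      obtain ⟨x, hx, h1⟩ := key _ hs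
      obtain rfl := T.S.injective hx
      exact (bq_T T).2 (h x v h1 ((T.co v x).1 hv))
  unfold armI
  exact if_congr e rfl rfl

/-- **[LK] for the arms**, also between a base and an interior index: the arms from the sites with the
indices `t`, `t'` (at the same distance from the centres of the windows). -/
theorem lkA (hQ : Kit Q) (hR : RSW Q) (hS : SRSW Q) : ∃ K : ℝ, 1 ≤ K ∧
    ∀ {N k N' k' : ℕ} {q : ZMod N → ℤ × ℤ} {q' : ZMod N' → ℤ × ℤ} {D D' : Finset (ℤ × ℤ)}
      {η₀ η₀' : Cfg} {τ τ' : ℕ → ℤ} {r R m m' : ℤ} {j j' d n n' L L' : ℕ},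
      LkD n N q D k τ L m η₀ → LkD n' N' q' D' k' τ' L' m' η₀' →
      SameI d N k q τ j N' k' q' τ' j' → FarI N k L j → FarI N' k' L' j' →
      3 * (R + 1) < n → 3 * (R + 1) < n' → 2 * (R + 1) ≤ d → R ≤ m → R ≤ m' → 1 ≤ r → K * r ≤ R →
      ∀ {t t' : ℕ}, jB N j ≤ t + d → t ≤ jB N j + d → t' + jB N j = t + jB N' j' →
      ∀ {c : Bool} {η η' : Cfg}, Dob η D q k → Dob η' D' q' k' →
      Ex Q D η (armI c D (Bq (q (j : ZMod N)) r) (q (t : ZMod N))) ≤
          2 * Ex Q D' η' (armI c D' (Bq (q' (j' : ZMod N')) r) (q' (t' : ZMod N'))) ∧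
        Ex Q D' η' (armI c D' (Bq (q' (j' : ZMod N')) r) (q' (t' : ZMod N'))) ≤
          2 * Ex Q D η (armI c D (Bq (q (j : ZMod N)) r) (q (t : ZMod N))) := by
  obtain ⟨K, hK, key⟩ := lkF hQ hR hS
  refine ⟨K, hK, ?_⟩
  intro N k N' k' q q' D D' η₀ η₀' τ τ' r R m m' j j' d n n' L L' h h' hI hF hF' h3
    h3' hRd hm hm' hr hrR t t' ht1 ht2 htt c η η' hη hη'
  have hr' : (1 : ℝ) ≤ r := by exact_mod_cast hr
  have hr1 : r ≤ R := by
    have : (r : ℝ) ≤ R := by nlinarith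
    exact_mod_cast this
  have hR1 : 1 ≤ R := by omega
  obtain ⟨s, hT, hW, hw⟩ := sameW_of h h' hI hF hF' hR1 h3 h3' hRd hm hm'
  have hB := h.reg.bd (q (j : ZMod N)) (H718.q_mem_sites h.poly h.enc _) R hR1 hm
  have hS : (mvT (q (j : ZMod N)) (q' (j' : ZMod N')) s).S (q (t : ZMod N)) = q' (t' : ZMod N') := by
    have h1 := hw (t + d - jB N j) (by omega)
    have h2 := hI.le
    have h2' := hI.le'
    rw [show jB N' j' - d + (t + d - jB N j) = t' by omega,
      show jB N j - d + (t + d - jB N j) = t by omega] at h1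
    rw [← h1]
    unfold pq
    rw [Equiv.apply_symm_apply]
  rw [H167.Q.ex_dobE h.poly h.enc h.kle hη h.dob hQ.pos (armI_locD _ _ _ _),
    H167.Q.ex_dobE h'.poly h'.enc h'.kle hη' h'.dob hQ.pos (armI_locD _ _ _ _)]
  refine key hW h.reg.good h'.reg.good hB hr hrR (fun ω => armI_nonneg)
    (armI_loc _ _ _ _) fun ω => ?_
  rw [← hS]
  exact armI_T hW hr1 ω

/-- The indicator of `NS` is the indicator of the arm. -/
theorem ns_armI {κ t : ℕ} (hq : IsPolygon q) (hD : Encloses q D) (hW : Wn q κ R) (hr0 : 0 ≤ r)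
    (hrR : r + 1 ≤ R) (ht : t < N) (hp : ((q (t : ZMod N)).1 + (q (t : ZMod N)).2) % 2 = pr c)
    (ω : Cfg) : (NS q D κ t r).indicator (1 : Cfg → ℝ) ω =
      armI c D (Bq (q (κ : ZMod N)) r) (q (t : ZMod N)) ω := by
  classical
  have h := ns_iff (ω := ω) hq hD hW hr0 hrR ht hp
  unfold armI
  by_cases h1 : ω ∈ NS q D κ t r
  · rw [Set.indicator_of_mem h1, if_neg (h.1 h1)]
    rfl
  · rw [Set.indicator_of_notMem h1, if_pos (not_not.1 fun h2 => h1 (h.2 h2))]

end Vale.Agent.P167.N.QL
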