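import Vale.Agent.P167.N.QL.LkW
import Vale.Agent.P167.N.QL.In

/-!
# P167, the range `0 < q < 1`, block Q-LAM (LK): killed bases and killed flat sites

`lk_base_of`: the killed bases of free and wired polygons compared with a killed flat site.
-/

set_option autoImplicit false

namespace Vale.Agent.P167.N.QL

open Finset Relation Vale.Agent.P167 Vale.Agent.P167.BR
open Vale.Agent.P167.E6 (IsPolygon Encloses dir face)
open Vale.Agent.P167.FK (Bq Good Ex RSW)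
open Vale.Agent.P167.FKA (Loc Ex_mono Ex_mul_left)
open Vale.Agent.P167.H192.Q (SRSW)
open Vale.Agent.P167.H192.TA (Pw)
open Vale.Agent.P167.H632 (cs pr)
open Vale.Agent.P167.H718 (Dob)
open Vale.Agent.P167.H871 (Bd vec_fin IsC)
open Vale.Agent.P167.N.H167.Q (Bd3 Reg)
open Vale.Agent.P167.H975 (TX TX_locD lkBq ccol ccol_col)
open Vale.Agent.P167.N.AW (Kil ExtI)

variable {N k N' k' d n n' L L' j j' : ℕ} {q : ZMod N → ℤ × ℤ} {q' : ZMod N' → ℤ × ℤ}
  {D D' B B' : Finset (ℤ × ℤ)} {ω η η' : Cfg} {θ β Q : ℝ} {τ τ' : ℕ → ℤ} {ρ : ℕ → ℝ}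
  {R r m m' : ℤ} {c : Bool} {z : ℤ × ℤ}

/-- The arm to a larger box. -/
theorem noArm_mono (hB : B ⊆ B') (h : NoArm c D B z ω) : NoArm c D B' z ω := by
  have key : ∀ s, Pw (cs c ω ∩ ↑(D ∩ B')) z s → Pw (cs c ω ∩ ↑(D ∩ B)) z s := by
    intro s hs
    induction hs with
    | refl => exact ReflTransGen.refl
    | @tail b e _ h2 ih =>
      refine ih.tail ?_
      rw [pstep_iff] at h2 ⊢
      obtain ⟨w, ⟨h3, h4⟩, h5, h6, h7, h8⟩ := h2
      rw [mem_coe, mem_inter] at h4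
      refine ⟨w, ⟨h3, ?_⟩, h5, h6, h7, h8⟩
      rw [mem_coe, mem_inter]
      exact ⟨h4.1, h b w ih ⟨h5.1, h5.2⟩⟩
  intro s v hs hv
  exact hB (h s v (key s hs) hv)

theorem armI_anti (hB : B ⊆ B') : armI c D B' z ω ≤ armI c D B z ω := by
  unfold armI
  split_ifs with h1 h2 h2
  · exact le_rfl
  · norm_num
  · exact absurd (noArm_mono hB h2) h1
  · exact le_rfl

/-- The statement of `kc_flat`. -/
def KcFlat (θ : ℝ) : Prop := ∃ (b B : ℝ) (Λ W : ℤ) (KE : ℕ → ℤ)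
    (CE : ℕ → ℝ), Kc b B Λ W CE ∧ ∀ {N k n d L j : ℕ} {q : ZMod N → ℤ × ℤ} {D : Finset (ℤ × ℤ)}
      {τ : ℕ → ℤ} {m r : ℤ} {η : Cfg} {ρ : ℕ → ℝ} {β : ℝ}, LkD n N q D k τ L m η →
      Real.cos (θ / 2 + β) = Real.sin θ →
      WinI d N τ j 0 → 0 < j → j + d < N → FarI N k L j → (j + d < k ∨ k + d ≤ j) →
      (Even ((q (j : ZMod N)).1 + (q (j : ZMod N)).2) ↔ k ≤ j) →
      (∀ i, j < i + d → i ≤ j + d → 0 < i → ρ i - ρ (i - 1) = if i = j then θ else 0) →
      W * r ≤ n → W * r ≤ d → W * r ≤ m → 1 ≤ r →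
      KC θ β q D k ρ η b B Λ KE CE (q (j : ZMod N)) r

/-- Windows of one colour, the centres are `0` and `j' - 1`. -/
theorem sameW_base (h : LkD n N q D k τ L m η) (h' : LkD n' N' q' D' k' τ' L' m' η')
    (hw : WinI d N τ 0 0) (hdN : 2 * d < N) (hk : k = 0 ∨ k = N)
    (hp : Even ((q 0).1 + (q 0).2) ↔ k ≠ 0)
    (hw' : WinI d N' τ' j' 0) (h0 : 0 < j') (hN' : j' + d < N') (hF' : FarI N' k' L' j')
    (hk' : j' + d < k' ∨ k' + d ≤ j') (hkk : k = 0 ↔ k' ≤ j')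
    (hp' : Even ((q' (j' : ZMod N')).1 + (q' (j' : ZMod N')).2) ↔ k' ≤ j')
    (hR1 : 2 ≤ R) (h3 : 3 * (R + 1) < n) (h3' : 3 * (R + 1) < n') (hR : 2 * (R + 1) ≤ d)
    (hm : R ≤ m) (hm' : R ≤ m') :
    ∃ T : H760.Tr, SameW T D η (q 0) D' η' (q' ((j' - 1 : ℕ) : ZMod N')) (R - 1) ∧
      T.S (q 1) = q' (j' : ZMod N') := by
  have hstr := hw.str
  have hstr' := hw'.str
  have e0 : jB N 0 = N := rfl
  have e1 : jB N' j' = j' := by
    unfold jB
    rw [if_neg (by omega)]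
  have hdj := hw'.le
  rw [e0] at hstr
  rw [e1] at hstr' hdj
  have ht' := hw'.turn
  rw [e1] at ht'
  have e2 : jB N' (j' - 1) = j' - 1 := by
    unfold jB
    rw [if_neg (by omega)]
  -- all directions agree
  have hall : ∀ i, j' ≤ i + d → i ≤ j' + d → τ' i = τ' (j' - 1) := by
    intro i a b
    rcases Nat.lt_or_ge i j' with h5 | h5
    · exact hstr'.2 i a h5
    · rw [hstr'.1 i h5 b]
      omega
  have hpar' : Even ((q' ((j' - 1 : ℕ) : ZMod N')).1 + (q' ((j' - 1 : ℕ) : ZMod N')).2) ↔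
      ¬ k' ≤ j' := by
    have h5 := H685.LD.par_step h'.poly h'.enc ((j' - 1 : ℕ) : ZMod N')
    have e3 : ((j' - 1 : ℕ) : ZMod N') + 1 = (j' : ZMod N') := by
      have h9 : j' - 1 + 1 = j' := by omega
      conv_rhs => rw [← h9]
      rw [Nat.cast_add, Nat.cast_one]
    rw [e3] at h5
    rw [← hp', h5, not_not]
  have hF : FarI N k L 0 := Or.inl (by omega)
  have hI : SameI (d - 1) N k q τ 0 N' k' q' τ' (j' - 1) := by
    refine ⟨by omega, by omega, ?_, ?_, ?_, ?_, ?_, ?_, ?_⟩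
    · rw [e0]
      exact hstr.mono (by omega)
    · rw [e2]
      refine ⟨fun i a b => hall i (by omega) (by omega), fun i a b => ?_⟩
      rw [hall i (by omega) (by omega), hall (j' - 1 - 1) (by omega) (by omega)]
    · rw [e0]; omega
    · rw [e2]; omega
    · rw [e0, e2]
      have h5 := hw.turn
      rw [e0] at h5
      rw [h5, hall (j' - 1 - 1) (by omega) (by omega), sub_self]
    · rw [Nat.cast_zero, hp, hpar', ← hkk]
    · rcases cty_cases N k 0 with ⟨a1, a2, -, -⟩ | ⟨a1, a2, -, -⟩ | ⟨-, a3⟩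
      · omega
      · omega
      · rcases cty_cases N' k' (j' - 1) with ⟨b1, b2, b3, -⟩ | ⟨b1, b2, b3, -⟩ | ⟨-, b3⟩
        · omega
        · omega
        · rw [a3, b3]
          have h5 : (k ≤ 0) = (k' ≤ j' - 1) := by
            rw [eq_iff_iff]
            omega
          simp only [h5]
  obtain ⟨s, hT, hdom, hwin⟩ := geoW_of (R := R - 1) h h' hI (by omega) (by omega) (by omega)
    (by omega)
  have hcen := mvT_cen (q ((0 : ℕ) : ZMod N)) (q' ((j' - 1 : ℕ) : ZMod N')) s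
  rw [Nat.cast_zero] at hcen hT hdom hwin
  set T := mvT (q 0) (q' ((j' - 1 : ℕ) : ZMod N')) s with hTd
  refine ⟨T, ⟨hT.o, hcen, hdom, fun v hv hvD => ?_⟩, ?_⟩
  · obtain ⟨r₀, rk, a1, a2, a3⟩ := h.col 0 (by omega) hF
    obtain ⟨r₀', rk', b1, b2, b3⟩ := h'.col j' hw'.lt hF'
    rw [Nat.cast_zero] at a3
    have hv' : T.Q v ∈ Bq (q' ((j' - 1 : ℕ) : ZMod N')) (R - 1) := by
      rw [← hcen]
      exact (bq_T T).2 hv
    have hvD' : T.Q v ∉ D' := fun hc => hvD ((hdom v hv).2 hc)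
    have hv'' : T.Q v ∈ Bq (q' (j' : ZMod N')) m' := by
      have h6 := h'.geo.lip (j' - 1) j'
      have h7 : nm (q' ((j' - 1 : ℕ) : ZMod N') - q' (j' : ZMod N')) ≤ 1 := by
        refine h6.trans ?_
        rw [abs_le]
        omega
      unfold nm at h7
      rw [max_le_iff, abs_le, abs_le] at h7
      simp only [Prod.fst_sub, Prod.snd_sub] at h7
      rw [lkBq] at hv' ⊢
      omega
    have c1 : ¬ (0 < k' ∧ k' < N') ∨ (j' ≠ k' ∧ j' ≠ 0) := by omega
    have c2 : ¬ (0 < k ∧ k < N) ∨ (0 ≠ k ∧ 0 ≠ 0) := by omega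
    rw [a3 v (bq_sub (by omega) hv) hvD, b3 _ hv'' hvD', ccol_col c1, ccol_col c2]
    congr 1
    rw [eq_iff_iff]
    omega
  · have h5 := hwin d (by omega)
    rw [e0, e2, show j' - 1 - (d - 1) + d = j' by omega, show N - (d - 1) + d = N + 1 by omega,
      Nat.cast_add, ZMod.natCast_self, zero_add, Nat.cast_one] at h5
    rw [← h5]
    unfold pq
    rw [Equiv.apply_symm_apply]

/-- **The killed bases compared with a killed flat site** (same kind of boundary). -/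
theorem lk_base_of (hkc : KcFlat θ) (h1 : Ang θ) (hR : RSW (2 * Real.cos θ))
    (hS : SRSW (2 * Real.cos θ)) :
    ∃ K C : ℝ, 1 ≤ K ∧ 0 < C ∧ ∀ {N k n d L N' k' n' L' j' : ℕ} {q : ZMod N → ℤ × ℤ}
      {q' : ZMod N' → ℤ × ℤ} {D D' : Finset (ℤ × ℤ)} {τ τ' : ℕ → ℤ} {m m' r R : ℤ}
      {η₀ η₀' η η' : Cfg} {ρ ρ' : ℕ → ℝ} {β : ℝ},
      LkD n N q D k τ L m η₀ → LkD n' N' q' D' k' τ' L' m' η₀' →
      Real.cos (θ / 2 + β) = Real.sin θ → Dob η D q k → Dob η' D' q' k' →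
      -- the base
      WinI d N τ 0 0 → 2 * d < N → (k = 0 ∨ k = N) →
      (((Even ((q 0).1 + (q 0).2) ↔ k = 0) ∧ (∀ i ≤ d, ρ i = ρ 0) ∧
          ∀ i < N, N ≤ i + d → ρ i = ρ 0 - 2 * θ) ∨
        ((Even ((q 0).1 + (q 0).2) ↔ k ≠ 0) ∧ (∀ i, 1 ≤ i → i ≤ d → ρ i = ρ 0 + θ) ∧
          ∀ i < N, N ≤ i + d → ρ i = ρ 0 - θ)) →
      -- the flat site
      WinI d N' τ' j' 0 → 0 < j' → j' + d < N' → FarI N' k' L' j' →
      (j' + d < k' ∨ k' + d ≤ j') → (k = 0 ↔ k' ≤ j') →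
      (Even ((q' (j' : ZMod N')).1 + (q' (j' : ZMod N')).2) ↔ k' ≤ j') →
      (∀ i, j' < i + d → i ≤ j' + d → 0 < i → ρ' i - ρ' (i - 1) = if i = j' then θ else 0) →
      3 * (R + 1) < n → 3 * (R + 1) < n' → 2 * (R + 1) ≤ d → R ≤ m → R ≤ m' → K ≤ r →
      K * r ≤ R →
      Ex (2 * Real.cos θ) D η (TX (wP θ β q D k ρ) D (q 0) r) ≤
        C * Ex (2 * Real.cos θ) D' η' (TX (wP θ β q' D' k' ρ') D' (q' (j' : ZMod N')) r) := by
  have hQ := h1.kit
  have hQ0 := hQ.pos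
  obtain ⟨b, B, Λ, W, KE, CE, hKc, hkc⟩ := hkc
  obtain ⟨K₁, hK₁, HA⟩ := lkA hQ hR hS
  obtain ⟨K₂, hK₂, HF⟩ := lkF hQ hR hS
  have hbp := hKc.bp
  have hB1 := hKc.B1
  have hC1 := hKc.C1 1
  refine ⟨K₁ + K₂ + W + |(KE 1 : ℝ)| + 5, 2 + 4 * (B * CE 1 / b), ?_, ?_, ?_⟩
  · have h5 : (1 : ℝ) ≤ W := by exact_mod_cast hKc.W1
    have h6 := abs_nonneg (KE 1 : ℝ)
    linarith
  · positivity
  intro N k n d L N' k' n' L' j' q q' D D' τ τ' m m' r R η₀ η₀' η η' ρ ρ' β h h' hβ hη hη' hw hdN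
    hk hbase hw' h0 hN' hF' hk' hkk hp' hρ' h3 h3' hRd hm hm' hKr hKR
  have hW1 : (1 : ℝ) ≤ W := by exact_mod_cast hKc.W1
  have hKE := abs_nonneg (KE 1 : ℝ)
  have hr6 : (6 : ℝ) ≤ r := by linarith
  have hr5 : 6 ≤ r := by exact_mod_cast hr6
  have hrR : (r : ℝ) * 5 ≤ R := by nlinarith
  have hrR' : r * 5 ≤ R := by exact_mod_cast hrR
  have hWr : (W : ℝ) * r ≤ R := by nlinarith
  have hWr' : W * r ≤ R := by exact_mod_cast hWr
  have hK1r : K₁ * r ≤ R := by nlinarith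
  have hK2r : K₂ * r ≤ (R - 1 : ℤ) := by
    push_cast
    nlinarith
  have hKE1 : KE 1 ≤ r - 1 := by
    have h5 := le_abs_self (KE 1 : ℝ)
    have : (KE 1 : ℝ) ≤ (r - 1 : ℤ) := by
      push_cast
      linarith
    exact_mod_cast this
  have hc := h1.cos_pos
  have hsn := h1.sin_pos
  have e0 : jB N 0 = N := rfl
  have e1 : jB N' j' = j' := by
    unfold jB
    rw [if_neg (by omega)]
  have hstr := hw.str
  have hstr' := hw'.str
  have hdj := hw'.le
  rw [e0] at hstr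
  rw [e1] at hstr' hdj
  have hcol : decide (k' ≤ j') = decide (k = 0) := by
    by_cases h5 : k = 0
    · rw [decide_eq_true h5, decide_eq_true (hkk.1 h5)]
    · rw [decide_eq_false h5, decide_eq_false fun h6 => h5 (hkk.2 h6)]
  -- the flat site
  have hflat : ∀ r' : ℤ, 0 ≤ r' → r' ≤ r → TX (wP θ β q' D' k' ρ') D' (q' (j' : ZMod N')) r' =
      armI (decide (k = 0)) D' (Bq (q' (j' : ZMod N')) r') (q' (j' : ZMod N')) := by
    intro r' h5 h6
    funext ω
    rw [tx_flat h' hc.ne' hsn.ne' hβ hstr' hdj hN' h0 hk' hp' hρ' (by omega) (by omega) h5 ω, hcol]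
  have hbig : 0 ≤ B * CE 1 / b := by positivity
  have hnn : 0 ≤ Ex (2 * Real.cos θ) D' η'
      (TX (wP θ β q' D' k' ρ') D' (q' (j' : ZMod N')) r) := by
    rw [hflat r (by omega) le_rfl]
    exact FKA.Ex_nonneg hQ0 fun S _ => armI_nonneg
  rcases hbase with ⟨hp, hρ, hρN⟩ | ⟨hp, hρ, hρN⟩
  · -- the base is a site of the colour of the arc
    have e2 : TX (wP θ β q D k ρ) D (q 0) r = armI (decide (k = 0)) D (Bq (q 0) r) (q 0) := by
      funext ω
      exact tx_base h hc.ne' hsn.ne' hβ hstr hdN hk hp hρ hρN (by omega) (by omega) (by omega) ω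
    have hI : SameI d N k q τ 0 N' k' q' τ' j' := by
      refine ⟨by omega, hw'.lt, by rw [e0]; exact hstr, by rw [e1]; exact hstr', by rw [e0]; omega,
        by rw [e1]; exact hdj, by rw [hw'.turn, hw.turn], ?_, ?_⟩
      · rw [Nat.cast_zero, hp, hp', hkk]
      · rcases cty_cases N k 0 with ⟨a1, a2, -, -⟩ | ⟨a1, a2, -, -⟩ | ⟨-, a3⟩
        · omega
        · omega
        · rcases cty_cases N' k' j' with ⟨b1, b2, b3, -⟩ | ⟨b1, b2, b3, -⟩ | ⟨-, b3⟩
          · omega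
          · omega
          · rw [a3, b3]
            have h5 : (k ≤ 0) = (k' ≤ j') := by
              rw [eq_iff_iff]
              omega
            simp only [h5]
    have key := (HA h h' hI (Or.inl (by omega)) hF' h3 h3' hRd hm hm' (by omega) hK1r
      (t := N) (t' := j') (by rw [e0]; omega) (by rw [e0]; omega) (by rw [e0, e1]; omega)
      (c := decide (k = 0)) hη hη').1
    rw [Nat.cast_zero, ZMod.natCast_self] at key
    rw [e2]
    refine key.trans ?_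
    rw [← hflat r (by omega) le_rfl]
    nlinarith
  · -- the next site is a site of the colour of the arc
    obtain ⟨T, hW, hTS⟩ := sameW_base h h' hw hdN hk hp hw' h0 hN' hF' hk' hkk hp' (by omega) h3 h3'
      hRd hm hm'
    have hB3 := h.reg.bd (q 0) (by
      have := H718.q_mem_sites h.poly h.enc (0 : ZMod N)
      exact this) (R - 1) (by omega) (by omega)
    have s1 : Ex (2 * Real.cos θ) D η (TX (wP θ β q D k ρ) D (q 0) r) ≤
        2 * Ex (2 * Real.cos θ) D η (armI (decide (k = 0)) D (Bq (q 0) r) (q 1)) := by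
      rw [← Ex_mul_left]
      refine Ex_mono hQ0 fun S _ => ?_
      exact tx_base1 h hc hsn.ne' hβ hstr hdN hk hp hρ hρN (by omega) (by omega) (by omega) _
    have s2 := (HF hW h.reg.good h'.reg.good hB3 (by omega) hK2r (fun ω => armI_nonneg)
      (armI_loc (decide (k = 0)) D (Bq (q 0) r) (q 1)) fun ω => armI_T (z := q 1) hW (by omega) ω).1
    rw [hTS] at s2
    have hsub : Bq (q' (j' : ZMod N')) (r - 1) ⊆ Bq (q' ((j' - 1 : ℕ) : ZMod N')) r := by
      intro v hv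
      have h6 := h'.geo.lip (j' - 1) j'
      have h7 : nm (q' ((j' - 1 : ℕ) : ZMod N') - q' (j' : ZMod N')) ≤ 1 := by
        refine h6.trans ?_
        rw [abs_le]
        omega
      unfold nm at h7
      rw [max_le_iff, abs_le, abs_le] at h7
      simp only [Prod.fst_sub, Prod.snd_sub] at h7
      rw [lkBq] at hv ⊢
      omega
    have s3 : Ex (2 * Real.cos θ) D' η₀' (armI (decide (k = 0)) D'
        (Bq (q' ((j' - 1 : ℕ) : ZMod N')) r) (q' (j' : ZMod N'))) ≤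
        Ex (2 * Real.cos θ) D' η₀'
          (TX (wP θ β q' D' k' ρ') D' (q' (j' : ZMod N')) (r - 1)) := by
      rw [hflat (r - 1) (by omega) (by omega)]
      exact Ex_mono hQ0 fun S _ => armI_anti hsub
    -- the step from `r - 1` to `r`
    obtain ⟨I, hKil, hExt⟩ := hkc h' hβ hw' h0 hN' hF' hk' hp' hρ' (r := r) (by omega) (by omega)
      (by omega) (by omega)
    have s4 : Ex (2 * Real.cos θ) D' η₀' (TX (wP θ β q' D' k' ρ') D' (q' (j' : ZMod N')) (r - 1)) ≤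
        B * Ex (2 * Real.cos θ) D' η₀' (I (r - 1)) := by
      rw [← Ex_mul_left]
      exact Ex_mono hQ0 fun S _ => hKil.up (r - 1) _ (by omega) (by omega)
    have s5 : Ex (2 * Real.cos θ) D' η₀' (I (r - 1)) ≤ CE 1 * Ex (2 * Real.cos θ) D' η₀' (I r) := by
      have h5 := (hExt 1).ext (r - 1) r hKE1 (by omega) (by omega) le_rfl (by push_cast; omega)
        (fun _ => 1) (fun _ => zero_le_one) (fun _ _ _ => rfl)
      simp only [mul_one] at h5
      exact h5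
    have s6 : b * Ex (2 * Real.cos θ) D' η₀' (I r) ≤
        Ex (2 * Real.cos θ) D' η₀' (TX (wP θ β q' D' k' ρ') D' (q' (j' : ZMod N')) r) := by
      rw [← Ex_mul_left]
      exact Ex_mono hQ0 fun S _ => hKil.low r _ (by omega) le_rfl
    have s7 : Ex (2 * Real.cos θ) D' η₀' (TX (wP θ β q' D' k' ρ') D' (q' (j' : ZMod N')) r) =
        Ex (2 * Real.cos θ) D' η' (TX (wP θ β q' D' k' ρ') D' (q' (j' : ZMod N')) r) :=
      (H167.Q.ex_dobE h'.poly h'.enc h'.kle hη' h'.dob hQ0 (TX_locD _ _ _ _)).symm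
    have s8 : Ex (2 * Real.cos θ) D η (armI (decide (k = 0)) D (Bq (q 0) r) (q 1)) =
        Ex (2 * Real.cos θ) D η₀ (armI (decide (k = 0)) D (Bq (q 0) r) (q 1)) :=
      H167.Q.ex_dobE h.poly h.enc h.kle hη h.dob hQ0 (armI_locD _ _ _ _)
    rw [s7] at s6
    rw [s8] at s1
    set E' := Ex (2 * Real.cos θ) D' η' (TX (wP θ β q' D' k' ρ') D' (q' (j' : ZMod N')) r)
    set Ir := Ex (2 * Real.cos θ) D' η₀' (I r)
    have s9 : Ir ≤ E' / b := by
      rw [le_div_iff₀ hbp]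
      linarith
    have s10 : B * (CE 1 * Ir) ≤ B * CE 1 / b * E' := by
      have : B * (CE 1 * Ir) ≤ B * (CE 1 * (E' / b)) :=
        mul_le_mul_of_nonneg_left (mul_le_mul_of_nonneg_left s9 (by linarith)) (by linarith)
      refine this.trans (le_of_eq ?_)
      ring
    have s11 : B * Ex (2 * Real.cos θ) D' η₀' (I (r - 1)) ≤ B * (CE 1 * Ir) :=
      mul_le_mul_of_nonneg_left s5 (by linarith)
    nlinarith [s1, s2, s3, s4]

end Vale.Agent.P167.N.QL
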