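import Vale.Agent.P167.N.QL.LkA
import Vale.Agent.P167.N.QL.LkR
import Vale.Agent.P167.N.QL.LkE

/-!
# P167, the range `0 < q < 1`, block Q-LAM (LK): data of functionals

`farI_sep`, `sameI_sep`, `phW_near`: the hypotheses of `lkP`, `lkK`, `lkA` at the centres of data `P` with
`P.Near`, `P.Sep`, if all turns of the polygon are centres (`PD.Tu`).
-/

set_option autoImplicit false

namespace Vale.Agent.P167.N.QL

open Finset Vale.Agent.P167 Vale.Agent.P167.BR
open Vale.Agent.P167.E6 (IsPolygon Encloses dir face)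
open Vale.Agent.P167.FK (Bq Good Ex RSW)
open Vale.Agent.P167.H718 (Dob)
open Vale.Agent.P167.H167.Q (Reg)

variable {P P' : PD} {τ τ' : ℕ → ℤ} {n n' L L' d j j' : ℕ} {m m' : ℤ} {η η' : Cfg}

/-- Smaller windows. -/
theorem SameI.mono {N k : ℕ} {q : ZMod N → ℤ × ℤ} {N' k' : ℕ} {q' : ZMod N' → ℤ × ℤ} {d' : ℕ}
    (h : SameI d N k q τ j N' k' q' τ' j') (hd : d' ≤ d) : SameI d' N k q τ j N' k' q' τ' j' :=
  ⟨h.lt, h.lt', h.str.mono hd, h.str'.mono hd, hd.trans h.le, hd.trans h.le', h.turn, h.par, h.ty⟩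

theorem PhW.mono {N k : ℕ} {N' k' : ℕ} {d' : ℕ} {ρ ρ' : ℕ → ℝ}
    (h : PhW d N k j ρ N' k' j' ρ') (hd : d' ≤ d) : PhW d' N k j ρ N' k' j' ρ' := by
  rcases h with h | ⟨h0, h0', h⟩
  · have h1 := h.le
    have h2 := h.lt
    have h3 := h.le'
    have h4 := h.lt'
    exact Or.inl ⟨h.pos, h.pos', by omega, by omega, by omega, by omega,
      fun i a b => h.jun i (by omega) (by omega), fun i a b => h.ph i (by omega) (by omega)⟩
  · have h1 := h.lt
    have h2 := h.lt'
    exact Or.inr ⟨h0, h0', by omega, by omega, fun i a => h.jun i (by omega),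
      fun i a b => h.jun' i a (by omega), fun i a => h.ph i (by omega),
      fun i a b => h.ph' i a (by omega)⟩

/-- The centres are far from the base and the junction. -/
theorem farI_sep (hN : P.Near) (hS : P.Sep L)
    (hk : P.k ∈ P.J ∨ ¬ (0 < P.k ∧ P.k < P.N)) (hj : j ∈ P.J) : FarI P.N P.k L j := by
  rcases hk with hk | hk
  · right
    constructor
    · rcases Nat.eq_zero_or_pos j with h | h
      · exact Or.inl h
      · right
        have := hS 0 hN.zero j hj h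
        omega
    · rcases Nat.lt_trichotomy j P.k with h | h | h
      · exact Or.inr (Or.inl (hS j hj _ hk h).1)
      · exact Or.inl h
      · exact Or.inr (Or.inr (hS _ hk j hj h).1)
  · exact Or.inl hk

/-- All the turns are centres. -/
def PD.Tu (P : PD) (τ : ℕ → ℤ) : Prop := ∀ i, 0 < i → i < P.N → τ i ≠ τ (i - 1) → i ∈ P.J

/-- The legs at a centre are straight. -/
theorem str_sep (hper : ∀ j, τ (j + P.N) = τ j + 4) (hN : P.Near) (hS : P.Sep L) (hT : P.Tu τ)
    (hj : j ∈ P.J) (hd : d < L) (hLN : L ≤ P.N) : Str τ (jB P.N j) d ∧ d ≤ jB P.N j := by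
  -- no turns next to the centre
  have hno : ∀ i, 0 < i → i < P.N → i ≠ j → (j < i + L ∧ i < j + L ∨ P.N < i + L - j ∧ j = 0) →
      τ i = τ (i - 1) := by
    intro i h1 h2 h3 h4
    by_contra hcon
    have h5 := hT i h1 h2 hcon
    rcases Nat.lt_or_gt_of_ne h3 with h6 | h6
    · have := hS i h5 j hj h6
      omega
    · have := hS j hj i h5 h6
      omega
  have hlt := hN.lt j hj
  rcases Nat.eq_zero_or_pos j with rfl | h0
  · have e : jB P.N 0 = P.N := rfl
    rw [e]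
    refine ⟨⟨fun i h1 h2 => ?_, fun i h1 h2 => ?_⟩, by omega⟩
    · obtain ⟨x, rfl⟩ := Nat.exists_eq_add_of_le h1
      have hx : x ≤ d := by omega
      clear h1 h2
      have e1 := hper x
      have e2 := hper 0
      rw [zero_add] at e2
      rw [add_comm, e1, e2]
      congr 1
      induction x with
      | zero => rfl
      | succ x ih =>
        have h3 := hno (x + 1) (by omega) (by omega) (by omega) (Or.inl ⟨by omega, by omega⟩)
        rw [Nat.add_sub_cancel] at h3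
        rw [h3]
        exact ih (by omega) (hper x)
    · obtain ⟨x, hx⟩ : ∃ x, i + x = P.N - 1 := ⟨P.N - 1 - i, by omega⟩
      induction x generalizing i with
      | zero => rw [← hx]; rfl
      | succ x ih =>
        have h3 := hno (i + 1) (by omega) (by omega) (by omega) (Or.inr ⟨by omega, rfl⟩)
        rw [Nat.add_sub_cancel] at h3
        rw [← h3]
        exact ih (i + 1) (by omega) (by omega) (by omega)
  · have e : jB P.N j = j := by
      unfold jB
      rw [if_neg (by omega)]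
    have h00 := hS 0 hN.zero j hj h0
    rw [e]
    refine ⟨⟨fun i h1 h2 => ?_, fun i h1 h2 => ?_⟩, by omega⟩
    · obtain ⟨x, rfl⟩ := Nat.exists_eq_add_of_le h1
      induction x with
      | zero => rfl
      | succ x ih =>
        have h3 := hno (j + (x + 1)) (by omega) (by omega) (by omega) (Or.inl ⟨by omega, by omega⟩)
        rw [show j + (x + 1) - 1 = j + x by omega] at h3
        rw [h3]
        exact ih (by omega) (by omega)
    · obtain ⟨x, hx⟩ : ∃ x, i + x = j - 1 := ⟨j - 1 - i, by omega⟩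
      induction x generalizing i with
      | zero => rw [← hx]; rfl
      | succ x ih =>
        have h3 := hno (i + 1) (by omega) (by omega) (by omega) (Or.inl ⟨by omega, by omega⟩)
        rw [Nat.add_sub_cancel] at h3
        rw [← h3]
        exact ih (i + 1) (by omega) (by omega) (by omega)

/-- The turn at the index `j`. -/
def trn (N : ℕ) (τ : ℕ → ℤ) (j : ℕ) : ℤ := if j = 0 then τ 0 + 4 - τ (N - 1) else τ j - τ (j - 1)

theorem trn_eq {N : ℕ} (hper : ∀ j, τ (j + N) = τ j + 4) (j : ℕ) :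
    τ (jB N j) - τ (jB N j - 1) = trn N τ j := by
  unfold jB trn
  split_ifs with h
  · have := hper 0
    rw [zero_add] at this
    rw [this]
  · rfl

/-- **The same local geometry at two centres.** -/
theorem sameI_sep (g : LkD n P.N P.q P.D P.k τ L m η) (g' : LkD n' P'.N P'.q P'.D P'.k τ' L' m' η')
    (hN : P.Near) (hS : P.Sep L) (hT : P.Tu τ) (hj : j ∈ P.J)
    (hN' : P'.Near) (hS' : P'.Sep L') (hT' : P'.Tu τ') (hj' : j' ∈ P'.J)
    (hd : d < L) (hLN : L ≤ P.N) (hd' : d < L') (hLN' : L' ≤ P'.N)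
    (turn : trn P'.N τ' j' = trn P.N τ j)
    (par : Even ((P.q (j : ZMod P.N)).1 + (P.q (j : ZMod P.N)).2) ↔
      Even ((P'.q (j' : ZMod P'.N)).1 + (P'.q (j' : ZMod P'.N)).2))
    (ty : cty P.N P.k j = cty P'.N P'.k j') :
    SameI d P.N P.k P.q τ j P'.N P'.k P'.q τ' j' := by
  obtain ⟨h1, h2⟩ := str_sep g.per hN hS hT hj hd hLN
  obtain ⟨h3, h4⟩ := str_sep g'.per hN' hS' hT' hj' hd' hLN'
  refine ⟨hN.lt j hj, hN'.lt j' hj', h1, h3, h2, h4, ?_, par, ty⟩
  rw [trn_eq g'.per, trn_eq g.per, turn]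

/-- No jumps of the phases off the centres. -/
theorem no_jump (hN : P.Near) (hS : P.Sep L) (hj : j ∈ P.J) {i : ℕ} (h0 : 0 < i) (hi : i < P.N)
    (h1 : 2 < |(i : ℤ) - j|) (h2 : |(i : ℤ) - j| + 2 < L ∨ (P.N : ℤ) + 2 < |(i : ℤ) - j| + L) :
    P.ρ i = P.ρ (i - 1) := by
  by_contra hcon
  obtain ⟨l, hl, h3⟩ := hN.near i h0 hi (Or.inl hcon)
  have hne : l ≠ j := by
    rintro rfl
    rw [abs_sub_comm] at h3
    omega
  have hlN := hN.lt l hl
  have hjN := hN.lt j hj
  rw [abs_le] at h3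
  rcases Nat.lt_or_gt_of_ne hne with h4 | h4
  · have := hS l hl j hj h4
    rcases abs_cases ((i : ℤ) - j) with ⟨x, y⟩ | ⟨x, y⟩ <;> rw [x] at h1 h2 <;> omega
  · have := hS j hj l hl h4
    rcases abs_cases ((i : ℤ) - j) with ⟨x, y⟩ | ⟨x, y⟩ <;> rw [x] at h1 h2 <;> omega

/-- **The same phases at two centres**: only the jumps at distance `≤ 2` have to be compared. -/
theorem phW_near (g : LkD n P.N P.q P.D P.k τ L m η) (g' : LkD n' P'.N P'.q P'.D P'.k τ' L' m' η')
    (hN : P.Near) (hS : P.Sep L) (hj : j ∈ P.J) (hk : P.k ∈ P.J ∨ ¬ (0 < P.k ∧ P.k < P.N))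
    (hN' : P'.Near) (hS' : P'.Sep L') (hj' : j' ∈ P'.J)
    (hk' : P'.k ∈ P'.J ∨ ¬ (0 < P'.k ∧ P'.k < P'.N))
    (hd : d + 2 < L) (hLN : 2 * L ≤ P.N) (hd' : d + 2 < L') (hLN' : 2 * L' ≤ P'.N)
    (ty : cty P.N P.k j = cty P'.N P'.k j') (h00 : j = 0 ↔ j' = 0)
    (hJ : 0 < j → ∀ i i' : ℕ, i' + j = i + j' → j ≤ i + 2 → i ≤ j + 2 →
      P'.ρ i' - P'.ρ (i' - 1) = P.ρ i - P.ρ (i - 1))
    (hB : j = 0 → (∀ i, 0 < i → i ≤ 2 → P'.ρ i - P'.ρ (i - 1) = P.ρ i - P.ρ (i - 1)) ∧
      (∀ i i' : ℕ, i < P.N → P.N ≤ i + 2 → i' + P.N = i + P'.N →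
        P'.ρ i' - P'.ρ (i' - 1) = P.ρ i - P.ρ (i - 1)) ∧
      P'.ρ (P'.N - 1) - P'.ρ 0 = P.ρ (P.N - 1) - P.ρ 0) :
    PhW d P.N P.k j P.ρ P'.N P'.k j' P'.ρ := by
  have hF := farI_sep hN hS hk hj
  have hF' := farI_sep hN' hS' hk' hj'
  have hM : MB d P.N j P'.N j' := by
    rcases Nat.eq_zero_or_pos j with h | h
    · exact Or.inr ⟨h, h00.1 h, by omega, by omega⟩
    · left
      have h' : 0 < j' := by
        rcases Nat.eq_zero_or_pos j' with h' | h'
        · have := h00.2 h'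
          omega
        · exact h'
      have h1 := hS 0 hN.zero j hj h
      have h2 := hS' 0 hN'.zero j' hj' h'
      exact ⟨h, by omega, by omega, h', by omega, by omega⟩
  refine (phW_jun g g' ty hF hF' (by omega) (by omega) hM).of_jumps (fun h0 i h1 h2 h3 => ?_)
    fun h0 => ?_
  · have h0' : 0 < j' := by
      rcases Nat.eq_zero_or_pos j' with h' | h'
      · have := h00.2 h'
        omega
      · exact h'
    have h4 := hS 0 hN.zero j hj h0
    have h5 := hS' 0 hN'.zero j' hj' h0'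
    by_cases h6 : j ≤ i + 2 ∧ i ≤ j + 2
    · exact hJ h0 i (i + j' - j) (by omega) h6.1 h6.2
    · have e1 : P.ρ i = P.ρ (i - 1) := by
        refine no_jump hN hS hj h3 (by omega) ?_ (Or.inl ?_)
        · rcases abs_cases ((i : ℤ) - j) with ⟨x, y⟩ | ⟨x, y⟩ <;> rw [x] <;> omega
        · rcases abs_cases ((i : ℤ) - j) with ⟨x, y⟩ | ⟨x, y⟩ <;> rw [x] <;> omega
      have e2 : P'.ρ (i + j' - j) = P'.ρ (i + j' - j - 1) := by
        refine no_jump hN' hS' hj' (by omega) (by omega) ?_ (Or.inl ?_)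
        · rcases abs_cases (((i + j' - j : ℕ) : ℤ) - j') with ⟨x, y⟩ | ⟨x, y⟩ <;> rw [x] <;> omega
        · rcases abs_cases (((i + j' - j : ℕ) : ℤ) - j') with ⟨x, y⟩ | ⟨x, y⟩ <;> rw [x] <;> omega
      rw [e1, e2, sub_self, sub_self]
  · obtain ⟨b1, b2, b3⟩ := hB h0
    have h0' := h00.1 h0
    refine ⟨fun i h1 h2 => ?_, fun i h1 h2 => ?_, b3⟩
    · by_cases h6 : i ≤ 2
      · exact b1 i h1 h6
      · have e1 : P.ρ i = P.ρ (i - 1) := by
          refine no_jump hN hS hj h1 (by omega) ?_ (Or.inl ?_)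
          · rcases abs_cases ((i : ℤ) - j) with ⟨x, y⟩ | ⟨x, y⟩ <;> rw [x] <;> omega
          · rcases abs_cases ((i : ℤ) - j) with ⟨x, y⟩ | ⟨x, y⟩ <;> rw [x] <;> omega
        have e2 : P'.ρ i = P'.ρ (i - 1) := by
          refine no_jump hN' hS' hj' h1 (by omega) ?_ (Or.inl ?_)
          · rcases abs_cases ((i : ℤ) - j') with ⟨x, y⟩ | ⟨x, y⟩ <;> rw [x] <;> omega
          · rcases abs_cases ((i : ℤ) - j') with ⟨x, y⟩ | ⟨x, y⟩ <;> rw [x] <;> omega
        rw [e1, e2, sub_self, sub_self]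
    · by_cases h6 : P.N ≤ i + 2
      · exact b2 i (i + P'.N - P.N) h1 h6 (by omega)
      · have e1 : P.ρ i = P.ρ (i - 1) := by
          refine no_jump hN hS hj (by omega) h1 ?_ (Or.inr ?_)
          · rcases abs_cases ((i : ℤ) - j) with ⟨x, y⟩ | ⟨x, y⟩ <;> rw [x] <;> omega
          · rcases abs_cases ((i : ℤ) - j) with ⟨x, y⟩ | ⟨x, y⟩ <;> rw [x] <;> omega
        have e2 : P'.ρ (i + P'.N - P.N) = P'.ρ (i + P'.N - P.N - 1) := by
          refine no_jump hN' hS' hj' (by omega) (by omega) ?_ (Or.inr ?_)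
          · rcases abs_cases (((i + P'.N - P.N : ℕ) : ℤ) - j') with ⟨x, y⟩ | ⟨x, y⟩ <;> rw [x] <;>
              omega
          · rcases abs_cases (((i + P'.N - P.N : ℕ) : ℤ) - j') with ⟨x, y⟩ | ⟨x, y⟩ <;> rw [x] <;>
              omega
        rw [e1, e2, sub_self, sub_self]

end Vale.Agent.P167.N.QL
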