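import Vale.Agent.P167.N.QL.Ph
import Vale.Agent.P167.N.H975.LkG
import Vale.Agent.P167.H760.Q.Tr
import Vale.Agent.P167.H760.Fr

/-!
# P167, the range `0 < q < 1`, block Q-LAM (LK): windows which agree up to a symmetry of the lattice

`T : H760.Tr` with `T.o = false`: a composition of rotations and even translations. `SameW`: the domains
and the configurations outside agree, up to `T`, in the box of radius `W` around `c`. Then nonnegative
local functions have comparable expectations (`ex_dom`, `lkF`), in particular the products `TX` of the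
weights of the pieces in a small box (`lkG`).
-/

set_option autoImplicit false

namespace Vale.Agent.P167.N.QL

open Finset Vale.Agent.P167 Vale.Agent.P167.BR Vale.Agent.P167.FK
open Vale.Agent.P167.FKA (Loc)
open Vale.Agent.P167.H760 (Tr Co)
open Vale.Agent.P167.H135 (fx)
open Vale.Agent.P167.H167.Q (MxA)
open Vale.Agent.P167.N.H167.Q (Bd3)
open Vale.Agent.P167.H192.Q (SRSW)
open Vale.Agent.P167.H975 (TX TX_loc lkBq)

variable {T : Tr} {ω η η' : Cfg} {D D' : Finset (ℤ × ℤ)} {c c' : ℤ × ℤ} {r R W : ℤ} {Q ε : ℝ}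
  {w w' : Finset Ed → ℝ} {A : Finset Ed}

/-- The squares of a box by their corners. -/
theorem mem_Bq_co {v c : ℤ × ℤ} {R : ℤ} : v ∈ Bq c R ↔ ∀ z, Co v z → nm (z - c) ≤ R := by
  rw [lkBq]
  constructor
  · rintro ⟨⟨h1, h2⟩, h3, h4⟩ z ⟨h5, h6⟩
    unfold nm
    rw [max_le_iff, abs_le, abs_le]
    simp only [Prod.fst_sub, Prod.snd_sub]
    omega
  · intro h
    have h1 := h (v.1, v.2) ⟨Or.inl rfl, Or.inl rfl⟩
    have h2 := h (v.1 + 1, v.2 + 1) ⟨Or.inr rfl, Or.inr rfl⟩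
    unfold nm at h1 h2
    rw [max_le_iff, abs_le, abs_le] at h1 h2
    simp only [Prod.fst_sub, Prod.snd_sub] at h1 h2
    omega

/-- The boxes are mapped to boxes. -/
theorem bq_T (T : Tr) {v c : ℤ × ℤ} {R : ℤ} : T.Q v ∈ Bq (T.S c) R ↔ v ∈ Bq c R := by
  rw [mem_Bq_co, mem_Bq_co]
  constructor
  · intro h z hz
    have h1 := h (T.S z) ((T.co v z).2 hz)
    rwa [T.dS] at h1
  · intro h z hz
    obtain ⟨z, rfl⟩ := T.S.surjective z
    rw [T.dS]
    exact h z ((T.co v z).1 hz)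

theorem bq_sub {v c : ℤ × ℤ} {r R : ℤ} (hr : r ≤ R) (h : v ∈ Bq c r) : v ∈ Bq c R := by
  rw [lkBq] at *
  omega

/-- The pieces in a box are mapped to the pieces in the box. -/
theorem in_T (ho : T.o = false) {A : Finset Ed} : (∀ e ∈ T.imE A, hdv e ∈ Bq (T.S c) r) ↔
    ∀ e ∈ A, hdv e ∈ Bq c r := by
  constructor
  · intro h e he
    have h1 := h (T.E e) (T.mem_imE.2 he)
    rw [T.hd, ho] at h1
    exact (bq_T T).1 h1
  · intro h e he
    obtain ⟨e, rfl⟩ := T.E.surjective e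
    rw [T.mem_imE] at he
    rw [T.hd, ho]
    exact (bq_T T).2 (h e he)

/-- **Transport of the products.** -/
theorem tx_T (ho : T.o = false) (ω : Cfg) :
    TX w (T.im D) (T.S c) r (T.C ω) = TX (fun A => w (T.imE A)) D c r ω := by
  classical
  unfold TX
  rw [T.pcsT, filter_image, prod_image fun x _ y _ h => T.imE_inj h]
  refine prod_congr ?_ fun _ _ => rfl
  ext A
  rw [mem_filter, mem_filter, in_T ho]

/-- The expectation in the frame. -/
theorem ex_tx_pre (ho : T.o = false) (Q : ℝ) (D : Finset (ℤ × ℤ)) (η : Cfg) (w : Finset Ed → ℝ)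
    (c : ℤ × ℤ) (r : ℤ) :
    Ex Q (T.pre D) (T.Ci η) (TX (fun A => w (T.imE A)) (T.pre D) c r) =
      Ex Q D η (TX w D (T.S c) r) := by
  rw [← T.Ex_pre Q D η]
  congr 1
  funext ω
  have h := tx_T (T := T) (D := T.pre D) (w := w) (c := c) (r := r) ho ω
  rw [T.im_pre] at h
  exact h.symm

/-- **The windows agree up to `T`.** -/
structure SameW (T : Tr) (D : Finset (ℤ × ℤ)) (η : Cfg) (c : ℤ × ℤ) (D' : Finset (ℤ × ℤ))
    (η' : Cfg) (c' : ℤ × ℤ) (W : ℤ) : Prop where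
  o : T.o = false
  cen : T.S c = c'
  dom : ∀ v ∈ Bq c W, v ∈ D ↔ T.Q v ∈ D'
  out : ∀ v ∈ Bq c W, v ∉ D → η' (T.Q v) = η v

theorem SameW.mono (h : SameW T D η c D' η' c' W) (hr : r ≤ W) : SameW T D η c D' η' c' r :=
  ⟨h.o, h.cen, fun v hv => h.dom v (bq_sub hr hv), fun v hv => h.out v (bq_sub hr hv)⟩

theorem SameW.pre (h : SameW T D η c D' η' c' W) : Bq c W ∩ T.pre D' = Bq c W ∩ D := by
  ext v
  rw [mem_inter, mem_inter, T.mem_pre]
  exact and_congr_right fun hv => (h.dom v hv).symm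

theorem SameW.outC (h : SameW T D η c D' η' c' W) {v : ℤ × ℤ} (hv : v ∈ Bq c W) (hD : v ∉ D) :
    T.Ci η' v = η v := by
  unfold Tr.Ci
  rw [h.o, ← h.out v hv hD]
  rfl

theorem SameW.good (h : SameW T D η c D' η' c' W) (hη' : Good η') : Good (T.Ci η') := by
  have := h.o
  refine T.good_T' ?_
  rw [T.C_Ci]
  exact hη'

/-- **Comparison of local functions.** -/
theorem ex_dom (hQ : Kit Q) (hε : 0 ≤ ε) (hM : MxA Q D η c r W ε)
    (h : SameW T D η c D' η' c' W) (hη : Good η) (hη' : Good η') {F F' : Cfg → ℝ}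
    (hF0 : ∀ ω, 0 ≤ F ω) (hF : Loc (Bq c r ∩ D) F) (hFF : ∀ ω, F' (T.C ω) = F ω) :
    |Ex Q D η F - Ex Q D' η' F'| ≤ ε * Ex Q D' η' F' := by
  have e1 : Ex Q D' η' F' = Ex Q (T.pre D') (T.Ci η') F := by
    rw [← T.Ex_pre Q D' η']
    congr 1
    funext ω
    exact hFF ω
  rw [e1]
  exact Vale.Agent.P167.N.H167.Q.MxA.dom hQ hε hM h.pre hη (h.good hη')
    (fun v hv hvD => h.outC hv hvD) hF0 hF

/-- **Windows which agree have comparable local expectations.** -/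
theorem lkF {Q : ℝ} (hQ : Kit Q) (hR : RSW Q) (hS : SRSW Q) : ∃ K : ℝ, 1 ≤ K ∧
    ∀ {T : Tr} {D D' : Finset (ℤ × ℤ)} {η η' : Cfg} {c c' : ℤ × ℤ} {r W : ℤ} {F F' : Cfg → ℝ},
      SameW T D η c D' η' c' W → Good η → Good η' → Bd3 D η c W → 1 ≤ r → K * r ≤ W →
      (∀ ω, 0 ≤ F ω) → Loc (Bq c r ∩ D) F → (∀ ω, F' (T.C ω) = F ω) →
      Ex Q D η F ≤ 2 * Ex Q D' η' F' ∧ Ex Q D' η' F' ≤ 2 * Ex Q D η F := by
  obtain ⟨K, hK, h⟩ := Vale.Agent.P167.N.H975.mx_ratio hQ hR hS (ε := 1 / 2) (by norm_num)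
  refine ⟨K, hK, ?_⟩
  intro T D D' η η' c c' r W F F' hW hη hη' hB hr hrW hF0 hF hFF
  have hM := h D η c r W hB hr hrW
  have key := ex_dom hQ (by norm_num) hM hW hη hη' hF0 hF hFF
  have h2 : 0 ≤ Ex Q D η F := FKA.Ex_nonneg hQ.pos fun S _ => hF0 _
  rw [abs_le] at key
  constructor <;> linarith [key.1, key.2]

/-- The pieces in the box only depend on the domain next to the box. -/
theorem mem_pcs_near {D D' : Finset (ℤ × ℤ)} {ω : Cfg} {A : Finset Ed} {c : ℤ × ℤ} {r : ℤ}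
    (hD : ∀ v ∈ Bq c (r + 1), v ∈ D ↔ v ∈ D') (hA : A ∈ pcs ω D)
    (hB : ∀ e ∈ A, hdv e ∈ Bq c r) : A ∈ pcs ω D' :=
  H975.mem_pcs_agree hA (fun e he => hD _ (H975.lkBq_succ (hB e he)))
    (fun e he => hD _ (H975.tlv_near (hB e he))) fun _ _ _ => rfl

/-- The products only depend on the domain next to the box. -/
theorem tx_near {D D' : Finset (ℤ × ℤ)} {w w' : Finset Ed → ℝ} {c : ℤ × ℤ} {r : ℤ} {ω : Cfg}
    (hD : ∀ v ∈ Bq c (r + 1), v ∈ D ↔ v ∈ D')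
    (hw : ∀ A ∈ pcs ω D, (∀ e ∈ A, hdv e ∈ Bq c r) → w' A = w A) :
    TX w' D' c r ω = TX w D c r ω := by
  classical
  unfold TX
  have e : (pcs ω D').filter (fun A => ∀ e ∈ A, hdv e ∈ Bq c r) =
      (pcs ω D).filter (fun A => ∀ e ∈ A, hdv e ∈ Bq c r) := by
    ext A
    rw [mem_filter, mem_filter]
    constructor
    · rintro ⟨h1, h2⟩
      exact ⟨mem_pcs_near (fun v hv => (hD v hv).symm) h1 h2, h2⟩
    · rintro ⟨h1, h2⟩
      exact ⟨mem_pcs_near hD h1 h2, h2⟩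
  rw [e]
  refine prod_congr rfl fun A hA => ?_
  rw [mem_filter] at hA
  exact hw A hA.1 hA.2

/-- **Transport of the products, pointwise.** -/
theorem SameW.tx (h : SameW T D η c D' η' c' W) (hr : r + 1 ≤ W) {ω : Cfg}
    (hw : ∀ A ∈ pcs ω D, (∀ e ∈ A, hdv e ∈ Bq c r) → w' (T.imE A) = w A) :
    TX w' D' c' r (T.C ω) = TX w D c r ω := by
  have h1 := tx_T (T := T) (D := T.pre D') (w := w') (c := c) (r := r) h.o ω
  rw [T.im_pre, h.cen] at h1
  rw [h1]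
  exact tx_near (fun v hv => by rw [T.mem_pre]; exact h.dom v (bq_sub hr hv)) hw

/-- **[LK]** -/
theorem lkG {Q : ℝ} (hQ : Kit Q) (hR : RSW Q) (hS : SRSW Q) : ∃ K : ℝ, 1 ≤ K ∧
    ∀ {T : Tr} {D D' : Finset (ℤ × ℤ)} {η η' : Cfg} {c c' : ℤ × ℤ} {r W : ℤ}
      {w w' : Finset Ed → ℝ},
      SameW T D η c D' η' c' W → Good η → Good η' → Bd3 D η c W → 1 ≤ r → K * r ≤ W →
      (∀ ω, ∀ A ∈ pcs ω D, (∀ e ∈ A, hdv e ∈ Bq c r) → w' (T.imE A) = w A) →
      Ex Q D η (fun ω => |TX w D c r ω|) ≤ 2 * Ex Q D' η' (fun ω => |TX w' D' c' r ω|) ∧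
        Ex Q D' η' (fun ω => |TX w' D' c' r ω|) ≤ 2 * Ex Q D η (fun ω => |TX w D c r ω|) := by
  obtain ⟨K, hK, h⟩ := lkF hQ hR hS
  refine ⟨K + 1, by linarith, ?_⟩
  intro T D D' η η' c c' r W w w' hW hη hη' hB hr hrW hw
  have hr' : (1 : ℝ) ≤ r := by exact_mod_cast hr
  have h1 : r + 1 ≤ W := by
    have : ((r + 1 : ℤ) : ℝ) ≤ W := by
      push_cast
      nlinarith
    exact_mod_cast this
  refine h hW hη hη' hB hr (by nlinarith) (fun ω => abs_nonneg _) ?_ fun ω => ?_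
  · intro ω ω' hh
    show |_| = |_|
    rw [TX_loc w D c r ω ω' hh]
  · show |_| = |_|
    rw [hW.tx h1 (hw ω)]

end Vale.Agent.P167.N.QL
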