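import Vale.Agent.P167.N.QL.LkA
import Vale.Agent.P167.N.QL.K4

/-!
# P167, the range `0 < q < 1`, block Q-LAM (LK): windows in indices

`wn_strL`, `wn_baseL`: the windows `Wn` of a polygon with straight legs, at an interior index and around
the base. `tx_flat`, `tx_base`, `tx_base1`: the local factors of the killed flat sites and bases in terms
of the arms. `geoW_of`, `sameW_col`: windows with one colour outside.
-/

set_option autoImplicit false

namespace Vale.Agent.P167.N.QL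

open Finset Vale.Agent.P167 Vale.Agent.P167.BR
open Vale.Agent.P167.E6 (IsPolygon Encloses dir face)
open Vale.Agent.P167.FK (Bq Good Ex RSW)
open Vale.Agent.P167.FKA (Loc)
open Vale.Agent.P167.H192.Q (SRSW)
open Vale.Agent.P167.H632 (cs pr)
open Vale.Agent.P167.H718 (Dob)
open Vale.Agent.P167.H760 (Tr Co)
open Vale.Agent.P167.H871 (Bd vec_fin IsC)
open Vale.Agent.P167.N.H167.Q (Bd3 Reg)
open Vale.Agent.P167.H975 (TX qr qr_poly qr_encl qr_base)

variable {N k N' k' κ s d n n' L L' j j' : ℕ} {q : ZMod N → ℤ × ℤ} {q' : ZMod N' → ℤ × ℤ}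
  {D D' : Finset (ℤ × ℤ)} {ω η η' : Cfg} {θ β : ℝ} {τ τ' : ℕ → ℤ} {ρ : ℕ → ℝ} {R r m m' : ℤ} {c : Bool}

theorem nm_smul_vec (m t : ℤ) : nm (m • Top.vec t) = |m| := by
  obtain ⟨u, hu⟩ := exists_dir t
  rw [hu]
  unfold nm
  have h : (m • dir u).1 = m * (dir u).1 ∧ (m • dir u).2 = m * (dir u).2 := ⟨rfl, rfl⟩
  rw [h.1, h.2]
  fin_cases u <;> simp [dir]

/-- The distances in a window of straight legs. -/
theorem str_near (hs : ∀ j : ℕ, q ((j + 1 : ℕ) : ZMod N) = q (j : ZMod N) + Top.vec (τ j))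
    (h : Str τ κ d) (h1 : d ≤ κ) {z : ℕ} (hz : |(z : ℤ) - κ| ≤ d) :
    nm (q (z : ZMod N) - q (κ : ZMod N)) = |(z : ℤ) - κ| := by
  rw [abs_le] at hz
  rcases le_total κ z with h2 | h2
  · obtain ⟨x, rfl⟩ := Nat.exists_eq_add_of_le h2
    rw [str_R hs x fun j a b => h.1 j a (by omega), add_sub_cancel_left, nm_smul_vec]
    push_cast
    rw [add_sub_cancel_left]
  · obtain ⟨x, hx⟩ := Nat.exists_eq_add_of_le h2
    have e : z = κ - x := by omega
    rw [e, str_L hs x (by omega) fun j a b => h.2 j (by omega) b]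
    have e2 : q (κ : ZMod N) - (x : ℤ) • Top.vec (τ (κ - 1)) - q (κ : ZMod N) =
        (-(x : ℤ)) • Top.vec (τ (κ - 1)) := by
      rw [neg_smul]
      abel
    rw [e2, nm_smul_vec]
    push_cast [Nat.cast_sub (show x ≤ κ by omega)]
    rw [sub_sub_cancel_left]

/-- **The window of an interior index.** -/
theorem wn_strL (hG : GeoP n N q)
    (hs : ∀ j : ℕ, q ((j + 1 : ℕ) : ZMod N) = q (j : ZMod N) + Top.vec (τ j))
    (h : Str τ κ d) (h1 : d ≤ κ) (h2 : κ + d ≤ N) (h3 : 3 * R < n) (h4 : 2 * R < d) :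
    Wn q κ R where
  le := by omega
  lt := by omega
  near z _ hz := str_near hs h h1 (by rcases abs_cases ((z : ℤ) - κ) with ⟨x, y⟩ | ⟨x, y⟩ <;> omega)
  far z hz hz' := by
    by_contra hcon
    push Not at hcon
    have h5 := hG.near hz (by omega) h3 hcon
    have h6 : |(z : ℤ) - κ| ≤ d := by
      rcases h5 with h5 | h5
      · omega
      · rcases abs_cases ((z : ℤ) - κ) with ⟨x, y⟩ | ⟨x, y⟩ <;> omega
    have h7 := str_near hs h h1 h6
    omega

theorem qr_apply (q : ZMod N → ℤ × ℤ) (s z : ℕ) :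
    qr q s (z : ZMod N) = q ((z + s : ℕ) : ZMod N) := by
  show q ((z : ZMod N) + (s : ZMod N)) = _
  rw [Nat.cast_add]

/-- **The window of the base**, in another numbering. -/
theorem wn_baseL (hG : GeoP n N q)
    (hs : ∀ j : ℕ, q ((j + 1 : ℕ) : ZMod N) = q (j : ZMod N) + Top.vec (τ j))
    (h : Str τ N d) (h1 : d ≤ s) (h2 : s + d ≤ N) (h3 : 3 * R < n) (h4 : 2 * R < d) :
    Wn (qr q s) (N - s) R := by
  have hsN : s ≤ N := by omega
  have hb : qr q s ((N - s : ℕ) : ZMod N) = q (N : ZMod N) := by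
    rw [qr_base hsN, ZMod.natCast_self]
  have key : ∀ z : ℕ, |(z : ℤ) - (N - s : ℕ)| ≤ d →
      nm (qr q s (z : ZMod N) - qr q s ((N - s : ℕ) : ZMod N)) = |(z : ℤ) - (N - s : ℕ)| := by
    intro z hz
    have e : ((z + s : ℕ) : ℤ) - N = (z : ℤ) - (N - s : ℕ) := by
      push_cast [Nat.cast_sub hsN]
      ring
    rw [hb, qr_apply, str_near hs h (by omega) (by rw [e]; exact hz), e]
  refine ⟨by omega, by omega, fun z _ hz => key z (by
    rcases abs_cases ((z : ℤ) - (N - s : ℕ)) with ⟨x, y⟩ | ⟨x, y⟩ <;> omega), fun z hz hz' => ?_⟩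
  by_contra hcon
  push Not at hcon
  have h6 : |(z : ℤ) - (N - s : ℕ)| ≤ d := by
    rw [hb, qr_apply] at hcon
    rcases le_total (z + s) N with h5 | h5
    · have h7 := hG.near h5 le_rfl h3 hcon
      rcases h7 with h7 | h7 <;> rw [abs_le] at * <;>
        rcases abs_cases (((z + s : ℕ) : ℤ) - N) with ⟨x, y⟩ | ⟨x, y⟩ <;> omega
    · have e : ((z + s : ℕ) : ZMod N) = ((z + s - N : ℕ) : ZMod N) := by
        have h8 : z + s = (z + s - N) + N := by omega
        conv_lhs => rw [h8]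
        rw [Nat.cast_add, ZMod.natCast_self, add_zero]
      rw [e, ZMod.natCast_self, ← Nat.cast_zero] at hcon
      have h7 := hG.near (x := z + s - N) (y := 0) (by omega) (by omega) h3 hcon
      rw [abs_le]
      rcases h7 with h7 | h7
      · rcases abs_cases (((z + s - N : ℕ) : ℤ) - (0 : ℕ)) with ⟨x, y⟩ | ⟨x, y⟩ <;> omega
      · rcases abs_cases (((z + s - N : ℕ) : ℤ) - (0 : ℕ)) with ⟨x, y⟩ | ⟨x, y⟩ <;> omega
  have h7 := key z h6
  omega

/-- **The local factor of a killed flat site** is the indicator of the arm. -/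
theorem tx_flat (h : LkD n N q D k τ L m η) (hc : Real.cos θ ≠ 0) (hsn : Real.sin θ ≠ 0)
    (hβ : Real.cos (θ / 2 + β) = Real.sin θ) (hstr : Str τ j d) (hdj : d ≤ j) (hjd : j + d < N)
    (h0 : 0 < j) (hk : j + d < k ∨ k + d ≤ j)
    (hp : Even ((q (j : ZMod N)).1 + (q (j : ZMod N)).2) ↔ k ≤ j)
    (hρ : ∀ i, j < i + d → i ≤ j + d → 0 < i → ρ i - ρ (i - 1) = if i = j then θ else 0)
    (h3 : 3 * (r + 1) < n) (h4 : 2 * (r + 1) < d) (hr : 0 ≤ r) (ω : Cfg) :
    TX (wP θ β q D k ρ) D (q (j : ZMod N)) r ω =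
      armI (decide (k ≤ j)) D (Bq (q (j : ZMod N)) r) (q (j : ZMod N)) ω := by
  have hW : Wn q j (r + 1) := wn_strL h.geo h.step hstr hdj hjd.le h3 h4
  have hpc : ((q (j : ZMod N)).1 + (q (j : ZMod N)).2) % 2 = pr (decide (k ≤ j)) := by
    by_cases hkj : k ≤ j
    · have := hp.2 hkj
      rw [Int.even_iff] at this
      rw [decide_eq_true hkj, this]
      rfl
    · have : ¬ Even ((q (j : ZMod N)).1 + (q (j : ZMod N)).2) := fun h => hkj (hp.1 h)
      rw [Int.even_iff] at this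
      rw [decide_eq_false hkj]
      show _ = 1
      omega
  have key := TX_o (θ := θ) (β := β) (ρ := ρ) (k := k) (ω := ω) h.poly h.enc hsn hc hβ hW hr le_rfl
    h0 (by omega) hpc (by
      by_cases hkj : k ≤ j
      · right
        exact ⟨decide_eq_true hkj, by omega⟩
      · left
        exact ⟨decide_eq_false hkj, by omega⟩) (fun i h5 h6 h7 => ?_) ?_
  · rw [key]
    exact ns_armI h.poly h.enc hW hr le_rfl (by omega) hpc ω
  · have h8 := hρ i (by omega) (by omega) (by omega)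
    rw [if_neg h7] at h8
    linarith
  · have h8 := hρ j (by omega) (by omega) h0
    rw [if_pos rfl] at h8
    linarith

/-- The local factor of a killed base, the base is a site of the colour of the arc. -/
theorem tx_base (h : LkD n N q D k τ L m η) (hc : Real.cos θ ≠ 0) (hsn : Real.sin θ ≠ 0)
    (hβ : Real.cos (θ / 2 + β) = Real.sin θ) (hstr : Str τ N d) (hdN : 2 * d < N)
    (hk : k = 0 ∨ k = N) (hp : Even ((q 0).1 + (q 0).2) ↔ k = 0)
    (hρ : ∀ i ≤ d, ρ i = ρ 0) (hρ' : ∀ i < N, N ≤ i + d → ρ i = ρ 0 - 2 * θ)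
    (h3 : 3 * (r + 1) < n) (h4 : 2 * (r + 1) < d) (hr : 0 ≤ r) (ω : Cfg) :
    TX (wP θ β q D k ρ) D (q 0) r ω = armI (decide (k = 0)) D (Bq (q 0) r) (q 0) ω := by
  have hdN' : d < N := by omega
  have hW : Wn (qr q d) (N - d) (r + 1) := wn_baseL h.geo h.step hstr le_rfl (by omega) h3 h4
  have hpc : ((q 0).1 + (q 0).2) % 2 = pr (decide (k = 0)) := by
    by_cases hk0 : k = 0
    · have := hp.2 hk0
      rw [Int.even_iff] at this
      rw [decide_eq_true hk0, this]
      rfl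
    · have : ¬ Even ((q 0).1 + (q 0).2) := fun h => hk0 (hp.1 h)
      rw [Int.even_iff] at this
      rw [decide_eq_false hk0]
      show _ = 1
      omega
  have hG : Gd N k (decide (k = 0)) := by
    by_cases hk0 : k = 0
    · exact Or.inr ⟨decide_eq_true hk0, hk0⟩
    · exact Or.inl ⟨decide_eq_false hk0, by omega⟩
  have hb := qr_base (q := q) hdN'.le
  have hpb : ((qr q d ((N - d : ℕ) : ZMod N)).1 + (qr q d ((N - d : ℕ) : ZMod N)).2) % 2 =
      pr (decide (k = 0)) := by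
    rw [hb]
    exact hpc
  rw [TX_b (θ := θ) (β := β) (ρ := ρ) (k := k) (ω := ω) h.poly h.enc hsn hc hβ hdN' hW hr le_rfl
    (by omega) hpc hG (fun i h5 => hρ i (by omega)) fun i h5 h6 => hρ' i h5 (by omega)]
  have key := ns_armI (qr_poly h.poly d) (qr_encl h.enc d) hW hr le_rfl (t := N - d) (by omega)
    hpb ω
  rw [hb] at key
  exact key

/-- The local factor of a killed base with the charge `θ` at the index `1`. -/
theorem tx_base1 (h : LkD n N q D k τ L m η) (hc : 0 < Real.cos θ) (hsn : Real.sin θ ≠ 0)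
    (hβ : Real.cos (θ / 2 + β) = Real.sin θ) (hstr : Str τ N d) (hdN : 2 * d < N)
    (hk : k = 0 ∨ k = N) (hp : Even ((q 0).1 + (q 0).2) ↔ k ≠ 0)
    (hρ : ∀ i, 1 ≤ i → i ≤ d → ρ i = ρ 0 + θ) (hρ' : ∀ i < N, N ≤ i + d → ρ i = ρ 0 - θ)
    (h3 : 3 * (r + 1) < n) (h4 : 2 * (r + 1) < d) (hr : 1 ≤ r) (ω : Cfg) :
    TX (wP θ β q D k ρ) D (q 0) r ω ≤ 2 * armI (decide (k = 0)) D (Bq (q 0) r) (q 1) ω := by
  have hdN' : d < N := by omega
  have hW : Wn (qr q d) (N - d) (r + 1) := wn_baseL h.geo h.step hstr le_rfl (by omega) h3 h4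
  have hp1 : Even ((q 1).1 + (q 1).2) ↔ k = 0 := by
    have h5 := H685.LD.par_step h.poly h.enc ((0 : ℕ) : ZMod N)
    rw [Nat.cast_zero, zero_add] at h5
    constructor
    · intro h6
      by_contra h7
      exact (h5.1 h6) (hp.2 h7)
    · intro h6
      exact h5.2 fun h7 => (hp.1 h7) h6
  have hpc : ((q 1).1 + (q 1).2) % 2 = pr (decide (k = 0)) := by
    by_cases hk0 : k = 0
    · have := hp1.2 hk0
      rw [Int.even_iff] at this
      rw [decide_eq_true hk0, this]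
      rfl
    · have : ¬ Even ((q 1).1 + (q 1).2) := fun h => hk0 (hp1.1 h)
      rw [Int.even_iff] at this
      rw [decide_eq_false hk0]
      show _ = 1
      omega
  have hG : Gd N k (decide (k = 0)) := by
    by_cases hk0 : k = 0
    · exact Or.inr ⟨decide_eq_true hk0, hk0⟩
    · exact Or.inl ⟨decide_eq_false hk0, by omega⟩
  have hb := qr_base (q := q) hdN'.le
  have h1' : qr q d ((N - d + 1 : ℕ) : ZMod N) = q 1 := by
    rw [qr_apply, show N - d + 1 + d = N + 1 by omega, Nat.cast_add, ZMod.natCast_self,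
      zero_add, Nat.cast_one]
  have hpb : ((qr q d ((N - d + 1 : ℕ) : ZMod N)).1 + (qr q d ((N - d + 1 : ℕ) : ZMod N)).2) % 2 =
      pr (decide (k = 0)) := by
    rw [h1']
    exact hpc
  have key := ns_armI (qr_poly h.poly d) (qr_encl h.enc d) hW (by omega) le_rfl (t := N - d + 1)
    (by omega) hpb ω
  rw [hb, h1'] at key
  rw [← key]
  have hI : 0 ≤ (NS (qr q d) D (N - d) (N - d + 1) r).indicator (1 : Cfg → ℝ) ω := by
    rw [key]
    exact armI_nonneg
  have hc2 := Real.cos_le_one θ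
  rcases TX_c (θ := θ) (β := β) (ρ := ρ) (k := k) (ω := ω) h.poly h.enc hsn hc.ne' hβ hdN' hW hr
    le_rfl (by omega) hpc hG (fun i h5 h6 => hρ i h5 (by omega))
    (fun i h5 h6 => hρ' i h5 (by omega)) with h6 | h6
  · rw [h6]
    linarith
  · rw [h6]
    nlinarith

/-! ### windows with one colour outside -/

/-- The geometry of `sameW_of`. -/
theorem geoW_of (h : LkD n N q D k τ L m η) (h' : LkD n' N' q' D' k' τ' L' m' η')
    (hI : SameI d N k q τ j N' k' q' τ' j')
    (hR1 : 1 ≤ R) (h3 : 3 * (R + 1) < n) (h3' : 3 * (R + 1) < n') (hR : 2 * (R + 1) ≤ d) :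
    ∃ s : Fin 4, Rt (mvT (q (j : ZMod N)) (q' (j' : ZMod N')) s) s ∧
      (∀ v ∈ Bq (q (j : ZMod N)) R, v ∈ D ↔ (mvT (q (j : ZMod N)) (q' (j' : ZMod N')) s).Q v ∈ D') ∧
      Win0 q (pq (mvT (q (j : ZMod N)) (q' (j' : ZMod N')) s) q') (jB N j) (jB N' j') d := by
  have hle : jB N j ≤ N := jn_le hI.lt
  have hle' : jB N' j' ≤ N' := jn_le hI.lt'
  have hd0 : 0 < d := by omega
  obtain ⟨s, hs⟩ : ∃ s : Fin 4, (τ' (jB N' j') - τ (jB N j)) % 4 = (s.val : ℤ) := by
    have h1 : (τ' (jB N' j') - τ (jB N j)) % 4 = 0 ∨ (τ' (jB N' j') - τ (jB N j)) % 4 = 1 ∨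
      (τ' (jB N' j') - τ (jB N j)) % 4 = 2 ∨ (τ' (jB N' j') - τ (jB N j)) % 4 = 3 := by omega
    rcases h1 with h1 | h1 | h1 | h1
    · exact ⟨0, h1⟩
    · exact ⟨1, h1⟩
    · exact ⟨2, h1⟩
    · exact ⟨3, h1⟩
  have hT := rt_mvT hI.par s
  have hcen := mvT_cen (q (j : ZMod N)) (q' (j' : ZMod N')) s
  set T := mvT (q (j : ZMod N)) (q' (j' : ZMod N')) s with hTd
  have hw : Win0 q (pq T q') (jB N j) (jB N' j') d := by
    refine win0_of h.step (fun i => hT.step h'.step i) hI.le hI.le' hI.str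
      ⟨fun i h1 h2 => ?_, fun i h1 h2 => ?_⟩ ?_ ?_ ?_
    · show τ' i - (s.val : ℤ) = τ' _ - (s.val : ℤ)
      rw [hI.str'.1 i h1 h2]
    · show τ' i - (s.val : ℤ) = τ' _ - (s.val : ℤ)
      rw [hI.str'.2 i h1 h2]
    · rw [jn_cast (pq T q') j', jn_cast q j]
      unfold pq
      rw [← hcen, Equiv.symm_apply_apply]
    · refine Top.vec_congr ?_
      omega
    · refine Top.vec_congr ?_
      have := hI.turn
      omega
  refine ⟨s, hT, fun v hv => ?_, hw⟩
  have key := dom_win h.geo (geoP_pq T h'.geo) h.poly h.enc (hT.poly h'.poly) (hT.encl h'.enc)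
    hle hI.le hle' hI.le' hR1 h3 h3' hR hw
  have h5 := key v (by
    rw [jn_cast q j]
    exact hv)
  rw [T.mem_pre] at h5
  exact h5

end Vale.Agent.P167.N.QL
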