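import Vale.Agent.P167.N.QL.LkY
import Vale.Agent.P167.H167.Q.EqF

/-!
# P167, the range `0 < q < 1`, block Q-LAM (LK): the comparison of the local factors

`PhW`: the phases and the junction agree in the window. `lkP`: the local factors are comparable.
`KI`: the indicator that no strand in the box goes over the site; `lkK`: comparison, also between a base
and an interior site.
-/

set_option autoImplicit false

namespace Vale.Agent.P167.N.QL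

open Finset Vale.Agent.P167 Vale.Agent.P167.BR
open Vale.Agent.P167.E6 (IsPolygon Encloses dir face)
open Vale.Agent.P167.FK (Bq Good Ex RSW)
open Vale.Agent.P167.FKA (Loc)
open Vale.Agent.P167.H192.Q (SRSW)
open Vale.Agent.P167.H718 (Dob)
open Vale.Agent.P167.H760 (Tr)
open Vale.Agent.P167.H871 (Bd vec_fin)
open Vale.Agent.P167.N.H167.Q (Bd3 Reg)
open Vale.Agent.P167.H975 (TX TX_loc TX_locD lkBq nm_of_be)

variable {N k N' k' : ℕ} {q : ZMod N → ℤ × ℤ} {q' : ZMod N' → ℤ × ℤ} {D D' : Finset (ℤ × ℤ)}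
  {ω η η' η₀ η₀' : Cfg} {A : Finset Ed} {θ β Q : ℝ} {ρ ρ' : ℕ → ℝ} {τ τ' : ℕ → ℤ} {c : ℤ × ℤ}
  {r R m m' : ℤ} {J J' j j' d n n' L L' : ℕ} {T : Tr} {s : Fin 4}

/-! ### the phases in the window -/

/-- Windows without the base: the junction and the phases agree. -/
structure PhI (d N k j : ℕ) (ρ : ℕ → ℝ) (N' k' j' : ℕ) (ρ' : ℕ → ℝ) : Prop where
  pos : 0 < j
  pos' : 0 < j'
  le : d ≤ j
  lt : j + d < N
  le' : d ≤ j'
  lt' : j' + d < N'
  jun : ∀ i, j ≤ i + d → i ≤ j + d → (i + j' - j < k' ↔ i < k)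
  ph : ∀ i, j ≤ i + d → i ≤ j + d → ρ' (i + j' - j) - ρ' j' = ρ i - ρ j

/-- Windows around the base: the junction and the phases agree. -/
structure PhB (d N k : ℕ) (ρ : ℕ → ℝ) (N' k' : ℕ) (ρ' : ℕ → ℝ) : Prop where
  lt : 2 * d < N
  lt' : 2 * d < N'
  jun : ∀ i ≤ d, (i < k' ↔ i < k)
  jun' : ∀ i < N, N ≤ i + d → (i + N' - N < k' ↔ i < k)
  ph : ∀ i ≤ d, ρ' i - ρ' 0 = ρ i - ρ 0
  ph' : ∀ i < N, N ≤ i + d → ρ' (i + N' - N) - ρ' 0 = ρ i - ρ 0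

/-- **The junction and the phases agree in the window.** -/
def PhW (d N k j : ℕ) (ρ : ℕ → ℝ) (N' k' j' : ℕ) (ρ' : ℕ → ℝ) : Prop :=
  PhI d N k j ρ N' k' j' ρ' ∨ (j = 0 ∧ j' = 0 ∧ PhB d N k ρ N' k' ρ')

theorem PhI.jnj (h : PhI d N k j ρ N' k' j' ρ') : jB N j = j ∧ jB N' j' = j' := by
  have h1 := h.pos
  have h2 := h.pos'
  unfold jB
  rw [if_neg (by omega), if_neg (by omega)]
  exact ⟨rfl, rfl⟩

/-- The sides correspond. -/
theorem imp_of (hG : GeoP n N q) (hq : IsPolygon q) (hq' : IsPolygon q')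
    (hw : Win0 q q' (jB N j) (jB N' j') d) (hP : PhW d N k j ρ N' k' j' ρ')
    (hj : j < N) (h3 : 3 * (R + 1) < n) (hR : 2 * (R + 1) ≤ d) :
    ∃ σ, IMP q k ρ q' k' ρ' (q (j : ZMod N)) R σ := by
  rcases hP with hP | ⟨rfl, rfl, hP⟩
  · obtain ⟨e1, e2⟩ := hP.jnj
    rw [e1, e2] at hw
    refine ⟨_, imp_mid hw hq hq' hP.le hP.le' hP.lt' (fun i hi hb => ?_) hP.jun hP.ph⟩
    have h1 := nm_of_be hb
    have h4 := hP.le
    have h5 := hP.lt
    rcases hG.near hi.le hj.le h3 h1 with h2 | h2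
    · rw [abs_le] at h2
      omega
    · rcases abs_cases ((i : ℤ) - j) with ⟨x, y⟩ | ⟨x, y⟩ <;> rw [x] at h2 <;> omega
  · have e1 : jB N 0 = N := rfl
    have e2 : jB N' 0 = N' := rfl
    rw [e1, e2] at hw
    refine ⟨_, imp_base hw hq hq' hP.lt hP.lt' (fun i hi hb => ?_) hP.jun hP.jun' hP.ph hP.ph'⟩
    have h1 := nm_of_be hb
    rcases hG.near hi.le (Nat.zero_le N) h3 h1 with h2 | h2
    · rw [abs_le] at h2
      push_cast at h2
      omega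
    · rw [abs_of_nonneg (by omega)] at h2
      push_cast at h2
      omega

/-- **The local factors agree pointwise.** -/
theorem tx_win (hc : Real.cos θ ≠ 0) (h : LkD n N q D k τ L m η)
    (h' : LkD n' N' q' D' k' τ' L' m' η') (hj : j < N) (hT : Rt T s)
    (hW : SameW T D η (q (j : ZMod N)) D' η' (q' (j' : ZMod N')) R)
    (hw : Win0 q (pq T q') (jB N j) (jB N' j') d) (hP : PhW d N k j ρ N' k' j' ρ')
    (h3 : 3 * (R + 1) < n) (hR : 2 * (R + 1) ≤ d) (hr : r + 1 ≤ R) {ω : Cfg} (hA : A ∈ pcs ω D)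
    (hB : ∀ e ∈ A, hdv e ∈ Bq (q (j : ZMod N)) r) :
    wP θ β q' D' k' ρ' (T.imE A) = wP θ β q D k ρ A := by
  obtain ⟨σ, hσ⟩ := imp_of (k := k) (k' := k') (ρ := ρ) (ρ' := ρ') h.geo h.poly (hT.poly h'.poly) hw
    hP hj h3 hR
  rw [wP_pq hT h'.poly]
  exact wP_near hc h.poly h.enc (hT.poly h'.poly) (hT.encl h'.enc)
    (fun v hv => by rw [T.mem_pre]; exact hW.dom v (bq_sub hr hv)) (hσ.le (by omega)) hA hB

/-- **[LK] for data of functionals**: indices with the same local geometry and the same phases in the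
window have comparable local factors. -/
theorem lkP (hQ : Kit Q) (hR : RSW Q) (hS : SRSW Q) : ∃ K : ℝ, 1 ≤ K ∧
    ∀ {N k N' k' : ℕ} {q : ZMod N → ℤ × ℤ} {q' : ZMod N' → ℤ × ℤ} {D D' : Finset (ℤ × ℤ)}
      {η₀ η₀' : Cfg} {θ β : ℝ} {ρ ρ' : ℕ → ℝ} {τ τ' : ℕ → ℤ} {r R m m' : ℤ}
      {j j' d n n' L L' : ℕ},
      LkD n N q D k τ L m η₀ → LkD n' N' q' D' k' τ' L' m' η₀' →
      SameI d N k q τ j N' k' q' τ' j' → FarI N k L j → FarI N' k' L' j' →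
      PhW d N k j ρ N' k' j' ρ' → Real.cos θ ≠ 0 → 3 * (R + 1) < n → 3 * (R + 1) < n' →
      2 * (R + 1) ≤ d → R ≤ m → R ≤ m' → 1 ≤ r → K * r ≤ R →
      ∀ {η η' : Cfg}, Dob η D q k → Dob η' D' q' k' →
      Ex Q D η (fun ω => |TX (wP θ β q D k ρ) D (q (j : ZMod N)) r ω|) ≤
          2 * Ex Q D' η' (fun ω => |TX (wP θ β q' D' k' ρ') D' (q' (j' : ZMod N')) r ω|) ∧
        Ex Q D' η' (fun ω => |TX (wP θ β q' D' k' ρ') D' (q' (j' : ZMod N')) r ω|) ≤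
          2 * Ex Q D η (fun ω => |TX (wP θ β q D k ρ) D (q (j : ZMod N)) r ω|) := by
  obtain ⟨K, hK, key⟩ := lkG hQ hR hS
  refine ⟨K + 1, by linarith, ?_⟩
  intro N k N' k' q q' D D' η₀ η₀' θ β ρ ρ' τ τ' r R m m' j j' d n n' L L' h h' hI hF hF' hP hc h3
    h3' hRd hm hm' hr hrR η η' hη hη'
  have hr' : (1 : ℝ) ≤ r := by exact_mod_cast hr
  have hr1 : r + 1 ≤ R := by
    have : ((r + 1 : ℤ) : ℝ) ≤ R := by
      push_cast
      nlinarith
    exact_mod_cast this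
  have hR1 : 1 ≤ R := by omega
  obtain ⟨s, hT, hW, hw⟩ := sameW_of h h' hI hF hF' hR1 h3 h3' hRd hm hm'
  have hB := h.reg.bd (q (j : ZMod N)) (H718.q_mem_sites h.poly h.enc _) R hR1 hm
  have loc : ∀ {D : Finset (ℤ × ℤ)} (w : Finset Ed → ℝ) (c : ℤ × ℤ),
      Loc D (fun ω => |TX w D c r ω|) := fun w c ω ω' hh => by
    show |_| = |_|
    rw [TX_locD w _ c r ω ω' hh]
  rw [H167.Q.ex_dobE h.poly h.enc h.kle hη h.dob hQ.pos (loc _ _),
    H167.Q.ex_dobE h'.poly h'.enc h'.kle hη' h'.dob hQ.pos (loc _ _)]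
  exact key hW h.reg.good h'.reg.good hB hr (by nlinarith) fun ω A hA hB =>
    tx_win hc h h' hI.lt hT hW hw hP h3 hRd hr1 hA hB

/-! ### indicators -/

/-- The strand goes over the centre of the window. -/
def OvW (q : ZMod N → ℤ × ℤ) (J d : ℕ) (A : Finset Ed) : Prop :=
  ∃ a b : ℕ, a < d ∧ d ≤ b ∧ b ≤ 2 * d ∧ be q ((J - d + a : ℕ) : ZMod N) ∈ A ∧
    be q ((J - d + b : ℕ) : ZMod N) ∈ A

open Classical in
/-- The indicator that no strand in the box goes over the centre of the window. -/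
noncomputable def KI (q : ZMod N → ℤ × ℤ) (D : Finset (ℤ × ℤ)) (J d : ℕ) (c : ℤ × ℤ) (r : ℤ)
    (ω : Cfg) : ℝ :=
  if ∃ A ∈ pcs ω D, (∀ e ∈ A, hdv e ∈ Bq c r) ∧ OvW q J d A then 0 else 1

theorem KI_nonneg : 0 ≤ KI q D J d c r ω := by
  unfold KI
  split_ifs <;> norm_num

theorem KI_loc (q : ZMod N → ℤ × ℤ) (D : Finset (ℤ × ℤ)) (J d : ℕ) (c : ℤ × ℤ) (r : ℤ) :
    Loc (Bq c r ∩ D) (KI q D J d c r) := by
  classical
  have key : ∀ ω ω' : Cfg, (∀ v, v ∈ Bq c r ∩ D → ω v = ω' v) →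
      (∃ A ∈ pcs ω D, (∀ e ∈ A, hdv e ∈ Bq c r) ∧ OvW q J d A) →
      ∃ A ∈ pcs ω' D, (∀ e ∈ A, hdv e ∈ Bq c r) ∧ OvW q J d A := by
    rintro ω ω' h ⟨A, h1, h2, h3⟩
    refine ⟨A, H975.mem_pcs_agree h1 (fun _ _ => Iff.rfl) (fun _ _ => Iff.rfl) fun e he hd => ?_,
      h2, h3⟩
    exact h _ (mem_inter.2 ⟨h2 e he, hd⟩)
  intro ω ω' h
  unfold KI
  have e : (∃ A ∈ pcs ω D, (∀ e ∈ A, hdv e ∈ Bq c r) ∧ OvW q J d A) ↔
      ∃ A ∈ pcs ω' D, (∀ e ∈ A, hdv e ∈ Bq c r) ∧ OvW q J d A :=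
    ⟨key ω ω' h, key ω' ω fun v hv => (h v hv).symm⟩
  simp only [e]

theorem KI_locD (q : ZMod N → ℤ × ℤ) (D : Finset (ℤ × ℤ)) (J d : ℕ) (c : ℤ × ℤ) (r : ℤ) :
    Loc D (KI q D J d c r) := fun ω ω' h =>
  KI_loc q D J d c r ω ω' fun v hv => h v (mem_inter.1 hv).2

theorem ovW_near (hq : IsPolygon q) (hq' : IsPolygon q') (hw : Win0 q q' J J' d) :
    OvW q' J' d A ↔ OvW q J d A := by
  unfold OvW
  constructor
  · rintro ⟨a, b, h1, h2, h3, h4, h5⟩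
    exact ⟨a, b, h1, h2, h3, by rwa [← hw.be hq hq' (by omega)], by rwa [← hw.be hq hq' h3]⟩
  · rintro ⟨a, b, h1, h2, h3, h4, h5⟩
    exact ⟨a, b, h1, h2, h3, by rwa [hw.be hq hq' (by omega)], by rwa [hw.be hq hq' h3]⟩

theorem ovW_pq (hT : Rt T s) (hq : IsPolygon q) :
    OvW q J d (T.imE A) ↔ OvW (pq T q) J d A := by
  unfold OvW
  simp only [mem_be_pq hT hq]

/-- **The indicators agree.** -/
theorem KI_T (hT : Rt T s) (hq : IsPolygon q) (hq' : IsPolygon q')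
    {c' : ℤ × ℤ} (hW : SameW T D η c D' η' c' R) (hw : Win0 q (pq T q') J J' d) (hr : r + 1 ≤ R)
    (ω : Cfg) : KI q' D' J' d c' r (T.C ω) = KI q D J d c r ω := by
  classical
  obtain rfl := hW.cen
  have hdom : ∀ v ∈ Bq c (r + 1), v ∈ D ↔ v ∈ T.pre D' := fun v hv => by
    rw [T.mem_pre]
    exact hW.dom v (bq_sub hr hv)
  have e : (∃ A ∈ pcs (T.C ω) D', (∀ e ∈ A, hdv e ∈ Bq (T.S c) r) ∧ OvW q' J' d A) ↔
      ∃ A ∈ pcs ω D, (∀ e ∈ A, hdv e ∈ Bq c r) ∧ OvW q J d A := by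
    constructor
    · rintro ⟨A, h1, h2, h3⟩
      have h4 : pcs (T.C ω) D' = (pcs ω (T.pre D')).image T.imE := by
        have := T.pcsT (ω := ω) (D := T.pre D')
        rwa [T.im_pre] at this
      rw [h4, mem_image] at h1
      obtain ⟨A, h1, rfl⟩ := h1
      rw [in_T hT.o] at h2
      refine ⟨A, mem_pcs_near (fun v hv => (hdom v hv).symm) h1 h2, h2, ?_⟩
      rwa [ovW_pq hT hq', ovW_near hq (hT.poly hq') hw] at h3
    · rintro ⟨A, h1, h2, h3⟩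
      have h4 : pcs (T.C ω) D' = (pcs ω (T.pre D')).image T.imE := by
        have := T.pcsT (ω := ω) (D := T.pre D')
        rwa [T.im_pre] at this
      refine ⟨T.imE A, ?_, (in_T hT.o).2 h2, ?_⟩
      · rw [h4]
        exact mem_image_of_mem _ (mem_pcs_near hdom h1 h2)
      · rwa [ovW_pq hT hq', ovW_near hq (hT.poly hq') hw]
  unfold KI
  simp only [e]

/-- **[LK] for the indicators**, also between a base and an interior site. -/
theorem lkK (hQ : Kit Q) (hR : RSW Q) (hS : SRSW Q) : ∃ K : ℝ, 1 ≤ K ∧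
    ∀ {N k N' k' : ℕ} {q : ZMod N → ℤ × ℤ} {q' : ZMod N' → ℤ × ℤ} {D D' : Finset (ℤ × ℤ)}
      {η₀ η₀' : Cfg} {τ τ' : ℕ → ℤ} {r R m m' : ℤ} {j j' d n n' L L' : ℕ},
      LkD n N q D k τ L m η₀ → LkD n' N' q' D' k' τ' L' m' η₀' →
      SameI d N k q τ j N' k' q' τ' j' → FarI N k L j → FarI N' k' L' j' →
      3 * (R + 1) < n → 3 * (R + 1) < n' → 2 * (R + 1) ≤ d → R ≤ m → R ≤ m' → 1 ≤ r → K * r ≤ R →
      ∀ {η η' : Cfg}, Dob η D q k → Dob η' D' q' k' →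
      Ex Q D η (KI q D (jB N j) d (q (j : ZMod N)) r) ≤
          2 * Ex Q D' η' (KI q' D' (jB N' j') d (q' (j' : ZMod N')) r) ∧
        Ex Q D' η' (KI q' D' (jB N' j') d (q' (j' : ZMod N')) r) ≤
          2 * Ex Q D η (KI q D (jB N j) d (q (j : ZMod N)) r) := by
  obtain ⟨K, hK, key⟩ := lkF hQ hR hS
  refine ⟨K + 1, by linarith, ?_⟩
  intro N k N' k' q q' D D' η₀ η₀' τ τ' r R m m' j j' d n n' L L' h h' hI hF hF' h3
    h3' hRd hm hm' hr hrR η η' hη hη'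
  have hr' : (1 : ℝ) ≤ r := by exact_mod_cast hr
  have hr1 : r + 1 ≤ R := by
    have : ((r + 1 : ℤ) : ℝ) ≤ R := by
      push_cast
      nlinarith
    exact_mod_cast this
  have hR1 : 1 ≤ R := by omega
  obtain ⟨s, hT, hW, hw⟩ := sameW_of h h' hI hF hF' hR1 h3 h3' hRd hm hm'
  have hB := h.reg.bd (q (j : ZMod N)) (H718.q_mem_sites h.poly h.enc _) R hR1 hm
  rw [H167.Q.ex_dobE h.poly h.enc h.kle hη h.dob hQ.pos (KI_locD _ _ _ _ _ _),
    H167.Q.ex_dobE h'.poly h'.enc h'.kle hη' h'.dob hQ.pos (KI_locD _ _ _ _ _ _)]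
  refine key hW h.reg.good h'.reg.good hB hr (by nlinarith) (fun ω => KI_nonneg)
    (KI_loc _ _ _ _ _ _) fun ω => ?_
  exact KI_T (r := r) hT h.poly h'.poly hW hw hr1 ω

end Vale.Agent.P167.N.QL
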