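import Vale.Agent.P167.N.QL.NaR
import Vale.Agent.P167.N.QL.LkP
import Vale.Agent.P167.N.QL.Al5

/-!
# P167, the range `0 < q < 1`, block Q-LAM: the windows of the families

The windows `WinI` around the centres of the translates of the natural functionals and of their
images, and the increments of the phases `phA` and `rc - phA` in these windows.
-/

set_option autoImplicit false

namespace Vale.Agent.P167.N.QL

open Finset Filter Vale.Agent.P167.BR Vale.Agent.P167.FK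
open Vale.Agent.P167.E6 (IsPolygon Encloses dir face)
open Vale.Agent.P167.H825 (enl pdir tn)
open Vale.Agent.P167.H718 (Dob rc poly_add encl_add)
open Vale.Agent.P167.H871 (Bd)
open Vale.Agent.P167.H542.Q (BD)
open Vale.Agent.P167.H760.Q (BaseQ JunQ pb q_pos)

/-! ### the increments of the phases -/

section inc

variable {N k m : ℕ} {q : ZMod N → ℤ × ℤ} {θ β : ℝ} {C : Finset ℕ}

theorem phP_none {j : ℕ} (h0 : 0 < j) (h : ∀ c ∈ C, j ≠ rI q k c ∧ j ≠ rI q k c + m) :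
    phP θ q k C m j - phP θ q k C m (j - 1) = 0 := by
  by_contra hcon
  obtain ⟨c, hc, h1⟩ := phP_jump (θ := θ) h0 (fun h2 => hcon (by rw [h2, sub_self]))
  have h3 := h c hc
  rcases h1 with h1 | h1
  · exact h3.1 h1
  · exact h3.2 h1

theorem phP_atc (hC : ∀ c ∈ C, ∀ c' ∈ C, c < c' → c + m + 1 < c') (hm : 0 < m) {c : ℕ}
    (hc : c ∈ C) (h0 : 0 < rI q k c) :
    phP θ q k C m (rI q k c) - phP θ q k C m (rI q k c - 1) = θ := by
  rw [phP_in hC hc le_rfl (by omega), phP_out, sub_zero]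
  rintro c' hc' ⟨h1, h2⟩
  have h3 := rI_or q k c
  have h4 := rI_or q k c'
  rcases lt_trichotomy c c' with h5 | h5 | h5
  · have := hC c hc c' hc' h5
    omega
  · subst h5
    omega
  · have := hC c' hc' c hc h5
    omega

theorem phP_atz (hC : ∀ c ∈ C, ∀ c' ∈ C, c < c' → c + m + 1 < c') (hm : 0 < m) {c : ℕ}
    (hc : c ∈ C) :
    phP θ q k C m (rI q k c + m) - phP θ q k C m (rI q k c + m - 1) = -θ := by
  rw [phP_in hC hc (j := rI q k c + m - 1) (by omega) (by omega), phP_out, zero_sub]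
  rintro c' hc' ⟨h1, h2⟩
  have h3 := rI_or q k c
  have h4 := rI_or q k c'
  rcases lt_trichotomy c c' with h5 | h5 | h5
  · have := hC c hc c' hc' h5
    omega
  · subst h5
    omega
  · have := hC c' hc' c hc h5
    omega

/-- The increments of `phA`. -/
theorem phA_stp {x : Bool} {i : ℕ} (h0 : 0 < i) :
    phA θ q k C m x i - phA θ q k C m x (i - 1) =
      (phP θ q k C m i - phP θ q k C m (i - 1)) - if x = true ∧ i = 1 then θ else 0 := by
  unfold phA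
  by_cases hx : x = true
  · by_cases h1 : i = 1
    · subst h1
      simp only [hx, true_and, Nat.sub_self, le_refl, if_true, show ¬ (1 ≤ 0) by omega, if_false]
      ring
    · simp only [hx, true_and, h1, show 1 ≤ i by omega, show 1 ≤ i - 1 by omega, if_true, if_false]
      ring
  · simp only [hx, false_and, if_false, Bool.false_eq_true]
    ring

/-- The increments of the phases of the image. -/
theorem rc_inc {τ : ℕ → ℤ} {i : ℕ} (h0 : 0 < i) :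
    rc θ β τ k i - rc θ β τ k (i - 1) =
      (if i = k then -(2 * β) else 0) - θ / 2 * ((τ i - τ (i - 1) : ℤ) : ℝ) := by
  unfold rc
  push_cast
  rcases lt_trichotomy i k with h | h | h
  · rw [if_pos h, if_pos (by omega), if_neg (by omega)]
    ring
  · rw [if_neg (by omega), if_pos (by omega), if_pos h]
    ring
  · rw [if_neg (by omega), if_neg (by omega), if_neg (by omega)]
    ring

end inc

/-! ### the centres -/

variable {S : CA.Dat} {θ β : ℝ} {X : BD S θ β} {s : ℕ → ℕ} {e C : ℝ} {Rs ja : Finset ℕ} {n : ℕ}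

/-- The numbers of two centres of different kinds. -/
theorem Sc.gap (H : Sc X s e Rs ja C n) (he : 0 < e) (he1 : 2 * e ≤ S.tp)
    (he2 : e ≤ 1 - S.tp) (hRs : Rs ⊆ Tn S) (hbig : 8 * (C + 1) < e * n) {N' : ℕ}
    (q' : ZMod N' → ℤ × ℤ) {a b : ℕ × Fin 3} (ha : a ∈ ids S Rs ja) (hb : b ∈ ids S Rs ja)
    (hab : a ≠ b) :
    jn q' (X.k n) (t0 S s n) (me e n) n a + ⌊e / 2 * n⌋₊ ≤ jn q' (X.k n) (t0 S s n) (me e n) n b ∨
      jn q' (X.k n) (t0 S s n) (me e n) n b + ⌊e / 2 * n⌋₊ ≤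
        jn q' (X.k n) (t0 S s n) (me e n) n a := by
  have h1 : jn q' (X.k n) (t0 S s n) (me e n) n a ∈ JT S s e Rs ja q' (X.k n) n :=
    mem_image_of_mem _ ha
  have h2 : jn q' (X.k n) (t0 S s n) (me e n) n b ∈ JT S s e Rs ja q' (X.k n) n :=
    mem_image_of_mem _ hb
  rcases lt_trichotomy (jn q' (X.k n) (t0 S s n) (me e n) n a)
    (jn q' (X.k n) (t0 S s n) (me e n) n b) with h | h | h
  · exact Or.inl (H.sepT he he1 he2 hRs hbig q' h1 h2 h).1
  · exfalso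
    have h3 := H.posT q' ha
    have h4 := H.posT q' hb
    have h5 := vv_gap he he1 he2 hab
    have hn0 : (0 : ℝ) < n := by exact_mod_cast H.n0
    have h6 : e * n ≤ |vv e S.tp a - vv e S.tp b| * n := mul_le_mul_of_nonneg_right h5 hn0.le
    rw [h] at h3
    rw [abs_le] at h3 h4
    have h7 : |vv e S.tp a - vv e S.tp b| * n ≤ 2 * (C + 1) := by
      rw [← abs_of_pos hn0, ← abs_mul, abs_le]
      constructor <;> linarith
    have h8 := H.C1
    linarith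
  · exact Or.inr (H.sepT he he1 he2 hRs hbig q' h2 h1 h).1

/-- A centre with a number near the number of another centre is the same centre. -/
theorem Sc.near_id (H : Sc X s e Rs ja C n) (he : 0 < e) (he1 : 2 * e ≤ S.tp)
    (he2 : e ≤ 1 - S.tp) (hRs : Rs ⊆ Tn S) (hbig : 8 * (C + 1) < e * n) {N' : ℕ}
    (q' : ZMod N' → ℤ × ℤ) {a b : ℕ × Fin 3} (ha : a ∈ ids S Rs ja) (hb : b ∈ ids S Rs ja) {d i : ℕ}
    (hd : d + 3 ≤ ⌊e / 2 * n⌋₊)
    (h1 : jn q' (X.k n) (t0 S s n) (me e n) n a ≤ i + d)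
    (h2 : i ≤ jn q' (X.k n) (t0 S s n) (me e n) n a + d)
    (h3 : jn q' (X.k n) (t0 S s n) (me e n) n b ≤ i + 2)
    (h4 : i ≤ jn q' (X.k n) (t0 S s n) (me e n) n b + 2) : b = a := by
  by_contra hcon
  rcases H.gap he he1 he2 hRs hbig q' ha hb (Ne.symm hcon) with h | h <;> omega

theorem jn_0 {N' : ℕ} (q' : ZMod N' → ℤ × ℤ) (k t₀ m n : ℕ) : jn q' k t₀ m n (0, 2) = 0 := by
  unfold jn
  have e1 : ((2 : Fin 3) = 0) = False := by simp
  have e2 : ((2 : Fin 3) = 1) = False := by simp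
  simp only [e1, e2, if_false, if_true]

theorem jn_c {N' : ℕ} (q' : ZMod N' → ℤ × ℤ) (k t₀ m n i : ℕ) :
    jn q' k t₀ m n (i, 0) = i * n - t₀ := by
  unfold jn
  simp only [if_true]

theorem jn_z {N' : ℕ} (q' : ZMod N' → ℤ × ℤ) (k t₀ m n i : ℕ) :
    jn q' k t₀ m n (i, 1) = rI q' k (i * n - t₀) + m := by
  unfold jn
  have e1 : ((1 : Fin 3) = 0) = False := by simp
  simp only [e1, if_false, if_true]

theorem jn_k {N' : ℕ} (q' : ZMod N' → ℤ × ℤ) (k t₀ m n i : ℕ) (hi : 0 < i) :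
    jn q' k t₀ m n (i, 2) = k := by
  unfold jn
  have e1 : ((2 : Fin 3) = 0) = False := by simp
  have e2 : ((2 : Fin 3) = 1) = False := by simp
  simp only [e1, e2, if_false, if_neg hi.ne']

theorem ids_0 : ((0 : ℕ), (2 : Fin 3)) ∈ ids S Rs ja := by
  unfold ids
  simp

theorem ids_c {i : ℕ} (hi : i ∈ Tn S) : (i, (0 : Fin 3)) ∈ ids S Rs ja := by
  unfold ids
  simp [hi]

theorem ids_z {i : ℕ} (hi : i ∈ Rs) : (i, (1 : Fin 3)) ∈ ids S Rs ja := by
  unfold ids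
  simp [hi]

theorem ids_k {i : ℕ} (hi : i ∈ ja) : (i, (2 : Fin 3)) ∈ ids S Rs ja := by
  unfold ids
  simp [hi]

/-- The centres different from the base are far from the base. -/
theorem Sc.mid (H : Sc X s e Rs ja C n) (he : 0 < e) (he1 : 2 * e ≤ S.tp)
    (he2 : e ≤ 1 - S.tp) (hRs : Rs ⊆ Tn S) (hbig : 8 * (C + 1) < e * n) {N' : ℕ}
    (q' : ZMod N' → ℤ × ℤ) {a : ℕ × Fin 3} (ha : a ∈ ids S Rs ja) (h0 : a ≠ (0, 2)) :
    ⌊e / 2 * n⌋₊ ≤ jn q' (X.k n) (t0 S s n) (me e n) n a ∧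
      jn q' (X.k n) (t0 S s n) (me e n) n a + ⌊e / 2 * n⌋₊ ≤ X.N n := by
  have h1 := H.gap he he1 he2 hRs hbig q' ha ids_0 h0
  rw [jn_0] at h1
  have hL : 0 < ⌊e / 2 * (n : ℝ)⌋₊ := by
    rw [Nat.floor_pos]
    have := H.C1
    linarith
  have h2 : ⌊e / 2 * (n : ℝ)⌋₊ ≤ jn q' (X.k n) (t0 S s n) (me e n) n a := by omega
  refine ⟨h2, ?_⟩
  have h3 := (H.sepT he he1 he2 hRs hbig q' (mem_JT0 q' (X.k n) n) (mem_image_of_mem _ ha)
    (by omega : 0 < jn q' (X.k n) (t0 S s n) (me e n) n a)).2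
  omega

/-- The length of the contour. -/
theorem Sc.L_le (H : Sc X s e Rs ja C n) (he1 : 2 * e ≤ S.tp) : 2 * ⌊e / 2 * n⌋₊ ≤ n ∧
    3 * n ≤ X.N n := by
  constructor
  · have h1 : (⌊e / 2 * (n : ℝ)⌋₊ : ℝ) ≤ e / 2 * n := by
      rcases le_or_gt 0 e with he | he
      · exact Nat.floor_le (by positivity)
      · rw [Nat.floor_of_nonpos (mul_nonpos_of_nonpos_of_nonneg (by linarith) (Nat.cast_nonneg n))]
        have h8 := H.C1
        have h9 := H.big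
        have hn0 : (0 : ℝ) < n := by exact_mod_cast H.n0
        have : e * n < 0 := mul_neg_of_neg_of_pos he hn0
        linarith
    have hn0 : (0 : ℝ) < n := by exact_mod_cast H.n0
    have h2 := S.tp1
    have h3 : e * n ≤ 1 * n := mul_le_mul_of_nonneg_right (by linarith [S.tp0]) hn0.le
    have : ((2 * ⌊e / 2 * (n : ℝ)⌋₊ : ℕ) : ℝ) ≤ n := by
      push_cast
      linarith
    exact_mod_cast this
  · rw [H.N]
    exact Nat.mul_le_mul_right n S.poly.1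

/-- The centres on the sides and at the corners are far from the junction. -/
theorem Sc.sid (H : Sc X s e Rs ja C n) (he : 0 < e) (he1 : 2 * e ≤ S.tp)
    (he2 : e ≤ 1 - S.tp) (hRs : Rs ⊆ Tn S) (hbig : 8 * (C + 1) < e * n) {N' : ℕ}
    (q' : ZMod N' → ℤ × ℤ) {a : ℕ × Fin 3} (ha : a ∈ ids S Rs ja) (h2 : a.2 ≠ 2) :
    jn q' (X.k n) (t0 S s n) (me e n) n a + ⌊e / 2 * n⌋₊ ≤ X.k n ∨
      X.k n + ⌊e / 2 * n⌋₊ ≤ jn q' (X.k n) (t0 S s n) (me e n) n a := by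
  have h0 : a ≠ (0, 2) := fun h => h2 (by rw [h])
  obtain ⟨h3, h4⟩ := H.mid he he1 he2 hRs hbig q' ha h0
  rcases H.jun with ⟨-, h5 | h5⟩ | ⟨ia, h5, h6, -⟩
  · right
    omega
  · left
    omega
  · have hk : (ia, (2 : Fin 3)) ∈ ids S Rs ja := ids_k (by rw [h5]; simp)
    have h7 := H.gap he he1 he2 hRs hbig q' ha hk (fun h => h2 (by rw [h]))
    rwa [jn_k _ _ _ _ _ _ h6] at h7

/-! ### the windows -/

/-- The corners: turning. -/
theorem Sc.turn_id (H : Sc X s e Rs ja C n) {τ : ℕ → ℤ}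
    (hτ : Bd (S.D n : Set (ℤ × ℤ)) (X.N n) (fun i => X.q n (i : ZMod (X.N n))) τ 1) {j : ℕ}
    (h0 : 0 < j) (hN : j < X.N n) (hne : τ j ≠ τ (j - 1)) :
    ∃ i ∈ Tn S, j = i * n - t0 S s n ∧ 0 < i ∧
      τ j - τ (j - 1) = H825.tn (pdir S.p (i - 1)) (pdir S.p i) := by
  have hs : ∀ j : ℕ, X.q n (j : ZMod (X.N n)) = Enl.PN S.p n (j + t0 S s n) + 0 := fun j => by
    rw [H.hs, add_zero]
  obtain ⟨i, hi0, hi, hi2⟩ := turn_dvd S.poly H.n0 hs hτ h0 hne
  refine ⟨i, ?_, by omega, hi0, turn_at S.poly H.n0 hs hτ hi0 hi h0⟩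
  unfold Tn
  rw [mem_filter, mem_Icc]
  refine ⟨⟨hi0, ?_⟩, hi2⟩
  by_contra hcon
  push Not at hcon
  have h4 : (S.l + 1) * n ≤ i * n := Nat.mul_le_mul_right n hcon
  have h5 := H.tn
  have h6 := H.N
  have h7 : (S.l + 1) * n = S.l * n + n := by ring
  omega

/-- The corner `i`: turning. -/
theorem Sc.turn_c (H : Sc X s e Rs ja C n) {τ : ℕ → ℤ}
    (hτ : Bd (S.D n : Set (ℤ × ℤ)) (X.N n) (fun i => X.q n (i : ZMod (X.N n))) τ 1) {i : ℕ}
    (hi : i ∈ Tn S) : τ (i * n - t0 S s n) - τ (i * n - t0 S s n - 1) =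
      H825.tn (pdir S.p (i - 1)) (pdir S.p i) := by
  have hs : ∀ j : ℕ, X.q n (j : ZMod (X.N n)) = Enl.PN S.p n (j + t0 S s n) + 0 := fun j => by
    rw [H.hs, add_zero]
  unfold Tn at hi
  rw [mem_filter, mem_Icc] at hi
  have h4 : n ≤ i * n := Nat.le_mul_of_pos_left n hi.1.1
  have h5 := H.tn
  exact turn_at S.poly H.n0 hs hτ (i := i) (by omega) (by omega) (by omega)

theorem tn_of_Tn {i : ℕ} (hi : i ∈ Tn S) (hi' : i ∉ Rf S) :
    H825.tn (pdir S.p (i - 1)) (pdir S.p i) = 1 := by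
  unfold Tn at hi
  unfold Rf at hi'
  rw [mem_filter] at hi hi'
  have h1 : H825.tn (pdir S.p (i - 1)) (pdir S.p i) ≠ -1 := fun h => hi' ⟨hi.1, h⟩
  have h2 := hi.2
  revert h1 h2
  unfold H825.tn
  split_ifs <;> simp

theorem tn_of_Rf {i : ℕ} (hi : i ∈ Rf S) :
    H825.tn (pdir S.p (i - 1)) (pdir S.p i) = -1 := by
  unfold Rf at hi
  rw [mem_filter] at hi
  exact hi.2

section win

variable {N' : ℕ} (q' : ZMod N' → ℤ × ℤ) {τ : ℕ → ℤ} {d i : ℕ}

/-- The turning in the window of a centre. -/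
theorem Sc.turn_w (H : Sc X s e Rs ja C n) (he : 0 < e) (he1 : 2 * e ≤ S.tp)
    (he2 : e ≤ 1 - S.tp) (hRs : Rs ⊆ Tn S) (hbig : 8 * (C + 1) < e * n)
    (hτ : Bd (S.D n : Set (ℤ × ℤ)) (X.N n) (fun i => X.q n (i : ZMod (X.N n))) τ 1)
    (hd : d + 3 ≤ ⌊e / 2 * n⌋₊) {a : ℕ × Fin 3} (ha : a ∈ ids S Rs ja)
    (h0 : 0 < i) (hN : i < X.N n) (hne : τ i ≠ τ (i - 1))
    (h1 : jn q' (X.k n) (t0 S s n) (me e n) n a ≤ i + d)
    (h2 : i ≤ jn q' (X.k n) (t0 S s n) (me e n) n a + d) :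
    a.2 = 0 ∧ i = jn q' (X.k n) (t0 S s n) (me e n) n a := by
  obtain ⟨i', hi', h3, -, -⟩ := H.turn_id hτ h0 hN hne
  have hb : (i', (0 : Fin 3)) ∈ ids S Rs ja := ids_c hi'
  have h4 := H.near_id he he1 he2 hRs hbig q' ha hb hd h1 h2 (by rw [jn_c]; omega)
    (by rw [jn_c]; omega)
  rw [← h4, jn_c]
  exact ⟨rfl, h3⟩

/-- The legs at a centre are straight. -/
theorem Sc.str (H : Sc X s e Rs ja C n) (he : 0 < e) (he1 : 2 * e ≤ S.tp)
    (he2 : e ≤ 1 - S.tp) (hRs : Rs ⊆ Tn S) (hbig : 8 * (C + 1) < e * n)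
    (hτ : Bd (S.D n : Set (ℤ × ℤ)) (X.N n) (fun i => X.q n (i : ZMod (X.N n))) τ 1)
    (hd : d + 3 ≤ ⌊e / 2 * n⌋₊) {a : ℕ × Fin 3} (ha : a ∈ ids S Rs ja) (h0 : a ≠ (0, 2)) :
    Str τ (jn q' (X.k n) (t0 S s n) (me e n) n a) d := by
  obtain ⟨h3, h4⟩ := H.mid he he1 he2 hRs hbig q' ha h0
  obtain ⟨j, hj⟩ : ∃ j, j = jn q' (X.k n) (t0 S s n) (me e n) n a := ⟨_, rfl⟩
  have key : ∀ i, 0 < i → i < X.N n → i ≠ j → j ≤ i + d → i ≤ j + d → τ i = τ (i - 1) := by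
    intro i h5 h6 h7 h8 h9
    by_contra hcon
    rw [hj] at h7 h8 h9
    exact h7 (H.turn_w q' he he1 he2 hRs hbig hτ hd ha h5 h6 hcon h8 h9).2
  rw [← hj] at h3 h4 ⊢
  refine ⟨fun i h1 h2 => ?_, fun i h1 h2 => ?_⟩
  · obtain ⟨x, rfl⟩ := Nat.exists_eq_add_of_le h1
    induction x with
    | zero => rfl
    | succ x ih =>
      have h5 := key (j + (x + 1)) (by omega) (by omega) (by omega) (by omega) (by omega)
      rw [show j + (x + 1) - 1 = j + x by omega] at h5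
      rw [h5]
      exact ih (by omega) (by omega)
  · obtain ⟨x, hx⟩ : ∃ x, i + x = j - 1 := ⟨j - 1 - i, by omega⟩
    induction x generalizing i with
    | zero => rw [← hx]; rfl
    | succ x ih =>
      have h5 := key (i + 1) (by omega) (by omega) (by omega) (by omega) (by omega)
      rw [Nat.add_sub_cancel] at h5
      rw [← h5]
      exact ih (i + 1) (by omega) (by omega) (by omega)

/-- The legs at the base are straight. -/
theorem Sc.str0 (H : Sc X s e Rs ja C n) (he : 0 < e) (he1 : 2 * e ≤ S.tp)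
    (he2 : e ≤ 1 - S.tp) (hRs : Rs ⊆ Tn S) (hbig : 8 * (C + 1) < e * n)
    (hτ : Bd (S.D n : Set (ℤ × ℤ)) (X.N n) (fun i => X.q n (i : ZMod (X.N n))) τ 1)
    (hd : d + 3 ≤ ⌊e / 2 * n⌋₊) : (∀ i ≤ d, τ i = τ 0) ∧
      (∀ i < X.N n, X.N n ≤ i + d → τ i = τ (X.N n - 1)) ∧ τ (X.N n - 1) = τ 0 + 4 := by
  have hL := H.L_le he1
  have hn := H.n0
  have key : ∀ i, 0 < i → i < X.N n → i ≤ d ∨ X.N n ≤ i + d → τ i = τ (i - 1) := by
    intro i h5 h6 h7
    by_contra hcon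
    obtain ⟨i', hi', h3, -, -⟩ := H.turn_id hτ h5 h6 hcon
    have hb : (i', (0 : Fin 3)) ∈ ids S Rs ja := ids_c hi'
    have h8 := H.mid he he1 he2 hRs hbig (X.q n) hb (fun h => by simp at h)
    rw [jn_c, ← h3] at h8
    omega
  have hper : ∀ j, τ (j + X.N n) = τ j + 4 := fun j => by
    have := hτ.per j
    rwa [mul_one] at this
  have hA : ∀ i ≤ d, τ i = τ 0 := by
    intro i hi
    induction i with
    | zero => rfl
    | succ x ih =>
      have h5 := key (x + 1) (by omega) (by omega) (Or.inl hi)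
      rw [Nat.add_sub_cancel] at h5
      rw [h5]
      exact ih (by omega)
  have hs : ∀ j : ℕ, X.q n (j : ZMod (X.N n)) = Enl.PN S.p n (j + t0 S s n) + 0 := fun j => by
    rw [H.hs, add_zero]
  refine ⟨hA, fun i h1 h2 => ?_, ?_⟩
  · obtain ⟨x, hx⟩ : ∃ x, i + x = X.N n - 1 := ⟨X.N n - 1 - i, by omega⟩
    induction x generalizing i with
    | zero => rw [← hx]; rfl
    | succ x ih =>
      have h5 := key (i + 1) (by omega) (by omega) (Or.inr (by omega))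
      rw [Nat.add_sub_cancel] at h5
      rw [← h5]
      exact ih (i + 1) (by omega) (by omega) (by omega)
  · by_contra hcon
    have h1 := hper 0
    rw [zero_add] at h1
    rw [← h1] at hcon
    have h2 : τ (X.N n) ≠ τ (X.N n - 1) := fun h => hcon h.symm
    obtain ⟨i, hi0, hi, -⟩ := turn_dvd S.poly H.n0 hs hτ (by omega) h2
    -- the base is not a corner
    have h3 := H.N
    have h4 := H.tn
    have h5 := H.t0_ge.1
    have h6 := H.C1
    have h7 : 2 * e * n ≤ S.tp * n := mul_le_mul_of_nonneg_right he1 (Nat.cast_nonneg _)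
    have h8 : (0 : ℝ) < (t0 S s n : ℕ) := by linarith
    have h9 : 0 < t0 S s n := by exact_mod_cast h8
    rw [h3] at hi
    have h10 : S.l < i := by
      by_contra hc
      push Not at hc
      have := Nat.mul_le_mul_right n hc
      omega
    have h11 : (S.l + 1) * n ≤ i * n := Nat.mul_le_mul_right n h10
    have h12 : (S.l + 1) * n = S.l * n + n := by ring
    omega

/-- **The window of the base.** -/
theorem Sc.win_0 (H : Sc X s e Rs ja C n) (he : 0 < e) (he1 : 2 * e ≤ S.tp)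
    (he2 : e ≤ 1 - S.tp) (hRs : Rs ⊆ Tn S) (hbig : 8 * (C + 1) < e * n)
    (hτ : Bd (S.D n : Set (ℤ × ℤ)) (X.N n) (fun i => X.q n (i : ZMod (X.N n))) τ 1)
    (hd : d + 3 ≤ ⌊e / 2 * n⌋₊) : WinI d (X.N n) τ 0 0 := by
  obtain ⟨h1, h2, h3⟩ := H.str0 he he1 he2 hRs hbig hτ hd
  have hL := H.L_le he1
  have hn := H.n0
  have hper : ∀ j, τ (j + X.N n) = τ j + 4 := fun j => by
    have := hτ.per j
    rwa [mul_one] at this
  have h4 := hper 0
  rw [zero_add] at h4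
  have e0 : jB (X.N n) 0 = X.N n := rfl
  refine ⟨by omega, ?_, by rw [e0]; omega, by rw [e0, h4, h3]; ring⟩
  rw [e0]
  refine ⟨fun i h5 h6 => ?_, fun i h5 h6 => h2 i h6 h5⟩
  obtain ⟨x, rfl⟩ := Nat.exists_eq_add_of_le h5
  rw [add_comm, hper, h4, h1 x (by omega)]

/-- The windows of the other centres. -/
theorem Sc.win_of (H : Sc X s e Rs ja C n) (he : 0 < e) (he1 : 2 * e ≤ S.tp)
    (he2 : e ≤ 1 - S.tp) (hRs : Rs ⊆ Tn S) (hbig : 8 * (C + 1) < e * n)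
    (hτ : Bd (S.D n : Set (ℤ × ℤ)) (X.N n) (fun i => X.q n (i : ZMod (X.N n))) τ 1)
    (hd : d + 3 ≤ ⌊e / 2 * n⌋₊) {a : ℕ × Fin 3} (ha : a ∈ ids S Rs ja) (h0 : a ≠ (0, 2)) {t : ℤ}
    (ht : τ (jn q' (X.k n) (t0 S s n) (me e n) n a) -
      τ (jn q' (X.k n) (t0 S s n) (me e n) n a - 1) = t) :
    WinI d (X.N n) τ (jn q' (X.k n) (t0 S s n) (me e n) n a) t := by
  obtain ⟨h3, h4⟩ := H.mid he he1 he2 hRs hbig q' ha h0
  have e1 : jB (X.N n) (jn q' (X.k n) (t0 S s n) (me e n) n a) =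
      jn q' (X.k n) (t0 S s n) (me e n) n a := by
    unfold jB
    rw [if_neg (by omega)]
  refine ⟨by omega, ?_, ?_, ?_⟩
  · rw [e1]
    exact H.str q' he he1 he2 hRs hbig hτ hd ha h0
  · rw [e1]
    omega
  · rw [e1, ht]

/-- The window of a convex corner. -/
theorem Sc.win_c (H : Sc X s e Rs ja C n) (he : 0 < e) (he1 : 2 * e ≤ S.tp)
    (he2 : e ≤ 1 - S.tp) (hRs : Rs ⊆ Tn S) (hbig : 8 * (C + 1) < e * n)
    (hτ : Bd (S.D n : Set (ℤ × ℤ)) (X.N n) (fun i => X.q n (i : ZMod (X.N n))) τ 1)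
    (hd : d + 3 ≤ ⌊e / 2 * n⌋₊) (hi : i ∈ Tn S) (hi' : i ∉ Rf S) :
    WinI d (X.N n) τ (i * n - t0 S s n) 1 := by
  have h1 := H.win_of (X.q n) he he1 he2 hRs hbig hτ hd (ids_c (ja := ja) hi) (fun h => by simp at h)
    (t := 1) (by rw [jn_c, H.turn_c hτ hi, tn_of_Tn hi hi'])
  rwa [jn_c] at h1

/-- The window of a reflex corner. -/
theorem Sc.win_r (H : Sc X s e Rs ja C n) (he : 0 < e) (he1 : 2 * e ≤ S.tp)
    (he2 : e ≤ 1 - S.tp) (hRs : Rs ⊆ Tn S) (hbig : 8 * (C + 1) < e * n)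
    (hτ : Bd (S.D n : Set (ℤ × ℤ)) (X.N n) (fun i => X.q n (i : ZMod (X.N n))) τ 1)
    (hd : d + 3 ≤ ⌊e / 2 * n⌋₊) (hi : i ∈ Rf S) :
    WinI d (X.N n) τ (i * n - t0 S s n) (-1) := by
  have h1 := H.win_of (X.q n) he he1 he2 hRs hbig hτ hd (ids_c (ja := ja) (Rf_sub S hi))
    (fun h => by simp at h) (t := -1) (by rw [jn_c, H.turn_c hτ (Rf_sub S hi), tn_of_Rf hi])
  rwa [jn_c] at h1

/-- The turning at the centres which are not corners. -/
theorem Sc.turn_0 (H : Sc X s e Rs ja C n) (he : 0 < e) (he1 : 2 * e ≤ S.tp)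
    (he2 : e ≤ 1 - S.tp) (hRs : Rs ⊆ Tn S) (hbig : 8 * (C + 1) < e * n)
    (hτ : Bd (S.D n : Set (ℤ × ℤ)) (X.N n) (fun i => X.q n (i : ZMod (X.N n))) τ 1)
    (hd : d + 3 ≤ ⌊e / 2 * n⌋₊) {a : ℕ × Fin 3} (ha : a ∈ ids S Rs ja) (h0 : a ≠ (0, 2))
    (h2 : a.2 ≠ 0) : τ (jn q' (X.k n) (t0 S s n) (me e n) n a) -
      τ (jn q' (X.k n) (t0 S s n) (me e n) n a - 1) = 0 := by
  obtain ⟨h3, h4⟩ := H.mid he he1 he2 hRs hbig q' ha h0
  by_contra hcon
  exact h2 (H.turn_w q' he he1 he2 hRs hbig hτ hd ha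
    (i := jn q' (X.k n) (t0 S s n) (me e n) n a) (by omega) (by omega)
    (fun h => hcon (by rw [h, sub_self])) (by omega) (by omega)).1

/-- The window of a compensating charge. -/
theorem Sc.win_z (H : Sc X s e Rs ja C n) (he : 0 < e) (he1 : 2 * e ≤ S.tp)
    (he2 : e ≤ 1 - S.tp) (hRs : Rs ⊆ Tn S) (hbig : 8 * (C + 1) < e * n)
    (hτ : Bd (S.D n : Set (ℤ × ℤ)) (X.N n) (fun i => X.q n (i : ZMod (X.N n))) τ 1)
    (hd : d + 3 ≤ ⌊e / 2 * n⌋₊) (hi : i ∈ Rs) :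
    WinI d (X.N n) τ (rI q' (X.k n) (i * n - t0 S s n) + me e n) 0 := by
  have ha : (i, (1 : Fin 3)) ∈ ids S Rs ja := ids_z hi
  have h1 := H.win_of q' he he1 he2 hRs hbig hτ hd ha (fun h => by simp at h) (t := 0)
    (H.turn_0 q' he he1 he2 hRs hbig hτ hd ha (fun h => by simp at h) (by simp))
  rwa [jn_z] at h1

/-- The window of the junction. -/
theorem Sc.win_k (H : Sc X s e Rs ja C n) (he : 0 < e) (he1 : 2 * e ≤ S.tp)
    (he2 : e ≤ 1 - S.tp) (hRs : Rs ⊆ Tn S) (hbig : 8 * (C + 1) < e * n)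
    (hτ : Bd (S.D n : Set (ℤ × ℤ)) (X.N n) (fun i => X.q n (i : ZMod (X.N n))) τ 1)
    (hd : d + 3 ≤ ⌊e / 2 * n⌋₊) (hi : i ∈ ja) :
    WinI d (X.N n) τ (X.k n) 0 := by
  have ha : (i, (2 : Fin 3)) ∈ ids S Rs ja := ids_k hi
  have hi0 := (H.ja_lt i hi).1
  have h1 := H.win_of (X.q n) he he1 he2 hRs hbig hτ hd ha (fun h => by simp at h; omega) (t := 0)
    (H.turn_0 (X.q n) he he1 he2 hRs hbig hτ hd ha (fun h => by simp at h; omega) (by simp))
  rwa [jn_k _ _ _ _ _ _ hi0] at h1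

end win

/-! ### the increments in the windows -/

section incw

variable {N' : ℕ} (q' : ZMod N' → ℤ × ℤ) {τ : ℕ → ℤ} {d i i' : ℕ} {θ' β' : ℝ} {x : Bool}

/-- No charges near the base, the junction and the convex corners. -/
theorem Sc.phP_w0 (H : Sc X s e Rs ja C n) (he : 0 < e) (he1 : 2 * e ≤ S.tp)
    (he2 : e ≤ 1 - S.tp) (hRs : Rs ⊆ Tn S) (hbig : 8 * (C + 1) < e * n)
    (hd : d + 3 ≤ ⌊e / 2 * n⌋₊) {a : ℕ × Fin 3} (ha : a ∈ ids S Rs ja)
    (h2 : ∀ i ∈ Rs, a ≠ (i, 0) ∧ a ≠ (i, 1)) (h0 : 0 < i)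
    (h1 : jn q' (X.k n) (t0 S s n) (me e n) n a ≤ i + d)
    (h3 : i ≤ jn q' (X.k n) (t0 S s n) (me e n) n a + d) :
    phP θ' q' (X.k n) (Rs.image fun i => i * n - t0 S s n) (me e n) i -
      phP θ' q' (X.k n) (Rs.image fun i => i * n - t0 S s n) (me e n) (i - 1) = 0 := by
  refine phP_none h0 fun c hc => ?_
  obtain ⟨l, hl, rfl⟩ := mem_image.1 hc
  have hr := rI_or q' (X.k n) (l * n - t0 S s n)
  constructor
  · intro h
    have h4 := H.near_id he he1 he2 hRs hbig q' ha (b := (l, 0)) (ids_c (hRs hl)) hd h1 h3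
      (by rw [jn_c]; omega) (by rw [jn_c]; omega)
    exact (h2 l hl).1 h4.symm
  · intro h
    have h4 := H.near_id he he1 he2 hRs hbig q' ha (b := (l, 1)) (ids_z hl) hd h1 h3
      (by rw [jn_z]; omega) (by rw [jn_z]; omega)
    exact (h2 l hl).2 h4.symm

/-- The charge near a corner. -/
theorem Sc.phP_wr (H : Sc X s e Rs ja C n) (he : 0 < e) (he1 : 2 * e ≤ S.tp)
    (he2 : e ≤ 1 - S.tp) (hRs : Rs ⊆ Tn S) (hbig : 8 * (C + 1) < e * n)
    (hd : d + 3 ≤ ⌊e / 2 * n⌋₊) (hi' : i' ∈ Rs) (h0 : 0 < i)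
    (h1 : i' * n - t0 S s n ≤ i + d) (h3 : i ≤ i' * n - t0 S s n + d) :
    phP θ' q' (X.k n) (Rs.image fun i => i * n - t0 S s n) (me e n) i -
      phP θ' q' (X.k n) (Rs.image fun i => i * n - t0 S s n) (me e n) (i - 1) =
      if i = rI q' (X.k n) (i' * n - t0 S s n) then θ' else 0 := by
  have hC := (H.sep_img he he1 he2 hRs).1
  have ha : (i', (0 : Fin 3)) ∈ ids S Rs ja := ids_c (hRs hi')
  have hm : 0 < me e n := by unfold me; omega
  split_ifs with h4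
  · rw [h4]
    exact phP_atc hC hm (mem_image_of_mem _ hi') (by rw [← h4]; exact h0)
  · refine phP_none h0 fun c hc => ?_
    obtain ⟨l, hl, rfl⟩ := mem_image.1 hc
    have hr := rI_or q' (X.k n) (l * n - t0 S s n)
    constructor
    · intro h
      have h5 := H.near_id he he1 he2 hRs hbig q' ha (b := (l, 0)) (ids_c (hRs hl)) hd
        (by rw [jn_c]; exact h1) (by rw [jn_c]; exact h3) (by rw [jn_c]; omega)
        (by rw [jn_c]; omega)
      obtain rfl : l = i' := congrArg Prod.fst h5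
      exact h4 h
    · intro h
      have h5 := H.near_id he he1 he2 hRs hbig q' ha (b := (l, 1)) (ids_z hl) hd
        (by rw [jn_c]; exact h1) (by rw [jn_c]; exact h3) (by rw [jn_z]; omega)
        (by rw [jn_z]; omega)
      simp at h5

/-- The charge near a compensating charge. -/
theorem Sc.phP_wz (H : Sc X s e Rs ja C n) (he : 0 < e) (he1 : 2 * e ≤ S.tp)
    (he2 : e ≤ 1 - S.tp) (hRs : Rs ⊆ Tn S) (hbig : 8 * (C + 1) < e * n)
    (hd : d + 3 ≤ ⌊e / 2 * n⌋₊) (hi' : i' ∈ Rs) (h0 : 0 < i)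
    (h1 : rI q' (X.k n) (i' * n - t0 S s n) + me e n ≤ i + d)
    (h3 : i ≤ rI q' (X.k n) (i' * n - t0 S s n) + me e n + d) :
    phP θ' q' (X.k n) (Rs.image fun i => i * n - t0 S s n) (me e n) i -
      phP θ' q' (X.k n) (Rs.image fun i => i * n - t0 S s n) (me e n) (i - 1) =
      if i = rI q' (X.k n) (i' * n - t0 S s n) + me e n then -θ' else 0 := by
  have hC := (H.sep_img he he1 he2 hRs).1
  have ha : (i', (1 : Fin 3)) ∈ ids S Rs ja := ids_z hi'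
  have hm : 0 < me e n := by unfold me; omega
  split_ifs with h4
  · rw [h4]
    exact phP_atz hC hm (mem_image_of_mem _ hi')
  · refine phP_none h0 fun c hc => ?_
    obtain ⟨l, hl, rfl⟩ := mem_image.1 hc
    have hr := rI_or q' (X.k n) (l * n - t0 S s n)
    constructor
    · intro h
      have h5 := H.near_id he he1 he2 hRs hbig q' ha (b := (l, 0)) (ids_c (hRs hl)) hd
        (by rw [jn_z]; exact h1) (by rw [jn_z]; exact h3) (by rw [jn_c]; omega)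
        (by rw [jn_c]; omega)
      simp at h5
    · intro h
      have h5 := H.near_id he he1 he2 hRs hbig q' ha (b := (l, 1)) (ids_z hl) hd
        (by rw [jn_z]; exact h1) (by rw [jn_z]; exact h3) (by rw [jn_z]; omega)
        (by rw [jn_z]; omega)
      obtain rfl : l = i' := congrArg Prod.fst h5
      exact h4 h

/-- No charges near the base. -/
theorem Sc.phP_b (H : Sc X s e Rs ja C n) (he : 0 < e) (he1 : 2 * e ≤ S.tp)
    (he2 : e ≤ 1 - S.tp) (hRs : Rs ⊆ Tn S) (hbig : 8 * (C + 1) < e * n)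
    (hd : d + 3 ≤ ⌊e / 2 * n⌋₊) (h : i ≤ d ∨ X.N n ≤ i + d) :
    phP θ' q' (X.k n) (Rs.image fun i => i * n - t0 S s n) (me e n) i = 0 := by
  refine phP_out fun c hc => ?_
  obtain ⟨l, hl, rfl⟩ := mem_image.1 hc
  have hr := rI_or q' (X.k n) (l * n - t0 S s n)
  have h1 := H.mid he he1 he2 hRs hbig q' (a := (l, 0)) (ids_c (hRs hl)) (fun h => by simp at h)
  have h2 := H.mid he he1 he2 hRs hbig q' (a := (l, 1)) (ids_z hl) (fun h => by simp at h)
  rw [jn_c] at h1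
  rw [jn_z] at h2
  omega

/-- The phases `phA` near the base. -/
theorem Sc.phA_b (H : Sc X s e Rs ja C n) (he : 0 < e) (he1 : 2 * e ≤ S.tp)
    (he2 : e ≤ 1 - S.tp) (hRs : Rs ⊆ Tn S) (hbig : 8 * (C + 1) < e * n)
    (hd : d + 3 ≤ ⌊e / 2 * n⌋₊) (h : i ≤ d ∨ X.N n ≤ i + d) :
    phA θ' q' (X.k n) (Rs.image fun i => i * n - t0 S s n) (me e n) x i =
      if x = true ∧ 1 ≤ i then -θ' else 0 := by
  unfold phA
  rw [H.phP_b q' he he1 he2 hRs hbig hd h]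
  split_ifs <;> ring

/-- The increments of `phA` are those of `phP` away from the base. -/
theorem Sc.phA_w (H : Sc X s e Rs ja C n) (he : 0 < e) (he1 : 2 * e ≤ S.tp)
    (he2 : e ≤ 1 - S.tp) (hRs : Rs ⊆ Tn S) (hbig : 8 * (C + 1) < e * n)
    (hd : d + 3 ≤ ⌊e / 2 * n⌋₊) {a : ℕ × Fin 3} (ha : a ∈ ids S Rs ja) (h2 : a ≠ (0, 2))
    (h0 : 0 < i) (h1 : jn q' (X.k n) (t0 S s n) (me e n) n a ≤ i + d) :
    phA θ' q' (X.k n) (Rs.image fun i => i * n - t0 S s n) (me e n) x i -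
      phA θ' q' (X.k n) (Rs.image fun i => i * n - t0 S s n) (me e n) x (i - 1) =
    phP θ' q' (X.k n) (Rs.image fun i => i * n - t0 S s n) (me e n) i -
      phP θ' q' (X.k n) (Rs.image fun i => i * n - t0 S s n) (me e n) (i - 1) := by
  obtain ⟨h3, -⟩ := H.mid he he1 he2 hRs hbig q' ha h2
  rw [phA_stp h0, if_neg (by omega), sub_zero]

/-- **The increments of `phA`**: convex corners. -/
theorem Sc.phA_c (H : Sc X s e Rs ja C n) (he : 0 < e) (he1 : 2 * e ≤ S.tp)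
    (he2 : e ≤ 1 - S.tp) (hRs : Rs ⊆ Tn S) (hbig : 8 * (C + 1) < e * n)
    (hd : d + 3 ≤ ⌊e / 2 * n⌋₊) (hi : i' ∈ Tn S) (hi' : i' ∉ Rs) (h0 : 0 < i)
    (h1 : i' * n - t0 S s n ≤ i + d) (h3 : i ≤ i' * n - t0 S s n + d) :
    phA θ' q' (X.k n) (Rs.image fun i => i * n - t0 S s n) (me e n) x i -
      phA θ' q' (X.k n) (Rs.image fun i => i * n - t0 S s n) (me e n) x (i - 1) = 0 := by
  have ha : (i', (0 : Fin 3)) ∈ ids S Rs ja := ids_c hi
  rw [H.phA_w q' he he1 he2 hRs hbig hd ha (fun h => by simp at h) h0 (by rw [jn_c]; exact h1)]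
  refine H.phP_w0 q' he he1 he2 hRs hbig hd ha (fun l hl => ⟨fun h => ?_, fun h => ?_⟩) h0
    (by rw [jn_c]; exact h1) (by rw [jn_c]; exact h3)
  · obtain rfl : i' = l := congrArg Prod.fst h
    exact hi' hl
  · simp at h

/-- **The increments of `phA`**: corners with a charge. -/
theorem Sc.phA_r (H : Sc X s e Rs ja C n) (he : 0 < e) (he1 : 2 * e ≤ S.tp)
    (he2 : e ≤ 1 - S.tp) (hRs : Rs ⊆ Tn S) (hbig : 8 * (C + 1) < e * n)
    (hd : d + 3 ≤ ⌊e / 2 * n⌋₊) (hi' : i' ∈ Rs) (h0 : 0 < i)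
    (h1 : i' * n - t0 S s n ≤ i + d) (h3 : i ≤ i' * n - t0 S s n + d) :
    phA θ' q' (X.k n) (Rs.image fun i => i * n - t0 S s n) (me e n) x i -
      phA θ' q' (X.k n) (Rs.image fun i => i * n - t0 S s n) (me e n) x (i - 1) =
      if i = rI q' (X.k n) (i' * n - t0 S s n) then θ' else 0 := by
  have ha : (i', (0 : Fin 3)) ∈ ids S Rs ja := ids_c (hRs hi')
  rw [H.phA_w q' he he1 he2 hRs hbig hd ha (fun h => by simp at h) h0 (by rw [jn_c]; exact h1)]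
  exact H.phP_wr q' he he1 he2 hRs hbig hd hi' h0 h1 h3

/-- **The increments of `phA`**: compensating charges. -/
theorem Sc.phA_z (H : Sc X s e Rs ja C n) (he : 0 < e) (he1 : 2 * e ≤ S.tp)
    (he2 : e ≤ 1 - S.tp) (hRs : Rs ⊆ Tn S) (hbig : 8 * (C + 1) < e * n)
    (hd : d + 3 ≤ ⌊e / 2 * n⌋₊) (hi' : i' ∈ Rs) (h0 : 0 < i)
    (h1 : rI q' (X.k n) (i' * n - t0 S s n) + me e n ≤ i + d)
    (h3 : i ≤ rI q' (X.k n) (i' * n - t0 S s n) + me e n + d) :
    phA θ' q' (X.k n) (Rs.image fun i => i * n - t0 S s n) (me e n) x i -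
      phA θ' q' (X.k n) (Rs.image fun i => i * n - t0 S s n) (me e n) x (i - 1) =
      if i = rI q' (X.k n) (i' * n - t0 S s n) + me e n then -θ' else 0 := by
  have ha : (i', (1 : Fin 3)) ∈ ids S Rs ja := ids_z hi'
  rw [H.phA_w q' he he1 he2 hRs hbig hd ha (fun h => by simp at h) h0 (by rw [jn_z]; exact h1)]
  exact H.phP_wz q' he he1 he2 hRs hbig hd hi' h0 h1 h3

/-- **The increments of `phA`**: the junction. -/
theorem Sc.phA_k (H : Sc X s e Rs ja C n) (he : 0 < e) (he1 : 2 * e ≤ S.tp)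
    (he2 : e ≤ 1 - S.tp) (hRs : Rs ⊆ Tn S) (hbig : 8 * (C + 1) < e * n)
    (hd : d + 3 ≤ ⌊e / 2 * n⌋₊) (hi' : i' ∈ ja) (h0 : 0 < i)
    (h1 : X.k n ≤ i + d) (h3 : i ≤ X.k n + d) :
    phA θ' q' (X.k n) (Rs.image fun i => i * n - t0 S s n) (me e n) x i -
      phA θ' q' (X.k n) (Rs.image fun i => i * n - t0 S s n) (me e n) x (i - 1) = 0 := by
  have ha : (i', (2 : Fin 3)) ∈ ids S Rs ja := ids_k hi'
  have hi0 := (H.ja_lt i' hi').1
  rw [H.phA_w q' he he1 he2 hRs hbig hd ha (fun h => by simp at h; omega) h0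
    (by rw [jn_k _ _ _ _ _ _ hi0]; exact h1)]
  refine H.phP_w0 q' he he1 he2 hRs hbig hd ha (fun l hl => ⟨fun h => ?_, fun h => ?_⟩) h0
    (by rw [jn_k _ _ _ _ _ _ hi0]; exact h1) (by rw [jn_k _ _ _ _ _ _ hi0]; exact h3)
  · simp at h
  · simp at h

/-- The turning in the windows. -/
theorem Sc.tau_c (H : Sc X s e Rs ja C n) (he : 0 < e) (he1 : 2 * e ≤ S.tp)
    (he2 : e ≤ 1 - S.tp) (hRs : Rs ⊆ Tn S) (hbig : 8 * (C + 1) < e * n)
    (hτ : Bd (S.D n : Set (ℤ × ℤ)) (X.N n) (fun i => X.q n (i : ZMod (X.N n))) τ 1)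
    (hd : d + 3 ≤ ⌊e / 2 * n⌋₊) {a : ℕ × Fin 3} (ha : a ∈ ids S Rs ja) (h2 : a ≠ (0, 2))
    (h0 : 0 < i) (h1 : jn q' (X.k n) (t0 S s n) (me e n) n a ≤ i + d)
    (h3 : i ≤ jn q' (X.k n) (t0 S s n) (me e n) n a + d)
    (h : i ≠ jn q' (X.k n) (t0 S s n) (me e n) n a) : τ i - τ (i - 1) = 0 := by
  obtain ⟨-, h5⟩ := H.mid he he1 he2 hRs hbig q' ha h2
  by_contra hcon
  exact h (H.turn_w q' he he1 he2 hRs hbig hτ hd ha h0 (by omega)
    (fun h => hcon (by rw [h, sub_self])) h1 h3).2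

/-- The increments of `rc` in the windows. -/
theorem Sc.rc_w (H : Sc X s e Rs ja C n) (he : 0 < e) (he1 : 2 * e ≤ S.tp)
    (he2 : e ≤ 1 - S.tp) (hRs : Rs ⊆ Tn S) (hbig : 8 * (C + 1) < e * n)
    (hτ : Bd (S.D n : Set (ℤ × ℤ)) (X.N n) (fun i => X.q n (i : ZMod (X.N n))) τ 1)
    (hd : d + 3 ≤ ⌊e / 2 * n⌋₊) {a : ℕ × Fin 3} (ha : a ∈ ids S Rs ja) (h2 : a.2 ≠ 2)
    (h0 : 0 < i) (h1 : jn q' (X.k n) (t0 S s n) (me e n) n a ≤ i + d)
    (h3 : i ≤ jn q' (X.k n) (t0 S s n) (me e n) n a + d) :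
    rc θ' β' τ (X.k n) i - rc θ' β' τ (X.k n) (i - 1) =
      if i = jn q' (X.k n) (t0 S s n) (me e n) n a then
        -(θ' / 2 * ((τ (jn q' (X.k n) (t0 S s n) (me e n) n a) -
          τ (jn q' (X.k n) (t0 S s n) (me e n) n a - 1) : ℤ) : ℝ)) else 0 := by
  have h4 := H.sid he he1 he2 hRs hbig q' ha h2
  rw [rc_inc h0, if_neg (by omega)]
  split_ifs with h5
  · rw [h5]
    ring
  · rw [H.tau_c q' he he1 he2 hRs hbig hτ hd ha (fun h => h2 (by rw [h])) h0 h1 h3 h5]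
    simp

/-- The increments of `rc` at the junction. -/
theorem Sc.rc_k (H : Sc X s e Rs ja C n) (he : 0 < e) (he1 : 2 * e ≤ S.tp)
    (he2 : e ≤ 1 - S.tp) (hRs : Rs ⊆ Tn S) (hbig : 8 * (C + 1) < e * n)
    (hτ : Bd (S.D n : Set (ℤ × ℤ)) (X.N n) (fun i => X.q n (i : ZMod (X.N n))) τ 1)
    (hd : d + 3 ≤ ⌊e / 2 * n⌋₊) (hi' : i' ∈ ja)
    (h0 : 0 < i) (h1 : X.k n ≤ i + d) (h3 : i ≤ X.k n + d) :
    rc θ' β' τ (X.k n) i - rc θ' β' τ (X.k n) (i - 1) = if i = X.k n then -(2 * β') else 0 := by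
  have ha : (i', (2 : Fin 3)) ∈ ids S Rs ja := ids_k hi'
  have hi0 := (H.ja_lt i' hi').1
  have h4 := H.turn_0 (X.q n) he he1 he2 hRs hbig hτ hd ha (fun h => by simp at h; omega) (by simp)
  have h6 : τ i - τ (i - 1) = 0 := by
    by_cases h5 : i = X.k n
    · rw [jn_k _ _ _ _ _ _ hi0] at h4
      rw [h5]
      exact h4
    · exact H.tau_c (X.q n) he he1 he2 hRs hbig hτ hd ha (fun h => by simp at h; omega) h0
        (by rw [jn_k _ _ _ _ _ _ hi0]; exact h1) (by rw [jn_k _ _ _ _ _ _ hi0]; exact h3)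
        (by rw [jn_k _ _ _ _ _ _ hi0]; exact h5)
  rw [rc_inc h0, h6]
  simp

/-- The position of the junction. -/
theorem Sc.k_cases (H : Sc X s e Rs ja C n) (he : 0 < e) (he1 : 2 * e ≤ S.tp)
    (he2 : e ≤ 1 - S.tp) (hRs : Rs ⊆ Tn S) (hbig : 8 * (C + 1) < e * n) :
    (X.k n = 0 ∨ X.k n = X.N n) ∨ (0 < X.k n ∧ X.k n < X.N n ∧ ⌊e / 2 * n⌋₊ ≤ X.k n ∧
      X.k n + ⌊e / 2 * n⌋₊ ≤ X.N n ∧ ∃ ia, ja = {ia} ∧ 0 < ia) := by
  rcases H.jun with ⟨-, h5⟩ | ⟨ia, h5, h6, -⟩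
  · exact Or.inl h5
  · right
    have ha : (ia, (2 : Fin 3)) ∈ ids S Rs ja := ids_k (by rw [h5]; simp)
    have h1 := H.mid he he1 he2 hRs hbig (X.q n) ha (fun h => by simp at h; omega)
    rw [jn_k _ _ _ _ _ _ h6] at h1
    have hL : 0 < ⌊e / 2 * (n : ℝ)⌋₊ := by
      rw [Nat.floor_pos]
      have := H.C1
      linarith
    exact ⟨by omega, by omega, h1.1, h1.2, ia, h5, h6⟩

/-- `rc` near the base. -/
theorem Sc.rc_b0 (H : Sc X s e Rs ja C n) (he : 0 < e) (he1 : 2 * e ≤ S.tp)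
    (he2 : e ≤ 1 - S.tp) (hRs : Rs ⊆ Tn S) (hbig : 8 * (C + 1) < e * n)
    (hτ : Bd (S.D n : Set (ℤ × ℤ)) (X.N n) (fun i => X.q n (i : ZMod (X.N n))) τ 1)
    (hd : d + 3 ≤ ⌊e / 2 * n⌋₊) (h : i ≤ d) :
    rc θ' β' τ (X.k n) i = rc θ' β' τ (X.k n) 0 := by
  obtain ⟨h1, h2, h3⟩ := H.str0 he he1 he2 hRs hbig hτ hd
  have hL := H.L_le he1
  have hn := H.n0
  unfold rc
  rw [h1 i h]
  rcases H.k_cases he he1 he2 hRs hbig with (h4 | h4) | ⟨h4, h5, h6, h7, -⟩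
  · rw [if_neg (by omega), if_neg (by omega)]
  · rw [if_pos (by omega), if_pos (by omega)]
  · rw [if_pos (by omega), if_pos (by omega)]

/-- `rc` on the other side of the base. -/
theorem Sc.rc_bN (H : Sc X s e Rs ja C n) (he : 0 < e) (he1 : 2 * e ≤ S.tp)
    (he2 : e ≤ 1 - S.tp) (hRs : Rs ⊆ Tn S) (hbig : 8 * (C + 1) < e * n)
    (hτ : Bd (S.D n : Set (ℤ × ℤ)) (X.N n) (fun i => X.q n (i : ZMod (X.N n))) τ 1)
    (hd : d + 3 ≤ ⌊e / 2 * n⌋₊) (hN : i < X.N n) (h : X.N n ≤ i + d) :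
    rc θ' β' τ (X.k n) i = rc θ' β' τ (X.k n) 0 +
      (if 0 < X.k n ∧ X.k n < X.N n then -(2 * β') else 0) - 2 * θ' := by
  obtain ⟨h1, h2, h3⟩ := H.str0 he he1 he2 hRs hbig hτ hd
  have hL := H.L_le he1
  have hn := H.n0
  unfold rc
  rw [h2 i hN h, h3]
  push_cast
  rcases H.k_cases he he1 he2 hRs hbig with (h4 | h4) | ⟨h4, h5, h6, h7, -⟩
  · rw [if_neg (by omega), if_neg (by omega), if_neg (by omega)]
    ring
  · rw [if_pos (by omega), if_pos (by omega), if_neg (by omega)]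
    ring
  · rw [if_neg (by omega), if_pos (by omega), if_pos ⟨h4, h5⟩]
    ring

/-- The parity of the compensating charges. -/
theorem Sc.side_z (H : Sc X s e Rs ja C n) (he : 0 < e) (he1 : 2 * e ≤ S.tp)
    (he2 : e ≤ 1 - S.tp) (hRs : Rs ⊆ Tn S) (hbig : 8 * (C + 1) < e * n) (hi : i ∈ Rs) :
    (X.k n ≤ rI q' (X.k n) (i * n - t0 S s n) ↔
      X.k n ≤ rI q' (X.k n) (i * n - t0 S s n) + me e n) := by
  refine ⟨fun h => by omega, fun h => ?_⟩
  have h1 := H.mid he he1 he2 hRs hbig q' (a := (i, 1)) (ids_z hi) (fun h => by simp at h)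
  rw [jn_z] at h1
  rcases H.jun with ⟨-, h5 | h5⟩ | ⟨ia, h5, h6, -⟩
  · omega
  · have hL : 0 < ⌊e / 2 * (n : ℝ)⌋₊ := by
      rw [Nat.floor_pos]
      have := H.C1
      linarith
    omega
  · by_contra hcon
    push Not at hcon
    have h7 := H.posT q' (a := (i, 0)) (ids_c (hRs hi))
    have h8 := H.posT q' (a := (i, 1)) (ids_z hi)
    have h9 := H.k_near h5 h6
    rw [vv0, jn_c] at h7
    rw [vv1, jn_z] at h8
    have hr : (rI q' (X.k n) (i * n - t0 S s n) : ℝ) ≤ (i * n - t0 S s n : ℕ) + 1 := by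
      have := rI_or q' (X.k n) (i * n - t0 S s n)
      have h10 : rI q' (X.k n) (i * n - t0 S s n) ≤ (i * n - t0 S s n) + 1 := by omega
      exact_mod_cast h10
    have hr' : ((i * n - t0 S s n : ℕ) : ℝ) ≤ (rI q' (X.k n) (i * n - t0 S s n) : ℝ) := by
      have := rI_or q' (X.k n) (i * n - t0 S s n)
      have h10 : (i * n - t0 S s n) ≤ rI q' (X.k n) (i * n - t0 S s n) := by omega
      exact_mod_cast h10
    have hcon' : (rI q' (X.k n) (i * n - t0 S s n) : ℝ) < (X.k n : ℕ) := by exact_mod_cast hcon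
    have h' : ((X.k n : ℕ) : ℝ) ≤ ((rI q' (X.k n) (i * n - t0 S s n) + me e n : ℕ) : ℝ) := by
      exact_mod_cast h
    rw [abs_le] at h7 h8 h9
    have hC1 := H.C1
    have hn0 : (0 : ℝ) < n := by exact_mod_cast H.n0
    have htp : 2 * e * n ≤ S.tp * n := mul_le_mul_of_nonneg_right he1 hn0.le
    have htp2 : e * n ≤ (1 - S.tp) * n := mul_le_mul_of_nonneg_right he2 hn0.le
    rcases Nat.lt_or_ge ia i with h10 | h10
    · have h11 : ((ia + 1 : ℕ) : ℝ) * n ≤ i * n :=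
        mul_le_mul_of_nonneg_right (by exact_mod_cast h10) hn0.le
      push_cast at h11
      linarith
    · have h11 : (i : ℝ) * n ≤ ia * n :=
        mul_le_mul_of_nonneg_right (by exact_mod_cast h10) hn0.le
      linarith

end incw

end Vale.Agent.P167.N.QL
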