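import Vale.Agent.P167.N.QL.Loc

/-!
# P167, the range `0 < q < 1`, block Q-LAM: products over the centres

`Sc.prod_ids`: the product over the centres by their kinds. `Sc.card_Tn`: the number of the convex
corners is the number of the reflex corners plus `4`.
-/

set_option autoImplicit false

namespace Vale.Agent.P167.N.QL

open Finset Filter Vale.Agent.P167.BR Vale.Agent.P167.FK
open Vale.Agent.P167.E6 (IsPolygon Encloses dir face)
open Vale.Agent.P167.H825 (enl pdir)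
open Vale.Agent.P167.H718 (Dob rc)
open Vale.Agent.P167.H871 (Bd)
open Vale.Agent.P167.H542.Q (BD)

variable {S : CA.Dat} {θ β : ℝ} {X : BD S θ β} {s : ℕ → ℕ} {e C : ℝ} {Rs ja : Finset ℕ} {n : ℕ}
  {τ : ℕ → ℤ}

/-- **The product over the centres.** -/
theorem Sc.prod_ids (H : Sc X s e Rs ja C n) (he : 0 < e) (he1 : 2 * e ≤ S.tp)
    (he2 : e ≤ 1 - S.tp) (hRs : Rs ⊆ Tn S) (hbig : 8 * (C + 1) < e * n) {N' : ℕ}
    (q' : ZMod N' → ℤ × ℤ) (f : ℕ → ℝ) :
    ∏ j ∈ (ids S Rs ja).image (jn q' (X.k n) (t0 S s n) (me e n) n), f j =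
      f 0 * (∏ i ∈ Tn S \ Rs, f (i * n - t0 S s n)) * (∏ i ∈ Rs, f (i * n - t0 S s n)) *
        (∏ i ∈ Rs, f (rI q' (X.k n) (i * n - t0 S s n) + me e n)) * ∏ _i ∈ ja, f (X.k n) := by
  have hL : 0 < ⌊e / 2 * (n : ℝ)⌋₊ := by
    rw [Nat.floor_pos]
    have := H.C1
    linarith
  have hinj : Set.InjOn (jn q' (X.k n) (t0 S s n) (me e n) n) (ids S Rs ja : Set (ℕ × Fin 3)) := by
    intro a ha b hb hab
    by_contra hne
    have := H.gap he he1 he2 hRs hbig q' ha hb hne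
    rw [hab] at this
    omega
  rw [Finset.prod_image hinj]
  unfold ids
  have d1 : Disjoint ((Tn S).image fun i => (i, (0 : Fin 3))) (Rs.image fun i => (i, (1 : Fin 3))) := by
    rw [disjoint_left]
    intro a h1 h2
    obtain ⟨i, -, rfl⟩ := mem_image.1 h1
    obtain ⟨j, -, h3⟩ := mem_image.1 h2
    simp at h3
  have d2 : Disjoint ((Tn S).image (fun i => (i, (0 : Fin 3))) ∪
      Rs.image (fun i => (i, (1 : Fin 3))))
      (insert ((0 : ℕ), (2 : Fin 3)) (ja.image fun i => (i, (2 : Fin 3)))) := by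
    rw [disjoint_left]
    intro a h1 h2
    rw [mem_union, mem_image, mem_image] at h1
    rw [mem_insert, mem_image] at h2
    have h3 : a.2 = 2 := by
      rcases h2 with rfl | ⟨i, -, rfl⟩ <;> rfl
    rcases h1 with ⟨i, -, rfl⟩ | ⟨i, -, rfl⟩
    · simp at h3
    · simp at h3
  have d3 : ((0 : ℕ), (2 : Fin 3)) ∉ ja.image fun i => (i, (2 : Fin 3)) := by
    intro h
    obtain ⟨i, hi, h4⟩ := mem_image.1 h
    have h5 := (H.ja_lt i hi).1
    have h6 : i = 0 := congrArg Prod.fst h4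
    omega
  rw [prod_union d2, prod_union d1, prod_insert d3, Finset.prod_image (fun a _ b _ h => by simpa using h),
    Finset.prod_image (fun a _ b _ h => by simpa using h),
    Finset.prod_image (fun a _ b _ h => by simpa using h)]
  have e1 : ∏ i ∈ Tn S, f (jn q' (X.k n) (t0 S s n) (me e n) n (i, 0)) =
      (∏ i ∈ Tn S \ Rs, f (i * n - t0 S s n)) * ∏ i ∈ Rs, f (i * n - t0 S s n) := by
    rw [prod_sdiff hRs]
    exact prod_congr rfl fun i _ => by rw [jn_c]
  have e2 : ∏ i ∈ Rs, f (jn q' (X.k n) (t0 S s n) (me e n) n (i, 1)) =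
      ∏ i ∈ Rs, f (rI q' (X.k n) (i * n - t0 S s n) + me e n) :=
    prod_congr rfl fun i _ => by rw [jn_z]
  have e3 : ∏ i ∈ ja, f (jn q' (X.k n) (t0 S s n) (me e n) n (i, 2)) = ∏ _i ∈ ja, f (X.k n) :=
    prod_congr rfl fun i hi => by rw [jn_k _ _ _ _ _ _ (H.ja_lt i hi).1]
  rw [e1, e2, e3, jn_0]
  ring

/-- **The total turning**: convex and reflex corners. -/
theorem Sc.card_Tn (H : Sc X s e Rs ja C n) (he : 0 < e) (he1 : 2 * e ≤ S.tp)
    (he2 : e ≤ 1 - S.tp) (hRs : Rs ⊆ Tn S) (hbig : 8 * (C + 1) < e * n)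
    (hL3 : 3 ≤ ⌊e / 2 * n⌋₊)
    (hτ : Bd (S.D n : Set (ℤ × ℤ)) (X.N n) (fun i => X.q n (i : ZMod (X.N n))) τ 1) :
    (Tn S \ Rf S).card = (Rf S).card + 4 := by
  obtain ⟨h1, h2, h3⟩ := H.str0 (d := 0) he he1 he2 hRs hbig hτ (by omega)
  have hLl := H.L_le he1
  have hn0 := H.n0
  have hper := hτ.per 0
  rw [zero_add, mul_one] at hper
  have htn := H.tn
  have hN := H.N
  have hrange : ∀ i ∈ Tn S, 1 ≤ i ∧ i ≤ S.l ∧ n ≤ i * n ∧ i * n ≤ S.l * n := by
    intro i hi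
    unfold Tn at hi
    rw [mem_filter, mem_Icc] at hi
    exact ⟨hi.1.1, hi.1.2, Nat.le_mul_of_pos_left n hi.1.1, Nat.mul_le_mul_right n hi.1.2⟩
  have hmid : ∀ i ∈ Tn S, 0 < i * n - t0 S s n ∧ i * n - t0 S s n < X.N n := by
    intro i hi
    have h4 := H.mid he he1 he2 hRs hbig (X.q n) (a := (i, 0)) (ids_c hi) (fun h => by simp at h)
    rw [jn_c] at h4
    omega
  have hinj : Set.InjOn (fun i => i * n - t0 S s n - 1) (Tn S : Set ℕ) := by
    intro i hi j hj hij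
    simp only at hij
    have h4 := hmid i hi
    have h5 := hmid j hj
    have h6 : i * n = j * n := by omega
    exact Nat.eq_of_mul_eq_mul_right hn0 h6
  have hsum : ∑ j ∈ range (X.N n), (τ (j + 1) - τ j) = 4 := by
    rw [sum_range_sub, hper]
    ring
  have hsub : (Tn S).image (fun i => i * n - t0 S s n - 1) ⊆ range (X.N n) := by
    intro j hj
    obtain ⟨i, hi, rfl⟩ := mem_image.1 hj
    have h4 := hmid i hi
    rw [mem_range]
    omega
  have hS : ∑ j ∈ (Tn S).image (fun i => i * n - t0 S s n - 1), (τ (j + 1) - τ j) = 4 := by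
    rw [← hsum]
    refine sum_subset hsub fun j hj hj' => ?_
    rw [mem_range] at hj
    by_contra hcon
    by_cases hjN : j + 1 = X.N n
    · apply hcon
      have h4 : j = X.N n - 1 := by omega
      rw [hjN, hper, h4, h3]
      ring
    · obtain ⟨i, hi, h4, -, -⟩ := H.turn_id hτ (j := j + 1) (by omega) (by omega)
        (by rw [Nat.add_sub_cancel]; exact fun h => hcon (by rw [h, sub_self]))
      exact hj' (mem_image.2 ⟨i, hi, by omega⟩)
  rw [sum_image hinj] at hS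
  have hT : ∑ i ∈ Tn S, (τ (i * n - t0 S s n - 1 + 1) - τ (i * n - t0 S s n - 1)) =
      ∑ i ∈ Tn S, H825.tn (pdir S.p (i - 1)) (pdir S.p i) := by
    refine sum_congr rfl fun i hi => ?_
    rw [← H.turn_c hτ hi, Nat.sub_add_cancel (hmid i hi).1]
  rw [hT, ← sum_sdiff (Rf_sub S)] at hS
  have e1 : ∑ i ∈ Tn S \ Rf S, H825.tn (pdir S.p (i - 1)) (pdir S.p i) =
      ((Tn S \ Rf S).card : ℤ) := by
    rw [sum_congr rfl (g := fun _ => (1 : ℤ)) fun i hi => ?_, sum_const, nsmul_eq_mul, mul_one]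
    rw [Finset.mem_sdiff] at hi
    exact tn_of_Tn hi.1 hi.2
  have e2 : ∑ i ∈ Rf S, H825.tn (pdir S.p (i - 1)) (pdir S.p i) = -((Rf S).card : ℤ) := by
    rw [sum_congr rfl (g := fun _ => (-1 : ℤ)) fun i hi => tn_of_Rf hi, sum_const, nsmul_eq_mul]
    ring
  rw [e1, e2] at hS
  omega

end Vale.Agent.P167.N.QL
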