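import Vale.Agent.P167.N.QL.Lw4

/-!
# P167, the range `0 < q < 1`, block Q-LAM: the lower bound for the natural functionals

`low_nat`: the value of the natural functional on the translates is at least a constant times the product
of the mean values of the local factors.
-/

set_option autoImplicit false

namespace Vale.Agent.P167.N.QL

open Finset Filter Vale.Agent.P167.BR Vale.Agent.P167.FK
open Vale.Agent.P167.E6 (IsPolygon Encloses dir face)
open Vale.Agent.P167.FKA (Loc)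
open Vale.Agent.P167.H825 (enl pdir tn)
open Vale.Agent.P167.H718 (Dob poly_add encl_add)
open Vale.Agent.P167.H871 (Bd exists_bd)
open Vale.Agent.P167.H542.Q (BD)
open Vale.Agent.P167.H632 (pr)
open Vale.Agent.P167.H760.Q (BaseQ)
open Vale.Agent.P167.H192.Q (SRSW)
open Vale.Agent.P167.H365.NQ (XW)
open Vale.Agent.P167.H975 (TX)
open Vale.Agent.P167.N.AW (Kil)
open Vale.Agent.P167.N.NET (VRS)

variable {S : CA.Dat} {θ : ℝ} {X : BD S θ (bt θ)} {s : ℕ → ℕ} {e C ε σ : ℝ} {ja : Finset ℕ}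
  {n M₀ m w ρ L : ℕ} {r : ℤ} {a : ℤ × ℤ} {x : Bool}

/-- The parity condition. -/
theorem xok_hx {N k : ℕ} {q : ZMod N → ℤ × ℤ} (h : XOk N k q x) : x = true → k = 0 ∨ N ≤ k := by
  intro hx
  rcases h with ⟨h1 | h1, -⟩ | ⟨-, -, h1⟩
  · exact Or.inl h1
  · exact Or.inr h1.ge
  · rw [hx] at h1
    exact absurd h1 (by decide)

/-- The facts on the data at the scale `n`. -/
structure At (X : BD S θ (bt θ)) (s : ℕ → ℕ) (e : ℝ) (ja : Finset ℕ) (n ρ L M₀ : ℕ) (r : ℤ)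
    (a : ℤ × ℤ) (x : Bool) (τ : ℕ → ℤ) : Prop where
  scl : Scl S s (X.N n) (X.k n) ja n (me e n) (wn12 e n)
  num : Num n (me e n) (wn12 e n) ρ L M₀ r
  geo : GeoP n (X.N n) (fun i => X.q n i + a)
  poly : IsPolygon (fun i => X.q n i + a)
  enc : Encloses (fun i => X.q n i + a) ((S.D n).image (· + a))
  sw : ∀ c ∈ CR S s n, SW n true (fun i => X.q n i + a) ((S.D n).image (· + a)) τ c (wn12 e n)
  hx : x = true → X.k n = 0 ∨ X.N n ≤ X.k n
  sep : ∀ i ∈ JT S s e (Rf S) ja (fun i => X.q n i + a) (X.k n) n,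
    ∀ j ∈ JT S s e (Rf S) ja (fun i => X.q n i + a) (X.k n) n,
      i < j → i + ⌊e / 2 * n⌋₊ ≤ j ∧ j + ⌊e / 2 * n⌋₊ ≤ i + X.N n
  lt : ∀ j ∈ JT S s e (Rf S) ja (fun i => X.q n i + a) (X.k n) n, j < X.N n
  rad : 2 * r + 4 < (⌊e / 2 * n⌋₊ : ℤ)

theorem Scl.sub {N k : ℕ} {q : ZMod N → ℤ × ℤ} : CR S s n ⊆ JT S s e (Rf S) ja q k n := by
  intro c hc
  obtain ⟨i, hi, rfl⟩ := mem_image.1 hc
  exact mem_JTc _ _ _ (Rf_sub S hi)

section

variable {τ : ℕ → ℤ} (H : At X s e ja n ρ L M₀ r a x τ)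
include H

/-- The distance of two corners. -/
theorem At.dist {c c' : ℕ} (hc : c ∈ CR S s n) (hc' : c' ∈ CR S s n) (hne : c ≠ c') :
    8 * (L : ℤ) < nm ((X.q n (c' : ZMod (X.N n)) + a) - (X.q n (c : ZMod (X.N n)) + a)) := by
  have h1 := H.scl.cw
  have h2 := h1.le c hc
  have h3 := h1.lt c hc
  have h4 := h1.le c' hc'
  have h5 := h1.lt c' hc'
  have h6 := H.num.a3
  have h7 := H.num.a4
  refine far_nm (w := wn12 e n) H.geo (c := c) (j := c') (by omega) (by omega) (by omega)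
    (by omega) ?_ (by omega) (by omega)
  rcases Nat.lt_or_gt_of_ne hne with h8 | h8
  · exact Or.inr (h1.sep c hc c' hc' h8)
  · exact Or.inl (h1.sep c' hc' c hc h8)

/-- The positive centres. -/
theorem At.pos (h0 : 0 < θ) (h1 : Real.pi / 3 ≤ θ) (h2 : θ < Real.pi / 2) {j : ℕ}
    (hj : j ∈ JT S s e (Rf S) ja (fun i => X.q n i + a) (X.k n) n) (hjC : j ∉ CR S s n) :
    ∀ ω : Cfg, ∀ A ∈ pcs ω ((S.D n).image (· + a)),
      (∀ e ∈ A, hdv e ∈ Bq (X.q n (j : ZMod (X.N n)) + a) r) →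
      wl θ ≤ wP θ (bt θ) (fun i => X.q n i + a) ((S.D n).image (· + a)) (X.k n)
        (phA θ (fun i => X.q n i + a) (X.k n) (CR S s n) (me e n) x) A := by
  have h3 := H.num.b0
  have h4 := H.num.b1
  have h5 := H.num.b2
  have h6 := H.num.b4
  have h7 := H.rad
  have hkJ : X.k n ∈ JT S s e (Rf S) ja (fun i => X.q n i + a) (X.k n) n ∨ X.k n = 0 ∨
      X.N n ≤ X.k n := by
    rcases H.scl.jun with ⟨-, h8 | h8⟩ | ⟨ia, h8, h9, -⟩
    · exact Or.inr (Or.inl h8)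
    · exact Or.inr (Or.inr h8.ge)
    · exact Or.inl (mem_JTk _ _ _ (i := ia) (by rw [h8]; simp) h9)
  exact na_pos h0 h1 h2 rfl H.geo H.poly H.enc H.scl.cw H.hx
    (J := JT S s e (Rf S) ja (fun i => X.q n i + a) (X.k n) n) (ℓ := ⌊e / 2 * n⌋₊) H.sep H.lt
    (mem_JT0 _ _ _) Scl.sub (fun c hc => by
      obtain ⟨i, hi, rfl⟩ := mem_image.1 hc
      exact mem_JTz _ _ _ hi) hkJ (d := (2 * (r + 1)).toNat) (by omega) (by omega) (by omega)
    (by omega) hj hjC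

/-- The killed centres. -/
theorem At.kil (h0 : 0 < θ) (h2 : θ < Real.pi / 2) {c : ℕ} (hc : c ∈ CR S s n) :
    ∃ I : ℤ → Cfg → ℝ, Kil 1 1 (wP θ (bt θ) (fun i => X.q n i + a) ((S.D n).image (· + a)) (X.k n)
      (phA θ (fun i => X.q n i + a) (X.k n) (CR S s n) (me e n) x)) ((S.D n).image (· + a))
      (X.q n (c : ZMod (X.N n)) + a) I r := by
  obtain ⟨h3, h4⟩ := H.scl.col H.poly hc
  have h5 := H.num.b0
  have h6 := H.num.b1
  have h7 := H.num.b2
  have h8 := H.num.b3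
  have h9 := H.num.b4
  exact ⟨_, na_kil h0 h2 (cos_bt θ) H.scl.cw hc (H.sw c hc) h3 h4 (by omega) (by omega) (by omega)
    (by omega)⟩

/-- The local factors of the corners, small boxes. -/
theorem At.tx (h0 : 0 < θ) (h2 : θ < Real.pi / 2) {c : ℕ} (hc : c ∈ CR S s n) (ω : Cfg) :
    TX (wP θ (bt θ) (fun i => X.q n i + a) ((S.D n).image (· + a)) (X.k n)
      (phA θ (fun i => X.q n i + a) (X.k n) (CR S s n) (me e n) x)) ((S.D n).image (· + a))
      (X.q n (c : ZMod (X.N n)) + a) ρ ω =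
    (NS (fun i => X.q n i + a) ((S.D n).image (· + a)) c (rI (fun i => X.q n i + a) (X.k n) c)
      ρ).indicator (1 : Cfg → ℝ) ω := by
  obtain ⟨h3, h4⟩ := H.scl.col H.poly hc
  have h5 := H.num.a1
  have h6 := H.num.a3
  have h7 := H.num.a4
  have h8 := H.num.a5
  have h9 := H.num.a6
  exact na_tx h0 h2 (cos_bt θ) H.scl.cw hc (H.sw c hc) h3 h4 (by omega) (by omega) (by omega)
    (by omega) (by omega) ω

/-- **All the weights are positive on the landing event.** -/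
theorem At.all (h0 : 0 < θ) (h1 : Real.pi / 3 ≤ θ) (h2 : θ < Real.pi / 2) {ω : Cfg}
    (hω : ∀ c ∈ CR S s n, ω ∈ Ld (fun i => X.q n i + a) ((S.D n).image (· + a)) c
      (rI (fun i => X.q n i + a) (X.k n) c) L (decide (X.k n ≤ c))) {A : Finset Ed}
    (hA : A ∈ pcs ω ((S.D n).image (· + a))) :
    wl θ ≤ wP θ (bt θ) (fun i => X.q n i + a) ((S.D n).image (· + a)) (X.k n)
        (phA θ (fun i => X.q n i + a) (X.k n) (CR S s n) (me e n) x) A := by
  have h3 := H.num.a1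
  have h4 := H.num.a3
  have h5 := H.num.a6
  exact na_all h0 h1 h2 rfl H.poly H.enc H.scl.cw H.hx (L := L) (by omega) (by omega)
    (cc := fun c => decide (X.k n ≤ c)) hω hA

/-- The test functions. -/
theorem At.rd {F : Cfg → ℝ} (hF : Loc ((S.D n).image (· + a) ∩
      (JT S s e (Rf S) ja (fun i => X.q n i + a) (X.k n) n \ CR S s n).biUnion fun j =>
        Bq (X.q n (j : ZMod (X.N n)) + a) ρ) F) {c : ℕ} (hc : c ∈ CR S s n) :
    RdC (fun i => X.q n i + a) ((S.D n).image (· + a)) c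
      (rI (fun i => X.q n i + a) (X.k n) c + me e n) L ρ F := by
  intro ω ω' h
  refine hF ω ω' fun v hv => ?_
  obtain ⟨h1, h2⟩ := mem_inter.1 hv
  obtain ⟨j, hj, h3⟩ := mem_biUnion.1 h2
  obtain ⟨hj, hjC⟩ := mem_sdiff.1 hj
  by_cases hz : j = rI (fun i => X.q n i + a) (X.k n) c + me e n
  · subst hz
    exact h v (Or.inr (Or.inr h3))
  · refine h v (Or.inr (Or.inl ?_))
    have hne : j ≠ c := fun h => hjC (h ▸ hc)
    obtain ⟨h4, h5, h6⟩ := H.scl.far_c rfl hc hj hne hz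
    have h7 := H.scl.cw.lt c hc
    have h8 := H.lt j hj
    have a1 := H.num.a3
    have a2 := H.num.a4
    have a3 := H.num.a7
    have h9 := far_nm H.geo (c := c) (j := j) (by omega) h8.le (d := 4 * (L : ℤ) + ρ) (by omega)
      (by omega) h4 h5 h6
    have h10 := H601.LG.nm_of_Bq h3
    have h11 := H601.LG.nm_tri' (X.q n (j : ZMod (X.N n)) + a) v (X.q n (c : ZMod (X.N n)) + a)
    rw [H601.LG.nm_comm _ v] at h11
    show 4 * (L : ℤ) < nm (v - (X.q n (c : ZMod (X.N n)) + a))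
    have h12 : 4 * (L : ℤ) + ρ < nm ((X.q n (j : ZMod (X.N n)) + a) -
      (X.q n (c : ZMod (X.N n)) + a)) := h9
    omega

/-- **Landing at all the corners**, with the local factors. -/
theorem At.land (h1 : Ang θ) {c1 : ℝ}
    (HC : ∀ {N k m d n₀ : ℕ} {q : ZMod N → ℤ × ℤ} {D : Finset (ℤ × ℤ)} {η : Cfg} {τ : ℕ → ℤ}
      {cc : ℕ → Bool} {ρ L : ℕ}, Good η → 64 ≤ ρ → L ≤ M₀ * ρ → 8 * L + 4 < d →
      12 * L + 6 < n₀ → 2 * ρ ≤ m → m + 1 + ρ ≤ 2 * L →
      ∀ C : Finset ℕ, (∀ c ∈ C, SW n₀ true q D τ c d) →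
        (∀ c ∈ C, ((q (rI q k c : ZMod N)).1 + (q (rI q k c : ZMod N)).2) % 2 = pr (cc c)) →
        (∀ c ∈ C, ∀ c' ∈ C, c ≠ c' → 8 * (L : ℤ) < nm (q (c' : ZMod N) - q (c : ZMod N))) →
      ∀ F : Cfg → ℝ, (∀ ω, 0 ≤ F ω) → (∀ c ∈ C, RdC q D c (rI q k c + m) L ρ F) →
        c1 ^ C.card * Ex (2 * Real.cos θ) D η (fun ω => F ω *
            ∏ c ∈ C, (NS q D c (rI q k c) ρ).indicator (1 : Cfg → ℝ) ω) ≤
          Ex (2 * Real.cos θ) D η (fun ω => F ω *
            ∏ c ∈ C, (Ld q D c (rI q k c) L (cc c)).indicator (1 : Cfg → ℝ) ω))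
    {η : Cfg} (hη : Good η) {F : Cfg → ℝ} (hF0 : ∀ ω, 0 ≤ F ω)
    (hF : Loc ((S.D n).image (· + a) ∩
      (JT S s e (Rf S) ja (fun i => X.q n i + a) (X.k n) n \ CR S s n).biUnion fun j =>
        Bq (X.q n (j : ZMod (X.N n)) + a) ρ) F) :
    c1 ^ (CR S s n).card * Ex (2 * Real.cos θ) ((S.D n).image (· + a)) η (fun ω => F ω *
      ∏ c ∈ CR S s n, TX (wP θ (bt θ) (fun i => X.q n i + a) ((S.D n).image (· + a)) (X.k n)
        (phA θ (fun i => X.q n i + a) (X.k n) (CR S s n) (me e n) x)) ((S.D n).image (· + a))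
        (X.q n (c : ZMod (X.N n)) + a) ρ ω) ≤
    Ex (2 * Real.cos θ) ((S.D n).image (· + a)) η (fun ω => F ω *
      (∏ c ∈ CR S s n, TX (wP θ (bt θ) (fun i => X.q n i + a) ((S.D n).image (· + a)) (X.k n)
        (phA θ (fun i => X.q n i + a) (X.k n) (CR S s n) (me e n) x)) ((S.D n).image (· + a))
        (X.q n (c : ZMod (X.N n)) + a) ρ ω) *
      ∏ c ∈ CR S s n, (Ld (fun i => X.q n i + a) ((S.D n).image (· + a)) c
        (rI (fun i => X.q n i + a) (X.k n) c) L (decide (X.k n ≤ c))).indicator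
          (1 : Cfg → ℝ) ω) := by
  have a1 := H.num.a1
  have a2 := H.num.a2
  have a3 := H.num.a3
  have a4 := H.num.a4
  have a5 := H.num.a5
  have a6 := H.num.a6
  have e1 : ∀ ω : Cfg, (∏ c ∈ CR S s n,
      TX (wP θ (bt θ) (fun i => X.q n i + a) ((S.D n).image (· + a)) (X.k n)
        (phA θ (fun i => X.q n i + a) (X.k n) (CR S s n) (me e n) x)) ((S.D n).image (· + a))
        (X.q n (c : ZMod (X.N n)) + a) ρ ω) =
      ∏ c ∈ CR S s n, (NS (fun i => X.q n i + a) ((S.D n).image (· + a)) c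
        (rI (fun i => X.q n i + a) (X.k n) c) ρ).indicator (1 : Cfg → ℝ) ω := fun ω =>
    prod_congr rfl fun c hc => H.tx h1.pos h1.lt hc ω
  have e2 : ∀ ω : Cfg, F ω * (∏ c ∈ CR S s n,
      (NS (fun i => X.q n i + a) ((S.D n).image (· + a)) c
        (rI (fun i => X.q n i + a) (X.k n) c) ρ).indicator (1 : Cfg → ℝ) ω) *
      (∏ c ∈ CR S s n, (Ld (fun i => X.q n i + a) ((S.D n).image (· + a)) c
        (rI (fun i => X.q n i + a) (X.k n) c) L (decide (X.k n ≤ c))).indicator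
          (1 : Cfg → ℝ) ω) = F ω *
      ∏ c ∈ CR S s n, (Ld (fun i => X.q n i + a) ((S.D n).image (· + a)) c
        (rI (fun i => X.q n i + a) (X.k n) c) L (decide (X.k n ≤ c))).indicator
          (1 : Cfg → ℝ) ω := by
    intro ω
    rw [mul_assoc, ← prod_mul_distrib]
    congr 1
    refine prod_congr rfl fun c hc => ?_
    by_cases hω : ω ∈ Ld (fun i => X.q n i + a) ((S.D n).image (· + a)) c
        (rI (fun i => X.q n i + a) (X.k n) c) L (decide (X.k n ≤ c))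
    · have h3 := H.scl.cw.lt c hc
      have h4 := rI_or (fun i => X.q n i + a) (X.k n) c
      have h5 := Ld_sub_NS' (H.sw c hc) (t := rI (fun i => X.q n i + a) (X.k n) c) (ρ := ρ)
        (L := L) (cc := decide (X.k n ≤ c)) (by omega) (by omega) (by omega) (by omega)
        (by omega) hω
      rw [Set.indicator_of_mem hω, Set.indicator_of_mem h5]
      simp
    · rw [Set.indicator_of_notMem hω, mul_zero]
  simp only [e1, e2]
  exact HC hη a1 a2 (by omega) (by omega) (by omega) a6 (CR S s n) H.sw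
    (fun c hc => (H.scl.col H.poly hc).2) (fun c hc c' hc' hne => H.dist hc hc' hne) F hF0
    fun c hc => H.rd hF hc

end

/-- **The lower bound for the natural functionals.** -/
theorem low_nat (h0 : 0 < θ) (h1 : Ang θ) (hR : RSW (2 * Real.cos θ))
    (hS : SRSW (2 * Real.cos θ)) {S : CA.Dat} (X : BD S θ (bt θ)) {s : ℕ → ℕ} (hb : BaseQ X s)
    (hB : BcX X s) {e : ℝ} (he : 0 < e) (he1 : 16 * e ≤ S.tp) (he2 : 16 * e ≤ 1 - S.tp)
    {ja : Finset ℕ} (hj : JunP X ja) :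
    ∃ ρ₁ : ℝ, 0 < ρ₁ ∧ ∀ ρ : ℝ, 0 < ρ → ρ ≤ ρ₁ → ∃ c : ℝ, 0 < c ∧ ∀ᶠ n : ℕ in X.L,
      ∀ (a : ℤ × ℤ) (x : Bool), XOk (X.N n) (X.k n) (fun i => X.q n i + a) x →
      ∀ η : Cfg, Dob η ((S.D n).image (· + a)) (fun i => X.q n i + a) (X.k n) →
      c * ∏ j ∈ (NA X s e ja n a x).J, (NA X s e ja n a x).e θ (bt θ) η ⌊ρ * n⌋ j ≤
        VP θ (bt θ) (NA X s e ja n a x) := by
  have hwl := wl_pos h0 h1.lt
  have hπ : Real.pi / 3 ≤ θ := h1.gt.le
  have he32 : 32 * e ≤ 1 := by linarith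
  obtain ⟨σ₀, R, hσ₀, hrg⟩ := na_rg X hb hB he (by linarith) (by linarith) hj
  obtain ⟨C, hC⟩ := exists_sc' X hb he (Rf_sub S) hj 100
  have hσ : 0 < min σ₀ (e / 64) := lt_min hσ₀ (by positivity)
  obtain ⟨ρ₁, hρ₁, HL⟩ := low_pd h0 h1 (cos_bt θ) hR hS R (ids S (Rf S) ja).card hwl hσ one_pos
    le_rfl le_rfl
  refine ⟨min ρ₁ (e / 64), lt_min hρ₁ (by positivity), fun ρ hρ hρ1 => ?_⟩
  obtain ⟨ε, hε, hερ, HL⟩ := HL ρ hρ (hρ1.trans (min_le_left _ _))
  obtain ⟨M₀, n₁, hnum⟩ := exists_num he he32 hε (hερ.trans (hρ1.trans (min_le_right _ _))) hσ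
    (min_le_right _ _)
  obtain ⟨c1, hc1, hc11, HC⟩ := land_C h1.kit.pos h1.kit.le
    (N.NET.vrs h1.kit.pos h1.kit.lt) M₀
  obtain ⟨c, n₂, hc, HL⟩ := HL (c1 ^ (ids S (Rf S) ja).card) (pow_pos hc1 _)
  refine ⟨c, hc, ?_⟩
  filter_upwards [hrg, hC, X.poly, X.enc, X.le (eventually_ge_atTop n₁),
    X.le (eventually_ge_atTop n₂)] with n hrg hC hpo hen hn1 hn2 a x hx η' hη'
  obtain ⟨η, hrg⟩ := hrg a x
  obtain ⟨τ, hτ⟩ := exists_bd hpo hen
  obtain ⟨r, L, hr, hN, hN2⟩ := hnum n hn1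
  have K := hC.1.scl he he1 he2 hC.2
  have hbig : 8 * (C + 1) < e * n := by
    have := hC.1.C1
    linarith [hC.2]
  have H : At X s e ja n r L M₀ ⌊min σ₀ (e / 64) * n⌋ a x τ :=
    ⟨K, hN, geoP_enl (a := a) S.poly S.enc hC.1.n0 (poly_add hpo a) (encl_add hen a),
      poly_add hpo a, encl_add hen a, fun c hc => hC.1.sw K hτ a hc, xok_hx hx,
      fun i hi j hj hij => hC.1.sepT he (by linarith) (by linarith) (Rf_sub S) hbig _ hi hj hij,
      fun j hj => hC.1.ltT he (by linarith) (Rf_sub S) hbig _ hj, hN2⟩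
  have hP : (NA X s e ja n a x).Rg n (min σ₀ (e / 64)) R (ids S (Rf S) ja).card η :=
    hrg.mono (min_le_left _ _)
  have q1 : (JT S s e (Rf S) ja (fun i => X.q n i + a) (X.k n) n \ CR S s n) ∪ CR S s n =
      (NA X s e ja n a x).J := sdiff_union_of_subset Scl.sub
  have q2 : Disjoint (JT S s e (Rf S) ja (fun i => X.q n i + a) (X.k n) n \ CR S s n)
      (CR S s n) := sdiff_disjoint
  have q3 := fun j (hj : j ∈ JT S s e (Rf S) ja (fun i => X.q n i + a) (X.k n) n \ CR S s n) =>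
    H.pos h0 hπ h1.lt (mem_sdiff.1 hj).1 (mem_sdiff.1 hj).2
  have q4 := fun j (hj : j ∈ CR S s n) => H.kil h0 h1.lt hj
  have q5 := NA_nonneg hC.1 he (by linarith) (by linarith) h0 h1.lt hπ a x
  have q6 : ∀ ω : Cfg, 0 ≤ (∏ c ∈ CR S s n, (Ld (fun i => X.q n i + a)
      ((S.D n).image (· + a)) c (rI (fun i => X.q n i + a) (X.k n) c) L
      (decide (X.k n ≤ c))).indicator (1 : Cfg → ℝ) ω) ∧
      (∏ c ∈ CR S s n, (Ld (fun i => X.q n i + a)
      ((S.D n).image (· + a)) c (rI (fun i => X.q n i + a) (X.k n) c) L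
      (decide (X.k n ≤ c))).indicator (1 : Cfg → ℝ) ω) ≤ 1 := fun ω =>
    ⟨prod_nonneg fun c _ => (ind01 _ ω).1, prod_le_one (fun c _ => (ind01 _ ω).1)
      fun c _ => (ind01 _ ω).2⟩
  have q7 : ∀ ω : Cfg, (∏ c ∈ CR S s n, (Ld (fun i => X.q n i + a)
      ((S.D n).image (· + a)) c (rI (fun i => X.q n i + a) (X.k n) c) L
      (decide (X.k n ≤ c))).indicator (1 : Cfg → ℝ) ω) ≠ 0 →
      ∀ A ∈ pcs ω ((S.D n).image (· + a)),
        wl θ ≤ wP θ (bt θ) (fun i => X.q n i + a) ((S.D n).image (· + a)) (X.k n)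
        (phA θ (fun i => X.q n i + a) (X.k n) (CR S s n) (me e n) x) A := by
    intro ω hω A hA
    refine H.all h0 hπ h1.lt (fun c hc => ?_) hA
    by_contra hcon
    exact hω (prod_eq_zero hc (Set.indicator_of_notMem hcon _))
  have hcard : (CR S s n).card ≤ (ids S (Rf S) ja).card :=
    (card_le_card Scl.sub).trans (card_image_le (s := ids S (Rf S) ja)
      (f := jn (fun i => X.q n i + a) (X.k n) (t0 S s n) (me e n) n))
  refine HL n hn2 (NA X s e ja n a x) η _ _ hP q1 q2 q3 q4 q5 _ q6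
    (fun ω hω _ A hA => q7 ω hω A hA) (fun F hF0 hF => ?_) η' hη'
  rw [← hr] at hF ⊢
  have q8 := H.land h1 HC hP.reg.good hF0 hF
  refine le_trans (mul_le_mul_of_nonneg_right
    (pow_le_pow_of_le_one hc1.le hc11 hcard) ?_) q8
  refine FKA.Ex_nonneg h1.kit.pos fun ω _ => mul_nonneg (hF0 _) (prod_nonneg fun c hc => ?_)
  exact le_of_le_of_eq (ind01 _ _).1 (H.tx h0 h1.lt hc _).symm

end Vale.Agent.P167.N.QL
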