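import Vale.Agent.P167.N.QL.MatP
import Vale.Agent.P167.N.QL.Fam3

/-!
# P167, the range `0 < q < 1`, block Q-LAM: the phases of the natural functionals have good runs

`run_phP`: the phases `phP` have the two values `0`, `θ`, and their runs start at good sites. `Run.shift`:
the base can have the larger value. `Sc.run`, `Sc.nonneg`: the families, in all translates.
-/

set_option autoImplicit false

namespace Vale.Agent.P167.N.QL

open Finset Vale.Agent.P167 Vale.Agent.P167.BR
open Vale.Agent.P167.E6 (IsPolygon Encloses)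
open Vale.Agent.P167.H718 (IsCl poly_add encl_add)
open Vale.Agent.P167.H542.Q (BD)
open Vale.Agent.P167.QB (Ard ep ep_succ ep_cases)
open Vale.Agent.P167.QX (wB lo hi)
open Vale.Agent.P167.H365.NQ (XW)

variable {D : Finset (ℤ × ℤ)} {ω : Cfg} {N k m : ℕ} {q : ZMod N → ℤ × ℤ} {θ β b b' : ℝ}
  {ρ ρ' : ℕ → ℝ} {C : Finset ℕ}

/-- The charged sites have the good parity. -/
theorem rI_gd (hq : IsPolygon q) {c : ℕ} (hk : c < k → c + 1 < k) : GdR q k (rI q k c) := by
  have h1 := ep_ne (q := q) (j := c) hq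
  rw [Ne, ep_eq_iff] at h1
  unfold GdR rI
  split_ifs with h
  · by_cases hc : c < k
    · have h2 := h.1 hc
      have h3 := hk hc
      exact iff_of_false (fun h4 => h1 (iff_of_true h4 h2)) (not_not.2 h3)
    · have h2 : ¬ Even ((q (c : ZMod N)).1 + (q (c : ZMod N)).2) := fun h2 => hc (h.2 h2)
      refine iff_of_true ?_ (by omega)
      by_contra h4
      exact h1 (iff_of_false h4 h2)
  · by_cases hc : c < k
    · exact iff_of_false (fun h4 => h (iff_of_true hc h4)) (not_not.2 hc)
    · refine iff_of_true ?_ hc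
      by_contra h4
      exact h (iff_of_false hc h4)

/-- The interval of the corner `c`. -/
theorem phP_in (hC : ∀ c ∈ C, ∀ c' ∈ C, c < c' → c + m + 1 < c') {c j : ℕ} (hc : c ∈ C)
    (h1 : rI q k c ≤ j) (h2 : j < rI q k c + m) : phP θ q k C m j = θ := by
  unfold phP
  rw [sum_eq_single c]
  · rw [if_pos h1, if_neg (by omega)]
    ring
  · intro c' hc' hne
    have h3 := rI_or q k c
    have h4 := rI_or q k c'
    rcases Nat.lt_or_gt_of_ne hne with h5 | h5
    · have := hC c' hc' c hc h5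
      rw [if_pos (by omega), if_pos (by omega)]
      ring
    · have := hC c hc c' hc' h5
      rw [if_neg (by omega), if_neg (by omega)]
      ring
  · exact fun h => absurd hc h

/-- Outside the intervals. -/
theorem phP_out {j : ℕ} (h : ∀ c ∈ C, ¬ (rI q k c ≤ j ∧ j < rI q k c + m)) :
    phP θ q k C m j = 0 := by
  unfold phP
  refine sum_eq_zero fun c hc => ?_
  have := h c hc
  by_cases h1 : rI q k c ≤ j
  · rw [if_pos h1, if_pos (by omega)]
    ring
  · rw [if_neg h1, if_neg (by omega)]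
    ring

/-- **The phases of the natural functional have good runs.** -/
theorem run_phP (hq : IsPolygon q) (hθ : θ ≠ 0)
    (hC : ∀ c ∈ C, ∀ c' ∈ C, c < c' → c + m + 1 < c') (hk : ∀ c ∈ C, c < k → c + 1 < k) :
    Run N k q θ 0 (phP θ q k C m) := by
  have key : ∀ j, phP θ q k C m j = 0 ∨ ∃ c ∈ C, rI q k c ≤ j ∧ j < rI q k c + m := by
    intro j
    by_cases h : ∃ c ∈ C, rI q k c ≤ j ∧ j < rI q k c + m
    · exact Or.inr h
    · push Not at h
      exact Or.inl (phP_out fun c hc h1 => by have := h c hc h1.1; omega)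
  refine ⟨fun j _ => ?_, fun i j hij hj _ hi hj' => ?_⟩
  · rcases key j with h | ⟨c, hc, h1, h2⟩
    · exact Or.inl h
    · right
      rw [phP_in hC hc h1 h2, zero_add]
  · rcases key j with h | ⟨c, hc, h1, h2⟩
    · rw [hj'] at h
      exact absurd h (by simpa using hθ)
    · refine ⟨rI q k c, ?_, h1, rI_gd hq (hk c hc), fun l h3 h4 => ?_⟩
      · by_contra hcon
        push Not at hcon
        rw [phP_in hC hc hcon (by omega)] at hi
        exact hθ hi
      · rw [phP_in hC hc h3 (by omega), zero_add]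

/-- **The base with the larger value.** -/
theorem Run.shift (h : Run N k q θ b ρ) (hθ : θ ≠ 0) (h0 : ρ' 0 = b' + θ)
    (h1 : ∀ j < N, 0 < j → ρ' j = ρ j + (b' - b)) : Run N k q θ b' ρ' := by
  refine ⟨fun j hj => ?_, fun i j hij hj hk hi hj' => ?_⟩
  · rcases Nat.eq_zero_or_pos j with rfl | h2
    · exact Or.inr h0
    · rw [h1 j hj h2]
      rcases h.val j hj with h3 | h3
      · left; rw [h3]; ring
      · right; rw [h3]; ring
  · have hi0 : 0 < i := by
      rcases Nat.eq_zero_or_pos i with rfl | h2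
      · rw [h0] at hi
        exact absurd (add_eq_left.1 hi) hθ
      · exact h2
    obtain ⟨r, a1, a2, a3, a4⟩ := h.run i j hij hj hk
      (by rw [h1 i (by omega) hi0] at hi; linarith) (by rw [h1 j hj (by omega)] at hj'; linarith)
    refine ⟨r, a1, a2, a3, fun l l1 l2 => ?_⟩
    rw [h1 l (by omega) (by omega), a4 l l1 l2]
    ring

/-- Phases which differ by a constant. -/
theorem Run.add (h : Run N k q θ b ρ) (c : ℝ) (h1 : ∀ j < N, ρ' j = ρ j + c) :
    Run N k q θ (b + c) ρ' := by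
  refine ⟨fun j hj => ?_, fun i j hij hj hk hi hj' => ?_⟩
  · rw [h1 j hj]
    rcases h.val j hj with h3 | h3
    · left; rw [h3]
    · right; rw [h3]; ring
  · obtain ⟨r, a1, a2, a3, a4⟩ := h.run i j hij hj hk
      (by rw [h1 i (by omega)] at hi; linarith) (by rw [h1 j hj] at hj'; linarith)
    refine ⟨r, a1, a2, a3, fun l l1 l2 => ?_⟩
    rw [h1 l (by omega), a4 l l1 l2]
    ring

/-! ### the families -/

variable {S : CA.Dat} {X : BD S θ β} {s : ℕ → ℕ} {e C₀ : ℝ} {Rs ja : Finset ℕ} {n : ℕ}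

/-- The position of the base and of the junction. -/
theorem Sc.t0_near (H : Sc X s e Rs ja C₀ n) : |((t0 S s n : ℕ) : ℝ) - S.tp * n| ≤ C₀ := by
  have h0 := H.pos (0, 2) (by unfold ids; simp)
  rw [vv2] at h0
  have e1 : jn (X.q n) (X.k n) (t0 S s n) (me e n) n (0, 2) = 0 := by
    unfold jn
    have e1 : ((2 : Fin 3) = 0) = False := by simp
    have e2 : ((2 : Fin 3) = 1) = False := by simp
    simp only [e1, e2, if_false, if_true]
  rw [e1] at h0
  simpa using h0

theorem Sc.k_near (H : Sc X s e Rs ja C₀ n) {ia : ℕ} (h : ja = {ia}) (h0 : 0 < ia) :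
    |((t0 S s n : ℕ) : ℝ) + (X.k n : ℕ) - (ia + S.tp) * n| ≤ C₀ := by
  have h5 := H.pos (ia, 2) (by unfold ids; simp [h])
  have e1 : jn (X.q n) (X.k n) (t0 S s n) (me e n) n (ia, 2) = X.k n := by
    unfold jn
    have e1 : ((2 : Fin 3) = 0) = False := by simp
    have e2 : ((2 : Fin 3) = 1) = False := by simp
    simp only [e1, e2, if_false, if_neg h0.ne']
  rwa [vv2, e1] at h5

theorem me_le (he : 0 < e) (n : ℕ) : ((me e n : ℕ) : ℝ) ≤ e * n + 1 := by
  unfold me
  push_cast
  have : (⌊e * n / 2⌋₊ : ℝ) ≤ e * n / 2 := Nat.floor_le (by positivity)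
  linarith

/-- The numerical facts for the corners. -/
theorem Sc.sep_img (H : Sc X s e Rs ja C₀ n) (he : 0 < e) (he1 : 2 * e ≤ S.tp)
    (he2 : e ≤ 1 - S.tp) (hRs : Rs ⊆ Tn S) :
    (∀ c ∈ Rs.image fun i => i * n - t0 S s n, ∀ c' ∈ Rs.image fun i => i * n - t0 S s n,
      c < c' → c + me e n + 1 < c') ∧
    (∀ c ∈ Rs.image fun i => i * n - t0 S s n, c < X.k n → c + 1 < X.k n) := by
  have hn : (0 : ℝ) < n := by exact_mod_cast H.n0
  have hme := me_le he n
  have hbig := H.big
  have hC1 := H.C1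
  have htn := H.tn
  have ht0 := H.t0_near
  rw [abs_le] at ht0
  have htp : 2 * e * n ≤ S.tp * n := mul_le_mul_of_nonneg_right he1 hn.le
  have htp2 : e * n ≤ (1 - S.tp) * n := mul_le_mul_of_nonneg_right he2 hn.le
  have hi1 : ∀ i ∈ Rs, 1 ≤ i ∧ i ≤ S.l := by
    intro i hi
    have := hRs hi
    unfold Tn at this
    rw [mem_filter, mem_Icc] at this
    exact this.1
  have hge : ∀ i ∈ Rs, n ≤ i * n := fun i hi => Nat.le_mul_of_pos_left n (hi1 i hi).1
  constructor
  · intro c hc c' hc' hlt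
    rw [mem_image] at hc hc'
    obtain ⟨i, hi, rfl⟩ := hc
    obtain ⟨i', hi', rfl⟩ := hc'
    have h1 := hge i hi
    have h2 := hge i' hi'
    have h3 : i < i' := by
      by_contra hcon
      push Not at hcon
      have := Nat.mul_le_mul_right n hcon
      omega
    have h4 : (i + 1) * n ≤ i' * n := Nat.mul_le_mul_right n h3
    have h5 : (i + 1) * n = i * n + n := by ring
    have h6 : me e n + 1 < n := by
      have : ((me e n : ℕ) : ℝ) + 1 < n := by linarith
      exact_mod_cast this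
    omega
  · intro c hc hlt
    rw [mem_image] at hc
    obtain ⟨i, hi, rfl⟩ := hc
    have h1 := hge i hi
    have h6 : ((i * n - t0 S s n : ℕ) : ℝ) = i * n - (t0 S s n : ℕ) := by
      push_cast [Nat.cast_sub (show t0 S s n ≤ i * n by omega)]
      rfl
    rcases H.jun with ⟨-, h2 | h2⟩ | ⟨ia, h2, h3, h4⟩
    · omega
    · -- the end of the contour
      have h5 : i * n ≤ S.l * n := Nat.mul_le_mul_right n (hi1 i hi).2
      have h6 := H.N
      have h7 : ((1 : ℕ) : ℝ) < (t0 S s n : ℕ) := by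
        push_cast
        linarith
      have h8 : 1 < t0 S s n := by exact_mod_cast h7
      omega
    · have h5 := H.k_near h2 h3
      rw [abs_le] at h5
      rcases Nat.lt_or_ge ia i with h10 | h10
      · exfalso
        have h11 : ((ia + 1 : ℕ) : ℝ) * n ≤ i * n :=
          mul_le_mul_of_nonneg_right (by exact_mod_cast h10) hn.le
        have h12 : ((i * n - t0 S s n : ℕ) : ℝ) < (X.k n : ℕ) := by exact_mod_cast hlt
        rw [h6] at h12
        push_cast at h11
        linarith
      · have h11 : (i : ℝ) * n ≤ ia * n :=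
          mul_le_mul_of_nonneg_right (by exact_mod_cast h10) hn.le
        have h12 : ((i * n - t0 S s n : ℕ) : ℝ) + 1 < (X.k n : ℕ) := by
          rw [h6]
          linarith
        exact_mod_cast h12

/-- **The phases of the families have good runs**, in every translate. -/
theorem Sc.run (H : Sc X s e Rs ja C₀ n) (he : 0 < e) (he1 : 2 * e ≤ S.tp)
    (he2 : e ≤ 1 - S.tp) (hRs : Rs ⊆ Tn S) (hθ : θ ≠ 0) (a : ℤ × ℤ) :
    Run (X.N n) (X.k n) (fun i => X.q n i + a) θ 0
      (phP θ (fun i => X.q n i + a) (X.k n) (Rs.image fun i => i * n - t0 S s n) (me e n)) := by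
  obtain ⟨h1, h2⟩ := H.sep_img he he1 he2 hRs
  exact run_phP (poly_add H.poly a) hθ h1 h2

theorem Sc.run0 (H : Sc X s e Rs ja C₀ n) (he : 0 < e) (he1 : 2 * e ≤ S.tp)
    (he2 : e ≤ 1 - S.tp) (hRs : Rs ⊆ Tn S) (hθ : θ ≠ 0) :
    Run (X.N n) (X.k n) (X.q n) θ 0 (rhoP X s e Rs n) := by
  obtain ⟨h1, h2⟩ := H.sep_img he he1 he2 hRs
  exact run_phP H.poly hθ h1 h2

/-- **The natural functional of the families is nonnegative.** -/
theorem Sc.nonneg (H : Sc X s e Rs ja C₀ n) (he : 0 < e) (he1 : 2 * e ≤ S.tp)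
    (he2 : e ≤ 1 - S.tp) (hRs : Rs ⊆ Tn S) (h0 : 0 < θ) (h1 : θ < Real.pi / 2)
    (h2 : Real.pi / 3 ≤ θ) (hβ : β = (θ - Real.pi) / 2) (ω : Cfg) :
    0 ≤ XW (S.D n) (wP θ β (X.q n) (S.D n) (X.k n) (rhoP X s e Rs n)) ω :=
  natP_nonneg h0 h1 hβ H.poly H.enc (H.run0 he he1 he2 hRs h0.ne') h2 ω

end Vale.Agent.P167.N.QL
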