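import Vale.Agent.P167.N.QL.Al5
import Vale.Agent.P167.N.QL.MatR
import Vale.Agent.P167.N.QL.K8

/-!
# P167, the range `0 < q < 1`, block Q-LAM: lower bound for the natural functionals, the corners

`CW`: the corners and their compensating charges have disjoint index windows. `phP_dif`, `phA_dif`: phase
differences of the strands which go over the compensating charge if they go over the charged corner.
`wt_na`: their weights are positive. `na_pos`: positive centres, `na_tx`: killed centres. `na_all`: if all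
the charged corners are joined to the boundary behind the compensating charges, then all weights are
positive.
-/

set_option autoImplicit false

namespace Vale.Agent.P167.N.QL

open Finset Filter Vale.Agent.P167.BR Vale.Agent.P167.FK
open Vale.Agent.P167.E6 (IsPolygon Encloses face dir)
open Vale.Agent.P167.FKA (Loc)
open Vale.Agent.P167.H632 (cs pr)
open Vale.Agent.P167.H192.TA (Pw)
open Vale.Agent.P167.H718 (Dob IsCl)
open Vale.Agent.P167.H601.LG (feet)
open Vale.Agent.P167.H975 (TX)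
open Vale.Agent.P167.QX (wB lo hi)
open Vale.Agent.P167.N.NET (Ar Jn VRS)

variable {θ β : ℝ} {N k m w : ℕ} {q : ZMod N → ℤ × ℤ} {D : Finset (ℤ × ℤ)} {ω : Cfg}
  {A : Finset Ed} {C : Finset ℕ} {x : Bool} {u v : ℕ}

/-- **The windows of the corners.** -/
structure CW (N k m w : ℕ) (C : Finset ℕ) : Prop where
  le : ∀ c ∈ C, w ≤ c
  lt : ∀ c ∈ C, c + w ≤ N
  jun : ∀ c ∈ C, c + w ≤ k ∨ k + w ≤ c
  sep : ∀ c ∈ C, ∀ c' ∈ C, c < c' → c + w ≤ c'
  pos : 0 < m
  mw : m + 3 ≤ w

/-- The phase differences without the additional charge. -/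
theorem phP_dif (H : CW N k m w C) (huv : u ≤ v)
    (h : ∀ c ∈ C, u < rI q k c → rI q k c ≤ v → rI q k c + m ≤ v) :
    phP θ q k C m v - phP θ q k C m u = 0 ∨
      (phP θ q k C m v - phP θ q k C m u = -θ ∧
        ∃ c ∈ C, rI q k c ≤ u ∧ u < rI q k c + m ∧ rI q k c + m ≤ v) := by
  have e : phP θ q k C m v - phP θ q k C m u = ∑ c ∈ C, (θ * ((if rI q k c ≤ v then 1 else 0) -
      (if rI q k c + m ≤ v then 1 else 0)) - θ * ((if rI q k c ≤ u then 1 else 0) -
      (if rI q k c + m ≤ u then 1 else 0))) := by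
    unfold phP
    rw [← sum_sub_distrib]
  by_cases hex : ∃ c ∈ C, rI q k c ≤ u ∧ u < rI q k c + m ∧ rI q k c + m ≤ v
  · right
    refine ⟨?_, hex⟩
    obtain ⟨c, hc, h1, h2, h3⟩ := hex
    rw [e, sum_eq_single c]
    · rw [if_pos (by omega), if_pos h3, if_pos h1, if_neg (by omega)]
      ring
    · intro c' hc' hne
      have h4 := rI_or q k c
      have h5 := rI_or q k c'
      have h6 := h c' hc'
      have h7 := H.mw
      rcases Nat.lt_or_gt_of_ne hne with h8 | h8
      · have := H.sep c' hc' c hc h8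
        rw [if_pos (by omega), if_pos (by omega), if_pos (by omega), if_pos (by omega)]
        ring
      · have := H.sep c hc c' hc' h8
        rw [if_neg (by omega : ¬ rI q k c' ≤ u), if_neg (by omega : ¬ rI q k c' + m ≤ u)]
        by_cases h9 : rI q k c' ≤ v
        · rw [if_pos h9, if_pos (h6 (by omega) h9)]
          ring
        · rw [if_neg h9, if_neg (by omega)]
          ring
    · exact fun h4 => absurd hc h4
  · left
    rw [e]
    refine sum_eq_zero fun c hc => ?_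
    have h6 := h c hc
    have h7 : ¬ (rI q k c ≤ u ∧ u < rI q k c + m ∧ rI q k c + m ≤ v) := fun h8 => hex ⟨c, hc, h8⟩
    by_cases h1 : rI q k c ≤ u
    · by_cases h2 : rI q k c + m ≤ u
      · rw [if_pos h1, if_pos h2, if_pos (by omega), if_pos (by omega)]
        ring
      · rw [if_pos h1, if_neg h2, if_pos (by omega), if_neg (by omega)]
        ring
    · rw [if_neg h1, if_neg (by omega : ¬ rI q k c + m ≤ u)]
      by_cases h2 : rI q k c ≤ v
      · rw [if_pos h2, if_pos (h6 (by omega) h2)]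
        ring
      · rw [if_neg h2, if_neg (by omega)]
        ring

/-- **The phase differences.** -/
theorem phA_dif (H : CW N k m w C) (huv : u < v)
    (h : ∀ c ∈ C, u < rI q k c → rI q k c ≤ v → rI q k c + m ≤ v) :
    phA θ q k C m x v - phA θ q k C m x u = 0 ∨
      (phA θ q k C m x v - phA θ q k C m x u = -θ ∧
        ((∃ c ∈ C, rI q k c ≤ u ∧ u < rI q k c + m ∧ rI q k c + m ≤ v) ∨ (x = true ∧ u = 0))) := by
  unfold phA
  by_cases h1 : x = true ∧ u = 0
  · obtain ⟨rfl, rfl⟩ := h1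
    rw [if_pos ⟨rfl, by omega⟩, if_neg fun h3 => absurd h3.2 (by omega)]
    right
    rcases phP_dif (θ := θ) H huv.le h with h2 | ⟨-, c, hc, h3, -⟩
    · exact ⟨by linarith, Or.inr ⟨rfl, rfl⟩⟩
    · exfalso
      have h4 := H.le c hc
      have h5 := H.mw
      have h6 := rI_or q k c
      omega
  · have e : (if x = true ∧ 1 ≤ v then θ else 0) = (if x = true ∧ 1 ≤ u then θ else 0) := by
      by_cases h2 : x = true
      · have h3 : u ≠ 0 := fun h3 => h1 ⟨h2, h3⟩
        rw [if_pos ⟨h2, by omega⟩, if_pos ⟨h2, by omega⟩]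
      · rw [if_neg fun h3 => h2 h3.1, if_neg fun h3 => h2 h3.1]
    rw [e]
    rcases phP_dif (θ := θ) H huv.le h with h2 | ⟨h2, h3⟩
    · left
      linarith
    · right
      exact ⟨by linarith, Or.inl h3⟩

/-- **The weights are positive.** -/
theorem wt_na (h0 : 0 < θ) (h1 : Real.pi / 3 ≤ θ) (h2 : θ < Real.pi / 2)
    (hβ : β = (θ - Real.pi) / 2) (hq : IsPolygon q) (hD : Encloses q D) (H : CW N k m w C)
    (hx : x = true → k = 0 ∨ N ≤ k) (hA : A ∈ pcs ω D)
    (h : ¬ IsLp D A → (∀ c ∈ C, lo q A < rI q k c → rI q k c ≤ hi q A → rI q k c + m ≤ hi q A) ∧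
      ∀ c ∈ C, rI q k c ≤ lo q A → lo q A < rI q k c + m → rI q k c + m ≤ hi q A →
        ¬ (lo q A < k ∧ k ≤ hi q A)) :
    wl θ ≤ wP θ β q D k (phA θ q k C m x) A := by
  refine wP_ge h0 h2 hq hD hA fun hl => ?_
  obtain ⟨h3, h4⟩ := h hl
  obtain ⟨h5, h6, -, -⟩ := feet hq hD hA hl
  rcases phA_dif (θ := θ) (x := x) H h5 h3 with h7 | ⟨h7, h8⟩
  · rw [h7]
    refine sgA_of h0 (fun _ _ => ?_) fun _ => ⟨by linarith, le_rfl⟩
    rw [hβ, abs_le]
    constructor <;> linarith [Real.pi_pos]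
  · rw [h7]
    refine sgA_of h0 (fun h9 h10 => ?_) fun _ => ⟨le_rfl, by linarith⟩
    exfalso
    rcases h8 with ⟨c, hc, g1, g2, g3⟩ | ⟨g1, g2⟩
    · exact h4 c hc g1 g2 g3 ⟨h9, h10⟩
    · rcases hx g1 with h11 | h11 <;> omega

/-- **If the charged sites are joined to the boundary behind the compensating charges, then all weights
are positive.** -/
theorem na_all (h0 : 0 < θ) (h1 : Real.pi / 3 ≤ θ) (h2 : θ < Real.pi / 2)
    (hβ : β = (θ - Real.pi) / 2) (hq : IsPolygon q) (hD : Encloses q D) (H : CW N k m w C)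
    (hx : x = true → k = 0 ∨ N ≤ k) {L : ℕ} (hL : m + 2 ≤ 2 * L) (hLw : 3 * L < w)
    {cc : ℕ → Bool}
    (hJ : ∀ c ∈ C, ω ∈ Jn (cc c) ↑(Bq (q (c : ZMod N)) (4 * L) ∩ D)
      (Ar q (cc c) (rI q k c) (rI q k c)) (Ar q (cc c) (c + 2 * L) (c + 3 * L)))
    (hA : A ∈ pcs ω D) : wl θ ≤ wP θ β q D k (phA θ q k C m x) A := by
  have key : ∀ c ∈ C, ¬ IsLp D A → ∃ j : ℕ, c + 2 * L ≤ j ∧ j ≤ c + 3 * L ∧
      ((lo q A < rI q k c ∧ rI q k c ≤ hi q A) ↔ (lo q A < j ∧ j ≤ hi q A)) := by
    intro c hc hl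
    obtain ⟨a, ⟨ha, t, t1, t2, rfl⟩, b, ⟨hb, j, j1, j2, rfl⟩, hab⟩ := hJ c hc
    obtain rfl : t = rI q k c := le_antisymm t2 t1
    have h3 := H.lt c hc
    have h4 := rI_or q k c
    refine ⟨j, j1, j2, over_iff_of_join hq hD hA hl (by omega) (by omega) ha
      (H192.TA.Pw.mono ?_ hab)⟩
    rintro v ⟨g2, g3⟩
    exact ⟨g2, mem_coe.2 (mem_inter.1 (mem_coe.1 g3)).2⟩
  refine wt_na h0 h1 h2 hβ hq hD H hx hA fun hl => ⟨fun c hc h3 h4 => ?_, fun c hc h3 h4 h5 h6 => ?_⟩
  · obtain ⟨j, j1, j2, j3⟩ := key c hc hl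
    have h5 := j3.1 ⟨h3, h4⟩
    have h6 := rI_or q k c
    omega
  · obtain ⟨j, j1, j2, j3⟩ := key c hc hl
    have h7 : ¬ (lo q A < j ∧ j ≤ hi q A) := fun h8 => by
      have := j3.2 h8
      omega
    have h8 := rI_or q k c
    have h9 := H.jun c hc
    have h10 := H.mw
    omega

/-- **The positive centres.** -/
theorem na_pos (h0 : 0 < θ) (h1 : Real.pi / 3 ≤ θ) (h2 : θ < Real.pi / 2)
    (hβ : β = (θ - Real.pi) / 2) {n : ℕ} (hG : GeoP n N q) (hq : IsPolygon q) (hD : Encloses q D)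
    (H : CW N k m w C) (hx : x = true → k = 0 ∨ N ≤ k) {J : Finset ℕ} {ℓ : ℕ}
    (hS : ∀ i ∈ J, ∀ j ∈ J, i < j → i + ℓ ≤ j ∧ j + ℓ ≤ i + N) (hJN : ∀ j ∈ J, j < N)
    (h0J : 0 ∈ J) (hCJ : C ⊆ J) (hzJ : ∀ c ∈ C, rI q k c + m ∈ J) (hkJ : k ∈ J ∨ k = 0 ∨ N ≤ k)
    {d : ℕ} {r : ℤ} (hr : 3 * (r + 1) < n) (hrd : 2 * (r + 1) ≤ d) (hd : d + 2 < ℓ)
    (hdw : d + m + 3 ≤ w) {j : ℕ} (hj : j ∈ J) (hjC : j ∉ C) :
    ∀ ω : Cfg, ∀ A ∈ pcs ω D, (∀ e ∈ A, hdv e ∈ Bq (q (j : ZMod N)) r) →
      wl θ ≤ wP θ β q D k (phA θ q k C m x) A := by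
  intro ω A hA hin
  refine wt_na h0 h1 h2 hβ hq hD H hx hA fun hl => ?_
  have hjN := hJN j hj
  obtain ⟨g1, g2⟩ := feet_win hG hq hD hA hl hjN.le hr hin
  obtain ⟨g5, g6, -, -⟩ := feet hq hD hA hl
  rcases Nat.eq_zero_or_pos j with rfl | hj0
  · have a1 := win_zero g1 hrd
    have a2 := win_zero g2 hrd
    refine ⟨fun c hc h3 h4 => ?_, fun c hc h3 h4 h5 h6 => ?_⟩
    · have b1 := H.le c hc
      have b2 := H.lt c hc
      have b3 := rI_or q k c
      omega
    · have b1 := H.le c hc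
      have b2 := H.lt c hc
      have b3 := rI_or q k c
      omega
  · have s0 := hS 0 h0J j hj hj0
    obtain ⟨a1, a2⟩ := win_mid g1 (g5.trans g6) hrd (by omega) (by omega)
    obtain ⟨a3, a4⟩ := win_mid g2 g6 hrd (by omega) (by omega)
    have hcj : ∀ c ∈ C, c + ℓ ≤ j ∨ j + ℓ ≤ c := by
      intro c hc
      have hne : c ≠ j := fun h => hjC (h ▸ hc)
      rcases Nat.lt_or_gt_of_ne hne with h3 | h3
      · exact Or.inl (hS c (hCJ hc) j hj h3).1
      · exact Or.inr (hS j hj c (hCJ hc) h3).1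
    refine ⟨fun c hc h3 h4 => ?_, fun c hc h3 h4 h5 h6 => ?_⟩
    · have b1 := hcj c hc
      have b3 := rI_or q k c
      omega
    · -- `j` is the compensating charge
      have b4 := H.jun c hc
      have b5 := rI_or q k c
      have b6 : rI q k c + m = j := by
        by_contra hne
        rcases Nat.lt_or_gt_of_ne hne with h7 | h7
        · have := hS _ (hzJ c hc) j hj h7
          omega
        · have := hS j hj _ (hzJ c hc) h7
          omega
      rcases hkJ with h7 | h7 | h7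
      · have hne : k ≠ j := by omega
        rcases Nat.lt_or_gt_of_ne hne with h8 | h8
        · have := hS k h7 j hj h8
          omega
        · have := hS j hj k h7 h8
          omega
      · omega
      · omega

/-- The jumps of the phases near a corner. -/
theorem phA_inc (H : CW N k m w C) {c j : ℕ} (hc : c ∈ C) (h1 : c < j + (w - m - 2))
    (h2 : j ≤ c + m) :
    phA θ q k C m x j - phA θ q k C m x (j - 1) =
      if j = rI q k c then θ else if j = rI q k c + m then -θ else 0 := by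
  have hw := H.mw
  have hm := H.pos
  have hcl := H.le c hc
  have hr := rI_or q k c
  have e0 : (if x = true ∧ 1 ≤ j then θ else 0) = (if x = true ∧ 1 ≤ j - 1 then θ else 0) := by
    by_cases h2 : x = true
    · rw [if_pos ⟨h2, by omega⟩, if_pos ⟨h2, by omega⟩]
    · rw [if_neg fun h3 => h2 h3.1, if_neg fun h3 => h2 h3.1]
  unfold phA
  rw [e0]
  have e : phP θ q k C m j - phP θ q k C m (j - 1) = ∑ c ∈ C, (θ * ((if rI q k c ≤ j then 1 else 0) -
      (if rI q k c + m ≤ j then 1 else 0)) - θ * ((if rI q k c ≤ j - 1 then 1 else 0) -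
      (if rI q k c + m ≤ j - 1 then 1 else 0))) := by
    unfold phP
    rw [← sum_sub_distrib]
  have e2 : ∀ a b c : ℝ, a - c - (b - c) = a - b := fun a b c => by ring
  rw [e2, e, sum_eq_single c]
  · split_ifs <;> first | omega | ring
  · intro c' hc' hne
    have h5 := rI_or q k c'
    rcases Nat.lt_or_gt_of_ne hne with h8 | h8
    · have := H.sep c' hc' c hc h8
      rw [if_pos (by omega), if_pos (by omega), if_pos (by omega), if_pos (by omega)]
      ring
    · have := H.sep c hc c' hc' h8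
      rw [if_neg (by omega), if_neg (by omega), if_neg (by omega), if_neg (by omega)]
      ring
  · exact fun h4 => absurd hc h4

end Vale.Agent.P167.N.QL
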