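import Vale.Agent.P167.N.QL.Lw1
import Vale.Agent.P167.N.QL.Pr2

/-!
# P167, the range `0 < q < 1`, block Q-LAM: lower bound for the natural functionals, landing

`RdC`: test functions. `land_C`: all the charged corners are joined to the boundary behind their
compensating charges. `na_tx`: the local factor of a charged corner.
-/

set_option autoImplicit false

namespace Vale.Agent.P167.N.QL

open Finset Filter Vale.Agent.P167.BR Vale.Agent.P167.FK
open Vale.Agent.P167.E6 (IsPolygon Encloses face dir)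
open Vale.Agent.P167.FKA (Loc)
open Vale.Agent.P167.H632 (cs pr)
open Vale.Agent.P167.H601.LG (feet nm_tri' nm_comm nm_of_Bq)
open Vale.Agent.P167.H975 (TX)
open Vale.Agent.P167.QX (wB lo hi)
open Vale.Agent.P167.N.AW (Kil)
open Vale.Agent.P167.N.NET (Ar Jn VRS)

variable {θ β Q : ℝ} {N k m w d n₀ : ℕ} {q : ZMod N → ℤ × ℤ} {D : Finset (ℤ × ℤ)} {ω η : Cfg}
  {A : Finset Ed} {C : Finset ℕ} {x : Bool} {c c' z : ℕ} {L r a : ℤ} {F G : Cfg → ℝ} {τ : ℕ → ℤ}

/-- The function reads the sites off the box of the corner `c` and the sites in the box around `q z`. -/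
def RdC (q : ZMod N → ℤ × ℤ) (D : Finset (ℤ × ℤ)) (c z : ℕ) (L r : ℤ) (F : Cfg → ℝ) : Prop :=
  ∀ ω ω' : Cfg, (∀ v, (v ∉ D ∨ 4 * L < nm (v - q (c : ZMod N)) ∨ v ∈ Bq (q (z : ZMod N)) r) →
    ω v = ω' v) → F ω = F ω'

theorem RdC.mul (hF : RdC q D c z L r F) (hG : RdC q D c z L r G) :
    RdC q D c z L r fun ω => F ω * G ω := fun ω ω' h => by
  show F ω * G ω = F ω' * G ω'
  rw [hF ω ω' h, hG ω ω' h]

theorem RdC.prod {ι : Type} {V : Finset ι} {G : ι → Cfg → ℝ}
    (hG : ∀ i ∈ V, RdC q D c z L r (G i)) : RdC q D c z L r fun ω => ∏ i ∈ V, G i ω :=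
  fun ω ω' h => prod_congr rfl fun i hi => hG i hi ω ω' h

/-- Local functions in a box far from the corner. -/
theorem rdC_far {p : ℤ × ℤ} (hne : 4 * L + a < nm (p - q (c : ZMod N)))
    (hG : Loc (Bq p a ∩ D) G) : RdC q D c z L r G := by
  intro ω ω' h
  refine hG ω ω' fun v hv => h v (Or.inr (Or.inl ?_))
  have h1 := nm_of_Bq (mem_inter.1 hv).1
  have h2 := nm_tri' p v (q (c : ZMod N))
  rw [nm_comm p v] at h2
  omega

/-- Local functions in the box around `q z`. -/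
theorem rdC_z (hG : Loc (Bq (q (z : ZMod N)) r ∩ D) G) : RdC q D c z L r G :=
  fun ω ω' h => hG ω ω' fun v hv => h v (Or.inr (Or.inr (mem_inter.1 hv).1))

theorem ind01 (E : Set Cfg) (ω : Cfg) : 0 ≤ E.indicator (1 : Cfg → ℝ) ω ∧
    E.indicator (1 : Cfg → ℝ) ω ≤ 1 := by
  by_cases h : ω ∈ E
  · rw [Set.indicator_of_mem h]
    exact ⟨zero_le_one, le_rfl⟩
  · rw [Set.indicator_of_notMem h]
    exact ⟨le_rfl, zero_le_one⟩

/-- **Landing at all the corners.** -/
theorem land_C (hQ : 0 < Q) (hQ1 : Q ≤ 1) (hV : VRS Q) (M₀ : ℕ) : ∃ c1 : ℝ, 0 < c1 ∧ c1 ≤ 1 ∧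
    ∀ {N k m d n₀ : ℕ} {q : ZMod N → ℤ × ℤ} {D : Finset (ℤ × ℤ)} {η : Cfg} {τ : ℕ → ℤ}
      {cc : ℕ → Bool} {ρ L : ℕ}, Good η → 64 ≤ ρ → L ≤ M₀ * ρ → 8 * L + 4 < d →
      12 * L + 6 < n₀ → 2 * ρ ≤ m → m + 1 + ρ ≤ 2 * L →
    ∀ C : Finset ℕ, (∀ c ∈ C, SW n₀ true q D τ c d) →
      (∀ c ∈ C, ((q (rI q k c : ZMod N)).1 + (q (rI q k c : ZMod N)).2) % 2 = pr (cc c)) →
      (∀ c ∈ C, ∀ c' ∈ C, c ≠ c' → 8 * (L : ℤ) < nm (q (c' : ZMod N) - q (c : ZMod N))) →
    ∀ F : Cfg → ℝ, (∀ ω, 0 ≤ F ω) → (∀ c ∈ C, RdC q D c (rI q k c + m) L ρ F) →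
      c1 ^ C.card * Ex Q D η (fun ω => F ω *
          ∏ c ∈ C, (NS q D c (rI q k c) ρ).indicator (1 : Cfg → ℝ) ω) ≤
        Ex Q D η (fun ω => F ω *
          ∏ c ∈ C, (Ld q D c (rI q k c) L (cc c)).indicator (1 : Cfg → ℝ) ω) := by
  classical
  obtain ⟨c1, hc1, hc11, H⟩ := land_g hQ hQ1 hV M₀
  refine ⟨c1, hc1, hc11, ?_⟩
  intro N k m d n₀ q D η τ cc ρ L hη h1 h2 h3 h4 h5 h6 C
  induction C using Finset.induction_on with
  | empty =>
    intro _ _ _ F _ _
    simp only [card_empty, pow_zero, one_mul, prod_empty]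
    exact le_rfl
  | insert c V hcV ih =>
    intro hW hp hs F hF0 hF
    have hWc := hW c (mem_insert_self c V)
    have hcne : ∀ c' ∈ V, c ≠ c' := fun c' hc' h => hcV (h ▸ hc')
    have hlt := hWc.lt
    have hle := hWc.le
    have hr := rI_or q k c
    -- the indicators at the other corners
    have hL : ∀ c' ∈ V, ∀ z r, RdC q D c z L r
        ((Ld q D c' (rI q k c') L (cc c')).indicator (1 : Cfg → ℝ)) := fun c' hc' z r =>
      rdC_far (by
        have := hs c (mem_insert_self c V) c' (mem_insert_of_mem hc') (hcne c' hc')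
        omega) (Ld_loc q D c' (rI q k c') L (cc c'))
    have hN : ∀ c' ∈ V, ∀ z r, RdC q D c' z L r
        ((NS q D c (rI q k c) ρ).indicator (1 : Cfg → ℝ)) := fun c' hc' z r =>
      rdC_far (p := q (c : ZMod N)) (a := ρ) (by
        have := hs c' (mem_insert_of_mem hc') c (mem_insert_self c V) (hcne c' hc').symm
        omega) (NS_loc hWc.poly hWc.enc (hWc.wn (R := ρ + 1) (by omega) (by omega) (by omega))
          (by omega) le_rfl (by omega))
    -- the first step: the corners in `V`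
    have k1 := ih (fun c' hc' => hW c' (mem_insert_of_mem hc'))
      (fun c' hc' => hp c' (mem_insert_of_mem hc'))
      (fun a ha b hb => hs a (mem_insert_of_mem ha) b (mem_insert_of_mem hb))
      (fun ω => F ω * (NS q D c (rI q k c) ρ).indicator (1 : Cfg → ℝ) ω)
      (fun ω => mul_nonneg (hF0 ω) (ind01 _ ω).1)
      (fun c' hc' => (hF c' (mem_insert_of_mem hc')).mul (hN c' hc' _ _))
    -- the second step: the corner `c`
    have k2 := H hWc hη (t := rI q k c) (by omega) (by omega) (hp c (mem_insert_self c V))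
      ρ L (rI q k c + m - c) ρ h1 h2 h3 h4 (by omega) (by omega)
      (fun ω => F ω * ∏ c' ∈ V, (Ld q D c' (rI q k c') L (cc c')).indicator (1 : Cfg → ℝ) ω)
      (fun ω => mul_nonneg (hF0 ω) (prod_nonneg fun c' _ => (ind01 _ ω).1))
      (fun ω ω' hω => ((hF c (mem_insert_self c V)).mul (RdC.prod fun c' hc' =>
        hL c' hc' (rI q k c + m) ρ)) ω ω' fun v hv => hω v (by
          rw [show c + (rI q k c + m - c) = rI q k c + m by omega]
          exact hv))
    rw [card_insert_of_notMem hcV, pow_succ]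
    simp only [prod_insert hcV]
    have e1 : (fun ω => F ω * ((NS q D c (rI q k c) ρ).indicator (1 : Cfg → ℝ) ω *
        ∏ c' ∈ V, (NS q D c' (rI q k c') ρ).indicator (1 : Cfg → ℝ) ω)) =
        fun ω => F ω * (NS q D c (rI q k c) ρ).indicator (1 : Cfg → ℝ) ω *
        ∏ c' ∈ V, (NS q D c' (rI q k c') ρ).indicator (1 : Cfg → ℝ) ω := by
      funext ω
      ring
    have e2 : (fun ω => F ω * (NS q D c (rI q k c) ρ).indicator (1 : Cfg → ℝ) ω *
        ∏ c' ∈ V, (Ld q D c' (rI q k c') L (cc c')).indicator (1 : Cfg → ℝ) ω) =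
        fun ω => F ω * (∏ c' ∈ V, (Ld q D c' (rI q k c') L (cc c')).indicator (1 : Cfg → ℝ) ω) *
          (NS q D c (rI q k c) ρ).indicator (1 : Cfg → ℝ) ω := by
      funext ω
      ring
    have e3 : (fun ω => F ω * ((Ld q D c (rI q k c) L (cc c)).indicator (1 : Cfg → ℝ) ω *
        ∏ c' ∈ V, (Ld q D c' (rI q k c') L (cc c')).indicator (1 : Cfg → ℝ) ω)) =
        fun ω => F ω * (∏ c' ∈ V, (Ld q D c' (rI q k c') L (cc c')).indicator (1 : Cfg → ℝ) ω) *
          (Ld q D c (rI q k c) L (cc c)).indicator (1 : Cfg → ℝ) ω := by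
      funext ω
      ring
    rw [e1, e3]
    rw [e2] at k1
    calc c1 ^ V.card * c1 * _ = c1 * (c1 ^ V.card * _) := by ring
      _ ≤ c1 * _ := mul_le_mul_of_nonneg_left k1 hc1.le
      _ ≤ _ := k2

/-- **The local factor of a charged corner.** -/
theorem na_tx (h0 : 0 < θ) (h2 : θ < Real.pi / 2) (hβ : Real.cos (θ / 2 + β) = Real.sin θ)
    (H : CW N k m w C) (hc : c ∈ C) (hW : SW n₀ true q D τ c d) {cc : Bool}
    (hcc : (cc = false ∧ c < k) ∨ (cc = true ∧ k ≤ c))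
    (hp : ((q (rI q k c : ZMod N)).1 + (q (rI q k c : ZMod N)).2) % 2 = pr cc) (hr0 : 0 ≤ r)
    (hrd : 2 * (r + 2) < d) (hrn : 3 * (r + 2) < n₀) (hrm : r + 3 ≤ m) (hrw : r + m + 5 ≤ w)
    (ω : Cfg) :
    TX (wP θ β q D k (phA θ q k C m x)) D (q (c : ZMod N)) r ω =
      (NS q D c (rI q k c) r).indicator 1 ω := by
  have hs : Real.sin θ ≠ 0 := (Real.sin_pos_of_pos_of_lt_pi h0 (by linarith [Real.pi_pos])).ne'
  have hco : Real.cos θ ≠ 0 := (Real.cos_pos_of_mem_Ioo ⟨by linarith, h2⟩).ne'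
  have h3 := rI_or q k c
  have h4 := H.jun c hc
  have h5 := H.le c hc
  have h6 := H.lt c hc
  have h7 := H.mw
  have hWn := hW.wn (R := r + 1) (by omega) (by omega) (by omega)
  refine TX_o hW.poly hW.enc hs hco hβ hWn hr0 le_rfl (by omega) (by omega) hp ?_
    (fun j j1 j2 j3 => ?_) ?_
  · rcases hcc with ⟨g1, g2⟩ | ⟨g1, g2⟩
    · exact Or.inl ⟨g1, by omega⟩
    · exact Or.inr ⟨g1, by omega⟩
  · have h8 := phA_inc (q := q) (θ := θ) (x := x) H hc (j := j) (by omega) (by omega)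
    rw [if_neg j3, if_neg (by omega)] at h8
    linarith
  · have h8 := phA_inc (q := q) (θ := θ) (x := x) H hc (j := rI q k c) (by omega) (by omega)
    rw [if_pos rfl] at h8
    linarith

/-- **The charged corners are killed.** -/
theorem na_kil (h0 : 0 < θ) (h2 : θ < Real.pi / 2) (hβ : Real.cos (θ / 2 + β) = Real.sin θ)
    (H : CW N k m w C) (hc : c ∈ C) (hW : SW n₀ true q D τ c d) {cc : Bool}
    (hcc : (cc = false ∧ c < k) ∨ (cc = true ∧ k ≤ c))
    (hp : ((q (rI q k c : ZMod N)).1 + (q (rI q k c : ZMod N)).2) % 2 = pr cc)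
    (hrd : 2 * (r + 2) < d) (hrn : 3 * (r + 2) < n₀) (hrm : r + 3 ≤ m) (hrw : r + m + 5 ≤ w) :
    Kil 1 1 (wP θ β q D k (phA θ q k C m x)) D (q (c : ZMod N))
      (fun r => (NS q D c (rI q k c) r).indicator (1 : Cfg → ℝ)) r :=
  kil_of_ind c le_rfl le_rfl (m := 1) le_rfl le_rfl fun _ ω _ _ =>
    Or.inl (na_tx h0 h2 hβ H hc hW hcc hp (by omega) (by omega) (by omega) (by omega) (by omega) ω)

/-- The landing event is in the event `NS`. -/
theorem Ld_sub_NS' (hW : SW n₀ true q D τ c d) {t ρ L : ℕ} {cc : Bool} (ht : t ≤ N) (hρ : ρ < 2 * L)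
    (hrd : 2 * (ρ + 2) < d) (hrn : 3 * (ρ + 2) < n₀) (hL : 3 * L ≤ d) :
    Ld q D c t L cc ⊆ NS q D c t ρ := by
  intro ω hω
  have hlt := hW.lt
  exact ns_of_land hW.poly hW.enc (hW.wn (R := ρ) (by omega) (by omega) (by omega)) ht le_rfl
    (by omega) (by omega) hω

end Vale.Agent.P167.N.QL
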