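import Vale.Agent.P167.N.QL.MatR
import Vale.Agent.P167.N.QL.In

/-!
# P167, the range `0 < q < 1`, block Q-LAM: the natural functionals on the translates are nonnegative

`runA`: the phases of `NA X s e ja n a x` have good runs; `NA_nonneg`, `NA_ge`.
-/

set_option autoImplicit false

namespace Vale.Agent.P167.N.QL

open Finset Vale.Agent.P167 Vale.Agent.P167.BR Vale.Agent.P167.FK
open Vale.Agent.P167.E6 (IsPolygon Encloses)
open Vale.Agent.P167.H718 (IsCl poly_add encl_add)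
open Vale.Agent.P167.H542.Q (BD)
open Vale.Agent.P167.H365.NQ (XW)

variable {S : CA.Dat} {θ β : ℝ} {X : BD S θ β} {s : ℕ → ℕ} {e C₀ : ℝ} {Rs ja : Finset ℕ} {n : ℕ}

/-- The phases with the additional charge. -/
theorem Sc.runA (H : Sc X s e Rs ja C₀ n) (he : 0 < e) (he1 : 2 * e ≤ S.tp)
    (he2 : e ≤ 1 - S.tp) (hRs : Rs ⊆ Tn S) (hθ : θ ≠ 0) (a : ℤ × ℤ) (x : Bool) :
    Run (X.N n) (X.k n) (fun i => X.q n i + a) θ (if x = true then -θ else 0)
      (phA θ (fun i => X.q n i + a) (X.k n) (Rs.image fun i => i * n - t0 S s n) (me e n) x) := by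
  have h := H.run he he1 he2 hRs hθ a
  cases x
  · simp only [Bool.false_eq_true, if_false]
    unfold phA
    simp only [Bool.false_eq_true, false_and, if_false, sub_zero]
    exact h
  · simp only [if_true]
    refine h.shift hθ ?_ fun j _ hj => ?_
    · unfold phA
      rw [if_neg (by omega), sub_zero, neg_add_cancel]
      refine phP_out fun c hc h1 => ?_
      rw [mem_image] at hc
      obtain ⟨i, hi, rfl⟩ := hc
      have h2 := hRs hi
      unfold Tn at h2
      rw [mem_filter, mem_Icc] at h2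
      have h3 : n ≤ i * n := Nat.le_mul_of_pos_left n h2.1.1
      have h4 := H.tn
      have h5 := rI_or (fun i => X.q n i + a) (X.k n) (i * n - t0 S s n)
      omega
    · unfold phA
      rw [if_pos ⟨rfl, hj⟩]
      ring

/-- The numbers of the reflex corners. -/
theorem Sc.sc_rf (H : Sc X s e (Rf S) ja C₀ n) (he : 0 < e) (he1 : 2 * e ≤ S.tp)
    (he2 : e ≤ 1 - S.tp) (hθ : θ ≠ 0) (a : ℤ × ℤ) (x : Bool) :
    ∃ b, Run (NA X s e ja n a x).N (NA X s e ja n a x).k (NA X s e ja n a x).q θ b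
      (NA X s e ja n a x).ρ :=
  ⟨_, H.runA he he1 he2 (Rf_sub S) hθ a x⟩

/-- **The natural functionals on the translates are nonnegative.** -/
theorem NA_nonneg (H : Sc X s e (Rf S) ja C₀ n) (he : 0 < e) (he1 : 2 * e ≤ S.tp)
    (he2 : e ≤ 1 - S.tp) (h0 : 0 < θ) (h1 : θ < Real.pi / 2) (h2 : Real.pi / 3 ≤ θ)
    (a : ℤ × ℤ) (x : Bool) (ω : Cfg) :
    0 ≤ XW (NA X s e ja n a x).D (wP θ (bt θ) (NA X s e ja n a x).q (NA X s e ja n a x).D
      (NA X s e ja n a x).k (NA X s e ja n a x).ρ) ω := by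
  obtain ⟨b, hb⟩ := H.sc_rf he he1 he2 h0.ne' a x
  exact natP_nonneg (q := (NA X s e ja n a x).q) (D := (NA X s e ja n a x).D) h0 h1 rfl
    (poly_add H.poly a) (encl_add H.enc a) hb h2 ω

/-- If no weight vanishes, then all weights are at least `2 cos θ`. -/
theorem NA_ge (H : Sc X s e (Rf S) ja C₀ n) (he : 0 < e) (he1 : 2 * e ≤ S.tp)
    (he2 : e ≤ 1 - S.tp) (h0 : 0 < θ) (h1 : θ < Real.pi / 2) (h2 : Real.pi / 3 ≤ θ)
    (a : ℤ × ℤ) (x : Bool) {ω : Cfg} (hne : ∀ A ∈ pcs ω (NA X s e ja n a x).D,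
      wP θ (bt θ) (NA X s e ja n a x).q (NA X s e ja n a x).D (NA X s e ja n a x).k
        (NA X s e ja n a x).ρ A ≠ 0) {A : Finset Ed} (hA : A ∈ pcs ω (NA X s e ja n a x).D) :
    2 * Real.cos θ ≤ wP θ (bt θ) (NA X s e ja n a x).q (NA X s e ja n a x).D
      (NA X s e ja n a x).k (NA X s e ja n a x).ρ A := by
  obtain ⟨b, hb⟩ := H.sc_rf he he1 he2 h0.ne' a x
  exact natP_ge (q := (NA X s e ja n a x).q) (D := (NA X s e ja n a x).D) h0 h1 rfl
    (poly_add H.poly a) (encl_add H.enc a) hb h2 hne hA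

end Vale.Agent.P167.N.QL
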