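import Vale.Agent.P167.N.QL.In
import Vale.Agent.P167.N.QL.MatR

/-!
# P167, the range `0 < q < 1`, block Q-LAM: the translates of the natural functionals are regular

`Sc.posT`: the positions of the centres (the charged sites depend on the parity of the translation).
`na_rg`: the data `NA X s e ja n a x` are regular, uniformly in `a`, `x`.
-/

set_option autoImplicit false

namespace Vale.Agent.P167.N.QL

open Finset Filter Vale.Agent.P167.BR Vale.Agent.P167.FK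
open Vale.Agent.P167.E6 (IsPolygon Encloses dir face)
open Vale.Agent.P167.H825 (enl pdir tn)
open Vale.Agent.P167.H718 (Dob rc poly_add encl_add)
open Vale.Agent.P167.H871 (Bd)
open Vale.Agent.P167.H542.Q (BD)
open Vale.Agent.P167.H760.Q (BaseQ JunQ pb q_pos)
open Vale.Agent.P167.N.H167.Q (Reg)

variable {S : CA.Dat} {θ β : ℝ} {X : BD S θ β} {s : ℕ → ℕ} {e C : ℝ} {Rs ja : Finset ℕ} {n : ℕ}

/-- The indices of the centres in two polygons. -/
theorem jn_near {N N' : ℕ} (q : ZMod N → ℤ × ℤ) (q' : ZMod N' → ℤ × ℤ) (k t₀ m n : ℕ)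
    (a : ℕ × Fin 3) : |((jn q k t₀ m n a : ℕ) : ℝ) - (jn q' k t₀ m n a : ℕ)| ≤ 1 := by
  unfold jn
  split_ifs
  · rw [sub_self, abs_zero]
    exact zero_le_one
  · rcases rI_or q k (a.1 * n - t₀) with h | h <;> rcases rI_or q' k (a.1 * n - t₀) with h' | h' <;>
      rw [h, h', abs_le] <;> push_cast <;> constructor <;> linarith
  · rw [sub_self, abs_zero]
    exact zero_le_one
  · rw [sub_self, abs_zero]
    exact zero_le_one

/-- **The positions of the centres** in the translates. -/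
theorem Sc.posT (H : Sc X s e Rs ja C n) {N' : ℕ} (q' : ZMod N' → ℤ × ℤ) {a : ℕ × Fin 3}
    (ha : a ∈ ids S Rs ja) : |((t0 S s n : ℕ) : ℝ) +
      (jn q' (X.k n) (t0 S s n) (me e n) n a : ℕ) - vv e S.tp a * n| ≤ C + 1 := by
  have h1 := H.pos a ha
  have h2 := jn_near (X.q n) q' (X.k n) (t0 S s n) (me e n) n a
  rw [abs_le] at *
  constructor <;> linarith

theorem Sc.ja_lt (H : Sc X s e Rs ja C n) : ∀ i ∈ ja, 0 < i ∧ i < S.l := by
  rcases H.jun with ⟨h, -⟩ | ⟨ia, h, h1, h2⟩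
  · intro i hi
    rw [h] at hi
    exact absurd hi (by simp)
  · intro i hi
    rw [h, mem_singleton] at hi
    rw [hi]
    exact ⟨h1, h2⟩

/-- The standing facts with an arbitrary factor. -/
theorem exists_sc' (X : BD S θ β) {s : ℕ → ℕ} (hb : BaseQ X s) {e : ℝ} (he : 0 < e)
    {Rs ja : Finset ℕ} (hRs : Rs ⊆ Tn S) (hj : JunP X ja) (K : ℝ) :
    ∃ C : ℝ, ∀ᶠ n : ℕ in X.L, Sc X s e Rs ja C n ∧ K * (C + 1) < e * n := by
  obtain ⟨C, hC⟩ := exists_sc X hb he hRs hj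
  refine ⟨C, hC.and ?_⟩
  have hlarge : ∀ A : ℝ, ∀ᶠ n : ℕ in X.L, A ≤ n := fun A => X.le
    ((eventually_ge_atTop ⌈A⌉₊).mono fun n hn => (Nat.le_ceil A).trans (by exact_mod_cast hn))
  refine (hlarge ((K * (C + 1) + 1) / e)).mono fun n hn => ?_
  rw [div_le_iff₀ he] at hn
  linarith

/-- The position of the base. -/
theorem Sc.t0_ge (H : Sc X s e Rs ja C n) : S.tp * n - 1 ≤ (t0 S s n : ℕ) ∧
    |((t0 S s n : ℕ) : ℝ) - S.tp * n| ≤ C := by
  refine ⟨?_, H.t0_near⟩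
  have h5 : S.tp * n < ⌊S.tp * n⌋₊ + 1 := Nat.lt_floor_add_one _
  have h6 : (⌊S.tp * n⌋₊ : ℝ) ≤ (t0 S s n : ℕ) := by
    unfold t0
    push_cast
    linarith [(Nat.cast_nonneg (s n) : (0 : ℝ) ≤ (s n : ℕ))]
  linarith

/-- The centres of the translates. -/
noncomputable def JT (S : CA.Dat) (s : ℕ → ℕ) (e : ℝ) (Rs ja : Finset ℕ) {N : ℕ}
    (q : ZMod N → ℤ × ℤ) (k n : ℕ) : Finset ℕ :=
  (ids S Rs ja).image (jn q k (t0 S s n) (me e n) n)

section

variable {N : ℕ} {q : ZMod N → ℤ × ℤ} {k : ℕ}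

theorem mem_JT0 (q : ZMod N → ℤ × ℤ) (k n : ℕ) : 0 ∈ JT S s e Rs ja q k n := by
  unfold JT
  rw [mem_image]
  refine ⟨(0, 2), ?_, ?_⟩
  · unfold ids
    simp
  · unfold jn
    have e1 : ((2 : Fin 3) = 0) = False := by simp
    have e2 : ((2 : Fin 3) = 1) = False := by simp
    simp only [e1, e2, if_false, if_true]

theorem mem_JTc (q : ZMod N → ℤ × ℤ) (k n : ℕ) {i : ℕ} (hi : i ∈ Tn S) :
    i * n - t0 S s n ∈ JT S s e Rs ja q k n := by
  unfold JT
  rw [mem_image]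
  refine ⟨(i, 0), ?_, ?_⟩
  · unfold ids
    simp [hi]
  · unfold jn
    simp

theorem mem_JTz (q : ZMod N → ℤ × ℤ) (k n : ℕ) {i : ℕ} (hi : i ∈ Rs) :
    rI q k (i * n - t0 S s n) + me e n ∈ JT S s e Rs ja q k n := by
  unfold JT
  rw [mem_image]
  refine ⟨(i, 1), ?_, ?_⟩
  · unfold ids
    simp [hi]
  · unfold jn
    simp

theorem mem_JTk (q : ZMod N → ℤ × ℤ) (k n : ℕ) {i : ℕ} (hi : i ∈ ja) (hi0 : 0 < i) :
    k ∈ JT S s e Rs ja q k n := by
  unfold JT
  rw [mem_image]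
  refine ⟨(i, 2), ?_, ?_⟩
  · unfold ids
    simp [hi]
  · unfold jn
    have e1 : ((2 : Fin 3) = 0) = False := by simp
    have e2 : ((2 : Fin 3) = 1) = False := by simp
    simp only [e1, e2, if_false, if_neg hi0.ne']

/-- The kinds of the centres. -/
theorem JT_cases {j : ℕ} (hj : j ∈ JT S s e Rs ja q k n) :
    (∃ i ∈ Tn S, j = i * n - t0 S s n) ∨ (∃ i ∈ Rs, j = rI q k (i * n - t0 S s n) + me e n) ∨
      j = 0 ∨ ((∃ i ∈ ja, 0 < i) ∧ j = k) := by
  unfold JT at hj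
  rw [mem_image] at hj
  obtain ⟨a, ha, rfl⟩ := hj
  unfold ids at ha
  rw [mem_union, mem_union, mem_insert, mem_image, mem_image, mem_image] at ha
  have e1 : ((2 : Fin 3) = 0) = False := by simp
  have e2 : ((2 : Fin 3) = 1) = False := by simp
  unfold jn
  rcases ha with (⟨i, hi, rfl⟩ | ⟨i, hi, rfl⟩) | rfl | ⟨i, hi, rfl⟩
  · left
    exact ⟨i, hi, by simp⟩
  · right; left
    exact ⟨i, hi, by simp⟩
  · right; right; left
    simp only [e1, e2, if_false, if_true]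
  · right; right
    simp only [e1, e2, if_false]
    by_cases h : i = 0
    · left
      rw [if_pos h]
    · right
      rw [if_neg h]
      exact ⟨⟨i, hi, by omega⟩, rfl⟩

end

/-- The centres are in range. -/
theorem Sc.ltT (H : Sc X s e Rs ja C n) (he : 0 < e) (he1 : 2 * e ≤ S.tp) (hRs : Rs ⊆ Tn S)
    (hbig : 8 * (C + 1) < e * n) {N' : ℕ} (q' : ZMod N' → ℤ × ℤ) {j : ℕ}
    (hj : j ∈ JT S s e Rs ja q' (X.k n) n) : j < X.N n := by
  unfold JT at hj
  rw [mem_image] at hj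
  obtain ⟨a, ha, rfl⟩ := hj
  have h1 := H.posT q' ha
  obtain ⟨-, h2⟩ := vv_range he he1 S.tp1 hRs H.ja_lt ha
  have hn0 : (0 : ℝ) ≤ n := Nat.cast_nonneg _
  rw [abs_le] at h1
  have h3 : vv e S.tp a * n ≤ (S.l + e) * n := mul_le_mul_of_nonneg_right h2 hn0
  have h4 : 2 * e * n ≤ S.tp * n := mul_le_mul_of_nonneg_right he1 hn0
  have h5 := H.t0_ge.1
  have h8 := H.C1
  have h9 : (X.N n : ℝ) = S.l * n := by rw [H.N]; push_cast; rfl
  have : ((jn q' (X.k n) (t0 S s n) (me e n) n a : ℕ) : ℝ) < (X.N n : ℕ) := by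
    rw [h9]
    linarith
  exact_mod_cast this

/-- The centres are separated. -/
theorem Sc.sepT (H : Sc X s e Rs ja C n) (he : 0 < e) (he1 : 2 * e ≤ S.tp)
    (he2 : e ≤ 1 - S.tp) (hRs : Rs ⊆ Tn S) (hbig : 8 * (C + 1) < e * n) {N' : ℕ}
    (q' : ZMod N' → ℤ × ℤ) {i j : ℕ} (hi : i ∈ JT S s e Rs ja q' (X.k n) n)
    (hj : j ∈ JT S s e Rs ja q' (X.k n) n) (hij : i < j) :
    i + ⌊e / 2 * n⌋₊ ≤ j ∧ j + ⌊e / 2 * n⌋₊ ≤ i + X.N n := by
  rw [H.N]
  exact sep_pos he he1 he2 hRs H.ja_lt (n := n) (t₀ := t0 S s n)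
    (g := jn q' (X.k n) (t0 S s n) (me e n) n) (C := C + 1) (fun a ha => H.posT q' ha)
    (by have := H.C1; linarith) hi hj hij

/-- The jumps of the phases. -/
theorem phA_near {N : ℕ} {q : ZMod N → ℤ × ℤ} {k n : ℕ} (hRs : Rs ⊆ Tn S) {x : Bool} {j : ℕ}
    (h0 : 0 < j)
    (h : phA θ q k (Rs.image fun i => i * n - t0 S s n) (me e n) x j ≠
      phA θ q k (Rs.image fun i => i * n - t0 S s n) (me e n) x (j - 1)) :
    ∃ i ∈ JT S s e Rs ja q k n, |(i : ℤ) - j| ≤ 2 := by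
  by_cases hp : phP θ q k (Rs.image fun i => i * n - t0 S s n) (me e n) j =
      phP θ q k (Rs.image fun i => i * n - t0 S s n) (me e n) (j - 1)
  · refine ⟨0, mem_JT0 q k n, ?_⟩
    have hj : j = 1 := by
      by_contra hj
      apply h
      unfold phA
      rw [hp]
      have e1 : (1 ≤ j) = (1 ≤ j - 1) := by
        rw [eq_iff_iff]; omega
      simp only [e1]
    rw [hj]
    norm_num
  · obtain ⟨c, hc, h1⟩ := phP_jump h0 hp
    rw [mem_image] at hc
    obtain ⟨i, hi, rfl⟩ := hc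
    rcases h1 with h1 | h1
    · refine ⟨_, mem_JTc q k n (hRs hi), ?_⟩
      rw [h1]
      rcases rI_or q k (i * n - t0 S s n) with h2 | h2 <;> rw [h2]
      · rw [sub_self, abs_zero]; norm_num
      · push_cast
        rw [sub_add_cancel_left, abs_neg, abs_one]; norm_num
    · refine ⟨_, mem_JTz q k n hi, ?_⟩
      rw [h1, sub_self, abs_zero]; norm_num

/-- **The geometry of the translates.** -/
theorem Sc.ok_na (H : Sc X s e (Rf S) ja C n) (he : 0 < e) (he1 : 2 * e ≤ S.tp)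
    (he2 : e ≤ 1 - S.tp) (hbig : 8 * (C + 1) < e * n) (a : ℤ × ℤ) (x : Bool) :
    (NA X s e ja n a x).Ok n ⌊e / 2 * n⌋₊ := by
  refine ⟨poly_add H.poly a, encl_add H.enc a, ?_, ⟨fun j hj => H.ltT he he1 (Rf_sub S) hbig _ hj,
    mem_JT0 _ _ _, ?_⟩, ?_⟩
  · exact geoP_enl (a := a) S.poly S.enc H.n0 (poly_add H.poly a) (encl_add H.enc a)
  · intro j h0 hN h
    have hN' : j < X.N n := hN
    rcases h with h | h
    · exact phA_near (ja := ja) (Rf_sub S) h0 h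
    · rcases H.jun with ⟨-, h1 | h1⟩ | ⟨ia, h1, h2, h3⟩
      · exfalso
        have h' : j = X.k n := h
        omega
      · exfalso
        have h' : j = X.k n := h
        omega
      · refine ⟨X.k n, mem_JTk _ _ _ (i := ia) (by rw [h1]; simp) h2, ?_⟩
        rw [h]
        show |((X.k n : ℕ) : ℤ) - (X.k n : ℕ)| ≤ 2
        rw [sub_self, abs_zero]
        norm_num
  · intro i hi j hj hij
    exact H.sepT he he1 he2 (Rf_sub S) hbig _ hi hj hij

/-- **The translates of the natural functionals are regular.** -/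
theorem na_rg (X : BD S θ β) {s : ℕ → ℕ} (hb : BaseQ X s) (hB : BcX X s) {e : ℝ} (he : 0 < e)
    (he1 : 2 * e ≤ S.tp) (he2 : e ≤ 1 - S.tp) {ja : Finset ℕ} (hj : JunP X ja) :
    ∃ σ R : ℝ, 0 < σ ∧ ∀ᶠ n : ℕ in X.L, ∀ (a : ℤ × ℤ) (x : Bool), ∃ η : Cfg,
      (NA X s e ja n a x).Rg n σ R (ids S (Rf S) ja).card η := by
  obtain ⟨σ, hσ, hreg⟩ := reg_X X hb hB
  obtain ⟨C, hC⟩ := exists_sc' X hb he (Rf_sub S) hj 8
  refine ⟨min σ (e / 2), ((∑ w ∈ S.Q, nm w : ℤ) + 1 : ℝ), lt_min hσ (by positivity), ?_⟩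
  filter_upwards [hreg, hC, X.kle] with n h1 h2 h3 a x
  obtain ⟨η, h4, h5⟩ := h1 a
  have hnn : (0 : ℝ) ≤ n := Nat.cast_nonneg n
  exact ⟨η, (h2.1.ok_na he he1 he2 h2.2 a x).mono
    (Nat.floor_le_floor (mul_le_mul_of_nonneg_right (min_le_right _ _) hnn)),
    h3, card_image_le, ⟨a, fun v hv => enl_dia (Q := S.Q) hv⟩, h4,
    h5.mono (Int.floor_le_floor (mul_le_mul_of_nonneg_right (min_le_left _ _) hnn))⟩

end Vale.Agent.P167.N.QL
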