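import Vale.Agent.P167.N.QL.Lw2
import Vale.Agent.P167.N.QL.NaR
import Vale.Agent.P167.N.QL.MatN

/-!
# P167, the range `0 < q < 1`, block Q-LAM: lower bound for the natural functionals, the geometry

`Sc.nat`: the position of the base and of the junction. `Sc.cw`: the windows of the corners. `Sc.sw`: the
legs of the reflex corners. `Sc.far_c`: the other centres are far from a corner.
-/

set_option autoImplicit false

namespace Vale.Agent.P167.N.QL

open Finset Filter Vale.Agent.P167.BR Vale.Agent.P167.FK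
open Vale.Agent.P167.E6 (IsPolygon Encloses dir face)
open Vale.Agent.P167.H825 (enl pdir tn)
open Vale.Agent.P167.H718 (Dob poly_add encl_add)
open Vale.Agent.P167.H871 (Bd)
open Vale.Agent.P167.H542.Q (BD)
open Vale.Agent.P167.H632 (pr)

variable {S : CA.Dat} {θ β : ℝ} {X : BD S θ β} {s : ℕ → ℕ} {e C : ℝ} {ja : Finset ℕ} {n : ℕ}

/-- The length of the windows of the corners. -/
noncomputable def wn12 (e : ℝ) (n : ℕ) : ℕ := ⌊12 * e * n⌋₊

/-- The corners. -/
noncomputable def CR (S : CA.Dat) (s : ℕ → ℕ) (n : ℕ) : Finset ℕ :=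
  (Rf S).image fun i => i * n - t0 S s n

/-- The scales. -/
structure Scl (S : CA.Dat) (s : ℕ → ℕ) (N k : ℕ) (ja : Finset ℕ) (n m w : ℕ) : Prop where
  n0 : 0 < n
  Nl : N = S.l * n
  pos : 0 < m
  mw : m + 3 ≤ w
  hi : t0 S s n + w ≤ n
  lo : w ≤ t0 S s n
  jun : (ja = ∅ ∧ (k = 0 ∨ k = N)) ∨
    ∃ ia, ja = {ia} ∧ 0 < ia ∧ ia < S.l ∧ ia * n + w ≤ k + t0 S s n ∧
      k + t0 S s n + w ≤ (ia + 1) * n

/-- **The position of the base and of the junction.** -/
theorem Sc.scl (H : Sc X s e (Rf S) ja C n) (he : 0 < e) (he1 : 16 * e ≤ S.tp)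
    (he2 : 16 * e ≤ 1 - S.tp) (hbig : 100 * (C + 1) < e * n) :
    Scl S s (X.N n) (X.k n) ja n (me e n) (wn12 e n) := by
  have hn : (0 : ℝ) < n := by exact_mod_cast H.n0
  have hC1 := H.C1
  have h1 := me_le he n
  have h2 : (wn12 e n : ℝ) ≤ 12 * e * n := by
    unfold wn12
    exact Nat.floor_le (by positivity)
  have h3 : 12 * e * n - 1 < (wn12 e n : ℝ) := by
    unfold wn12
    have := Nat.lt_floor_add_one (12 * e * (n : ℝ))
    linarith
  have ht := H.t0_near
  rw [abs_le] at ht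
  have f1 : 16 * e * n ≤ S.tp * n := mul_le_mul_of_nonneg_right he1 hn.le
  have f2 : 16 * e * n ≤ (1 - S.tp) * n := mul_le_mul_of_nonneg_right he2 hn.le
  refine ⟨H.n0, H.N, by unfold me; omega, ?_, ?_, ?_, ?_⟩
  · have : ((me e n : ℕ) : ℝ) + 3 ≤ (wn12 e n : ℝ) := by linarith
    exact_mod_cast this
  · have : ((t0 S s n : ℕ) : ℝ) + (wn12 e n : ℝ) ≤ n := by linarith
    exact_mod_cast this
  · have : (wn12 e n : ℝ) ≤ ((t0 S s n : ℕ) : ℝ) := by linarith
    exact_mod_cast this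
  · rcases H.jun with h4 | ⟨ia, h4, h5, h6⟩
    · exact Or.inl h4
    · right
      have h7 := H.k_near h4 h5
      rw [abs_le] at h7
      refine ⟨ia, h4, h5, h6, ?_, ?_⟩
      · have : (ia : ℝ) * n + (wn12 e n : ℝ) ≤ (X.k n : ℕ) + ((t0 S s n : ℕ) : ℝ) := by linarith
        exact_mod_cast this
      · have : ((X.k n : ℕ) : ℝ) + ((t0 S s n : ℕ) : ℝ) + (wn12 e n : ℝ) ≤ ((ia : ℝ) + 1) * n := by
          linarith
        exact_mod_cast this

section

variable {N k m w : ℕ}

theorem Rf_mem {i : ℕ} (hi : i ∈ Rf S) : 1 ≤ i ∧ i ≤ S.l ∧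
    tn (pdir S.p (i - 1)) (pdir S.p i) = -1 := by
  unfold Rf at hi
  rw [mem_filter, mem_Icc] at hi
  exact ⟨hi.1.1, hi.1.2, hi.2⟩

theorem Tn_mem {i : ℕ} (hi : i ∈ Tn S) : 1 ≤ i ∧ i ≤ S.l := by
  unfold Tn at hi
  rw [mem_filter, mem_Icc] at hi
  exact hi.1

theorem mul_fac {i i' n : ℕ} (h : i < i') : i * n + n ≤ i' * n := by
  have := Nat.mul_le_mul_right n h
  rwa [Nat.succ_mul] at this

/-- **The windows of the corners.** -/
theorem Scl.cw (H : Scl S s N k ja n m w) : CW N k m w (CR S s n) := by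
  have h1 := H.Nl
  have h2 := H.hi
  have h3 := H.lo
  have h4 := H.mw
  have h5 := H.n0
  refine ⟨fun c hc => ?_, fun c hc => ?_, fun c hc => ?_, fun c hc c' hc' h => ?_, H.pos, H.mw⟩
  · obtain ⟨i, hi, rfl⟩ := mem_image.1 hc
    have g1 : n ≤ i * n := Nat.le_mul_of_pos_left n (Rf_mem hi).1
    omega
  · obtain ⟨i, hi, rfl⟩ := mem_image.1 hc
    have g1 : n ≤ i * n := Nat.le_mul_of_pos_left n (Rf_mem hi).1
    have g2 : i * n ≤ S.l * n := Nat.mul_le_mul_right n (Rf_mem hi).2.1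
    omega
  · obtain ⟨i, hi, rfl⟩ := mem_image.1 hc
    have g1 : n ≤ i * n := Nat.le_mul_of_pos_left n (Rf_mem hi).1
    have g2 : i * n ≤ S.l * n := Nat.mul_le_mul_right n (Rf_mem hi).2.1
    rcases H.jun with ⟨-, h6 | h6⟩ | ⟨ia, -, h6, h7, h8, h9⟩
    · omega
    · omega
    · rcases Nat.lt_or_ge ia i with h10 | h10
      · have := mul_fac (n := n) h10
        rw [Nat.succ_mul] at h9
        omega
      · have := Nat.mul_le_mul_right n h10
        omega
  · obtain ⟨i, hi, rfl⟩ := mem_image.1 hc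
    obtain ⟨i', hi', rfl⟩ := mem_image.1 hc'
    have g1 : n ≤ i * n := Nat.le_mul_of_pos_left n (Rf_mem hi).1
    have g2 : n ≤ i' * n := Nat.le_mul_of_pos_left n (Rf_mem hi').1
    rcases Nat.lt_trichotomy i i' with g3 | g3 | g3
    · have := mul_fac (n := n) g3
      omega
    · subst g3
      omega
    · have := mul_fac (n := n) g3
      omega

/-- **The other centres are far from a corner.** -/
theorem Scl.far_c (H : Scl S s N k ja n m w) {q : ZMod N → ℤ × ℤ} {c j : ℕ} (hm : m = me e n)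
    (hc : c ∈ CR S s n) (hj : j ∈ JT S s e (Rf S) ja q k n) (h1 : j ≠ c)
    (h2 : j ≠ rI q k c + m) : (j + w ≤ c ∨ c + w ≤ j) ∧ j + w ≤ N + c ∧ c + w ≤ N + j := by
  have hN := H.Nl
  have g1 := H.hi
  have g2 := H.lo
  have g3 := H.mw
  have g4 := H.n0
  have gle := H.cw.le c hc
  have glt := H.cw.lt c hc
  obtain ⟨i, hi, rfl⟩ := mem_image.1 hc
  have a1 : n ≤ i * n := Nat.le_mul_of_pos_left n (Rf_mem hi).1
  have a2 : i * n ≤ S.l * n := Nat.mul_le_mul_right n (Rf_mem hi).2.1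
  rcases JT_cases hj with ⟨i', hi', rfl⟩ | ⟨i', hi', rfl⟩ | rfl | ⟨⟨i', hi', h0⟩, hjk⟩
  · have b1 : n ≤ i' * n := Nat.le_mul_of_pos_left n (Tn_mem hi').1
    have b2 : i' * n ≤ S.l * n := Nat.mul_le_mul_right n (Tn_mem hi').2
    rcases Nat.lt_trichotomy i i' with g3 | g3 | g3
    · have := mul_fac (n := n) g3
      omega
    · subst g3
      exact absurd rfl h1
    · have := mul_fac (n := n) g3
      omega
  · have b1 : n ≤ i' * n := Nat.le_mul_of_pos_left n (Rf_mem hi').1
    have b2 : i' * n ≤ S.l * n := Nat.mul_le_mul_right n (Rf_mem hi').2.1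
    have b3 := rI_or q k (i' * n - t0 S s n)
    rw [← hm] at h2 ⊢
    rcases Nat.lt_trichotomy i i' with g3 | g3 | g3
    · have := mul_fac (n := n) g3
      omega
    · subst g3
      exact absurd rfl h2
    · have := mul_fac (n := n) g3
      omega
  · omega
  · have b1 := H.cw.jun _ hc
    have b2 : k ≤ N := by
      rcases H.jun with ⟨-, h6 | h6⟩ | ⟨ia, -, h6, h7, h8, h9⟩
      · omega
      · omega
      · have := Nat.mul_le_mul_right n h7
        rw [Nat.succ_eq_add_one] at this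
        omega
    omega

end

/-- **The legs of the reflex corners.** -/
theorem Sc.sw (H : Sc X s e (Rf S) ja C n) {m w : ℕ} (K : Scl S s (X.N n) (X.k n) ja n m w)
    {τ : ℕ → ℤ}
    (hτ : Bd (S.D n : Set (ℤ × ℤ)) (X.N n) (fun i => X.q n (i : ZMod (X.N n))) τ 1)
    (a : ℤ × ℤ) {c : ℕ} (hc : c ∈ CR S s n) :
    SW n true (fun i => X.q n i + a) ((S.D n).image (· + a)) τ c w := by
  have hs : ∀ j : ℕ, X.q n (j : ZMod (X.N n)) = Enl.PN S.p n (j + t0 S s n) + 0 := fun j => by
    rw [H.hs, add_zero]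
  have hle := K.cw.le c hc
  have hlt := K.cw.lt c hc
  have g1 := K.hi
  have g2 := K.lo
  have g3 := K.mw
  obtain ⟨i, hi, hic⟩ := mem_image.1 hc
  have a1 : n ≤ i * n := Nat.le_mul_of_pos_left n (Rf_mem hi).1
  -- no turns next to the corner
  have key : ∀ j : ℕ, 0 < j → c < j + n → j < c + n → j ≠ c → τ j = τ (j - 1) := by
    intro j h0 h1 h2 h3
    by_contra hne
    obtain ⟨i', h4, h5, -⟩ := turn_dvd S.poly H.n0 hs hτ h0 hne
    rcases Nat.lt_trichotomy i i' with h6 | h6 | h6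
    · have := mul_fac (n := n) h6
      omega
    · subst h6
      omega
    · have := mul_fac (n := n) h6
      omega
  refine ⟨geoP_enl (a := a) S.poly S.enc H.n0 (poly_add H.poly a) (encl_add H.enc a),
    poly_add H.poly a, encl_add H.enc a, fun j => ?_, ⟨fun j h1 h2 => ?_, fun j h1 h2 => ?_⟩,
    hle, hlt, ?_⟩
  · have h1 := hτ.step j
    show X.q n ((j + 1 : ℕ) : ZMod (X.N n)) + a = X.q n (j : ZMod (X.N n)) + a + Top.vec (τ j)
    rw [h1]
    ring
  · induction j, h1 using Nat.le_induction with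
    | base => rfl
    | succ j h1 ih =>
      rw [key (j + 1) (by omega) (by omega) (by omega) (by omega), Nat.add_sub_cancel]
      exact ih (by omega)
  · obtain ⟨y, hy⟩ : ∃ y, j + y = c - 1 := ⟨c - 1 - j, by omega⟩
    induction y generalizing j with
    | zero => rw [← hy]; rfl
    | succ y ih =>
      have h3 := key (j + 1) (by omega) (by omega) (by omega) (by omega)
      rw [Nat.add_sub_cancel] at h3
      rw [← h3]
      exact ih (j + 1) (by omega) (by omega) (by omega)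
  · rw [if_pos rfl, ← (Rf_mem hi).2.2]
    exact turn_at S.poly H.n0 hs hτ (i := i) (by have := (Rf_mem hi).1; omega) (by omega)
      (by omega)

end Vale.Agent.P167.N.QL
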