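import Vale.Agent.P167.N.QL.Lw3
import Vale.Agent.P167.N.NET.KitV

/-!
# P167, the range `0 < q < 1`, block Q-LAM: lower bound for the natural functionals, the radii

`exists_num`: the radii. `Scl.col`: the colours of the charged sites. `far_nm`: far centres.
-/

set_option autoImplicit false

namespace Vale.Agent.P167.N.QL

open Finset Filter Vale.Agent.P167.BR Vale.Agent.P167.FK
open Vale.Agent.P167.E6 (IsPolygon Encloses dir face)
open Vale.Agent.P167.FKA (Loc)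
open Vale.Agent.P167.H825 (enl pdir tn)
open Vale.Agent.P167.H718 (Dob poly_add encl_add)
open Vale.Agent.P167.H871 (Bd exists_bd)
open Vale.Agent.P167.H542.Q (BD)
open Vale.Agent.P167.H632 (pr)
open Vale.Agent.P167.H760.Q (BaseQ)
open Vale.Agent.P167.H192.Q (SRSW)
open Vale.Agent.P167.H365.NQ (XW)
open Vale.Agent.P167.H975 (TX)
open Vale.Agent.P167.N.AW (Kil)

variable {S : CA.Dat} {θ : ℝ} {X : BD S θ (bt θ)} {s : ℕ → ℕ} {e C ε σ : ℝ} {ja : Finset ℕ}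
  {n M₀ m w ρ L : ℕ}

/-- The radii at the scale `n`. -/
structure Num (n m w ρ L M₀ : ℕ) (r : ℤ) : Prop where
  a1 : 64 ≤ ρ
  a2 : L ≤ M₀ * ρ
  a3 : 16 * L + 8 < w
  a4 : 24 * L + 6 * ρ < n
  a5 : 64 + 2 * ρ ≤ m
  a6 : m + 1 + ρ ≤ 2 * L
  a7 : 8 * L + 2 * ρ < w
  b0 : 0 ≤ r
  b1 : 2 * (r + 2) < w
  b2 : 3 * (r + 2) < n
  b3 : r + 3 ≤ m
  b4 : 2 * r + m + 8 ≤ w

/-- **The radii.** -/
theorem exists_num (he : 0 < e) (he1 : 32 * e ≤ 1) (hε : 0 < ε) (hεe : ε ≤ e / 64) (hσ : 0 < σ)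
    (hσe : σ ≤ e / 64) : ∃ (M₀ n₀ : ℕ), ∀ n : ℕ, n₀ ≤ n → ∃ ρ L : ℕ, (ρ : ℤ) = ⌊ε * n⌋ ∧
      Num n (me e n) (wn12 e n) ρ L M₀ ⌊σ * n⌋ ∧ 2 * ⌊σ * n⌋ + 4 < (⌊e / 2 * n⌋₊ : ℤ) := by
  obtain ⟨M₀, hM⟩ := exists_nat_ge (4 * e / ε)
  rw [div_le_iff₀ hε] at hM
  obtain ⟨n₀, hn₀⟩ := exists_nat_ge (1000 / e + 1000 / ε)
  refine ⟨M₀, n₀, fun n hn => ?_⟩
  have hn' : (n₀ : ℝ) ≤ n := by exact_mod_cast hn
  have hn1 : 1000 / e + 1000 / ε ≤ n := hn₀.trans hn'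
  have hE : 1000 ≤ e * n := by
    have h1 : 1000 / e ≤ n := by
      have : 0 < 1000 / ε := by positivity
      linarith
    rw [div_le_iff₀ he] at h1
    linarith
  have hP : 1000 ≤ ε * n := by
    have h1 : 1000 / ε ≤ n := by
      have : 0 < 1000 / e := by positivity
      linarith
    rw [div_le_iff₀ hε] at h1
    linarith
  have hn0 : (0 : ℝ) ≤ n := Nat.cast_nonneg n
  have hPE : 64 * (ε * n) ≤ e * n := by nlinarith
  have hSE : 64 * (σ * n) ≤ e * n := by nlinarith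
  have hEn : 32 * (e * n) ≤ n := by nlinarith
  have hMP : 4 * (e * n) ≤ M₀ * (ε * n) := by nlinarith
  have hS0 : 0 ≤ σ * n := by positivity
  obtain ⟨ρ, hρ⟩ : ∃ ρ : ℕ, (ρ : ℤ) = ⌊ε * n⌋ :=
    ⟨⌊ε * n⌋.toNat, Int.toNat_of_nonneg (Int.floor_nonneg.2 (by linarith))⟩
  have h1 := Int.floor_le (ε * (n : ℝ))
  have h2 := Int.lt_floor_add_one (ε * (n : ℝ))
  rw [← hρ] at h1 h2
  push_cast at h1 h2
  have h3 := Int.floor_le (σ * (n : ℝ))
  have h4 : 0 ≤ ⌊σ * (n : ℝ)⌋ := Int.floor_nonneg.2 hS0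
  have h5 := me_est he n
  rw [abs_le] at h5
  have h6 : 12 * e * n - 1 < (wn12 e n : ℝ) := by
    unfold wn12
    have := Nat.lt_floor_add_one (12 * e * (n : ℝ))
    linarith
  have h7 := Nat.lt_floor_add_one (e / 2 * (n : ℝ))
  obtain ⟨L, hL⟩ : ∃ L, L = (me e n + ρ) / 2 + 1 := ⟨_, rfl⟩
  have hL1 : 2 * L ≤ me e n + ρ + 2 := by omega
  have hL2 : me e n + ρ + 1 ≤ 2 * L := by omega
  have hL1' : 2 * (L : ℝ) ≤ (me e n : ℕ) + ρ + 2 := by exact_mod_cast hL1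
  refine ⟨ρ, L, hρ, ⟨?_, ?_, ?_, ?_, ?_, by omega, ?_, h4, ?_, ?_, ?_, ?_⟩, ?_⟩
  · have : (64 : ℝ) ≤ ρ := by linarith
    exact_mod_cast this
  · have h8 : (M₀ : ℝ) * (ε * n) ≤ M₀ * (2 * ρ) :=
      mul_le_mul_of_nonneg_left (by linarith) (Nat.cast_nonneg _)
    have : (L : ℝ) ≤ M₀ * ρ := by linarith
    exact_mod_cast this
  · have : 16 * (L : ℝ) + 8 < (wn12 e n : ℝ) := by linarith
    exact_mod_cast this
  · have : 24 * (L : ℝ) + 6 * ρ < n := by linarith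
    exact_mod_cast this
  · have : 64 + 2 * (ρ : ℝ) ≤ (me e n : ℕ) := by linarith
    exact_mod_cast this
  · have : 8 * (L : ℝ) + 2 * ρ < (wn12 e n : ℝ) := by linarith
    exact_mod_cast this
  · have : ((2 * (⌊σ * (n : ℝ)⌋ + 2) : ℤ) : ℝ) < ((wn12 e n : ℤ) : ℝ) := by
      push_cast
      linarith
    exact_mod_cast this
  · have : ((3 * (⌊σ * (n : ℝ)⌋ + 2) : ℤ) : ℝ) < ((n : ℤ) : ℝ) := by
      push_cast
      linarith
    exact_mod_cast this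
  · have : ((⌊σ * (n : ℝ)⌋ + 3 : ℤ) : ℝ) ≤ ((me e n : ℤ) : ℝ) := by
      push_cast
      linarith
    exact_mod_cast this
  · have : ((2 * ⌊σ * (n : ℝ)⌋ + (me e n : ℤ) + 8 : ℤ) : ℝ) ≤ ((wn12 e n : ℤ) : ℝ) := by
      push_cast
      linarith
    exact_mod_cast this
  · have : ((2 * ⌊σ * (n : ℝ)⌋ + 4 : ℤ) : ℝ) < ((⌊e / 2 * (n : ℝ)⌋₊ : ℤ) : ℝ) := by
      push_cast
      linarith
    exact_mod_cast this

/-! ### the facts at a fixed scale -/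

/-- The colours of the charged sites. -/
theorem Scl.col {N k : ℕ} (K : Scl S s N k ja n m w) {q : ZMod N → ℤ × ℤ} (hq : IsPolygon q)
    {c : ℕ} (hc : c ∈ CR S s n) :
    ((decide (k ≤ c) = false ∧ c < k) ∨ (decide (k ≤ c) = true ∧ k ≤ c)) ∧
      ((q (rI q k c : ZMod N)).1 + (q (rI q k c : ZMod N)).2) % 2 = pr (decide (k ≤ c)) := by
  have h1 := K.cw.jun c hc
  have h2 := K.mw
  have h3 := rI_or q k c
  have h4 := rI_gd hq (k := k) (c := c) (fun h => by omega)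
  unfold GdR at h4
  rw [Int.even_iff] at h4
  by_cases h5 : k ≤ c
  · refine ⟨Or.inr ⟨by simp [h5], h5⟩, ?_⟩
    have h6 : decide (k ≤ c) = true := by simp [h5]
    have h7 : pr true = 0 := by decide
    rw [h6, h7]
    exact h4.2 (by omega)
  · refine ⟨Or.inl ⟨by simp [h5], by omega⟩, ?_⟩
    have h6 : decide (k ≤ c) = false := by simp [h5]
    have h7 : pr false = 1 := by decide
    rw [h6, h7]
    have h8 : ¬ ((q (rI q k c : ZMod N)).1 + (q (rI q k c : ZMod N)).2) % 2 = 0 := fun h9 => by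
      have := h4.1 h9
      omega
    omega

/-- Centres which are far by index are far. -/
theorem far_nm {N : ℕ} {q : ZMod N → ℤ × ℤ} (hG : GeoP n N q) {c j : ℕ} (hc : c ≤ N) (hj : j ≤ N)
    {d : ℤ} (h3 : 3 * d < n) (hw : 2 * d < w) (h : j + w ≤ c ∨ c + w ≤ j) (h1 : j + w ≤ N + c)
    (h2 : c + w ≤ N + j) : d < nm (q (j : ZMod N) - q (c : ZMod N)) := by
  by_contra hcon
  push Not at hcon
  rcases hG.near hj hc h3 hcon with h4 | h4
  · rw [abs_le] at h4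
    omega
  · rcases abs_cases ((j : ℤ) - c) with ⟨h5, -⟩ | ⟨h5, -⟩ <;> rw [h5] at h4 <;> omega

end Vale.Agent.P167.N.QL
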