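import Vale.Agent.P167.N.QL.Geo
import Vale.Agent.P167.N.H852.Q.Y2b
import Vale.Agent.P167.N.H852.Q.Y4

/-!
# P167, the range `0 < q < 1`, block Q-LAM: the majorant of a functional with boundary phases at one
scale
-/

set_option autoImplicit false

namespace Vale.Agent.P167.N.QL

open Finset Filter Topology Relation Vale.Agent.P167.BR Vale.Agent.P167.FK
open Vale.Agent.P167.E6 (IsPolygon Encloses face)
open Vale.Agent.P167.H167 (tot isSeg)
open Vale.Agent.P167.H562.SML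
open Vale.Agent.P167.H562.MAJ (Sm Sm_eq sum_G bigs near_site fsum_eq mem_fat_iff)
open Vale.Agent.P167.H562.QM (BumpsQ MajA YQ YQ_pos)
open Vale.Agent.P167.H542.Q (BD cB)
open Vale.Agent.P167.H365.NQ (XW TW)
open Vale.Agent.P167.H718 (Dob wn wn' wn_eq)
open Vale.Agent.P167.H601.LG (nm_of_Bq nm_tri' nm_comm)
open Vale.Agent.P167.H760.Q (MajY)
open Vale.Agent.P167.H975 (TX)
open Vale.Agent.P167.H852.Q (ZG TIn mass_zero bump_one vz_self Sm_congr im_mom)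
open Vale.Agent.P167.N.H852.Q (PtW abs_wn_le abs_wn'_le)

variable {Z : Finset (ℤ × ℤ)} {h : ℤ × ℤ → ℝ} {κ κ0 Mf R1 θ β M : ℝ} {n : ℕ} {k r : ℤ}
  {P : PD} {ω : Cfg} {A : Finset Ed}

section

variable (hq : IsPolygon P.q) (hD : Encloses P.q P.D)

include hq hD

/-- A piece in a box has no interior mass. -/
theorem mass_in (H : ZG P.D h κ κ0 Mf R1 n Z k) (hrk : (r : ℝ) + 1 + 1 ≤ k)
    (hI : P.In r A) : mass P.D (P.q 0) h A = 0 := by
  refine mass_zero H.sub H.econ H.supp H.tot ?_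
  rintro ⟨e, he, hZ⟩
  obtain ⟨j, -, hj⟩ := hI
  have h1 := hj e he
  rcases mem_eds.1 hZ with h2 | h2
  · have h3 := H.far_q hq hD hrk (m := 1) h2 h1
    rw [sub_self] at h3
    have : (nm (0 : ℤ × ℤ) : ℝ) = 0 := by simp [nm]
    linarith
  · -- the tail
    have h3 := H.far_q hq hD hrk (m := 1) h2 h1
    have h4 := H945.nm_step e
    have h5 : (nm (hdv e - tlv e) : ℝ) ≤ 1 := by exact_mod_cast h4
    linarith

/-- **The pointwise bounds.** -/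
theorem ptw (H : ZG P.D h κ κ0 Mf R1 n Z k) (h0 : 0 < θ) (h1 : Ang θ)
    (hβ : Real.cos (θ / 2 + β) = Real.sin θ) (hMf : 0 ≤ Mf) (hG : GeoP n P.N P.q) (hN : P.Near)
    (hdw : Mf / (n : ℝ) ^ 2 * (κ * n) ^ 2 ≤ dw θ) (hM : (cB θ)⁻¹ ≤ M) (hr : r ≤ n)
    (hκr : κ * n ≤ (r : ℝ) / 16) (hrk : (r : ℝ) + (κ * n + 1) + 1 ≤ k) :
    PtW P.D (P.q 0) Z P.D h (κ * n) θ M (wn θ β P.q P.D P.k (cP P.q P.ρ h))
      (wn' θ β P.q P.D P.k (cP P.q P.ρ h)) (P.In r) := by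
  have h1_lt := h1.lt
  have hs : 0 < Real.sin θ := h1.sin_pos
  have hc : 0 < Real.cos θ := h1.cos_pos
  have hn1 := H.n1
  have hκn := H.κn
  have hκn2 := H.κ0n
  have hk2 := H.k2
  have hbas := H542.Q.bas_poly hq hD
  have hB : BumpsQ ({()} : Finset Unit) P.D (P.q 0) (fun _ => Z) (fun _ => P.D)
      (fun _ => h) (fun _ => κ * n) (fun _ => True) :=
    bump_one H.sub H.sub H.econ H.econD hbas.mem (fun ω A hA hl => XDL.W_base hq hD hA hl)
      H.supp (fun v hv w hw => H.near v hv w (by linarith)) (by positivity) H.bd H.sml H.tot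
  have hM2 : (Real.cos θ)⁻¹ ≤ M :=
    (inv_anti₀ (Vale.Agent.P167.N.H542.Q.cB_pos h0 h1) (min_le_left _ _)).trans hM
  refine ⟨hB, h0, h1, hM2, fun ω ℓ h1 h2 => (H542.G_bound' (by positivity) H.bd h1 h2).trans hdw,
    fun ω A hA hl => wn_cP_lp hq hD h0 h1_lt hβ hA hl,
    fun ω A hA => (abs_wn_le h0 h1 hβ hq hD hA).trans hM,
    fun ω A hA => (abs_wn'_le h0 h1 hβ hq hD hA).trans hM, fun ω A hA hl hs hGA hI => ?_,
    fun ω A hA hI hl hV => ?_⟩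
  · obtain ⟨v, hv, hw⟩ := hB.near (mem_singleton_self ()) (BR.IsLp.isLoop hA hl) hs hGA
    obtain ⟨j, -, hj⟩ := hI
    obtain ⟨e, he⟩ := pcs_nonempty hA
    have h2 := H.far_q hq hD hrk hv (hj e he)
    have h3 := hw _ (mem_image_of_mem _ he)
    linarith
  · have hsm : Small (κ * n) A := by
      by_contra hc
      exact hV ⟨vz_self hA, hc⟩
    have hV' : ¬ Vz Z A := fun h' => hB.strand (mem_singleton_self ()) hA hl h' hsm
    rw [wn_cP hq hD h0 h1_lt hβ hA (mass_zero H.sub H.econ H.supp H.tot hV')]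
    by_contra hcon
    have hne : wP θ β P.q P.D P.k P.ρ A ≠ 1 := fun h' => hcon (by rw [h', abs_one])
    obtain ⟨e, he, e', he', hbig⟩ := large_of_ne_one hs.ne' hc.ne' hβ hG hN hq hD hA hne hr hI
    have h5 := hsm _ (mem_image_of_mem _ he) _ (mem_image_of_mem _ he')
    linarith

/-- The product over the boxes. -/
theorem TIn_eq (H : ZG P.D h κ κ0 Mf R1 n Z k) (h0 : 0 < θ) (h1 : Ang θ)
    (hβ : Real.cos (θ / 2 + β) = Real.sin θ) (hG : GeoP n P.N P.q) (hN : P.Near) {L : ℕ}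
    (hS : P.Sep L) (hrn : 6 * r < n) (hrL : 4 * r < L) (hrk : (r : ℝ) + 1 + 1 ≤ k) (ω : Cfg) :
    TIn P.D (wn θ β P.q P.D P.k (cP P.q P.ρ h)) (P.In r) ω = |TPq θ β P r ω| := by
  have h1_lt := h1.lt
  classical
  unfold TIn TPq TX
  rw [abs_prod]
  simp only [abs_prod]
  rw [← prod_biUnion]
  · have e1 : (pcs ω P.D).filter (P.In r) = P.J.biUnion fun j =>
        (pcs ω P.D).filter fun A => ∀ e ∈ A, hdv e ∈ Bq (P.q (j : ZMod P.N)) r := by
      ext A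
      rw [mem_filter, mem_biUnion]
      constructor
      · rintro ⟨hA, j, hj, hin⟩
        exact ⟨j, hj, mem_filter.2 ⟨hA, hin⟩⟩
      · rintro ⟨j, hj, hA⟩
        obtain ⟨hA1, hA2⟩ := mem_filter.1 hA
        exact ⟨hA1, j, hj, hA2⟩
    rw [e1]
    refine prod_congr rfl fun A hA => ?_
    have hA' : A ∈ (pcs ω P.D).filter (P.In r) := by rw [e1]; exact hA
    obtain ⟨hA1, hA2⟩ := mem_filter.1 hA'
    rw [wn_cP hq hD h0 h1_lt hβ hA1 (mass_in hq hD H hrk hA2)]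
  · -- the boxes are disjoint
    have key : ∀ i j : ℕ, i < j → i ∈ P.J → j ∈ P.J → ∀ A ∈ pcs ω P.D,
        (∀ e ∈ A, hdv e ∈ Bq (P.q (i : ZMod P.N)) r) →
        ¬ ∀ e ∈ A, hdv e ∈ Bq (P.q (j : ZMod P.N)) r := by
      intro i j hij hi hj A hA h2 h3
      obtain ⟨e, he⟩ := pcs_nonempty hA
      have hjN := hN.lt j hj
      have h4 := nm_of_Bq (h2 e he)
      have h5 := nm_of_Bq (h3 e he)
      have h6 : nm (P.q (i : ZMod P.N) - P.q (j : ZMod P.N)) ≤ 2 * r := by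
        have h7 := nm_tri' (P.q (i : ZMod P.N)) (hdv e) (P.q (j : ZMod P.N))
        rw [nm_comm (P.q (i : ZMod P.N)) (hdv e)] at h7
        linarith
      obtain ⟨s1, s2⟩ := hS i hi j hj hij
      rcases hG.near (by omega) hjN.le (d := 2 * r) (by linarith) h6 with h7 | h7
      · rcases abs_cases ((i : ℤ) - j) with ⟨a1, a2⟩ | ⟨a1, a2⟩ <;> rw [a1] at h7 <;> omega
      · rcases abs_cases ((i : ℤ) - j) with ⟨a1, a2⟩ | ⟨a1, a2⟩ <;> rw [a1] at h7 <;> omega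
    intro i hi j hj hij
    rw [Function.onFun, Finset.disjoint_left]
    intro A hA hA'
    obtain ⟨h2, h3⟩ := mem_filter.1 hA
    obtain ⟨-, h4⟩ := mem_filter.1 hA'
    rcases Nat.lt_or_gt_of_ne hij with h5 | h5
    · exact key i j h5 hi hj A h2 h3 h4
    · exact key j i h5 hj hi A h2 h4 h3

end

/-- **The majorant of a functional with boundary phases at one scale.** -/
theorem majY (H : ZG P.D h κ κ0 Mf R1 n Z k) (hMf : 0 ≤ Mf) (h0 : 0 < θ) (h1 : Ang θ)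
    (hβ : Real.cos (θ / 2 + β) = Real.sin θ) (hq : IsPolygon P.q) (hD : Encloses P.q P.D)
    (hG : GeoP n P.N P.q) (hN : P.Near) {L : ℕ} (hS : P.Sep L)
    (hdw : Mf / (n : ℝ) ^ 2 * (κ * n) ^ 2 ≤ dw θ) (hM2 : 2 ≤ M) (hM : (cB θ)⁻¹ ≤ M) (hr0 : 0 ≤ r)
    (hrn : 6 * r < n) (hrL : 4 * r < L) (hκr : κ * n ≤ (r : ℝ) / 16)
    (hrk : (r : ℝ) + (κ * n + 1) + 1 ≤ k)
    {z : ℤ × ℤ} {R : ℤ} (hf3 : ∀ j ∈ P.J, 3 * R + r < nm (P.q (j : ZMod P.N) - z))
    (hf1 : ∀ j ∈ P.J, R + r < nm (P.q (j : ZMod P.N) - z))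
    (hwin : ∀ v : ℤ × ℤ, (∃ u ∈ Z, (nm (v - u) : ℝ) ≤ 2 * (κ * n) + 1) → R < nm (v - z))
    {Nc : Cfg → ℕ} (hN1 : ∀ ω ω' : Cfg, (∀ v : ℤ × ℤ, R < nm (v - z) → ω v = ω' v) → Nc ω = Nc ω')
    (hN2 : ∀ ω, (bigs P.D P.D (κ * n) ω).card ≤ Nc ω) {η : Cfg} {C1 C3 E : ℝ} (hC1 : 0 < C1)
    (hC3 : 0 < C3)
    (hmom : Ex (2 * Real.cos θ) P.D η (fun ω => |TPq θ β P r ω| *
      Real.exp (2 * Real.log M * (Nc ω : ℝ))) ≤
      C1 * Ex (2 * Real.cos θ) P.D η fun ω => |TPq θ β P r ω|)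
    (hsm : Ex (2 * Real.cos θ) P.D η (fun ω => |TPq θ β P r ω| *
      Real.exp (-(Real.tan θ * Sm h (κ * n) ω)) ^ 2) ≤
      C3 * Ex (2 * Real.cos θ) P.D η fun ω => |TPq θ β P r ω|)
    (hlam : Ex (2 * Real.cos θ) P.D η (fun ω => |TPq θ β P r ω|) ≤ E) :
    MajY (2 * Real.cos θ) P.D η (wn θ β P.q P.D P.k (cP P.q P.ρ h))
      (wn' θ β P.q P.D P.k (cP P.q P.ρ h)) z R (3 * M * (Real.sqrt C1 * Real.sqrt C3 * E)) := by
  have hQ0 : 0 < 2 * Real.cos θ := h1.kit.pos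
  have hP := ptw hq hD (r := r) H h0 h1 hβ hMf hG hN hdw hM (by omega) hκr hrk
  have hT := TIn_eq hq hD H h0 h1 hβ hG hN hS hrn hrL (by
    have h2 := H.κn
    linarith)
  have hY0 : ∀ ω, 0 < YQ M (Real.tan θ) Nc h (κ * n) ω := fun ω => YQ_pos (by linarith) _ _ _ _ _
  have hP0 : ∀ ω, 0 ≤ |TPq θ β P r ω| * YQ M (Real.tan θ) Nc h (κ * n) ω :=
    fun ω => mul_nonneg (abs_nonneg _) (hY0 ω).le
  refine ⟨fun ω => 3 * M * (|TPq θ β P r ω| * YQ M (Real.tan θ) Nc h (κ * n) ω), ?_, ?_, ?_, ?_⟩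
  · -- the window
    intro ω ω' hw
    have e1 : Nc ω = Nc ω' := hN1 ω ω' hw
    have e2 : Sm h (κ * n) ω = Sm h (κ * n) ω' := Sm_congr H.supp fun v hv => hw v (hwin v hv)
    have e3 : TPq θ β P r ω = TPq θ β P r ω' := TPq_congr fun j hj v hv _ =>
      hw v (by
        have h3 := hf1 j hj
        have h4 := nm_of_Bq hv
        have h5 := nm_tri' (P.q (j : ZMod P.N)) v z
        rw [nm_comm (P.q (j : ZMod P.N)) v] at h5
        omega)
    show 3 * M * (|TPq θ β P r ω| * YQ M (Real.tan θ) Nc h (κ * n) ω) =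
      3 * M * (|TPq θ β P r ω'| * YQ M (Real.tan θ) Nc h (κ * n) ω')
    unfold YQ
    rw [e1, e2, e3]
  · intro ω
    refine (hP.XW_le hN2 ω).trans ?_
    rw [hT]
    exact le_mul_of_one_le_left (hP0 ω) (by linarith)
  · intro ω A hA hv
    have h2 := hP.TW_le hN2 hA (by
      rintro ⟨j, hj, hin⟩
      obtain ⟨e, he, h3⟩ := hv
      have h4 := hf3 j hj
      have h5 := nm_of_Bq (hin e he)
      have h6 := nm_tri' (P.q (j : ZMod P.N)) (hdv e) z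
      rw [nm_comm (P.q (j : ZMod P.N)) (hdv e)] at h6
      omega)
    rwa [hT] at h2
  · -- the moment
    rw [FKA.Ex_mul_left]
    refine mul_le_mul_of_nonneg_left ?_ (by linarith)
    refine (im_mom hQ0 hM2 hC1 hC3 (fun ω => abs_nonneg _) hmom hsm).trans ?_
    exact mul_le_mul_of_nonneg_left hlam (by positivity)

end Vale.Agent.P167.N.QL
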