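import Vale.Agent.P167.N.QL.Defs
import Vale.Agent.P167.N.QL.MajA
import Vale.Agent.P167.N.H852.Q.Y5d
import Vale.Agent.P167.H852.Q.Y5f

/-!
# P167, the range `0 < q < 1`, block Q-LAM: majorants of the functionals with boundary phases

`majG_core`: the majorants, from `MomG` and `LamG`, for a family of data with an interior charge.
-/

set_option autoImplicit false

namespace Vale.Agent.P167.N.QL

open Finset Filter Topology Relation Vale.Agent.P167.BR Vale.Agent.P167.FK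
open Vale.Agent.P167.E6 (IsPolygon Encloses face)
open Vale.Agent.P167.H562.SML
open Vale.Agent.P167.H542.Q (BD cB)
open Vale.Agent.P167.H718 (Dob wn wn')
open Vale.Agent.P167.H760.Q (MajY)
open Vale.Agent.P167.H852.Q (ZG num_ok nm_tri)
open Vale.Agent.P167.N.H852.Q (sml_dw sm_mom)

variable {θ β : ℝ}

/-- **Majorants of the functionals with boundary phases.** -/
theorem majG_core (h0 : 0 < θ) (h1 : Ang θ) (hβ : Real.cos (θ / 2 + β) = Real.sin θ)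
    (hRSW : RSW (2 * Real.cos θ)) {L : Filter ℕ} (hL : L ≤ atTop) {F : ℕ → Set PD}
    {Fz : ℕ → Set (ℤ × ℤ)} (hOk : OkG L F) (hfar : FarG L F Fz) (hMm : MomG θ β L F)
    (hLm : LamG θ β L F) {H : ℕ → PD → ℤ × ℤ → ℝ} {κ0 Mf R1 : ℝ} (hκ0 : 0 < κ0) (hMf0 : 0 ≤ Mf)
    (hR1 : 0 ≤ R1)
    (hZn : ∀ κ : ℝ, 0 < κ → κ ≤ κ0 / 80 → κ ≤ 1 / (2 * (Mf + 1)) → ∀ᶠ n : ℕ in L, ∀ P ∈ F n,
      ∃ (Z : Finset (ℤ × ℤ)) (k : ℤ), ZG P.D (H n P) κ κ0 Mf R1 n Z k ∧ ∀ z ∈ Fz n, ∀ R : ℤ,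
        (R : ℝ) ≤ κ0 / 8 * n → ∀ v : ℤ × ℤ, (∃ u ∈ Z, (nm (v - u) : ℝ) ≤ 2 * (κ * n) + 1) →
        R < nm (v - z)) :
    ∃ c C : ℝ, 0 < c ∧ 0 < C ∧ ∀ᶠ n : ℕ in L, ∀ P ∈ F n, ∀ z ∈ Fz n, ∀ R : ℤ, (R : ℝ) ≤ c * n →
      ∀ η : Cfg, Dob η P.D P.q P.k →
      MajY (2 * Real.cos θ) P.D η (wn θ β P.q P.D P.k (cP P.q P.ρ (H n P)))
        (wn' θ β P.q P.D P.k (cP P.q P.ρ (H n P))) z R (C * VP θ β P) := by
  have h1_lt := h1.lt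
  classical
  have hQ1 : Kit (2 * Real.cos θ) := h1.kit
  have ht0 : 0 ≤ Real.tan θ := (Real.tan_pos_of_pos_of_lt_pi_div_two h0 h1_lt).le
  have hdw := dw_pos h1_lt
  obtain ⟨ρ1, hρ1, hMm⟩ := hMm
  obtain ⟨ρ2, hρ2, hLm⟩ := hLm
  obtain ⟨cs, hcs, hOk⟩ := hOk
  obtain ⟨c₀, hc₀, hfar⟩ := hfar
  obtain ⟨ρ, hρ, r1, r2, r3, r4, r5, r6⟩ : ∃ ρ : ℝ, 0 < ρ ∧ ρ ≤ ρ1 ∧ ρ ≤ ρ2 ∧ ρ ≤ κ0 / 4 ∧
      ρ ≤ 4 * c₀ / 16 ∧ ρ ≤ cs / 8 ∧ ρ ≤ 1 / 8 := by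
    refine ⟨min ρ1 (min ρ2 (min (κ0 / 4) (min (4 * c₀ / 16) (min (cs / 8) (1 / 8))))),
      by positivity, ?_, ?_, ?_, ?_, ?_, ?_⟩ <;> simp
  obtain ⟨κ, hκ, k1, k2, k3, k4⟩ : ∃ κ : ℝ, 0 < κ ∧ κ ≤ ρ / 32 ∧ κ ≤ κ0 / 80 ∧
      κ ≤ 1 / (2 * (Mf + 1)) ∧ κ ≤ dw θ / (Mf + 1) := by
    refine ⟨min (ρ / 32) (min (κ0 / 80) (min (1 / (2 * (Mf + 1))) (dw θ / (Mf + 1)))),
      by positivity, ?_, ?_, ?_, ?_⟩ <;> simp
  obtain ⟨M, hM2, hM⟩ : ∃ M : ℝ, 2 ≤ M ∧ (cB θ)⁻¹ ≤ M := ⟨max 2 _, le_max_left _ _, le_max_right _ _⟩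
  obtain ⟨al, Ca, hal, hCa, hArm, -⟩ := hQ1.arm
  obtain ⟨P₀, hP₀⟩ := Vale.Agent.P167.N.H519.exists_lim hQ1 hal hArm
  obtain ⟨C3, ρ0, hC3, hρ0, H3⟩ := sm_mom hQ1 hRSW hP₀ κ R1 Mf (Real.tan θ) hκ hR1 hMf0 ht0
  obtain ⟨c1, C1, hc1, hC1, H1⟩ := hMm ρ hρ r1 κ (2 * Real.log M) hκ
    (mul_nonneg (by norm_num) (Real.log_nonneg (by linarith)))
  obtain ⟨C2, hC2, H2⟩ := hLm ρ hρ r2
  refine ⟨min c1 (min (κ0 / 8) (c₀ / 16)), 3 * M * (Real.sqrt C1 * Real.sqrt C3 * C2),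
    by positivity, by positivity, ?_⟩
  have hev : ∀ᶠ n : ℕ in L, ρ0 ≤ (n : ℝ) := hL
    ((eventually_ge_atTop ⌈ρ0⌉₊).mono fun n hn => (Nat.le_ceil ρ0).trans (by exact_mod_cast hn))
  filter_upwards [hZn κ hκ k2 k3, hev, hOk, hfar, H1, H2] with n hZ hn hOk hfar H1 H2 P hP z hz R hR
    η hη
  obtain ⟨Z, k, hZ, hwin⟩ := hZ P hP
  obtain ⟨hq, hD, hG, hN, hS⟩ := hOk P hP
  have hn' : (0 : ℝ) < n := by have := hZ.n1; linarith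
  have hn0 : 0 < n := by exact_mod_cast hn'
  obtain ⟨r, hr⟩ : ∃ r, r = ⌊ρ * (n : ℝ)⌋ := ⟨_, rfl⟩
  rw [← hr] at H1 H2
  obtain ⟨u1, u2, u3, u4, u5, u6, u7⟩ := num_ok hZ.κn hZ.κ0n hZ.k2 hn' r3 r4 r5 r6 k1 hr
  have hR1' : (R : ℝ) ≤ c1 * n := hR.trans (mul_le_mul_of_nonneg_right (min_le_left _ _) hn'.le)
  have hR2 : (R : ℝ) ≤ κ0 / 8 * n := hR.trans (mul_le_mul_of_nonneg_right
    ((min_le_right _ _).trans (min_le_left _ _)) hn'.le)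
  have hR3 : (R : ℝ) ≤ c₀ / 16 * n := hR.trans (mul_le_mul_of_nonneg_right
    ((min_le_right _ _).trans (min_le_right _ _)) hn'.le)
  have hf := hfar P hP z hz
  have hk3 : 3 * (R : ℝ) + r ≤ c₀ * n := by linarith
  have hk1 : (R : ℝ) + r ≤ c₀ * n := by
    rcases le_total (R : ℝ) 0 with h | h
    · have h7 := u6
      nlinarith
    · linarith
  obtain ⟨Nc, hN1, hN2, hN3⟩ := H1 P hP z
  have hsm := H3 n hn _ _ _ κ0 k hZ η hη.good (fun ω => |TPq θ β P r ω|)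
    (fun ω => abs_nonneg _) (fun ω ω' hw => by
      congr 1
      refine TPq_congr fun j hj v hv hvD => hw v ?_
      rintro ⟨-, z', hz', h3⟩
      obtain ⟨u, hu, h4⟩ := H562.MAJ.near_site (hZ.supp z' hz')
      have h4' : (nm (z' - u) : ℝ) ≤ 1 := by exact_mod_cast h4
      have h5 := hZ.far_q hq hD (r := r) (m := 33 * κ * n + 1) (by
        have e1 := hZ.κ0n
        have e2 := hZ.κn
        have e3 := hZ.k2
        have e4 : ρ * (n : ℝ) ≤ κ0 / 4 * n := mul_le_mul_of_nonneg_right r3 hn'.le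
        have e5 : (r : ℝ) ≤ ρ * n := by rw [hr]; exact Int.floor_le _
        linarith) hu hv
      have h6 := nm_tri v z' u
      linarith) (Real.tan θ) ht0 le_rfl
  have hmaj := majY hZ (z := z) (R := R) hMf0 h0 h1 hβ hq hD hG hN hS
    (sml_dw hκ hMf0 hn' k3 k4) hM2 hM u1 (by exact_mod_cast u2) (by
      have e1 : cs * (n : ℝ) < ⌊cs * (n : ℝ)⌋₊ + 1 := Nat.lt_floor_add_one _
      have e2 : ((4 * r : ℤ) : ℝ) < ((⌊cs * (n : ℝ)⌋₊ : ℤ) : ℝ) := by push_cast; linarith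
      exact_mod_cast e2) u4 u5
    (fun j hj => by
      have e1 := hf j hj
      have e2 : ((3 * R + r : ℤ) : ℝ) < (nm (P.q (j : ZMod P.N) - z) : ℝ) := by
        push_cast
        exact lt_of_le_of_lt hk3 e1
      exact_mod_cast e2)
    (fun j hj => by
      have e1 := hf j hj
      have e2 : ((R + r : ℤ) : ℝ) < (nm (P.q (j : ZMod P.N) - z) : ℝ) := by
        push_cast
        exact lt_of_le_of_lt hk1 e1
      exact_mod_cast e2)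
    (fun v hv => hwin z hz R hR2 v hv)
    (fun ω ω' hw => hN1 ω ω' fun v hv => hw v (by
      have : (R : ℝ) < nm (v - z) := lt_of_le_of_lt hR1' hv
      exact_mod_cast this)) hN2 hC1 hC3 (hN3 η hη) hsm (H2 P hP η hη)
  have e : 3 * M * (Real.sqrt C1 * Real.sqrt C3 * (C2 * VP θ β P)) =
      3 * M * (Real.sqrt C1 * Real.sqrt C3 * C2) * VP θ β P := by
    ring
  rw [e] at hmaj
  exact hmaj

end Vale.Agent.P167.N.QL
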