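import Vale.Agent.P167.N.QL.LocF
import Vale.Agent.P167.H852.Q.Cls

/-!
# P167, the range `0 < q < 1`, block Q-LAM: moments and `LamG` of the parity images

`cls_bcX`: the families of a class satisfy the standing hypotheses. `ml_im_of`: `MomG` and `LamG` of the
images from `LamG`.
-/

set_option autoImplicit false

namespace Vale.Agent.P167.N.QL

open Finset Filter Vale.Agent.P167.BR Vale.Agent.P167.FK
open Vale.Agent.P167.E6 (IsPolygon Encloses dir face)
open Vale.Agent.P167.H718 (Dob rc)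
open Vale.Agent.P167.H871 (Bd)
open Vale.Agent.P167.H542.Q (BD)
open Vale.Agent.P167.H760.Q (BaseQ baseQ_b pb_b)
open Vale.Agent.P167.H852.Q (Cls FwC DbC)

variable {θ β : ℝ} {S : CA.Dat}

/-- Eventually equal families. -/
theorem MomG.congr {L : Filter ℕ} {F F' : ℕ → Set PD} (h : MomG θ β L F)
    (hF : ∀ᶠ n in L, F n = F' n) : MomG θ β L F' := by
  obtain ⟨ρ₁, h1, h⟩ := h
  refine ⟨ρ₁, h1, fun ρ h2 h3 κ s h4 h5 => ?_⟩
  obtain ⟨c, C, h6, h7, h⟩ := h ρ h2 h3 κ s h4 h5
  refine ⟨c, C, h6, h7, ?_⟩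
  filter_upwards [h, hF] with n hn hFn P hP
  exact hn P (by rw [hFn]; exact hP)

/-- Eventually equal families. -/
theorem LamG.congr {L : Filter ℕ} {F F' : ℕ → Set PD} (h : LamG θ β L F)
    (hF : ∀ᶠ n in L, F n = F' n) : LamG θ β L F' := by
  obtain ⟨ρ₁, h1, h⟩ := h
  refine ⟨ρ₁, h1, fun ρ h2 h3 => ?_⟩
  obtain ⟨C, h7, h⟩ := h ρ h2 h3
  refine ⟨C, h7, ?_⟩
  filter_upwards [h, hF] with n hn hFn P hP
  exact hn P (by rw [hFn]; exact hP)

/-- The base of the families of a class. -/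
theorem pb_inj {n t t' : ℕ} (h : H760.Q.pb S n t = H760.Q.pb S n t') : t = t' := by
  unfold H760.Q.pb at h
  have h1 := add_left_cancel h
  have h2 := congrArg Prod.fst h1
  have h3 := congrArg Prod.snd h1
  generalize S.r = r at h2 h3
  fin_cases r <;> simp [dir] at h2 h3 <;> omega

/-- **The standing hypotheses for a class.** -/
theorem cls_bcX (X : BD S θ β) {s : ℕ → ℕ} (hb : BaseQ X s) (hcl : Cls X) :
    ∃ s' : ℕ → ℕ, BaseQ X s' ∧ BcX X s' ∧ (∀ᶠ n in X.L, s' n = s n) ∧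
      ∀ᶠ n in X.L, XOk (X.N n) (X.k n) (X.q n) false := by
  rcases hcl.ty with ⟨b, hf⟩ | ⟨ia, hd⟩
  · refine ⟨s, hb, ?_, Eventually.of_forall fun _ => rfl, ?_⟩
    · cases b
      · exact Or.inl (hf.k.mono fun n hn => by simpa using hn)
      · exact Or.inr (Or.inl (hf.k.mono fun n hn => by simpa using hn))
    · filter_upwards [hf.k, hf.par, pos_X X hb] with n h1 h2 h3
      obtain ⟨h3, -, h4, -⟩ := h3
      have hl : 0 < S.l := by have := S.poly.1; omega
      have hN : 0 < X.N n := by rw [h4]; exact Nat.mul_pos hl h3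
      left
      cases b
      · rw [if_neg (by decide)] at h1
        refine ⟨Or.inr h1, ?_⟩
        simp only [Bool.false_eq_true, false_iff]
        intro h5
        have h6 := h5.1 (h2.2 rfl)
        omega
      · rw [if_pos rfl] at h1
        refine ⟨Or.inl h1, ?_⟩
        simp only [Bool.false_eq_true, false_iff]
        intro h5
        have h6 := h2.1 (h5.2 h1)
        exact absurd h6 (by decide)
  · refine ⟨fun _ => 0, baseQ_b hd.b, ?_, ?_, ?_⟩
    · exact Or.inr (Or.inr ⟨fun _ => rfl, ia, hd.i0, hd.i1, hd.k⟩)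
    · filter_upwards [hd.b, hb.2] with n h1 h2
      rw [h1, pb_b] at h2
      have := pb_inj h2
      omega
    · filter_upwards [hd.k, pos_X X hb] with n h1 h3
      obtain ⟨h3, -, h4, -⟩ := h3
      right
      refine ⟨?_, ?_, rfl⟩
      · rw [h1]
        exact Nat.mul_pos hd.i0 h3
      · rw [h1, h4]
        exact Nat.mul_lt_mul_of_pos_right hd.i1 h3

/-- The families depend on the position of the base only. -/
theorem imF_congr (X : BD S θ β) {s s' : ℕ → ℕ} {e : ℝ} {ja : Finset ℕ} {n : ℕ}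
    (h : s' n = s n) : imF X (rhoP X s' e (Rf S)) (JP X s' e (Rf S) ja) n =
      imF X (rhoP X s e (Rf S)) (JP X s e (Rf S) ja) n := by
  have h1 : t0 S s' n = t0 S s n := by
    unfold t0
    rw [h]
  unfold imF rhoP JP
  simp only [h1]

/-- **Moments and `LamG` of the parity images**, from `LamG`. -/
theorem ml_im_of (h1 : Ang θ) (X : BD S θ (bt θ)) {s : ℕ → ℕ} (hb : BaseQ X s)
    (hcl : Cls X) {ja : Finset ℕ} (hj : JunP X ja)
    (hlam : ∀ s' : ℕ → ℕ, BaseQ X s' → BcX X s' →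
      (∀ᶠ n in X.L, XOk (X.N n) (X.k n) (X.q n) false) → ∀ e : ℝ, 0 < e → 16 * e ≤ S.tp →
      16 * e ≤ 1 - S.tp → LamG θ (bt θ) X.L (imF X (rhoP X s' e (Rf S)) (JP X s' e (Rf S) ja))) :
    ∃ e0 : ℝ, 0 < e0 ∧ ∀ e : ℝ, 0 < e → e ≤ e0 →
      MomG θ (bt θ) X.L (imF X (rhoP X s e (Rf S)) (JP X s e (Rf S) ja)) ∧
      LamG θ (bt θ) X.L (imF X (rhoP X s e (Rf S)) (JP X s e (Rf S) ja)) := by
  obtain ⟨s', hb', hB, hs, hx⟩ := cls_bcX X hb hcl
  have htp := hcl.tp
  refine ⟨1 / 32, by norm_num, fun e he he1 => ⟨?_, ?_⟩⟩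
  · exact (mom_im h1 X hb' hB hx he (by rw [htp]; linarith) (by rw [htp]; linarith) hj).congr
      (hs.mono fun n hn => imF_congr X hn)
  · exact (hlam s' hb' hB hx e he (by rw [htp]; linarith) (by rw [htp]; linarith)).congr
      (hs.mono fun n hn => imF_congr X hn)

end Vale.Agent.P167.N.QL
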