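import Vale.Agent.P167.N.QL.Sp1

/-!
# P167, the range `0 < q < 1`, block Q-LAM: phases and signs of the special functionals

The natural phases and the phases of the images of the functionals R1, FW, R2 (zero point `z` on the
free or on the wired arc) on the Dobrushin square, of D0, and of the functional on the L shape.
-/

set_option autoImplicit false

namespace Vale.Agent.P167.N.QL

open Finset Filter Vale.Agent.P167.BR Vale.Agent.P167.FK
open Vale.Agent.P167.E6 (IsPolygon Encloses face dir)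
open Vale.Agent.P167.H718 (Dob IsXY Cl IsCl isCl_strand rc)

variable {θ : ℝ} {n N x y z k : ℕ} {a : ℤ × ℤ} {ρ ρ' : ℕ → ℝ}

/-- Gauge two. -/
noncomputable def bt (θ : ℝ) : ℝ := (θ - Real.pi) / 2

theorem cos_bt (θ : ℝ) : Real.cos (θ / 2 + bt θ) = Real.sin θ := QX.gauge_two

/-- The phases of the image. -/
noncomputable def imR (θ : ℝ) (τ : ℕ → ℤ) (k : ℕ) (ρ : ℕ → ℝ) (j : ℕ) : ℝ := rc θ (bt θ) τ k j - ρ j

theorem imR_eq (θ : ℝ) (τ : ℕ → ℤ) (k : ℕ) (ρ : ℕ → ℝ) (j : ℕ) :
    imR θ τ k ρ j = (if j < k then 0 else Real.pi - θ) - θ / 2 * τ j - ρ j := by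
  unfold imR rc bt
  split_ifs <;> ring

/-- The same phase differences. -/
def EqD (N : ℕ) (ρ ρ' : ℕ → ℝ) : Prop := ∀ x y : ℕ, x < N → y < N → ρ y - ρ x = ρ' y - ρ' x

theorem EqD.of {c : ℝ} (h : ∀ x, x < N → ρ x = ρ' x + c) : EqD N ρ ρ' := fun x y hx hy => by
  rw [h x hx, h y hy]
  ring

theorem EqD.symm (h : EqD N ρ ρ') : EqD N ρ' ρ := fun x y hx hy => (h x y hx hy).symm

theorem EqD.rfl : EqD N ρ ρ := fun _ _ _ _ => Eq.refl _

/-- The contribution of the jump `v` at `c`. -/
noncomputable def jmp (c : ℕ) (v : ℝ) (x y : ℕ) : ℝ := if x < c ∧ c ≤ y then v else 0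

theorem stp_sub_cons (c : ℕ) (v : ℝ) (L : List (ℕ × ℝ)) (hxy : x ≤ y) :
    stp ((c, v) :: L) y - stp ((c, v) :: L) x = jmp c v x y + (stp L y - stp L x) := by
  rw [stp_cons, stp_cons]
  unfold jmp
  by_cases h1 : c ≤ x
  · simp only
    rw [if_pos (by omega), if_pos h1, if_neg (by omega)]
    ring
  · by_cases h2 : c ≤ y
    · simp only
      rw [if_pos h2, if_neg h1, if_pos (by omega)]
      ring
    · simp only
      rw [if_neg h2, if_neg h1, if_neg (by omega)]
      ring

theorem stp_sub_nil : stp [] y - stp [] x = 0 := by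
  rw [stp_nil, stp_nil, sub_zero]

theorem jmp_out {c : ℕ} {v : ℝ} (h : ¬ (x < c ∧ c ≤ y)) : jmp c v x y = 0 := if_neg h

theorem jmp_in {c : ℕ} {v : ℝ} (h : x < c ∧ c ≤ y) : jmp c v x y = v := if_pos h

theorem jmp_neg {c : ℕ} {v : ℝ} (hv : v ≤ 0) : v ≤ jmp c v x y ∧ jmp c v x y ≤ 0 := by
  unfold jmp
  split_ifs
  · exact ⟨le_rfl, hv⟩
  · exact ⟨hv, le_rfl⟩

theorem jmp_pos {c : ℕ} {v : ℝ} (hv : 0 ≤ v) : 0 ≤ jmp c v x y ∧ jmp c v x y ≤ v := by
  unfold jmp
  split_ifs
  · exact ⟨hv, le_rfl⟩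
  · exact ⟨le_rfl, hv⟩

/-! ### the natural phases and the images -/

/-- R1: no charge at the corners, the junction has the charge `π / 2 - θ`. -/
noncomputable def r1R (θ : ℝ) (n : ℕ) : ℕ → ℝ := stp [(4 * n, Real.pi / 2 - θ)]

/-- R1, image. -/
noncomputable def r1I (θ : ℝ) (n : ℕ) : ℕ → ℝ :=
  stp [(n, -(θ / 2)), (3 * n, -(θ / 2)), (4 * n, Real.pi / 2), (5 * n, -(θ / 2)), (7 * n, -(θ / 2))]

/-- D0, image. -/
noncomputable def d0I (θ : ℝ) (n : ℕ) : ℕ → ℝ :=
  stp [(n, -(θ / 2)), (3 * n, -(θ / 2)), (4 * n, Real.pi - θ), (5 * n, -(θ / 2)), (7 * n, -(θ / 2))]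

/-- FW: `- θ / 2` at the free corners. -/
noncomputable def fwR (θ : ℝ) (n : ℕ) : ℕ → ℝ :=
  stp [(n, -(θ / 2)), (3 * n, -(θ / 2)), (4 * n, Real.pi / 2 - θ / 2)]

/-- FW, image. -/
noncomputable def fwI (θ : ℝ) (n : ℕ) : ℕ → ℝ :=
  stp [(4 * n, Real.pi / 2 - θ / 2), (5 * n, -(θ / 2)), (7 * n, -(θ / 2))]

/-- R2, `z` on the free arc: `- θ / 2` at the free corners, `- θ` at `z`. -/
noncomputable def r2fR (θ : ℝ) (n z : ℕ) : ℕ → ℝ :=
  stp [(n, -(θ / 2)), (z, -θ), (3 * n, -(θ / 2)), (4 * n, Real.pi / 2)]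

/-- R2, `z` on the free arc, image. -/
noncomputable def r2fI (θ : ℝ) (n z : ℕ) : ℕ → ℝ :=
  stp [(z, θ), (4 * n, Real.pi / 2 - θ), (5 * n, -(θ / 2)), (7 * n, -(θ / 2))]

/-- R2, `z` on the wired arc: `- θ / 2` at the wired corners, `- θ` at `z`. -/
noncomputable def r2wR (θ : ℝ) (n z : ℕ) : ℕ → ℝ :=
  stp [(4 * n, Real.pi / 2), (5 * n, -(θ / 2)), (z, -θ), (7 * n, -(θ / 2))]

/-- R2, `z` on the wired arc, image. -/
noncomputable def r2wI (θ : ℝ) (n z : ℕ) : ℕ → ℝ :=
  stp [(n, -(θ / 2)), (3 * n, -(θ / 2)), (4 * n, Real.pi / 2 - θ), (z, θ)]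

/-- The index of the zero point at the reflex corner of the L shape: `7 n` or `7 n + 1`. -/
def rz (n : ℕ) (c : Bool) : ℕ := if c then 7 * n + 1 else 7 * n

/-- L: `θ` at the reflex corner (or the next site), `- θ / 2` at four convex corners. -/
noncomputable def lR (θ : ℝ) (n : ℕ) (c : Bool) : ℕ → ℝ :=
  stp [(3 * n, -(θ / 2)), (5 * n, -(θ / 2)), (rz n c, θ), (9 * n, -(θ / 2)), (11 * n, -(θ / 2))]

/-- L, image. -/
noncomputable def lI (θ : ℝ) (n : ℕ) (c : Bool) : ℕ → ℝ :=
  stp (if c then [(7 * n, θ / 2), (7 * n + 1, -θ), (15 * n, -(θ / 2))] else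
    [(7 * n, -(θ / 2)), (15 * n, -(θ / 2))])

section rcs

variable (hn : 0 < n)
include hn

/-- The phases `rc` of the square. -/
theorem rc_ds {j : ℕ} (hj : j < 4 * (2 * n)) : rc θ (bt θ) (dsT n) (4 * n) j = d0I θ n j := by
  have h := imR_eq θ (dsT n) (4 * n) (fun _ => 0) j
  unfold imR at h
  rw [sub_zero, sub_zero, dsT_eq hn (by omega : j < 9 * n)] at h
  rw [h]
  unfold d0I
  simp only [stp_cons, stp_nil]
  by_cases h1 : j < n
  · rw [if_pos (by omega), if_pos h1, if_neg (by omega), if_neg (by omega), if_neg (by omega),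
      if_neg (by omega), if_neg (by omega)]
    push_cast
    ring
  by_cases h2 : j < 3 * n
  · rw [if_pos (by omega), if_neg h1, if_pos h2, if_pos (by omega), if_neg (by omega),
      if_neg (by omega), if_neg (by omega), if_neg (by omega)]
    push_cast
    ring
  by_cases h3 : j < 4 * n
  · rw [if_pos (by omega), if_neg h1, if_neg h2, if_pos (by omega), if_pos (by omega),
      if_pos (by omega), if_neg (by omega), if_neg (by omega), if_neg (by omega)]
    push_cast
    ring
  by_cases h4 : j < 5 * n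
  · rw [if_neg (by omega), if_neg h1, if_neg h2, if_pos (by omega), if_pos (by omega),
      if_pos (by omega), if_pos (by omega), if_neg (by omega), if_neg (by omega)]
    push_cast
    ring
  by_cases h5 : j < 7 * n
  · rw [if_neg (by omega), if_neg h1, if_neg h2, if_neg h4, if_pos (by omega), if_pos (by omega),
      if_pos (by omega), if_pos (by omega), if_pos (by omega), if_neg (by omega)]
    push_cast
    ring
  · rw [if_neg (by omega), if_neg h1, if_neg h2, if_neg h4, if_neg h5, if_pos (by omega),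
      if_pos (by omega), if_pos (by omega), if_pos (by omega), if_pos (by omega)]
    push_cast
    ring

/-- R1, image. -/
theorem im_r1 : EqD (4 * (2 * n)) (imR θ (dsT n) (4 * n) (r1R θ n)) (r1I θ n) := by
  refine EqD.of (c := 0) fun j hj => ?_
  unfold imR
  rw [rc_ds hn hj]
  unfold d0I r1R r1I
  simp only [stp_cons, stp_nil]
  by_cases h : 4 * n ≤ j
  · rw [if_pos h, if_pos h, if_pos h]
    ring
  · rw [if_neg h, if_neg h, if_neg h]
    ring

/-- D0, image. -/
theorem im_d0 : EqD (4 * (2 * n)) (imR θ (dsT n) (4 * n) fun _ => 0) (d0I θ n) := by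
  refine EqD.of (c := 0) fun j hj => ?_
  unfold imR
  rw [rc_ds hn hj]
  ring

/-- FW, image. -/
theorem im_fw : EqD (4 * (2 * n)) (imR θ (dsT n) (4 * n) (fwR θ n)) (fwI θ n) := by
  refine EqD.of (c := 0) fun j hj => ?_
  unfold imR
  rw [rc_ds hn hj]
  unfold d0I fwR fwI
  simp only [stp_cons, stp_nil]
  by_cases h : 4 * n ≤ j
  · simp only [h, if_true]
    ring
  · simp only [h, if_false]
    ring

/-- R2, `z` on the free arc, image. -/
theorem im_r2f : EqD (4 * (2 * n)) (imR θ (dsT n) (4 * n) (r2fR θ n z)) (r2fI θ n z) := by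
  refine EqD.of (c := 0) fun j hj => ?_
  unfold imR
  rw [rc_ds hn hj]
  unfold d0I r2fR r2fI
  simp only [stp_cons, stp_nil]
  by_cases h : 4 * n ≤ j <;> by_cases h' : z ≤ j
  · rw [if_pos h, if_pos h, if_pos h, if_pos h', if_pos h']
    ring
  · rw [if_pos h, if_pos h, if_pos h, if_neg h', if_neg h']
    ring
  · rw [if_neg h, if_neg h, if_neg h, if_pos h', if_pos h']
    ring
  · rw [if_neg h, if_neg h, if_neg h, if_neg h', if_neg h']
    ring

/-- R2, `z` on the wired arc, image. -/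
theorem im_r2w : EqD (4 * (2 * n)) (imR θ (dsT n) (4 * n) (r2wR θ n z)) (r2wI θ n z) := by
  refine EqD.of (c := 0) fun j hj => ?_
  unfold imR
  rw [rc_ds hn hj]
  unfold d0I r2wR r2wI
  simp only [stp_cons, stp_nil]
  by_cases h : 4 * n ≤ j <;> by_cases h' : z ≤ j
  · rw [if_pos h, if_pos h, if_pos h, if_pos h', if_pos h']
    ring
  · rw [if_pos h, if_pos h, if_pos h, if_neg h', if_neg h']
    ring
  · rw [if_neg h, if_neg h, if_neg h, if_pos h', if_pos h']
    ring
  · rw [if_neg h, if_neg h, if_neg h, if_neg h', if_neg h']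
    ring

/-- The phases `rc` of the L shape. -/
theorem rc_ls (b : Bool) {j : ℕ} (hj : j < 8 * (2 * n)) :
    rc θ (bt θ) (lsT n) (lsK b n) j = stp [(3 * n, -(θ / 2)), (5 * n, -(θ / 2)), (7 * n, θ / 2),
      (9 * n, -(θ / 2)), (11 * n, -(θ / 2)), (15 * n, -(θ / 2))] j +
      (if b then Real.pi - θ else 0) := by
  have h := imR_eq θ (lsT n) (lsK b n) (fun _ => 0) j
  unfold imR at h
  rw [sub_zero, sub_zero, lsT_eq hn (by omega : j < 17 * n)] at h
  rw [h]
  have e : (if j < lsK b n then 0 else Real.pi - θ) = (if b then Real.pi - θ else 0) := by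
    unfold lsK
    cases b
    · simp only [Bool.false_eq_true, if_false]
      rw [if_pos hj]
    · simp only [if_true]
      rw [if_neg (by omega)]
  rw [e]
  simp only [stp_cons, stp_nil]
  by_cases h1 : j < 3 * n
  · simp only [h1, show ¬ 3 * n ≤ j by omega, show ¬ 5 * n ≤ j by omega,
      show ¬ 7 * n ≤ j by omega, show ¬ 9 * n ≤ j by omega, show ¬ 11 * n ≤ j by omega,
      show ¬ 15 * n ≤ j by omega, if_true, if_false]
    push_cast
    ring
  by_cases h2 : j < 5 * n
  · simp only [h1, h2, show 3 * n ≤ j by omega, show ¬ 5 * n ≤ j by omega,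
      show ¬ 7 * n ≤ j by omega, show ¬ 9 * n ≤ j by omega, show ¬ 11 * n ≤ j by omega,
      show ¬ 15 * n ≤ j by omega, if_true, if_false]
    push_cast
    ring
  by_cases h3 : j < 7 * n
  · simp only [h1, h2, h3, show 3 * n ≤ j by omega, show 5 * n ≤ j by omega,
      show ¬ 7 * n ≤ j by omega, show ¬ 9 * n ≤ j by omega, show ¬ 11 * n ≤ j by omega,
      show ¬ 15 * n ≤ j by omega, if_true, if_false]
    push_cast
    ring
  by_cases h4 : j < 9 * n
  · simp only [h1, h2, h3, h4, show 3 * n ≤ j by omega, show 5 * n ≤ j by omega,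
      show 7 * n ≤ j by omega, show ¬ 9 * n ≤ j by omega, show ¬ 11 * n ≤ j by omega,
      show ¬ 15 * n ≤ j by omega, if_true, if_false]
    push_cast
    ring
  by_cases h5 : j < 11 * n
  · simp only [h1, h2, h3, h4, h5, show 3 * n ≤ j by omega, show 5 * n ≤ j by omega,
      show 7 * n ≤ j by omega, show 9 * n ≤ j by omega, show ¬ 11 * n ≤ j by omega,
      show ¬ 15 * n ≤ j by omega, if_true, if_false]
    push_cast
    ring
  by_cases h6 : j < 15 * n
  · simp only [h1, h2, h3, h4, h5, h6, show 3 * n ≤ j by omega, show 5 * n ≤ j by omega,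
      show 7 * n ≤ j by omega, show 9 * n ≤ j by omega, show 11 * n ≤ j by omega,
      show ¬ 15 * n ≤ j by omega, if_true, if_false]
    push_cast
    ring
  · simp only [h1, h2, h3, h4, h5, h6, show 3 * n ≤ j by omega, show 5 * n ≤ j by omega,
      show 7 * n ≤ j by omega, show 9 * n ≤ j by omega, show 11 * n ≤ j by omega,
      show 15 * n ≤ j by omega, if_true, if_false]
    push_cast
    ring

/-- L, image. -/
theorem im_l (b c : Bool) : EqD (8 * (2 * n)) (imR θ (lsT n) (lsK b n) (lR θ n c)) (lI θ n c) := by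
  refine EqD.of (c := if b then Real.pi - θ else 0) fun j hj => ?_
  unfold imR
  rw [rc_ls hn b hj]
  unfold lR lI rz
  cases c
  · simp only [Bool.false_eq_true, if_false, stp_cons, stp_nil]
    by_cases h : 7 * n ≤ j
    · rw [if_pos h, if_pos h, if_pos h]
      ring
    · rw [if_neg h, if_neg h, if_neg h]
      ring
  · simp only [if_true, stp_cons, stp_nil]
    by_cases h : 7 * n + 1 ≤ j
    · rw [if_pos h, if_pos h]
      ring
    · rw [if_neg h, if_neg h]
      ring

end rcs

/-! ### signs -/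

section sg

variable {q : ZMod N → ℤ × ℤ} (h0 : 0 < θ) (hn : 0 < n) (hxy : x < y)
include h0 hn hxy

/-- R1, natural. -/
theorem sg_r1 : SgA θ (bt θ) q (4 * n) x y (r1R θ n y - r1R θ n x) := by
  unfold r1R
  rw [stp_sub_cons _ _ _ hxy.le, stp_sub_nil]
  refine sgA_of h0 (fun h1 h2 => ?_) (fun h => ?_)
  · rw [jmp_in ⟨h1, h2⟩]
    unfold bt
    rw [abs_le]
    constructor <;> linarith
  · rw [jmp_out (by omega)]
    constructor <;> linarith

/-- R1, image. -/
theorem sg_r1i : SgA θ (bt θ) q (4 * n) x y (r1I θ n y - r1I θ n x) := by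
  unfold r1I
  rw [stp_sub_cons _ _ _ hxy.le, stp_sub_cons _ _ _ hxy.le, stp_sub_cons _ _ _ hxy.le,
    stp_sub_cons _ _ _ hxy.le, stp_sub_cons _ _ _ hxy.le, stp_sub_nil]
  obtain ⟨a1, a2⟩ := jmp_neg (c := n) (x := x) (y := y) (v := -(θ / 2)) (by linarith)
  obtain ⟨a3, a4⟩ := jmp_neg (c := 3 * n) (x := x) (y := y) (v := -(θ / 2)) (by linarith)
  obtain ⟨a5, a6⟩ := jmp_neg (c := 5 * n) (x := x) (y := y) (v := -(θ / 2)) (by linarith)
  obtain ⟨a7, a8⟩ := jmp_neg (c := 7 * n) (x := x) (y := y) (v := -(θ / 2)) (by linarith)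
  refine sgA_of h0 (fun h1 h2 => ?_) (fun h => ?_)
  · rw [jmp_in (c := 4 * n) ⟨h1, h2⟩]
    unfold bt
    rw [abs_le]
    constructor <;> linarith
  · rcases h with h | h
    · rw [jmp_out (c := 4 * n) (by omega), jmp_out (c := 5 * n) (by omega),
        jmp_out (c := 7 * n) (by omega)]
      constructor <;> linarith
    · rw [jmp_out (c := 4 * n) (by omega), jmp_out (c := n) (by omega),
        jmp_out (c := 3 * n) (by omega)]
      constructor <;> linarith

/-- FW, natural. -/
theorem sg_fw : SgA θ (bt θ) q (4 * n) x y (fwR θ n y - fwR θ n x) := by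
  unfold fwR
  rw [stp_sub_cons _ _ _ hxy.le, stp_sub_cons _ _ _ hxy.le, stp_sub_cons _ _ _ hxy.le, stp_sub_nil]
  obtain ⟨a1, a2⟩ := jmp_neg (c := n) (x := x) (y := y) (v := -(θ / 2)) (by linarith)
  obtain ⟨a3, a4⟩ := jmp_neg (c := 3 * n) (x := x) (y := y) (v := -(θ / 2)) (by linarith)
  refine sgA_of h0 (fun h1 h2 => ?_) (fun h => ?_)
  · rw [jmp_in (c := 4 * n) ⟨h1, h2⟩]
    unfold bt
    rw [abs_le]
    constructor <;> linarith
  · rw [jmp_out (c := 4 * n) (by omega)]
    constructor <;> linarith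

/-- FW, image. -/
theorem sg_fwi : SgA θ (bt θ) q (4 * n) x y (fwI θ n y - fwI θ n x) := by
  unfold fwI
  rw [stp_sub_cons _ _ _ hxy.le, stp_sub_cons _ _ _ hxy.le, stp_sub_cons _ _ _ hxy.le, stp_sub_nil]
  obtain ⟨a5, a6⟩ := jmp_neg (c := 5 * n) (x := x) (y := y) (v := -(θ / 2)) (by linarith)
  obtain ⟨a7, a8⟩ := jmp_neg (c := 7 * n) (x := x) (y := y) (v := -(θ / 2)) (by linarith)
  refine sgA_of h0 (fun h1 h2 => ?_) (fun h => ?_)
  · rw [jmp_in (c := 4 * n) ⟨h1, h2⟩]
    unfold bt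
    rw [abs_le]
    constructor <;> linarith
  · rw [jmp_out (c := 4 * n) (by omega)]
    constructor <;> linarith

/-- R2, `z` on the free arc, image: strands which are not over `z`, and free-wired strands. -/
theorem sg_r2fi (h : ¬ (x < z ∧ z ≤ y) ∨ (x < 4 * n ∧ 4 * n ≤ y)) :
    SgA θ (bt θ) q (4 * n) x y (r2fI θ n z y - r2fI θ n z x) := by
  unfold r2fI
  rw [stp_sub_cons _ _ _ hxy.le, stp_sub_cons _ _ _ hxy.le, stp_sub_cons _ _ _ hxy.le,
    stp_sub_cons _ _ _ hxy.le, stp_sub_nil]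
  obtain ⟨a1, a2⟩ := jmp_pos (c := z) (x := x) (y := y) h0.le
  obtain ⟨a5, a6⟩ := jmp_neg (c := 5 * n) (x := x) (y := y) (v := -(θ / 2)) (by linarith)
  obtain ⟨a7, a8⟩ := jmp_neg (c := 7 * n) (x := x) (y := y) (v := -(θ / 2)) (by linarith)
  refine sgA_of h0 (fun h1 h2 => ?_) (fun h' => ?_)
  · rw [jmp_in (c := 4 * n) ⟨h1, h2⟩]
    unfold bt
    rw [abs_le]
    constructor <;> linarith
  · rw [jmp_out (c := 4 * n) (by omega), jmp_out (c := z) (by omega)]
    constructor <;> linarith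

/-- R2, `z` on the free arc, image: free-free strands over `z`. -/
theorem sg_r2fz (hz : x < z ∧ z ≤ y) (hy : y < 4 * n) : r2fI θ n z y - r2fI θ n z x = θ := by
  unfold r2fI
  rw [stp_sub_cons _ _ _ hxy.le, stp_sub_cons _ _ _ hxy.le, stp_sub_cons _ _ _ hxy.le,
    stp_sub_cons _ _ _ hxy.le, stp_sub_nil, jmp_in hz, jmp_out (c := 4 * n) (by omega),
    jmp_out (c := 5 * n) (by omega), jmp_out (c := 7 * n) (by omega)]
  ring

/-- R2, `z` on the wired arc, image: strands which are not over `z`, and free-wired strands. -/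
theorem sg_r2wi (h : ¬ (x < z ∧ z ≤ y) ∨ (x < 4 * n ∧ 4 * n ≤ y)) :
    SgA θ (bt θ) q (4 * n) x y (r2wI θ n z y - r2wI θ n z x) := by
  unfold r2wI
  rw [stp_sub_cons _ _ _ hxy.le, stp_sub_cons _ _ _ hxy.le, stp_sub_cons _ _ _ hxy.le,
    stp_sub_cons _ _ _ hxy.le, stp_sub_nil]
  obtain ⟨a1, a2⟩ := jmp_pos (c := z) (x := x) (y := y) h0.le
  obtain ⟨a5, a6⟩ := jmp_neg (c := n) (x := x) (y := y) (v := -(θ / 2)) (by linarith)
  obtain ⟨a7, a8⟩ := jmp_neg (c := 3 * n) (x := x) (y := y) (v := -(θ / 2)) (by linarith)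
  refine sgA_of h0 (fun h1 h2 => ?_) (fun h' => ?_)
  · rw [jmp_in (c := 4 * n) ⟨h1, h2⟩]
    unfold bt
    rw [abs_le]
    constructor <;> linarith
  · rw [jmp_out (c := 4 * n) (by omega), jmp_out (c := z) (by omega)]
    constructor <;> linarith

/-- R2, `z` on the wired arc, image: wired-wired strands over `z`. -/
theorem sg_r2wz (hz : x < z ∧ z ≤ y) (hx : 4 * n ≤ x) : r2wI θ n z y - r2wI θ n z x = θ := by
  unfold r2wI
  rw [stp_sub_cons _ _ _ hxy.le, stp_sub_cons _ _ _ hxy.le, stp_sub_cons _ _ _ hxy.le,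
    stp_sub_cons _ _ _ hxy.le, stp_sub_nil, jmp_in hz, jmp_out (c := 4 * n) (by omega),
    jmp_out (c := n) (by omega), jmp_out (c := 3 * n) (by omega)]
  ring

/-- R2, `z` on the free arc, natural. -/
theorem sg_r2f (hz : z < 4 * n) : |θ / 2 + bt θ + (r2fR θ n z y - r2fR θ n z x)| ≤ θ ∨
    ¬ (x < 4 * n ∧ 4 * n ≤ y) := by
  by_cases h : x < 4 * n ∧ 4 * n ≤ y
  · left
    unfold r2fR
    rw [stp_sub_cons _ _ _ hxy.le, stp_sub_cons _ _ _ hxy.le, stp_sub_cons _ _ _ hxy.le,
      stp_sub_cons _ _ _ hxy.le, stp_sub_nil, jmp_in (c := 4 * n) h]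
    obtain ⟨a1, a2⟩ := jmp_neg (c := z) (x := x) (y := y) (v := -θ) (by linarith)
    obtain ⟨a5, a6⟩ := jmp_neg (c := n) (x := x) (y := y) (v := -(θ / 2)) (by linarith)
    obtain ⟨a7, a8⟩ := jmp_neg (c := 3 * n) (x := x) (y := y) (v := -(θ / 2)) (by linarith)
    unfold bt
    rw [abs_le]
    constructor <;> linarith
  · exact Or.inr h

/-- L, image. The parity rule at the reflex corner: `c = false` if the site `q (7 n)` is odd on a free
polygon, even on a wired polygon. -/
theorem sg_li (b c : Bool)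
    (hc : c = true → (Even ((q ((7 * n : ℕ) : ZMod N)).1 + (q ((7 * n : ℕ) : ZMod N)).2) ↔ b = true))
    (hy : y < 8 * (2 * n)) (hp : (Even ((q (x : ZMod N)).1 + (q (x : ZMod N)).2) ↔
      ¬ Even ((q (y : ZMod N)).1 + (q (y : ZMod N)).2))) :
    SgA θ (bt θ) q (lsK b n) x y (lI θ n c y - lI θ n c x) := by
  unfold lI
  cases c
  · simp only [Bool.false_eq_true, if_false]
    rw [stp_sub_cons _ _ _ hxy.le, stp_sub_cons _ _ _ hxy.le, stp_sub_nil]
    obtain ⟨a1, a2⟩ := jmp_neg (c := 7 * n) (x := x) (y := y) (v := -(θ / 2)) (by linarith)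
    obtain ⟨a3, a4⟩ := jmp_neg (c := 15 * n) (x := x) (y := y) (v := -(θ / 2)) (by linarith)
    refine sgA_of h0 (fun h1 h2 => ?_) (fun h => ?_)
    · unfold lsK at h1 h2
      cases b
      · simp only [Bool.false_eq_true, if_false] at h2
        omega
      · simp only [if_true] at h1
        omega
    · constructor <;> linarith
  · simp only [if_true]
    rw [stp_sub_cons _ _ _ hxy.le, stp_sub_cons _ _ _ hxy.le, stp_sub_cons _ _ _ hxy.le,
      stp_sub_nil]
    obtain ⟨a3, a4⟩ := jmp_neg (c := 15 * n) (x := x) (y := y) (v := -(θ / 2)) (by linarith)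
    have hc' := hc rfl
    by_cases hx : x = 7 * n
    · subst hx
      rw [jmp_out (c := 7 * n) (by omega), jmp_in (c := 7 * n + 1) ⟨by omega, by omega⟩]
      refine ⟨fun h1 h2 => ?_, fun h => by constructor <;> linarith, fun h => ?_⟩
      · unfold lsK at h1 h2
        cases b
        · simp only [Bool.false_eq_true, if_false] at h2
          omega
        · simp only [if_true] at h1
          omega
      · exfalso
        unfold lsK at h
        cases b
        · simp only [Bool.false_eq_true, if_false, iff_false] at h hc'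
          rcases h with h | h
          · exact hc' h.2
          · omega
        · simp only [if_true, iff_true] at h hc'
          rcases h with h | h
          · omega
          · exact h.2 hc'
    by_cases hy' : y = 7 * n
    · subst hy'
      rw [jmp_in (c := 7 * n) ⟨hxy, le_rfl⟩, jmp_out (c := 7 * n + 1) (by omega),
        jmp_out (c := 15 * n) (by omega)]
      refine ⟨fun h1 h2 => ?_, fun h => ?_, fun h => by constructor <;> linarith⟩
      · unfold lsK at h1 h2
        cases b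
        · simp only [Bool.false_eq_true, if_false] at h2
          omega
        · simp only [if_true] at h1
          omega
      · exfalso
        unfold lsK at h
        cases b
        · simp only [Bool.false_eq_true, if_false, iff_false] at h hc'
          rcases h with h | h
          · exact h.2 (hp.2 hc')
          · omega
        · simp only [if_true, iff_true] at h hc'
          rcases h with h | h
          · omega
          · exact hp.1 h.2 hc'
    have h3 : (jmp (7 * n) (θ / 2) x y = 0 ∧ jmp (7 * n + 1) (-θ) x y = 0) ∨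
        (jmp (7 * n) (θ / 2) x y = θ / 2 ∧ jmp (7 * n + 1) (-θ) x y = -θ) := by
      by_cases h : x < 7 * n ∧ 7 * n ≤ y
      · right
        rw [jmp_in h, jmp_in ⟨by omega, by omega⟩]
        exact ⟨rfl, rfl⟩
      · left
        rw [jmp_out h, jmp_out (by omega)]
        exact ⟨rfl, rfl⟩
    refine sgA_of h0 (fun h1 h2 => ?_) (fun h => ?_)
    · unfold lsK at h1 h2
      cases b
      · simp only [Bool.false_eq_true, if_false] at h2
        omega
      · simp only [if_true] at h1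
        omega
    · rcases h3 with ⟨h4, h5⟩ | ⟨h4, h5⟩
      · rw [h4, h5]
        constructor <;> linarith
      · rw [h4, h5]
        constructor <;> linarith

end sg

end Vale.Agent.P167.N.QL
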