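import Vale.Agent.P167.N.QL.Defs
import Vale.Agent.P167.N.QL.Geo
import Vale.Agent.P167.N.AW.Sit
import Vale.Agent.P167.H365.NNear

/-!
# P167, the range `0 < q < 1`, block Q-LAM: the weight `wP` as an abstract weight

`PD.C`: the centres as a set of sites. `PD.Ok.sw`: the weight `wP` of data `P` with `P.Ok n L` satisfies
`Sw`. `PT_image`: the product of the local factors over the centres. `XW_wP`, `VP_ex'`: the mean value.
-/

set_option autoImplicit false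

namespace Vale.Agent.P167.N.QL

open Finset Filter Vale.Agent.P167.BR Vale.Agent.P167.FK
open Vale.Agent.P167.E6 (IsPolygon Encloses face)
open Vale.Agent.P167.H365.NQ (XW TW)
open Vale.Agent.P167.H718 (Dob wn wn' wn_eq gch)
open Vale.Agent.P167.H542.Q (cB)
open Vale.Agent.P167.H562.QM (OneC)
open Vale.Agent.P167.H975 (TX)
open Vale.Agent.P167.N.AW (Sw Wl PT)

variable {θ β : ℝ} {P : PD} {n L : ℕ} {ℓ m₀ r : ℤ} {η ω : Cfg} {A : Finset Ed}

/-- The centres. -/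
def PD.C (P : PD) : Finset (ℤ × ℤ) := P.J.image fun j : ℕ => P.q (j : ZMod P.N)

theorem mem_C {c : ℤ × ℤ} : c ∈ P.C ↔ ∃ j ∈ P.J, P.q (j : ZMod P.N) = c := by
  unfold PD.C
  rw [mem_image]

/-- Different indices have different sites. -/
theorem q_inj (hq : IsPolygon P.q) {i j : ℕ} (hi : i < P.N) (hj : j < P.N)
    (h : P.q (i : ZMod P.N) = P.q (j : ZMod P.N)) : i = j := by
  have h1 := hq.2.1 h
  rw [ZMod.natCast_eq_natCast_iff'] at h1
  rwa [Nat.mod_eq_of_lt hi, Nat.mod_eq_of_lt hj] at h1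

/-- The product over the centres. -/
theorem prod_image (hq : IsPolygon P.q) {J : Finset ℕ} (hJ : ∀ j ∈ J, j < P.N)
    (f : ℤ × ℤ → ℝ) :
    ∏ c ∈ J.image fun j : ℕ => P.q (j : ZMod P.N), f c = ∏ j ∈ J, f (P.q (j : ZMod P.N)) :=
  Finset.prod_image fun i hi j hj h => q_inj hq (hJ i hi) (hJ j hj) h

/-- The product of the local factors as a product over sites. -/
theorem PT_image (hq : IsPolygon P.q) {J : Finset ℕ} (hJ : ∀ j ∈ J, j < P.N) (r : ℤ) (ω : Cfg) :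
    PT (wP θ β P.q P.D P.k P.ρ) P.D (J.image fun j : ℕ => P.q (j : ZMod P.N)) r ω =
      ∏ j ∈ J, TX (wP θ β P.q P.D P.k P.ρ) P.D (P.q (j : ZMod P.N)) r ω :=
  prod_image hq hJ fun c => TX (wP θ β P.q P.D P.k P.ρ) P.D c r ω

theorem PT_C (hq : IsPolygon P.q) (hN : P.Near) (r : ℤ) (ω : Cfg) :
    PT (wP θ β P.q P.D P.k P.ρ) P.D P.C r ω = TPq θ β P r ω :=
  PT_image hq hN.lt r ω

/-- The centres are far from each other. -/
theorem far_idx (hG : GeoP n P.N P.q) (hN : P.Near) (hS : P.Sep L) (h1 : 12 * ℓ < n)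
    (h2 : 8 * ℓ < L) {i j : ℕ} (hi : i ∈ P.J) (hj : j ∈ P.J) (hij : i ≠ j) :
    4 * ℓ < nm (P.q (i : ZMod P.N) - P.q (j : ZMod P.N)) := by
  by_contra hcon
  push Not at hcon
  have hiN := hN.lt i hi
  have hjN := hN.lt j hj
  have key : ∀ a b : ℕ, a ∈ P.J → b ∈ P.J → a < b → a + L ≤ b ∧ b + L ≤ a + P.N := fun a b ha hb =>
    hS a ha b hb
  rcases hG.near hiN.le hjN.le (d := 4 * ℓ) (by linarith) hcon with h7 | h7 <;>
    rcases Nat.lt_or_gt_of_ne hij with h | h <;>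
    rcases abs_cases ((i : ℤ) - j) with ⟨a1, a2⟩ | ⟨a1, a2⟩ <;> rw [a1] at h7 <;>
    first
    | (have := key i j hi hj h; omega)
    | (have := key j i hj hi h; omega)

/-- Not in a box around a centre. -/
theorem not_in_iff : ¬ P.In r A ↔ ∀ c ∈ P.C, ¬ ∀ e ∈ A, hdv e ∈ Bq c r := by
  unfold PD.In
  constructor
  · intro h c hc hA
    obtain ⟨j, hj, rfl⟩ := mem_C.1 hc
    exact h ⟨j, hj, hA⟩
  · rintro h ⟨j, hj, hA⟩
    exact h _ (mem_C.2 ⟨j, hj, rfl⟩) hA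

theorem one_le_cB (h0 : 0 < θ) (h1 : Ang θ) : 1 ≤ (cB θ)⁻¹ := by
  rw [one_le_inv₀ (Vale.Agent.P167.N.H542.Q.cB_pos h0 h1)]
  exact (min_le_left _ _).trans (Real.cos_le_one θ)

/-- **The weight `wP` as an abstract weight.** -/
theorem PD.Ok.sw (hP : P.Ok n L) (h0 : 0 < θ) (h1 : Ang θ)
    (hβ : Real.cos (θ / 2 + β) = Real.sin θ) (hn : 12 * ℓ < n) (hL : 8 * ℓ < L) (hg : Good η)
    (hone : ∀ (x : ℤ × ℤ) (R : ℤ), 1 ≤ R → R ≤ m₀ → (∃ v ∈ P.D, nm (x - v) ≤ m₀) →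
      OneC x R P.D η) :
    Sw (cB θ)⁻¹ ℓ m₀ P.D P.C (wP θ β P.q P.D P.k P.ρ) η where
  one_le := one_le_cB h0 h1
  up := fun _ A _ => abs_wP_le h0 h1 hβ P.q P.D P.k P.ρ A
  head := fun _ _ hA _ => H365.exists_hd hA
  big := fun ω A hA hw r hr hout => by
    refine large_of_ne_one h1.sin_pos.ne' h1.cos_pos.ne' hβ hP.geo hP.near hP.poly hP.enc hA hw
      ?_ (not_in_iff.2 hout)
    have := hP.geo.pos
    omega
  far := fun c hc c' hc' hne => by
    obtain ⟨i, hi, rfl⟩ := mem_C.1 hc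
    obtain ⟨j, hj, rfl⟩ := mem_C.1 hc'
    exact far_idx hP.geo hP.near hP.sep hn hL hi hj fun h => hne (by rw [h])
  near := fun c hc => by
    obtain ⟨i, hi, rfl⟩ := mem_C.1 hc
    exact H601.S2.exists_near hP.poly hP.enc _
  good := hg
  one := hone

/-- Different indices of centres have different sites, in terms of sets. -/
theorem disj_image (hq : IsPolygon P.q) {J J' : Finset ℕ} (hJ : ∀ j ∈ J, j < P.N)
    (hJ' : ∀ j ∈ J', j < P.N) (hd : Disjoint J J') :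
    Disjoint (J.image fun j : ℕ => P.q (j : ZMod P.N)) (J'.image fun j : ℕ => P.q (j : ZMod P.N)) := by
  rw [Finset.disjoint_left]
  intro c hc hc'
  obtain ⟨i, hi, rfl⟩ := mem_image.1 hc
  obtain ⟨j, hj, h⟩ := mem_image.1 hc'
  have := q_inj hq (hJ i hi) (hJ' j hj) h.symm
  subst this
  exact Finset.disjoint_left.1 hd hi hj

theorem card_C_le : P.C.card ≤ P.J.card := card_image_le

/-- The sites of the centres are within distance `N` of each other. -/
theorem C_diam (hG : GeoP n P.N P.q) (hN : P.Near) {c c' : ℤ × ℤ} (hc : c ∈ P.C) (hc' : c' ∈ P.C) :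
    nm (c - c') ≤ P.N := by
  obtain ⟨i, hi, rfl⟩ := mem_C.1 hc
  obtain ⟨j, hj, rfl⟩ := mem_C.1 hc'
  have h1 := hG.lip i j
  have h2 := hN.lt i hi
  have h3 := hN.lt j hj
  have h4 : |(i : ℤ) - j| ≤ P.N := by
    rw [abs_le]
    omega
  omega

/-- The functional without interior charge is the product of the weights `wP`. -/
theorem XW_wP (hq : IsPolygon P.q) (hD : Encloses P.q P.D) (hs : Real.sin θ ≠ 0)
    (hc : 0 < Real.cos θ) (hβ : Real.cos (θ / 2 + β) = Real.sin θ) (ω : Cfg) :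
    XW P.D (wn θ β P.q P.D P.k (gch P.q P.ρ)) ω = XW P.D (wP θ β P.q P.D P.k P.ρ) ω := by
  unfold XW
  refine prod_congr rfl fun A hA => ?_
  rw [wn_eq hq hD hs hc hβ hA, mass_gch hq hD hA hc.ne' hs hβ]

/-- **The value of a functional** is the mean value of the product of the weights. -/
theorem VP_ex' (hq : IsPolygon P.q) (hD : Encloses P.q P.D) (hs : 0 < Real.sin θ)
    (hc : 0 < Real.cos θ) (hβ : Real.cos (θ / 2 + β) = Real.sin θ) (hk : P.k ≤ P.N)
    (hη : Dob η P.D P.q P.k) :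
    Ex (2 * Real.cos θ) P.D η (XW P.D (wP θ β P.q P.D P.k P.ρ)) = VP θ β P := by
  refine Eq.trans ?_ (VP_ex (ρ := P.ρ) hq hD hs hc hβ hk hη P.J)
  exact FKA.Ex_congr fun _ _ => (XW_wP hq hD hs.ne' hc hβ _).symm

end Vale.Agent.P167.N.QL
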