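import Vale.Agent.P167.N.QL.TrB
import Vale.Agent.P167.N.QL.MajD
import Vale.Agent.P167.N.H955.Neu
import Vale.Agent.P167.N.H955.FinS
import Vale.Agent.P167.H760.Q.Asm
import Vale.Agent.P167.N.H542.Q.FamB
import Vale.Agent.P167.N.H852.Q.Y4
import Vale.Agent.P167.H852.Q.Cls

/-!
# P167, the range `0 < q < 1`: assembly of the transfer

`tr_in`: the local input of the transfer at a part of a side, from the majorants of the natural
functionals with charges (uniform in the displacement `e` of the charges), the majorants of the parity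
images (at fixed `e`), and the closeness of the functionals in the frames.
-/

set_option autoImplicit false

namespace Vale.Agent.P167.N.QL

open Finset Filter Topology Vale.Agent.P167 Vale.Agent.P167.BR Vale.Agent.P167.FK
open Vale.Agent.P167.CA (cms)
open Vale.Agent.P167.H365.NQ (XW TW XTW OF sx)
open Vale.Agent.P167.H542.Q (BD XTR thB)
open Vale.Agent.P167.H718 (wn wn' Dob lam lam_pos gch imC)
open Vale.Agent.P167.H871 (Bd)
open Vale.Agent.P167.H760 Vale.Agent.P167.H760.Q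
open Vale.Agent.P167.H852.Q (Cls FwC DbC)
open Vale.Agent.P167.CAQ.J (ArcB)
open Vale.Agent.P167.E6 (IsPolygon Encloses)
open Vale.Agent.P167.H638.L (Deep)
open Vale.Agent.P167.N.H955 (flW ImgQ CloQ TrW TrIn TrAll CloP MajNU CloN)

variable {S : CA.Dat} {θ β : ℝ}

/-! ### The inputs -/

/-- **Majorants of the parity images**, at small fixed `e`. -/
def ImgU (X : BD S θ β) (s : ℕ → ℕ) (f : ℂ → ℝ) : Prop :=
  ∀ δ : ℝ, 0 < δ → ∃ e0 : ℝ, 0 < e0 ∧ ∀ e : ℝ, 0 < e → e ≤ e0 →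
    MajIG X (rhoP X s e (Rf S)) f δ

/-! ### The charge without interior part -/

theorem ff_zero (S : CA.Dat) : S.FF fun _ => 0 := by
  refine ⟨⟨contDiff_const, ?_, ?_⟩, by simp⟩
  · exact HasCompactSupport.zero
  · have h : tsupport (fun _ : ℂ => (0 : ℝ)) = ∅ := by
      rw [tsupport_eq_empty_iff]
      rfl
    rw [h]
    exact Set.empty_subset _

theorem cms_zero (δ : ℝ) : cms (fun _ => 0) δ = fun _ => 0 := by
  funext z
  unfold cms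
  simp

theorem cP_cms0 {N : ℕ} (q : ZMod N → ℤ × ℤ) (ρ : ℕ → ℝ) (δ : ℝ) :
    cP q ρ (cms (fun _ => 0) δ) = gch q ρ := by
  rw [cms_zero, cP_nil]

/-- A charge at the boundary is at a jump of the phases. -/
theorem gch_jump {N : ℕ} {q : ZMod N → ℤ × ℤ} {ρ : ℕ → ℝ} {z : ℤ × ℤ} (h : gch q ρ z ≠ 0) :
    ∃ j : ℕ, 0 < j ∧ j < N ∧ ρ j ≠ ρ (j - 1) ∧ q (j : ZMod N) = z := by
  by_contra hcon
  push Not at hcon
  apply h
  unfold gch
  refine sum_eq_zero fun j hj => ?_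
  rw [mem_Ico] at hj
  split_ifs with h1
  · by_cases h2 : ρ j = ρ (j - 1)
    · rw [h2, sub_self]
    · exact absurd h1 (hcon j (by omega) hj.2 h2)
  · rfl

/-- **The charges are far from the flat boundary points.** -/
theorem Sc.near0 {X : BD S θ β} {s : ℕ → ℕ} {e C : ℝ} {ja : Finset ℕ} {n : ℕ}
    (H : Sc X s e (Rf S) ja C n) (he : 0 < e) (he1 : 2 * e ≤ S.tp) (he2 : e ≤ 1 - S.tp) {δ : ℝ}
    (hδ : 0 < δ) (heδ : e ≤ δ / 4) (hbig : 8 * (C + 1) < δ * n) {z u : ℤ × ℤ} (hz : Fp S δ n z)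
    {R : ℤ} (hR : (R : ℝ) + 2 ≤ δ / 4 * n) (hu : nm (u - z) ≤ R) :
    gch (X.q n) (rhoP X s e (Rf S) n) u = 0 := by
  by_contra h
  obtain ⟨j, h0, hj, h1, rfl⟩ := gch_jump h
  have hok := H.ok_nat he he1 he2 (Rf_sub S)
  obtain ⟨i, hi, hij⟩ := hok.near.near j h0 hj (Or.inl h1)
  have h2 := H.far he he1 (Rf_sub S) hδ heδ hbig hz hi
  have h3 := hok.geo.lip i j
  have h4 := H45.nm_sub_le (X.q n (i : ZMod (X.N n))) (X.q n (j : ZMod (X.N n))) z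
  have h5 : nm (X.q n (i : ZMod (X.N n)) - z) ≤ 2 + R := by
    have : nm (X.q n (i : ZMod (X.N n)) - X.q n (j : ZMod (X.N n))) ≤ 2 := h3.trans hij
    omega
  have h6 : (nm (X.q n (i : ZMod (X.N n)) - z) : ℝ) ≤ 2 + R := by exact_mod_cast h5
  linarith

/-! ### The local input -/

/-- The base point. -/
theorem base_num {tp : ℝ} (h0 : 0 < tp) (h1 : tp < 1) {s n t₀ : ℕ} (hs : s ≤ 1)
    (ht : t₀ = ⌊tp * n⌋₊ + s) (hn : 2 / (1 - tp) ≤ n) :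
    t₀ < n ∧ (t₀ : ℝ) ≤ tp * n + 1 ∧ tp * n < t₀ + 1 := by
  rw [div_le_iff₀ (by linarith)] at hn
  have hsn : (s : ℝ) ≤ 1 := by exact_mod_cast hs
  have ht' : (t₀ : ℝ) = ⌊tp * n⌋₊ + s := by rw [ht]; push_cast; ring
  have hs0 : (0 : ℝ) ≤ s := Nat.cast_nonneg _
  have hn0 : (0 : ℝ) ≤ n := Nat.cast_nonneg _
  have e1 : (⌊tp * n⌋₊ : ℝ) ≤ tp * n := Nat.floor_le (by positivity)
  have e2 := Nat.lt_floor_add_one (tp * n)
  have k1 : (t₀ : ℝ) ≤ tp * n + 1 := by linarith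
  have k2 : tp * n < t₀ + 1 := by linarith
  refine ⟨?_, k1, k2⟩
  have : (t₀ : ℝ) < n := by nlinarith
  exact_mod_cast this

/-- The points of a part of a side. -/
theorem side_pts {w : ℤ × ℤ} {r : Fin 4} (hw1 : E6.face w r ∈ S.Q) (hw2 : E6.face w (r - 1) ∉ S.Q)
    {α ρ δ : ℝ} (hα0 : 0 ≤ α) (hρ1 : ρ ≤ 1) (hαρ : (α = 0 ∧ ρ = S.tp) ∨ (α = S.tp ∧ ρ = 1))
    {n t₀ : ℕ} (k1 : (t₀ : ℝ) ≤ S.tp * n + 1) (k2 : S.tp * n < t₀ + 1)
    {R a b : ℤ} (hR : 1 ≤ R) (hRδ : 10000 * (R : ℝ) ≤ δ * n)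
    (ha : (α + δ) * n ≤ a) (hb : (b : ℝ) ≤ (ρ - δ) * n) :
    400 * R < a ∧ b + 400 * R < n ∧
    (∀ x : ℤ, a ≤ x → x ≤ b + 1 → Fp S (δ / 2) n ((n : ℤ) • w + x • E6.dir r)) ∧
    (∀ x ∈ Icc a b, 200 * R < |x - t₀|) ∧
    (α + δ / 2) * n ≤ (((a + b) / 2 : ℤ) : ℝ) - (((b - a) / 2 + 1 + 300 * R : ℤ) : ℝ) ∧
    (((a + b) / 2 : ℤ) : ℝ) + (((b - a) / 2 + 1 + 300 * R : ℤ) : ℝ) ≤ (ρ - δ / 2) * n := by
  have hR1 : (1 : ℝ) ≤ R := by exact_mod_cast hR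
  have hn0 : (0 : ℝ) ≤ n := Nat.cast_nonneg _
  have hαn : 0 ≤ α * n := by positivity
  have hρn : ρ * n ≤ 1 * n := mul_le_mul_of_nonneg_right hρ1 hn0
  rw [one_mul] at hρn
  rw [add_mul] at ha
  rw [sub_mul] at hb
  obtain ⟨D, hD⟩ : ∃ D : ℝ, D = δ * n := ⟨_, rfl⟩
  have hD2 : δ / 2 * n = D / 2 := by rw [hD]; ring
  rw [← hD] at hRδ ha hb
  refine ⟨?_, ?_, ?_, ?_, ?_, ?_⟩
  · have : ((400 * R : ℤ) : ℝ) < a := by push_cast; linarith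
    exact_mod_cast this
  · have : ((b + 400 * R : ℤ) : ℝ) < ((n : ℤ) : ℝ) := by push_cast; linarith
    exact_mod_cast this
  · intro x hx1 hx2
    have hx1' : (a : ℝ) ≤ x := by exact_mod_cast hx1
    have hx2' : (x : ℝ) ≤ b + 1 := by exact_mod_cast hx2
    refine ⟨w, r, x, hw1, hw2, rfl, by linarith, by linarith, ?_⟩
    rw [le_abs]
    rcases hαρ with ⟨h3, h4⟩ | ⟨h3, h4⟩
    · rw [h4] at hb
      right
      linarith
    · rw [h3] at ha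
      left
      linarith
  · intro x hx
    rw [mem_Icc] at hx
    have hx1' : (a : ℝ) ≤ x := by exact_mod_cast hx.1
    have hx2' : (x : ℝ) ≤ b := by exact_mod_cast hx.2
    have : ((200 * R : ℤ) : ℝ) < ((|x - t₀| : ℤ) : ℝ) := by
      push_cast
      rw [lt_abs]
      rcases hαρ with ⟨h3, h4⟩ | ⟨h3, h4⟩
      · rw [h4] at hb
        right
        linarith
      · rw [h3] at ha
        left
        linarith
    exact_mod_cast this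
  · have k1 : (a + b) / 2 - ((b - a) / 2 + 1 + 300 * R) = a - 1 - 300 * R := by omega
    have k2 : (((a + b) / 2 : ℤ) : ℝ) - (((b - a) / 2 + 1 + 300 * R : ℤ) : ℝ) =
        a - 1 - 300 * R := by exact_mod_cast k1
    rw [k2, add_mul, hD2]
    linarith
  · have k1 : (a + b) / 2 + ((b - a) / 2 + 1 + 300 * R) ≤ b + 1 + 300 * R := by omega
    have k2 : (((a + b) / 2 : ℤ) : ℝ) + (((b - a) / 2 + 1 + 300 * R : ℤ) : ℝ) ≤
        b + 1 + 300 * R := by exact_mod_cast k1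
    rw [sub_mul, hD2]
    linarith

/-- The window. -/
theorem win_num {c c₁ : ℝ} {n : ℕ} {R : ℤ} (hR : 1 ≤ R) (hRc : (R : ℝ) ≤ c * n) (h : c ≤ c₁ / 3) :
    ((R + 2 : ℤ) : ℝ) ≤ c₁ * n := by
  have hR1 : (1 : ℝ) ≤ R := by exact_mod_cast hR
  have h1 : c * n ≤ c₁ / 3 * n := mul_le_mul_of_nonneg_right h (Nat.cast_nonneg _)
  push_cast
  linarith

/-- The interior charge is far from the sides. -/
theorem near_f {w : ℤ × ℤ} {r : Fin 4} (hw1 : E6.face w r ∈ S.Q) (hw2 : E6.face w (r - 1) ∉ S.Q)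
    {n : ℕ} {ρ : ℝ} {R a b : ℤ} {f : ℤ × ℤ → ℝ} (hR : 1 ≤ R) (ha : 400 * R < a)
    (hb : b + 400 * R < n) (hd : Deep (ρ * n) (S.D n) f) (hRρ : 400 * (R : ℝ) ≤ ρ * n) :
    Near0 n w r R a b f := by
  intro x hx z hz
  rw [mem_Icc] at hx
  by_contra hfz
  obtain ⟨v, hv1, hv2⟩ := exists_off hw1 hw2 (n := n) (x := x) (by omega) (by omega)
  refine hv2 (hd z hfz v ?_)
  have h3 := H45.nm_sub_le v ((n : ℤ) • w + x • E6.dir r) z
  rw [H45.nm_sub_comm ((n : ℤ) • w + x • E6.dir r) z] at h3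
  have h5 : nm (v - z) ≤ 2 + 300 * R := by omega
  have h4 : (nm (v - z) : ℝ) ≤ 2 + 300 * R := by exact_mod_cast h5
  have hR1 : (1 : ℝ) ≤ R := by exact_mod_cast hR
  linarith

/-- The charges at the boundary are far from the part. -/
theorem near_g {X : BD S θ β} {s : ℕ → ℕ} {e C : ℝ} {ja : Finset ℕ} {n : ℕ}
    (H : Sc X s e (Rf S) ja C n) (he : 0 < e) (he1 : 2 * e ≤ S.tp) (he2 : e ≤ 1 - S.tp) {δ : ℝ}
    (hδ : 0 < δ) (heδ : e ≤ δ / 2 / 4) (hbig : (8 * (C + 1) + 1000) / (δ / 2) + 1 ≤ n) {w : ℤ × ℤ}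
    {r : Fin 4} {R a b : ℤ} (hR : 1 ≤ R) (hRδ : 10000 * (R : ℝ) ≤ δ * n)
    (hF : ∀ x : ℤ, a ≤ x → x ≤ b + 1 → Fp S (δ / 2) n ((n : ℤ) • w + x • E6.dir r)) :
    Near0 n w r R a b (gch (X.q n) (rhoP X s e (Rf S) n)) := by
  intro x hx z hz
  rw [mem_Icc] at hx
  have hR1 : (1 : ℝ) ≤ R := by exact_mod_cast hR
  have h3 : 8 * (C + 1) + 1000 ≤ δ / 2 * n := by
    have h4 : (8 * (C + 1) + 1000) / (δ / 2) ≤ n := by linarith
    rw [div_le_iff₀ (by positivity)] at h4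
    linarith
  refine H.near0 he he1 he2 (δ := δ / 2) (by positivity) heδ (by linarith)
    (hF x (by omega) (by omega)) (R := 300 * R) ?_ hz
  push_cast
  linarith

/-- **The local input for one mesh.** -/
theorem tr_mesh (X : BD S θ β) (hs : 0 < Real.sin θ) (hc : 0 < Real.cos θ)
    (hβ : Real.cos (θ / 2 + β) = Real.sin θ) {s : ℕ → ℕ} {e δ : ℝ} {n t₀ : ℕ} (hn : 2 ≤ n)
    (a1 : IsPolygon (X.q n)) (a2 : Encloses (X.q n) (S.D n)) (a3 : X.k n ≤ X.N n)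
    (a4 : Dob (X.η n) (S.D n) (X.q n) (X.k n)) (ht : t₀ < n) (a5 : X.q n 0 = pb S n t₀)
    {w : ℤ × ℤ} {r : Fin 4} (hw1 : E6.face w r ∈ S.Q) (hw2 : E6.face w (r - 1) ∉ S.Q) {b : Bool}
    {R R' a b' m : ℤ} {k : ℕ} (hR' : 1 ≤ R') (hR : R' ≤ R) (hkR : (k : ℤ) ≤ R') (hm : 32 ≤ m)
    (hab : a ≤ b') (ha : 400 * R < a) (hb' : b' + 400 * R < n)
    (hbase : ∀ x ∈ Icc a b', 200 * R < |x - t₀|)
    (harc : ArcB b (X.q n) (X.k n) ((n : ℤ) • w + ((a + b') / 2) • E6.dir r)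
      ((b' - a) / 2 + 1 + 300 * R)) {f : ℤ × ℤ → ℝ} (hfz : Near0 n w r R a b' f)
    (hgz : Near0 n w r R a b' (gch (X.q n) (rhoP X s e (Rf S) n)))
    (hF : ∀ x : ℤ, a ≤ x → x ≤ b' + 1 → Fp S δ n ((n : ℤ) • w + x • E6.dir r)) {M M' ε : ℝ}
    (hV : 0 < V0 X (rhoP X s e (Rf S)) n)
    (hN : ∀ z, Fp S δ n z → ∀ η : Cfg, Dob η (S.D n) (X.q n) (X.k n) →
      MajY (2 * Real.cos θ) (S.D n) η (wn θ β (X.q n) (S.D n) (X.k n) f)
        (wn' θ β (X.q n) (S.D n) (X.k n) f) z (R + 2) M ∧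
      MajY (2 * Real.cos θ) (S.D n) η
        (wn θ β (X.q n) (S.D n) (X.k n) (cP (X.q n) (rhoP X s e (Rf S) n) f))
        (wn' θ β (X.q n) (S.D n) (X.k n) (cP (X.q n) (rhoP X s e (Rf S) n) f)) z (R + 2)
        (M * V0 X (rhoP X s e (Rf S)) n))
    (hO : ∀ z, Fp S δ n z → ∀ η : Cfg, Dob η (S.D n) (X.q n) (X.k n) →
      MajY (2 * Real.cos θ) (S.D n) η
        (wn θ β (X.q n) (S.D n) (X.k n) (gch (X.q n) (rhoP X s e (Rf S) n)))
        (wn' θ β (X.q n) (S.D n) (X.k n) (gch (X.q n) (rhoP X s e (Rf S) n))) z (R + 2)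
        (M * V0 X (rhoP X s e (Rf S)) n))
    (hI : ∀ g : ℤ × ℤ → ℝ, g = cP (X.q n) (rhoP X s e (Rf S) n) f ∨
      g = gch (X.q n) (rhoP X s e (Rf S) n) → ∀ z, Fp S δ n z → ∀ τ : ℕ → ℤ,
      Bd (S.D n : Set (ℤ × ℤ)) (X.N n) (fun i => X.q n (i : ZMod (X.N n))) τ 1 → ∀ η : Cfg,
      Dob η ((S.D n).image (· + E6.dir r)) (fun i => X.q n i + E6.dir r) (X.k n) →
      MajY (2 * Real.cos θ) ((S.D n).image (· + E6.dir r)) η
        (wn θ β (fun i => X.q n i + E6.dir r) ((S.D n).image (· + E6.dir r)) (X.k n)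
          (imC θ β τ (X.q n) (X.k n) (E6.dir r) g))
        (wn' θ β (fun i => X.q n i + E6.dir r) ((S.D n).image (· + E6.dir r)) (X.k n)
          (imC θ β τ (X.q n) (X.k n) (E6.dir r) g)) z (R' + 2)
        (M' * (lam θ β (X.q n) (S.D n) (X.k n) (E6.dir r) * V0 X (rhoP X s e (Rf S)) n)))
    (h : CloP (2 * Real.cos θ) (S.D n) (X.η n) (wn θ β (X.q n) (S.D n) (X.k n) f)
      (wn' θ β (X.q n) (S.D n) (X.k n) f)
      (wn θ β (X.q n) (S.D n) (X.k n) (cP (X.q n) (rhoP X s e (Rf S) n) f))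
      (wn' θ β (X.q n) (S.D n) (X.k n) (cP (X.q n) (rhoP X s e (Rf S) n) f))
      (V0 X (rhoP X s e (Rf S)) n) {z | Fp S δ n z} m ε) :
    ∃ j : ℤ, TrW (2 * Real.cos θ) (tq θ) 8 R R' m M M' ε k (fun x => flx n w r k (fun z =>
      Ex (2 * Real.cos θ) (S.D n) (X.η n) (XTW (S.D n) (X.q n 0)
        (wn θ β (X.q n) (S.D n) (X.k n) f) (wn' θ β (X.q n) (S.D n) (X.k n) f) z)) (x + j))
      (a - j) (b' - j) := by
  have hmN : ∀ x ∈ Icc a b', Fp S δ n ((n : ℤ) • w + x • E6.dir r) := fun x hx => by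
    rw [mem_Icc] at hx
    exact hF x hx.1 (by omega)
  have hmI : ∀ x ∈ Icc (a + 1) (b' + 1), Fp S δ n ((n : ℤ) • w + x • E6.dir r) :=
    fun x hx => by
      rw [mem_Icc] at hx
      exact hF x (by omega) hx.2
  refine trw_of S hs hc hβ hn a1 a2 a3 a4 ht a5 hw1 hw2 hR' hR hkR hm hab ha hb' hbase harc hV rfl
    hfz hgz (fun x hx η' hη' => (hN _ (hmN x hx) η' hη').1)
    (fun x hx η' hη' => (hN _ (hmN x hx) η' hη').2) (fun x hx η' hη' => hO _ (hmN x hx) η' hη')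
    (fun x hx τ hτ η' hη' => ?_) (fun x hx τ hτ η' hη' => ?_) hmN h
  · rw [mul_assoc, mul_comm (V0 X (rhoP X s e (Rf S)) n)]
    exact hI _ (Or.inl rfl) _ (hmI x hx) τ hτ η' hη'
  · rw [mul_assoc, mul_comm (V0 X (rhoP X s e (Rf S)) n)]
    exact hI _ (Or.inr rfl) _ (hmI x hx) τ hτ η' hη'

/-- **The local input of the transfer at a part of a side.** -/
theorem tr_in (X : BD S θ β) (h0 : 0 < θ) (h1 : Ang θ)
    (hβ : Real.cos (θ / 2 + β) = Real.sin θ) {s : ℕ → ℕ} (hb : BaseQ X s)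
    {ia : ℕ} {C₀ : ℝ} (hk : JunQ X ia C₀) {ja : Finset ℕ} (hj : JunP X ja) {f : ℂ → ℝ}
    (hf : S.FF f) (hN : ∀ δ : ℝ, 0 < δ → MajNU X s f δ)
    (hN0 : ∀ δ : ℝ, 0 < δ → MajNU X s (fun _ => 0) δ) (hCl : ∀ δ : ℝ, 0 < δ → CloN X s f δ)
    (hI : ImgU X s f) (hI0 : ImgU X s fun _ => 0)
    {w : ℤ × ℤ} {r : Fin 4} (hw1 : E6.face w r ∈ S.Q)
    (hw2 : E6.face w (r - 1) ∉ S.Q) {α ρ : ℝ}
    (hαρ : (α = 0 ∧ ρ = S.tp) ∨ (α = S.tp ∧ ρ = 1)) :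
    TrIn (2 * Real.cos θ) X.L w r α ρ
      (fun n => (Vale.Agent.P167.N.H542.Q.BD.famB X h0 h1 hβ).H n f) := by
  have hs : 0 < Real.sin θ := h1.sin_pos
  have hc : 0 < Real.cos θ := h1.cos_pos
  have htp0 := S.tp0
  have htp1 := S.tp1
  obtain ⟨b, harc⟩ := arc_part X hb hk hw1 hw2 hαρ
  have hs1 := hb.1
  have hb2 := hb.2
  obtain ⟨ρd, hρd, hdeep⟩ := H167.deep_dat S hf.1
  have hα0 : 0 ≤ α := by rcases hαρ with ⟨rfl, -⟩ | ⟨rfl, -⟩ <;> linarith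
  have hρ1 : ρ ≤ 1 := by rcases hαρ with ⟨-, rfl⟩ | ⟨-, rfl⟩ <;> linarith
  refine ⟨tq θ, fun δ hδ => ?_⟩
  obtain ⟨cN, CN, eN, hcN, hCN, heN, hNn⟩ := hN (δ / 2) (by positivity)
  obtain ⟨cO, CO, eO, hcO, hCO, heO, hOn⟩ := hN0 (δ / 2) (by positivity)
  obtain ⟨c, hc0, hcδ, hcN', hcO', hcρ⟩ : ∃ c : ℝ, 0 < c ∧ c ≤ δ / 10000 ∧
      c ≤ cN / 3 ∧ c ≤ cO / 3 ∧ c ≤ ρd / 400 :=
    ⟨min (min (δ / 10000) (cN / 3)) (min (cO / 3) (ρd / 400)), by positivity,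
      (min_le_left _ _).trans (min_le_left _ _), (min_le_left _ _).trans (min_le_right _ _),
      (min_le_right _ _).trans (min_le_left _ _), (min_le_right _ _).trans (min_le_right _ _)⟩
  obtain ⟨M, hM0, hMN, hMO⟩ : ∃ M : ℝ, 0 ≤ M ∧ CN ≤ M ∧ CO ≤ M :=
    ⟨max CN CO, hCN.le.trans (le_max_left _ _), le_max_left _ _, le_max_right _ _⟩
  refine ⟨c, M, hc0, hM0, fun μ ε' hμ hε' => ?_⟩
  obtain ⟨eC, heC, hCln⟩ := hCl (δ / 2) (by positivity) μ ε' hμ hε'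
  obtain ⟨eI, heI, hIn⟩ := hI (δ / 2) (by positivity)
  obtain ⟨eJ, heJ, hJn⟩ := hI0 (δ / 2) (by positivity)
  -- the displacement
  obtain ⟨e, he, he1, he2, heδ, heN', heO', heC', heI', heJ'⟩ : ∃ e : ℝ, 0 < e ∧
      2 * e ≤ S.tp ∧ e ≤ 1 - S.tp ∧ e ≤ δ / 2 / 4 ∧ e ≤ eN ∧ e ≤ eO ∧ e ≤ eC ∧ e ≤ eI ∧
      e ≤ eJ := by
    obtain ⟨e, h, h'⟩ := exists_between (show (0 : ℝ) < min (min (min (S.tp / 2) (1 - S.tp))
      (min (δ / 2 / 4) eN)) (min (min eO eC) (min eI eJ)) by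
        have : 0 < 1 - S.tp := by linarith
        positivity)
    simp only [lt_min_iff] at h'
    obtain ⟨⟨⟨h1, h2⟩, h3, h4⟩, ⟨h5, h6⟩, h7, h8⟩ := h'
    exact ⟨e, h, by linarith, h2.le, h3.le, h4.le, h5.le, h6.le, h7.le, h8.le⟩
  obtain ⟨cI, CI, hcI, hCI, hIe⟩ := hIn e he heI'
  obtain ⟨cJ, CJ, hcJ, hCJ, hJe⟩ := hJn e he heJ'
  have hNe := hNn e he heN'
  have hOe := hOn e he heO'
  have hCe := hCln e he heC'
  obtain ⟨Cs, hSc⟩ := exists_sc X hb he (Rf_sub S) hj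
  obtain ⟨c', hc'0, hc'I, hc'J⟩ : ∃ c' : ℝ, 0 < c' ∧ c' ≤ cI / 3 ∧ c' ≤ cJ / 3 :=
    ⟨min (cI / 3) (cJ / 3), by positivity, min_le_left _ _, min_le_right _ _⟩
  obtain ⟨M', hMI, hMJ⟩ : ∃ M' : ℝ, CI ≤ M' ∧ CJ ≤ M' := ⟨max CI CJ, le_max_left _ _,
    le_max_right _ _⟩
  refine ⟨c', M', hc'0, ?_⟩
  have hlarge : ∀ A : ℝ, ∀ᶠ n : ℕ in X.L, A ≤ n := fun A => X.le
    ((eventually_ge_atTop ⌈A⌉₊).mono fun n hn => (Nat.le_ceil A).trans (by exact_mod_cast hn))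
  filter_upwards [X.poly, X.enc, X.kle, X.dob, hb2, harc (δ / 2) (by positivity), hNe, hOe,
    X.le hdeep, X.le (eventually_ge_atTop 2), hlarge (2 / (1 - S.tp)), hIe, hJe, hCe, hSc,
    hlarge ((8 * (Cs + 1) + 1000) / (δ / 2) + 1)]
    with n a1 a2 a3 a4 a5 a6 a7 a8 a9 a10 a11 a12 a13 a14 a15 a16
  intro R R' m k hR' hR'R hRc hRc' hkR hμm hm32 hmR a b' hab ha hb'
  have hn : 2 ≤ n := a10
  have hn' : (0 : ℝ) < n := by
    have : 0 < n := by omega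
    exact_mod_cast this
  have hR : 1 ≤ R := by omega
  have hR1 : (1 : ℝ) ≤ R := by exact_mod_cast hR
  have hRδ : 10000 * (R : ℝ) ≤ δ * n := by
    have : c * n ≤ δ / 10000 * n := mul_le_mul_of_nonneg_right hcδ hn'.le
    linarith
  have hRρ : 400 * (R : ℝ) ≤ ρd * n := by
    have : c * n ≤ ρd / 400 * n := mul_le_mul_of_nonneg_right hcρ hn'.le
    linarith
  obtain ⟨t₀, ht₀⟩ : ∃ t₀, t₀ = ⌊S.tp * n⌋₊ + s n := ⟨_, rfl⟩
  rw [← ht₀] at a5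
  obtain ⟨htn', k1, k2⟩ := base_num htp0 htp1 (hs1 n) ht₀ a11
  obtain ⟨ha1, hb1, hFp, hbase, w1, w2⟩ := side_pts hw1 hw2 hα0 hρ1 hαρ k1 k2 hR hRδ ha hb'
  have hA := a6 _ _ w1 w2
  have hfz := near_f hw1 hw2 hR ha1 hb1 a9 hRρ
  have hgz := near_g a15 he he1 he2 hδ heδ a16 hR hRδ hFp
  have hclo := a14 m hμm (by
    have h4 : ((4 * m : ℤ) : ℝ) ≤ R := by exact_mod_cast hmR
    push_cast at h4
    linarith) (X.η n) a4
  have e : (Vale.Agent.P167.N.H542.Q.BD.famB X h0 h1 hβ).H n f = fun z =>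
      Ex (2 * Real.cos θ) (S.D n) (X.η n)
      (XTW (S.D n) (X.q n 0) (wn θ β (X.q n) (S.D n) (X.k n) (CA.cms f (1 / n)))
        (wn' θ β (X.q n) (S.D n) (X.k n) (CA.cms f (1 / n))) z) := by
    funext z
    rw [Vale.Agent.P167.N.H542.Q.BD.famB_H]
    congr 1
    funext ω
    exact xtr_eq a1 a2 z ω
  rw [e]
  refine tr_mesh X hs hc hβ hn a1 a2 a3 a4 htn' a5 hw1 hw2 hR' hR'R (by exact_mod_cast hkR) hm32
    hab ha1 hb1 hbase hA hfz hgz hFp a7.1 ?_ ?_ ?_ hclo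
  · intro z hz η' hη'
    have h3 := a7.2 z hz _ (win_num hR hRc hcN') η' hη'
    exact ⟨h3.1.mono hMN, h3.2.mono (mul_le_mul_of_nonneg_right hMN a7.1.le)⟩
  · intro z hz η' hη'
    have h3 := (a8.2 z hz _ (win_num hR hRc hcO') η' hη').2
    rw [cP_cms0] at h3
    exact h3.mono (mul_le_mul_of_nonneg_right hMO a7.1.le)
  · intro g hg z hz τ hτ η' hη'
    have hl := lam_pos (dir_odd r) a1 a2 hτ hs hc hβ a3 a4 hη'
    have hlV := mul_nonneg hl.le a7.1.le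
    rcases hg with rfl | rfl
    · exact (a12 z hz _ (win_num hR' hRc' hc'I) r τ hτ η' hη').mono
        (mul_le_mul_of_nonneg_right hMI hlV)
    · have h3 := a13 z hz _ (win_num hR' hRc' hc'J) r τ hτ η' hη'
      rw [cP_cms0] at h3
      exact h3.mono (mul_le_mul_of_nonneg_right hMJ hlV)

end Vale.Agent.P167.N.QL
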