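import Vale.Agent.P167.N.QL.TwoP
import Vale.Agent.P167.N.H955.TrN
import Vale.Agent.P167.N.H955.Neu
import Vale.Agent.P167.N.QL.Ph

/-!
# P167, the range `0 < q < 1`: closeness in the frames

`FrN.clo`: closeness of two functionals in a frame, from their closeness at the level of the polygon.
`trw_of`: the input of the transfer for one mesh.
-/

set_option autoImplicit false

namespace Vale.Agent.P167.N.QL

open Finset Vale.Agent.P167 Vale.Agent.P167.BR Vale.Agent.P167.FK Vale.Agent.P167.FKA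
open Vale.Agent.P167.H365 (FarE FarA sgA abs_sgA)
open Vale.Agent.P167.H365.NQ (XW TW fe OF sx)
open Vale.Agent.P167.H718 (wn wn' gch Dob)
open Vale.Agent.P167.H760 Vale.Agent.P167.H760.Q
open Vale.Agent.P167.N.H955 (CloQ CloP GT TrW)
open Vale.Agent.P167.E6 (IsPolygon Encloses)
open Vale.Agent.P167.H365.NQ (XTW)
open Vale.Agent.P167.CAQ.J (ArcB)

variable {S : CA.Dat} {θ β : ℝ} {N : ℕ} {q : ZMod N → ℤ × ℤ} {η : Cfg} {k₀ n : ℕ} {w : ℤ × ℤ}
  {r : Fin 4} {R : ℤ} {k : ℕ} {a b j : ℤ} {η0 : Cfg}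

theorem nm_tl_hd (e : Ed) : nm (tlv e - hdv e) ≤ 1 := by
  rcases e with ⟨x, y⟩ | ⟨x, y⟩ <;> by_cases h : Even (x + y) <;> simp [tlv, hdv, h, nm]

open Classical in
/-- **Closeness in a frame.** -/
theorem FrN.clo (F : FrN S θ β q η k₀ n w r R k a b j η0) {f g : ℤ × ℤ → ℝ} {V ε : ℝ} {m : ℤ}
    {Zs : Set (ℤ × ℤ)} (hm : 32 ≤ m)
    (hZ : ∀ x ∈ Icc a b, (n : ℤ) • w + x • E6.dir r ∈ Zs)
    (h : CloP (2 * Real.cos θ) (S.D n) η (wn θ β q (S.D n) k₀ f) (wn' θ β q (S.D n) k₀ f)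
      (wn θ β q (S.D n) k₀ g) (wn' θ β q (S.D n) k₀ g) V Zs m ε) :
    CloQ (2 * Real.cos θ) ((fj n w r j).pre (S.D n)) ((fj n w r j).Ci η0)
      ((fj n w r j).S.symm (q 0)) (wF θ β (fj n w r j) q (S.D n) k₀ f 1)
      (wF' θ β (fj n w r j) q (S.D n) k₀ f 1) (wF θ β (fj n w r j) q (S.D n) k₀ g V⁻¹)
      (wF' θ β (fj n w r j) q (S.D n) k₀ g V⁻¹) m (a - j) (b - j) ε := by
  refine ⟨?_, fun c ψ hc hψ1 hψ2 => ?_⟩
  · rw [F.xw, F.xw, one_mul]
    exact h.V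
  obtain ⟨T, hT⟩ : ∃ T, T = fj n w r j := ⟨_, rfl⟩
  obtain ⟨z0, hz0⟩ : ∃ z0, z0 = T.S (c, 0) := ⟨_, rfl⟩
  have hz0' : z0 ∈ Zs := by
    rw [hz0, hT, fj_S, zero_smul, add_zero]
    rw [mem_Icc] at hc
    exact hZ _ (mem_Icc.2 (by omega))
  obtain ⟨gx, hgx⟩ : ∃ gx : ℤ → Finset Ed → ℝ, gx = fun x A =>
      if T.E (fe x) ∈ A then sgA (S.D n) (q 0) A else 0 := ⟨_, rfl⟩
  obtain ⟨G, hG⟩ : ∃ G : Finset Ed → ℝ, G = fun A =>
      if FarA (S.D n) (T.Q (c, 0)) m A then ∑ x ∈ Icc (a - j) (b - j), ψ x * gx x A else 0 :=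
    ⟨_, rfl⟩
  obtain ⟨σ, hσ, hσ1⟩ : ∃ σ : ℝ, σ = (if T.o then -1 else 1) ∧ |σ| = 1 :=
    ⟨_, rfl, by split_ifs <;> simp⟩
  have hlin : ∀ w₁ w₁' : Finset Ed → ℝ, ∑ x ∈ Icc (a - j) (b - j), ψ x *
      Ex (2 * Real.cos θ) (S.D n) η (OF (S.D n) (T.Q (c, 0)) m w₁ w₁' (gx x)) =
      Ex (2 * Real.cos θ) (S.D n) η (GT (S.D n) w₁ w₁' G) := by
    intro w₁ w₁'
    simp_rw [← Ex_mul_left]
    rw [← Ex_sum]
    congr 1
    funext ω
    unfold OF GT
    simp_rw [mul_sum]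
    rw [sum_comm, sum_filter]
    refine sum_congr rfl fun A _ => ?_
    rw [hG]
    beta_reduce
    split_ifs with h1
    · rw [sum_mul]
      exact sum_congr rfl fun x _ => by ring
    · rw [zero_mul]
  have hsum : ∑ x ∈ Icc (a - j) (b - j), ψ x *
      (Ex (2 * Real.cos θ) ((fj n w r j).pre (S.D n)) ((fj n w r j).Ci η0)
        (OF ((fj n w r j).pre (S.D n)) (c, 0) m (wF θ β (fj n w r j) q (S.D n) k₀ f 1)
        (wF' θ β (fj n w r j) q (S.D n) k₀ f 1)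
        (sx ((fj n w r j).pre (S.D n)) ((fj n w r j).S.symm (q 0)) x)) -
      Ex (2 * Real.cos θ) ((fj n w r j).pre (S.D n)) ((fj n w r j).Ci η0)
        (OF ((fj n w r j).pre (S.D n)) (c, 0) m (wF θ β (fj n w r j) q (S.D n) k₀ g V⁻¹)
        (wF' θ β (fj n w r j) q (S.D n) k₀ g V⁻¹)
        (sx ((fj n w r j).pre (S.D n)) ((fj n w r j).S.symm (q 0)) x))) =
      σ * (Ex (2 * Real.cos θ) (S.D n) η (GT (S.D n) (wn θ β q (S.D n) k₀ f)
        (wn' θ β q (S.D n) k₀ f) G) - V⁻¹ * Ex (2 * Real.cos θ) (S.D n) η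
        (GT (S.D n) (wn θ β q (S.D n) k₀ g) (wn' θ β q (S.D n) k₀ g) G)) := by
    rw [← hlin, ← hlin, mul_sum, ← sum_sub_distrib, mul_sum]
    refine sum_congr rfl fun x _ => ?_
    rw [F.of, F.of, ← hT, ← hσ, hgx]
    ring
  rw [hsum, abs_mul, hσ1, one_mul]
  refine h.G z0 hz0' G (fun ω A hA => ?_) fun ω A hA hne => ?_
  · -- at most two terms
    rw [hG]
    beta_reduce
    split_ifs
    swap
    · rw [abs_zero]; norm_num
    refine (abs_sum_le_sum_abs _ _).trans ?_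
    have h1 : ∀ x ∈ Icc (a - j) (b - j), |ψ x * gx x A| ≤
        (if hdv (T.E (fe x)) ∉ S.D n ∧ T.E (fe x) ∈ A then 1 else 0) +
        (if tlv (T.E (fe x)) ∉ S.D n ∧ T.E (fe x) ∈ A then 1 else 0) := by
      intro x hx
      have hb := F.bd x hx
      rw [← hT] at hb
      rw [hgx, abs_mul]
      beta_reduce
      by_cases h2 : T.E (fe x) ∈ A
      · rw [if_pos h2, abs_sgA, mul_one]
        have h3 := hψ1 x
        rcases hb with h4 | h4
        · rw [if_pos ⟨h4, h2⟩]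
          split_ifs <;> linarith
        · rw [if_pos (⟨h4, h2⟩ : tlv (T.E (fe x)) ∉ S.D n ∧ T.E (fe x) ∈ A)]
          split_ifs <;> linarith
      · rw [if_neg h2, abs_zero, mul_zero]
        split_ifs <;> norm_num
    refine (sum_le_sum h1).trans ?_
    rw [sum_add_distrib, sum_boole, sum_boole]
    have h2 : ((Icc (a - j) (b - j)).filter fun x => hdv (T.E (fe x)) ∉ S.D n ∧
        T.E (fe x) ∈ A).card ≤ 1 := card_le_one.2 fun x hx y hy => by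
      rw [mem_filter] at hx hy
      simpa [fe] using T.E.injective (exit_unique hA hx.2.2 hy.2.2 hx.2.1 hy.2.1)
    have h3 : ((Icc (a - j) (b - j)).filter fun x => tlv (T.E (fe x)) ∉ S.D n ∧
        T.E (fe x) ∈ A).card ≤ 1 := card_le_one.2 fun x hx y hy => by
      rw [mem_filter] at hx hy
      simpa [fe] using T.E.injective (entry_unique hA hx.2.2 hy.2.2 hx.2.1 hy.2.1)
    have h2' : (((Icc (a - j) (b - j)).filter fun x => hdv (T.E (fe x)) ∉ S.D n ∧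
        T.E (fe x) ∈ A).card : ℝ) ≤ 1 := by exact_mod_cast h2
    have h3' : (((Icc (a - j) (b - j)).filter fun x => tlv (T.E (fe x)) ∉ S.D n ∧
        T.E (fe x) ∈ A).card : ℝ) ≤ 1 := by exact_mod_cast h3
    linarith
  · rw [hG] at hne
    beta_reduce at hne
    have h1 : FarA (S.D n) (T.Q (c, 0)) m A := by
      by_contra hcon
      exact hne (if_neg hcon)
    rw [if_pos h1] at hne
    obtain ⟨x, hx, hx'⟩ := exists_ne_zero_of_sum_ne_zero hne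
    have h2 := hψ2 x (left_ne_zero_of_mul hx')
    have h3 : T.E (fe x) ∈ A := by
      have h4 := right_ne_zero_of_mul hx'
      rw [hgx] at h4
      by_contra hcon
      exact h4 (if_neg hcon)
    have hTQ : ∀ v u : ℤ × ℤ, nm (T.Q v - T.S u) ≤ nm (v - u) + 1 := fun v u => by
      rw [hT]
      exact Tr.fr_dQ _ r v u
    have hTQ0 : nm (T.Q (c, 0) - z0) ≤ 1 := by
      have h4 := hTQ (c, 0) (c, 0)
      rw [sub_self, ← hz0] at h4
      simpa [nm] using h4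
    refine ⟨⟨_, h3, ?_⟩, ?_⟩
    · rw [T.hd, hz0]
      have h5 : ∀ y : ℤ, y = 0 ∨ y = -1 → nm (T.Q (x, y) - T.S (c, 0)) ≤ m / 4 + 2 := by
        intro y hy
        have h6 := hTQ (x, y) (c, 0)
        have h7 : nm ((x, y) - (c, 0)) ≤ m / 4 := by
          rw [H365.nm_le']
          simp only [Prod.fst_sub, Prod.snd_sub]
          rw [abs_le] at h2
          omega
        omega
      have h8 : ∀ e : Ed, e = fe x → (hdv e = (x, 0) ∨ hdv e = (x, -1)) ∧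
          (tlv e = (x, 0) ∨ tlv e = (x, -1)) := by
        rintro e rfl
        by_cases h9 : Even (x + -1) <;> simp [fe, hdv, tlv, h9]
      obtain ⟨h9, h10⟩ := h8 _ rfl
      split_ifs
      · rcases h10 with h | h <;> rw [h] <;> exact h5 _ (by simp)
      · rcases h9 with h | h <;> rw [h] <;> exact h5 _ (by simp)
    · obtain ⟨e, he, h4⟩ := h1
      refine ⟨e, he, ?_⟩
      rcases h4 with ⟨-, h5⟩ | ⟨-, h5⟩
      · have h6 := H45.nm_sub_le (hdv e) z0 (T.Q (c, 0))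
        have h7 : nm (z0 - T.Q (c, 0)) ≤ 1 := by
          rw [← H45.nm_neg, neg_sub]
          exact hTQ0
        omega
      · have h6 := H45.nm_sub_le (hdv e) z0 (T.Q (c, 0))
        have h7 : nm (z0 - T.Q (c, 0)) ≤ 1 := by
          rw [← H45.nm_neg, neg_sub]
          exact hTQ0
        have h8 := H45.nm_sub_le (tlv e) (hdv e) (T.Q (c, 0))
        have h9 := nm_tl_hd e
        omega

/-- **The input of the transfer for one mesh.** -/
theorem trw_of (S : CA.Dat) {θ β : ℝ} (hs : 0 < Real.sin θ) (hc : 0 < Real.cos θ)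
    (hβ : Real.cos (θ / 2 + β) = Real.sin θ) {n N k₀ : ℕ} (hn : 2 ≤ n) {q : ZMod N → ℤ × ℤ}
    {η : Cfg} (hq : IsPolygon q) (hD : Encloses q (S.D n)) (hk : k₀ ≤ N)
    (hη : Dob η (S.D n) q k₀) {t₀ : ℕ} (ht : t₀ < n) (hb : q 0 = pb S n t₀) {w : ℤ × ℤ}
    {r : Fin 4} (h1 : E6.face w r ∈ S.Q) (h2 : E6.face w (r - 1) ∉ S.Q) {b : Bool}
    {R R' a b' m : ℤ} {k : ℕ} (hR' : 1 ≤ R') (hR : R' ≤ R) (hkR : (k : ℤ) ≤ R') (hm : 32 ≤ m)
    (hab : a ≤ b') (ha : 400 * R < a) (hb' : b' + 400 * R < n)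
    (hbase : ∀ x ∈ Icc a b', 200 * R < |x - t₀|)
    (harc : ArcB b q k₀ ((n : ℤ) • w + ((a + b') / 2) • E6.dir r) ((b' - a) / 2 + 1 + 300 * R))
    {f : ℤ × ℤ → ℝ} {ρ : ℕ → ℝ} {V M M' ε : ℝ} (hV : 0 < V)
    (hV0 : VP θ β (natP q (S.D n) k₀ ρ ∅) = V)
    (hfz : Near0 n w r R a b' f) (hgz : Near0 n w r R a b' (gch q ρ))
    (m1 : MjN θ β q (S.D n) k₀ n w r R a b' f M)
    (m2 : MjN θ β q (S.D n) k₀ n w r R a b' (cP q ρ f) (M * V))
    (m3 : MjN θ β q (S.D n) k₀ n w r R a b' (gch q ρ) (M * V))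
    (m4 : MjI θ β q (S.D n) k₀ n w r R' a b' (cP q ρ f) (M' * V))
    (m5 : MjI θ β q (S.D n) k₀ n w r R' a b' (gch q ρ) (M' * V))
    {Zs : Set (ℤ × ℤ)} (hZ : ∀ x ∈ Icc a b', (n : ℤ) • w + x • E6.dir r ∈ Zs)
    (h : CloP (2 * Real.cos θ) (S.D n) η (wn θ β q (S.D n) k₀ f) (wn' θ β q (S.D n) k₀ f)
      (wn θ β q (S.D n) k₀ (cP q ρ f)) (wn' θ β q (S.D n) k₀ (cP q ρ f)) V Zs m ε) :
    ∃ j : ℤ, TrW (2 * Real.cos θ) (tq θ) 8 R R' m M M' ε k (fun x => flx n w r k (fun z =>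
      Ex (2 * Real.cos θ) (S.D n) η (XTW (S.D n) (q 0) (wn θ β q (S.D n) k₀ f)
        (wn' θ β q (S.D n) k₀ f) z)) (x + j)) (a - j) (b' - j) := by
  obtain ⟨j, η0, F⟩ := exists_frN S hs hc hβ hn hq hD hk hη ht hb h1 h2 (b := b) (m := k)
    (by omega : 1 ≤ R) (by omega) hab ha hb' hbase harc
  have hpz : Near0 n w r R a b' (cP q ρ f) := by
    intro x hx z hz
    unfold cP
    rw [hfz x hx z hz, hgz x hx z hz, add_zero]
  have hclo := F.clo hm hZ h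
  have E1 := F.env f 1 M one_pos hfz (by rw [mul_one]; exact m1)
  rw [inv_one] at E1
  refine ⟨j, ⟨⟨_, _, _, _, _, _, _, _, _, F.co, E1,
    F.env _ V M hV hpz m2, F.env _ V M hV hgz m3,
    F.img _ V M' R' hV hR' hR hkR hpz m4, F.img _ V M' R' hV hR' hR hkR hgz m5,
    hclo, ?_, ?_⟩⟩⟩
  · rw [F.xw, VP_ex hq hD hs hc hβ hk hη ∅, hV0, inv_mul_cancel₀ hV.ne']
  · intro x hx
    rw [F.flw _ _ x hx, one_mul]

end Vale.Agent.P167.N.QL
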