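import Vale.Agent.P167.H760.Q.TwoN
import Vale.Agent.P167.N.H955.Tr

/-!
# P167, the range `0 < q < 1`: the frame of a flat part of a side

`FrN`: for a part of a side there is one frame such that all functionals with charges far from the part,
multiplied by a constant at the base, satisfy the local hypotheses, and have parity images.
-/

set_option autoImplicit false

namespace Vale.Agent.P167.N.QL

open Finset Vale.Agent.P167 Vale.Agent.P167.BR Vale.Agent.P167.FK Vale.Agent.P167.FKA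
open Vale.Agent.P167.E6 (IsPolygon Encloses)
open Vale.Agent.P167.H365 (nm_le' FarE FarA sgA HPot)
open Vale.Agent.P167.H365.NQ (EnvQ XW TW XTW SW tt fe OF sx)
open Vale.Agent.P167.H318 (CoConn)
open Vale.Agent.P167.H718 (wn wn' Dob imC lam Chordless poly_add encl_add bd_add be_add im_XW im_XTW
  im_SE lam_pos SE)
open Vale.Agent.P167.H871 (Bd)
open Vale.Agent.P167.CAQ.J (ArcB nm_be Fz exists_fz ex_dob chordless_enl)
open Vale.Agent.P167.H760 Vale.Agent.P167.H760.Q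
open Vale.Agent.P167.N.H955 (flW ImgQ)

/-- The functional of the charge `g` in the frame `T`, multiplied by `s`. -/
noncomputable def wF {N : ℕ} (θ β : ℝ) (T : Tr) (q : ZMod N → ℤ × ℤ) (D : Finset (ℤ × ℤ)) (k : ℕ)
    (g : ℤ × ℤ → ℝ) (s : ℝ) : Finset Ed → ℝ :=
  scl (T.E.symm (be q ((0 : ℕ) : ZMod N))) s fun A => wn θ β q D k g (T.imE A)

/-- The derivative weights of the functional of the charge `g` in the frame `T`. -/
noncomputable def wF' {N : ℕ} (θ β : ℝ) (T : Tr) (q : ZMod N → ℤ × ℤ) (D : Finset (ℤ × ℤ)) (k : ℕ)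
    (g : ℤ × ℤ → ℝ) (s : ℝ) : Finset Ed → ℝ :=
  scl (T.E.symm (be q ((0 : ℕ) : ZMod N))) s fun A => wn' θ β q D k g (T.imE A)

/-- The charge `g` vanishes near the part `[a, b']` of the side `(w, r)`. -/
def Near0 (n : ℕ) (w : ℤ × ℤ) (r : Fin 4) (R a b' : ℤ) (g : ℤ × ℤ → ℝ) : Prop :=
  ∀ x ∈ Icc a b', ∀ z, nm (z - ((n : ℤ) • w + x • E6.dir r)) ≤ 300 * R → g z = 0

/-- Majorants of the functional of the charge `g`. -/
def MjN {N : ℕ} (θ β : ℝ) (q : ZMod N → ℤ × ℤ) (D : Finset (ℤ × ℤ)) (k₀ n : ℕ) (w : ℤ × ℤ)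
    (r : Fin 4) (R a b' : ℤ) (g : ℤ × ℤ → ℝ) (M : ℝ) : Prop :=
  ∀ x ∈ Icc a b', ∀ η' : Cfg, Dob η' D q k₀ →
    MajY (2 * Real.cos θ) D η' (wn θ β q D k₀ g) (wn' θ β q D k₀ g)
      ((n : ℤ) • w + x • E6.dir r) (R + 2) M

/-- Majorants of the parity image of the functional of the charge `g`. -/
def MjI {N : ℕ} (θ β : ℝ) (q : ZMod N → ℤ × ℤ) (D : Finset (ℤ × ℤ)) (k₀ n : ℕ) (w : ℤ × ℤ)
    (r : Fin 4) (R a b' : ℤ) (g : ℤ × ℤ → ℝ) (M : ℝ) : Prop :=
  ∀ x ∈ Icc (a + 1) (b' + 1), ∀ τ : ℕ → ℤ,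
    Bd (D : Set (ℤ × ℤ)) N (fun i => q (i : ZMod N)) τ 1 → ∀ η' : Cfg,
    Dob η' (D.image (· + E6.dir r)) (fun i => q i + E6.dir r) k₀ →
    MajY (2 * Real.cos θ) (D.image (· + E6.dir r)) η'
      (wn θ β (fun i => q i + E6.dir r) (D.image (· + E6.dir r)) k₀
        (imC θ β τ q k₀ (E6.dir r) g))
      (wn' θ β (fun i => q i + E6.dir r) (D.image (· + E6.dir r)) k₀
        (imC θ β τ q k₀ (E6.dir r) g)) ((n : ℤ) • w + x • E6.dir r) (R + 2)
      (M * lam θ β q D k₀ (E6.dir r))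

/-- **The frame of a part of a side.** -/
structure FrN {N : ℕ} (S : CA.Dat) (θ β : ℝ) (q : ZMod N → ℤ × ℤ) (η : Cfg) (k₀ n : ℕ)
    (w : ℤ × ℤ) (r : Fin 4) (R : ℤ) (m : ℕ) (a b' j : ℤ) (η0 : Cfg) : Prop where
  dob : Dob η0 (S.D n) q k₀
  co : CoConn ((fj n w r j).pre (S.D n))
  base : ∀ x ∈ Icc (a - j) (b' - j), FarE ((fj n w r j).pre (S.D n)) (x, 0) (2 * R)
    ((fj n w r j).E.symm (be q ((0 : ℕ) : ZMod N)))
  bd : ∀ x ∈ Icc (a - j) (b' - j), (hdv ((fj n w r j).E (fe x)) ∉ S.D n ∨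
    tlv ((fj n w r j).E (fe x)) ∉ S.D n)
  env : ∀ (g : ℤ × ℤ → ℝ) (V M : ℝ), 0 < V → Near0 n w r R a b' g →
    MjN θ β q (S.D n) k₀ n w r R a b' g (M * V) → ∀ x ∈ Icc (a - j) (b' - j),
    EnvQ (2 * Real.cos θ) (tq θ) 8 R ((fj n w r j).pre (S.D n)) ((fj n w r j).Ci η0)
      ((fj n w r j).S.symm (q 0)) (wF θ β (fj n w r j) q (S.D n) k₀ g V⁻¹)
      (wF' θ β (fj n w r j) q (S.D n) k₀ g V⁻¹) M (x, 0)
  img : ∀ (g : ℤ × ℤ → ℝ) (V M' : ℝ) (R' : ℤ), 0 < V → 1 ≤ R' → R' ≤ R → (m : ℤ) ≤ R' →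
    Near0 n w r R a b' g → MjI θ β q (S.D n) k₀ n w r R' a b' g (M' * V) →
    ImgQ (2 * Real.cos θ) (tq θ) 8 R' ((fj n w r j).pre (S.D n)) ((fj n w r j).Ci η0)
      ((fj n w r j).S.symm (q 0)) (wF θ β (fj n w r j) q (S.D n) k₀ g V⁻¹)
      (wF' θ β (fj n w r j) q (S.D n) k₀ g V⁻¹) M' m (a - j) (b' - j)
  xw : ∀ (g : ℤ × ℤ → ℝ) (s : ℝ), Ex (2 * Real.cos θ) ((fj n w r j).pre (S.D n))
    ((fj n w r j).Ci η0) (XW ((fj n w r j).pre (S.D n)) (wF θ β (fj n w r j) q (S.D n) k₀ g s)) =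
      s * Ex (2 * Real.cos θ) (S.D n) η (XW (S.D n) (wn θ β q (S.D n) k₀ g))
  flw : ∀ (g : ℤ × ℤ → ℝ) (s : ℝ), ∀ x ∈ Icc (a - j) (b' - j),
    flW (2 * Real.cos θ) ((fj n w r j).pre (S.D n)) ((fj n w r j).Ci η0)
      ((fj n w r j).S.symm (q 0)) (wF θ β (fj n w r j) q (S.D n) k₀ g s)
      (wF' θ β (fj n w r j) q (S.D n) k₀ g s) m x =
    s * flx n w r m (fun z => Ex (2 * Real.cos θ) (S.D n) η (XTW (S.D n) (q 0)
      (wn θ β q (S.D n) k₀ g) (wn' θ β q (S.D n) k₀ g) z)) (x + j)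
  of : ∀ (g : ℤ × ℤ → ℝ) (s : ℝ) (c m' x : ℤ), Ex (2 * Real.cos θ) ((fj n w r j).pre (S.D n))
    ((fj n w r j).Ci η0) (OF ((fj n w r j).pre (S.D n)) (c, 0) m'
      (wF θ β (fj n w r j) q (S.D n) k₀ g s) (wF' θ β (fj n w r j) q (S.D n) k₀ g s)
      (sx ((fj n w r j).pre (S.D n)) ((fj n w r j).S.symm (q 0)) x)) =
    s * ((if (fj n w r j).o then -1 else 1) * Ex (2 * Real.cos θ) (S.D n) η
      (OF (S.D n) ((fj n w r j).Q (c, 0)) m' (wn θ β q (S.D n) k₀ g) (wn' θ β q (S.D n) k₀ g)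
        (open Classical in fun A => if (fj n w r j).E (fe x) ∈ A then sgA (S.D n) (q 0) A else 0)))

/-! ### The large pieces in a frame -/

theorem fr_dQQ (a : ℤ × ℤ) (r : Fin 4) (v u : ℤ × ℤ) :
    nm ((Tr.fr a r).Q v - (Tr.fr a r).Q u) = nm (v - u) := by
  rw [← (Tr.fr a r).dS v u, Tr.fr_Q, Tr.fr_Q]
  congr 1
  generalize (Tr.fr a r).S v = x
  generalize (Tr.fr a r).S u = y
  obtain ⟨x1, x2⟩ := x
  obtain ⟨y1, y2⟩ := y
  fin_cases r <;> ext <;> simp [E6.face]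

theorem farE_T {T : Tr} (hQ : ∀ v u, nm (T.Q v - T.Q u) = nm (v - u)) {D : Finset (ℤ × ℤ)}
    {y : ℤ × ℤ} {m : ℤ} {e : Ed} :
    FarE (T.im D) (T.Q y) m (T.E e) ↔ FarE D y m e := by
  unfold FarE
  rw [T.hd, T.tl, T.mem_im, T.mem_im, hQ, hQ]
  rcases T.o with _ | _
  · simp
  · simp [or_comm]

theorem farA_T {T : Tr} (hQ : ∀ v u, nm (T.Q v - T.Q u) = nm (v - u)) {D : Finset (ℤ × ℤ)}
    {y : ℤ × ℤ} {m : ℤ} {A : Finset Ed} :
    FarA (T.im D) (T.Q y) m (T.imE A) ↔ FarA D y m A := by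
  unfold FarA
  constructor
  · rintro ⟨e, he, h⟩
    obtain ⟨e, rfl⟩ := T.E.surjective e
    exact ⟨e, T.mem_imE.1 he, (farE_T hQ).1 h⟩
  · rintro ⟨e, he, h⟩
    exact ⟨T.E e, T.mem_imE.2 he, (farE_T hQ).2 h⟩

open Classical in
theorem OF_T {T : Tr} (hQ : ∀ v u, nm (T.Q v - T.Q u) = nm (v - u)) {D : Finset (ℤ × ℤ)}
    {y p : ℤ × ℤ} {m x : ℤ} {w w' : Finset Ed → ℝ} {ω : Cfg} (hP : HPot D)
    (hj : ∀ e ∈ eds D, H365.Jt D p (rs e)) :
    OF (T.im D) (T.Q y) m w w' (fun A => if T.E (fe x) ∈ A then sgA (T.im D) (T.S p) A else 0)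
      (T.C ω) = (if T.o then -1 else 1) *
      OF D y m (fun A => w (T.imE A)) (fun A => w' (T.imE A)) (sx D p x) ω := by
  unfold OF
  rw [T.pcsT, filter_image, sum_image fun x _ y _ h => T.imE_inj h, mul_sum]
  have e : (pcs ω D).filter (fun A => FarA (T.im D) (T.Q y) m (T.imE A)) =
      (pcs ω D).filter fun A => FarA D y m A :=
    filter_congr fun A _ => farA_T hQ
  rw [e]
  refine sum_congr rfl fun A hA => ?_
  have hA' := (mem_filter.1 hA).1
  rw [T.TW_T]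
  unfold sx
  beta_reduce
  by_cases h : fe x ∈ A
  · rw [if_pos h, if_pos (T.mem_imE.2 h), T.sgA_T hA' hP fun e he => hj e (subset_eds hA' he)]
    ring
  · rw [if_neg h, if_neg fun h' => h (T.mem_imE.1 h')]
    ring

theorem OF_scl {D : Finset (ℤ × ℤ)} {e : Ed} {s : ℝ} {w w' g : Finset Ed → ℝ} {ω : Cfg}
    {y : ℤ × ℤ} {m : ℤ} (he : e ∈ eds D) :
    OF D y m (scl e s w) (scl e s w') g ω = s * OF D y m w w' g ω := by
  classical
  unfold OF
  rw [mul_sum]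
  refine sum_congr rfl fun A hA => ?_
  rw [TW_scl he (mem_filter.1 hA).1]
  ring

theorem loc_of (D : Finset (ℤ × ℤ)) (y : ℤ × ℤ) (m : ℤ) (w w' g : Finset Ed → ℝ) :
    Loc D (OF D y m w w' g) := fun ω ω' h => by
  unfold OF TW
  rw [pcs_congr h]

open Classical in
theorem ex_of_fr (T : Tr) (hQ : ∀ v u, nm (T.Q v - T.Q u) = nm (v - u)) (Q : ℝ)
    (D : Finset (ℤ × ℤ)) (η : Cfg) (p y : ℤ × ℤ)
    (w w' : Finset Ed → ℝ) {x m : ℤ} (hP : HPot (T.pre D))
    (hj : ∀ e ∈ eds (T.pre D), H365.Jt (T.pre D) (T.S.symm p) (rs e)) :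
    Ex Q (T.pre D) (T.Ci η) (OF (T.pre D) y m (fun A => w (T.imE A))
      (fun A => w' (T.imE A)) (sx (T.pre D) (T.S.symm p) x)) = (if T.o then -1 else 1) *
        Ex Q D η (OF D (T.Q y) m w w' fun A => if T.E (fe x) ∈ A then sgA D p A else 0) := by
  rw [← T.Ex_pre Q D η, ← FKA.Ex_mul_left]
  congr 1
  funext ω
  have h := OF_T (T := T) hQ (D := T.pre D) (y := y) (p := T.S.symm p) (m := m) (x := x) (w := w)
    (w' := w') (ω := ω) hP hj
  rw [T.im_pre, Equiv.apply_symm_apply] at h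
  rw [h, ← mul_assoc]
  have h2 : (if T.o then (-1 : ℝ) else 1) * (if T.o then -1 else 1) = 1 := by
    split_ifs <;> norm_num
  rw [h2, one_mul]


/-- **The frame of a part of a side.** -/
theorem exists_frN (S : CA.Dat) {θ β : ℝ} (hs : 0 < Real.sin θ) (hc : 0 < Real.cos θ)
    (hβ : Real.cos (θ / 2 + β) = Real.sin θ) {n N k₀ : ℕ} (hn : 2 ≤ n) {q : ZMod N → ℤ × ℤ}
    {η : Cfg} (hq : IsPolygon q) (hD : Encloses q (S.D n)) (hk : k₀ ≤ N)
    (hη : Dob η (S.D n) q k₀) {t₀ : ℕ} (ht : t₀ < n) (hb : q 0 = pb S n t₀) {w : ℤ × ℤ}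
    {r : Fin 4}
    (h1 : E6.face w r ∈ S.Q) (h2 : E6.face w (r - 1) ∉ S.Q) {b : Bool} {R a b' : ℤ} {m : ℕ}
    (hR : 1 ≤ R) (hm : (m : ℤ) ≤ R) (hab : a ≤ b') (ha : 400 * R < a) (hb' : b' + 400 * R < n)
    (hbase : ∀ x ∈ Icc a b', 200 * R < |x - t₀|)
    (harc : ArcB b q k₀ ((n : ℤ) • w + ((a + b') / 2) • E6.dir r) ((b' - a) / 2 + 1 + 300 * R)) :
    ∃ (j : ℤ) (η0 : Cfg), FrN S θ β q η k₀ n w r R m a b' j η0 := by
  have hQ : (0 : ℝ) < 2 * Real.cos θ := by linarith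
  have hn0 : 0 < n := by omega
  obtain ⟨j, hj⟩ := exists_j n w r (!b)
  set T := fj n w r j with hT
  have hbo : b = !T.o := by rw [hj, Bool.not_not]
  obtain ⟨D, hDn⟩ : ∃ D, D = S.D n := ⟨_, rfl⟩
  have hodd : ¬ Even ((E6.dir r).1 + (E6.dir r).2) := dir_odd r
  have hqp := poly_add hq (E6.dir r)
  have hDp := encl_add hD (E6.dir r)
  have hch : Chordless q := chordless_enl S.poly S.enc hn hq hD
  obtain ⟨τ, hτ⟩ := H871.exists_bd hq hD
  -- the frozen configurations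
  have hmm : (b' - a) / 2 + 1 + 300 * R = (b' - a) / 2 + 300 * R + 1 := by ring
  obtain ⟨η0, hη0, hfz0⟩ := exists_fz (R := (b' - a) / 2 + 300 * R) hq hD hch
    (by rw [← hmm]; exact harc)
  obtain ⟨η1, hη1, hfz1⟩ := exists_fz (b := b) (k := k₀) (R := (b' - a) / 2 + 300 * R)
    (z := (n : ℤ) • w + ((a + b') / 2) • E6.dir r + E6.dir r) hqp hDp
    (chordless_add hch (E6.dir r)) (by
      rw [← hmm]
      intro i hi hz
      refine harc i hi ?_
      rwa [show (fun i => q i + E6.dir r) i - ((n : ℤ) • w + ((a + b') / 2) • E6.dir r +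
        E6.dir r) = q i - ((n : ℤ) • w + ((a + b') / 2) • E6.dir r) by dsimp only; abel] at hz)
  have hlam := lam_pos (k := k₀) hodd hq hD hτ hs hc hβ hk hη0 hη1
  obtain ⟨L, hL⟩ : ∃ L, L = lam θ β q (S.D n) k₀ (E6.dir r) := ⟨_, rfl⟩
  rw [← hL] at hlam
  refine ⟨j, η0, ?_⟩
  -- the points
  have hP : ∀ x, T.S (x, 0) = (n : ℤ) • w + (x + j) • E6.dir r := fun x => by
    rw [hT, fj_S, zero_smul, add_zero]
  have hP1 : ∀ x, T.S (x, 0) = (n : ℤ) • w + (x + (j - 1)) • E6.dir r + E6.dir r := fun x => by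
    rw [hP, show x + j = x + (j - 1) + 1 by ring, add_smul _ (1 : ℤ), one_smul]
    abel
  have hdist : ∀ x y : ℤ, nm ((n : ℤ) • w + x • E6.dir r - ((n : ℤ) • w + y • E6.dir r)) =
      |x - y| := fun x y => by
    have h3 := (fj n w r 0).dS (x, 0) (y, 0)
    rw [fj_S, fj_S, zero_smul, add_zero, add_zero, add_zero, add_zero] at h3
    rw [h3]
    simp [nm]
  have hcen : ∀ x ∈ Icc a b', |x - (a + b') / 2| ≤ (b' - a) / 2 + 1 := fun x hx => by
    rw [mem_Icc] at hx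
    rw [abs_le]
    omega
  -- local arcs
  have harc' : ∀ x ∈ Icc a b', ArcB b q k₀ ((n : ℤ) • w + x • E6.dir r) (250 * R) :=
    fun x hx i hi hz => by
      refine harc i hi ?_
      have h3 := H45.nm_sub_le (q i) ((n : ℤ) • w + x • E6.dir r)
        ((n : ℤ) • w + ((a + b') / 2) • E6.dir r)
      rw [hdist] at h3
      have := hcen x hx
      omega
  have hbs : pb S n t₀ ∈ sites (S.D n) := by
    rw [← hb]
    exact H718.q_mem_sites hq hD 0
  have hsym0 : T.S.symm (q 0) = (fj n w r j).S.symm (pb S n t₀) := by rw [hb]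
  have hsym1 : T.S.symm (q 0 + E6.dir r) = (fj n w r (j - 1)).S.symm (pb S n t₀) := by
    rw [hT, symm_image, hb]
  -- the bases
  have B0 : ∀ x ∈ Icc (a - j) (b' - j), FarE (T.pre (S.D n)) (x, 0) (2 * R)
      (T.E.symm (be q ((0 : ℕ) : ZMod N))) := by
    intro x hx
    rw [mem_Icc] at hx
    have hx' : x + j ∈ Icc a b' := mem_Icc.2 (by omega)
    exact far_base S (x := x) ht h2 hq hD hsym0 hR (by omega) (by omega) (hbase _ hx')
  have B1 : ∀ x ∈ Icc (a - j + 1) (b' - j + 1), FarE (T.pre ((S.D n).image (· + E6.dir r))) (x, 0)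
      (2 * R) (T.E.symm (be (fun i => q i + E6.dir r) ((0 : ℕ) : ZMod N))) := by
    intro x hx
    rw [mem_Icc] at hx
    have hx' : x + (j - 1) ∈ Icc a b' := mem_Icc.2 (by omega)
    exact far_base S (x := x) (D := (S.D n).image (· + E6.dir r)) ht h2 hqp hDp hsym1 hR (by omega)
      (by omega) (hbase _ hx')
  have ba0 : a - j ∈ Icc (a - j) (b' - j) := mem_Icc.2 (by omega)
  have he0 := (B0 (a - j) ba0).mem_eds
  have he1 := (B1 (a - j + 1) (mem_Icc.2 (by omega))).mem_eds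
  -- the environments
  have E0 : ∀ (g : ℤ × ℤ → ℝ) (V M : ℝ), 0 < V → Near0 n w r R a b' g →
      MjN θ β q (S.D n) k₀ n w r R a b' g (M * V) → ∀ x ∈ Icc (a - j) (b' - j),
      EnvQ (2 * Real.cos θ) (tq θ) 8 R (T.pre (S.D n)) (T.Ci η0)
      (T.S.symm (q 0)) (wF θ β T q (S.D n) k₀ g V⁻¹) (wF' θ β T q (S.D n) k₀ g V⁻¹)
      M (x, 0) := by
    intro g V M hV hg hN x hx
    have hfar := B0 x hx
    rw [mem_Icc] at hx
    have hx' : x + j ∈ Icc a b' := mem_Icc.2 (by omega)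
    have hE : EnvQ (2 * Real.cos θ) (tq θ) 8 R (T.pre (S.D n)) (T.Ci η0)
        (T.S.symm (q 0)) (fun A => wn θ β q (S.D n) k₀ g (T.imE A))
        (fun A => wn' θ β q (S.D n) k₀ g (T.imE A)) (M * V) (x, 0) := by
      refine env_core S h1 h2 ht hbs hq hD hs.ne' hc hβ hη0.good rfl hsym0 hR
        (by omega) (by omega) (hbase _ hx') ?_ ?_ ?_ ?_
      · rw [← hT, ← hbo, hP]
        exact fun i hi hz => harc' _ hx' i hi (by omega)
      · intro z hz
        rw [← hT, hP] at hz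
        exact hg _ hx' z (by omega)
      · intro v hv hvD
        rw [← hT, hP] at hv
        have h3 := H45.nm_sub_le v ((n : ℤ) • w + (x + j) • E6.dir r)
          ((n : ℤ) • w + ((a + b') / 2) • E6.dir r)
        rw [hdist] at h3
        have h4 := hcen _ hx'
        rw [hfz0 v (mem_bq_of_nm (by omega)) hvD, ← hT, hbo, Bool.not_not]
      · rw [← hT, hP]
        exact hN _ hx' η0 hη0
    have h3 := envQ_scl (s := V⁻¹) hE hfar (inv_nonneg.2 hV.le)
    rw [show V⁻¹ * (M * V) = M by field_simp] at h3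
    exact h3
  have E1 : ∀ (g : ℤ × ℤ → ℝ) (V M : ℝ) (R' : ℤ), 0 < V → 1 ≤ R' → R' ≤ R →
      Near0 n w r R a b' g →
      MjI θ β q (S.D n) k₀ n w r R' a b' g (M * V) → ∀ x ∈ Icc (a - j + 1) (b' - j + 1),
      EnvQ (2 * Real.cos θ) (tq θ) 8 R'
      (T.pre ((S.D n).image (· + E6.dir r))) (T.Ci η1) (T.S.symm (q 0 + E6.dir r))
      (scl (T.E.symm (be (fun i => q i + E6.dir r) ((0 : ℕ) : ZMod N))) (V * L)⁻¹
        fun A => wn θ β (fun i => q i + E6.dir r) ((S.D n).image (· + E6.dir r)) k₀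
          (imC θ β τ q k₀ (E6.dir r) g) (T.imE A))
      (scl (T.E.symm (be (fun i => q i + E6.dir r) ((0 : ℕ) : ZMod N))) (V * L)⁻¹
        fun A => wn' θ β (fun i => q i + E6.dir r) ((S.D n).image (· + E6.dir r)) k₀
          (imC θ β τ q k₀ (E6.dir r) g) (T.imE A)) M (x, 0) := by
    intro g V M R' hV hR'1 hR'R hg hI x hx
    have hfar := B1 x hx
    have hfar : FarE (T.pre ((S.D n).image (· + E6.dir r))) (x, 0) (2 * R')
        (T.E.symm (be (fun i => q i + E6.dir r) ((0 : ℕ) : ZMod N))) :=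
      hfar.imp (fun h => ⟨h.1, by omega⟩) fun h => ⟨h.1, by omega⟩
    rw [mem_Icc] at hx
    have hx' : x + (j - 1) ∈ Icc a b' := mem_Icc.2 (by omega)
    have hE := env_core (j := j) (j' := j - 1) (x := x) (k := k₀) (η := η1)
      (Q := 2 * Real.cos θ) (f := imC θ β τ q k₀ (E6.dir r) g) (M := M * V * L) S h1 h2 ht hbs
      hqp hDp
      hs.ne' hc hβ hη1.good (by rw [pre_image]) hsym1 hR'1 (by omega) (by omega)
      (by have := hbase _ hx'; omega) ?_ ?_ ?_ ?_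
    · have h3 := envQ_scl (s := (V * L)⁻¹) hE hfar (inv_nonneg.2 (by positivity))
      rw [show (V * L)⁻¹ * (M * V * L) = M by field_simp] at h3
      exact h3
    · rw [← hT, ← hbo, hP1]
      intro i hi hz
      refine harc' _ hx' i hi ?_
      rw [show (fun i => q i + E6.dir r) i - ((n : ℤ) • w + (x + (j - 1)) • E6.dir r +
        E6.dir r) = q i - ((n : ℤ) • w + (x + (j - 1)) • E6.dir r) by dsimp only; abel] at hz
      omega
    · intro z hz
      rw [← hT, hP1] at hz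
      refine imC_near S hn0 hq hD ht hb h1 h2 (x := x + (j - 1)) (m := 200 * R) (by omega) (by omega)
        hτ (fun i hi hz => harc' _ hx' i hi (by omega)) θ β _ (fun z hz => hg _ hx' z (by omega)) z
        ?_
      rw [show z - E6.dir r - ((n : ℤ) • w + (x + (j - 1)) • E6.dir r) =
        z - ((n : ℤ) • w + (x + (j - 1)) • E6.dir r + E6.dir r) by abel]
      omega
    · intro v hv hvD
      rw [← hT, hP1] at hv
      have h3 := H45.nm_sub_le v ((n : ℤ) • w + (x + (j - 1)) • E6.dir r + E6.dir r)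
        ((n : ℤ) • w + ((a + b') / 2) • E6.dir r + E6.dir r)
      rw [add_sub_add_right_eq_sub ((n : ℤ) • w + (x + (j - 1)) • E6.dir r), hdist] at h3
      have h4 := hcen _ hx'
      rw [hfz1 v (mem_bq_of_nm (by omega)) hvD, ← hT, hbo, Bool.not_not]
    · rw [← hT, hP, hL]
      exact hI _ (mem_Icc.2 (by omega)) τ hτ η1 hη1
  -- the geometry in the frame
  have G0 : ∀ x ∈ Icc (a - j) (b' - j), GeoQ 8 R (T.pre (S.D n)) (T.S.symm (q 0)) (x, 0) := by
    intro x hx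
    rw [mem_Icc] at hx
    have hx' : x + j ∈ Icc a b' := mem_Icc.2 (by omega)
    have h3 := base_far S ht h2 (x := x + j) (m := 200 * R) (by omega) (by omega) (hbase _ hx')
    rw [hsym0]
    refine geo_fj S h1 h2 hR (by omega) (by omega) hbs ?_
    rw [← hT, hP]
    omega
  have hpot0 : HPot (T.pre (S.D n)) := (G0 _ ba0).pot
  have hjt0 : ∀ e ∈ eds (T.pre (S.D n)), H365.Jt (T.pre (S.D n)) (T.S.symm (q 0)) (rs e) := by
    intro e he
    obtain ⟨M', E⟩ := (G0 _ ba0).toEnv (f := fun _ => 0) fun z hz => absurd rfl hz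
    exact H365.Jn.symm (E.jt (rs_mem_sites he))
  -- the sites above the side
  have hdom : ∀ x ∈ Icc (a - j) (b' - j), ∀ y : ℤ, -1 ≤ y → y ≤ R →
      ((x, y) ∈ T.pre (S.D n) ↔ 0 ≤ y) := by
    intro x hx y hy1 hy2
    exact (G0 x hx).dom (x, y) (by
      rw [nm_le']
      simp only [Prod.fst_sub, Prod.snd_sub]
      omega)
  have hsit : ∀ x ∈ Icc (a - j) (b' - j), ∀ y : ℤ, 0 ≤ y → y ≤ R → T.S (x, y) ∈ sites (S.D n) := by
    intro x hx y hy1 hy2
    have h3 : (x, y) ∈ sites (T.pre (S.D n)) := mem_sites.2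
      ⟨(x, y), (hdom x hx y (by omega) hy2).2 hy1, by simp⟩
    rw [← T.sites_T, T.im_pre] at h3
    exact h3
  have hdob := fun {F : Cfg → ℝ} (hF : Loc (S.D n) F) => ex_dob hq hD hk hη hη0 hQ hF
  have hflw : ∀ (g : ℤ × ℤ → ℝ) (s : ℝ), ∀ x ∈ Icc (a - j) (b' - j),
      flW (2 * Real.cos θ) (T.pre (S.D n)) (T.Ci η0) (T.S.symm (q 0))
        (wF θ β T q (S.D n) k₀ g s) (wF' θ β T q (S.D n) k₀ g s) m x =
      s * flx n w r m (fun z => Ex (2 * Real.cos θ) (S.D n) η (XTW (S.D n) (q 0)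
        (wn θ β q (S.D n) k₀ g) (wn' θ β q (S.D n) k₀ g) z)) (x + j) := by
    intro g s x _
    unfold flW wF wF'
    rw [ex_xtw_scl he0, ex_xtw_scl he0, ex_xtw_fr, ex_xtw_fr, flx_fj, hdob (loc_xtw _ _ _ _ _),
      hdob (loc_xtw _ _ _ _ _)]
    ring
  refine ⟨hη0, coConn_fj S hn0 w r j, B0, ?_, E0, ?_, ?_, hflw, ?_⟩
  · intro x hx
    rcases fe_bd ((hdom x hx 0 (by omega) (by omega)).2 le_rfl)
      (fun h => by
        have := (hdom x hx (-1) le_rfl (by omega)).1 h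
        omega) with h | h <;> rw [T.hd, T.tl, ← T.mem_pre, ← T.mem_pre] <;> split_ifs <;> tauto
  · -- the image
    intro g V M' R' hV hR'1 hR'R hmR' hg hI
    have hE1 := E1 g V M' R' hV hR'1 hR'R hg hI
    refine ⟨⟨T.pre ((S.D n).image (· + E6.dir r)), T.Ci η1, T.S.symm (q 0 + E6.dir r), _, _, ?_,
      hE1, ?_, ?_, ?_⟩⟩
    · rw [pre_image]; exact coConn_fj S hn0 w r (j - 1)
    · intro x hx
      have e1 := ex_xtw_fr T (2 * Real.cos θ) ((S.D n).image (· + E6.dir r)) η1 (q 0 + E6.dir r)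
        (wn θ β (fun i => q i + E6.dir r) ((S.D n).image (· + E6.dir r)) k₀
          (imC θ β τ q k₀ (E6.dir r) g))
        (wn' θ β (fun i => q i + E6.dir r) ((S.D n).image (· + E6.dir r)) k₀
          (imC θ β τ q k₀ (E6.dir r) g))
      have e2 : ∀ z ∈ sites (S.D n), _ := fun z hz =>
        im_XTW hodd hq hD hτ hs hc hβ hk hη0 hη1 g hz
      rw [hflw g _ x hx, ex_xtw_scl he1, ex_xtw_scl he1, e1, e1, hT, fj_S_succ, fj_S_succ, ← hT,
        e2 _ (hsit x hx m (by omega) hm), e2 _ (hsit x hx 0 le_rfl (by omega)), flx_fj,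
        hdob (loc_xtw _ _ _ _ _), hdob (loc_xtw _ _ _ _ _), ← hL, ← hT]
      field_simp
      ring
    · unfold wF
      rw [ex_xw_scl he1, ex_xw_fr, ex_xw_scl he0, ex_xw_fr,
        im_XW hodd hq hD hτ hs hc hβ hk hη0 hη1 g, ← hL]
      field_simp
    · intro x hx
      have hfe0 : (hdv (fe x) ∈ T.pre (S.D n) ∧ tlv (fe x) ∉ T.pre (S.D n)) ∨
          (hdv (fe x) ∉ T.pre (S.D n) ∧ tlv (fe x) ∈ T.pre (S.D n)) :=
        fe_bd ((hdom x hx 0 (by omega) (by omega)).2 le_rfl)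
          (fun h => by
            have := (hdom x hx (-1) le_rfl (by omega)).1 h
            omega)
      have hfe1 : fe (x + 1) ∈ eds (T.pre ((S.D n).image (· + E6.dir r))) := by
        rw [mem_Icc] at hx
        have hE := hE1 (x + 1) (mem_Icc.2 (by omega))
        have k1 : (x + 1, (0 : ℤ)) ∈ T.pre ((S.D n).image (· + E6.dir r)) :=
          (hE.fl.dom (x + 1, 0) (by simp [nm]; omega)).2 le_rfl
        have k2 : (x + 1, (-1 : ℤ)) ∉ T.pre ((S.D n).image (· + E6.dir r)) := fun h => by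
          have := (hE.fl.dom (x + 1, -1) (by simp [nm]; omega)).1 h
          dsimp only at this
          omega
        rcases fe_bd k1 k2 with h | h
        · exact mem_eds.2 (Or.inl h.1)
        · exact mem_eds.2 (Or.inr h.2)
      have hfe : fe x ∈ eds (T.pre (S.D n)) := by
        rcases hfe0 with h | h
        · exact mem_eds.2 (Or.inl h.1)
        · exact mem_eds.2 (Or.inr h.2)
      have hE1x := hE1 (x + 1) (by rw [mem_Icc] at hx ⊢; omega)
      unfold wF wF'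
      rw [ex_sw_scl he1 hfe1, ex_sw_fr T _ _ _ _ _ _ hfe1 hE1x.pot fun e he => envQ_jt hE1x he,
        ex_sw_scl he0 hfe, ex_sw_fr T _ _ _ _ _ _ hfe hpot0 hjt0]
      have hn0 : NeZero N := ⟨by have := hq.1; omega⟩
      obtain ⟨i, hi⟩ : ∃ i : ZMod N, T.E (fe x) = be q i := by
        refine exists_be hq hD ?_ ?_
        · have h3 := (T.mem_edsT (D := T.pre (S.D n))).2 hfe
          rwa [T.im_pre] at h3
        · rw [T.hd, T.tl, ← T.mem_pre, ← T.mem_pre]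
          split_ifs <;> tauto
      have h3 := im_SE hodd hq hD hτ hs hc hβ hk hη0 hη1 g (ZMod.val_lt i)
      rw [ZMod.natCast_zmod_val, ← hi, ← hL] at h3
      rw [show T.E (fe (x + 1)) = H135.shE (E6.dir r) (T.E (fe x)) from E_succ n w r j x, h3]
      field_simp
  · intro g s
    unfold wF
    rw [ex_xw_scl he0, ex_xw_fr, hdob (loc_xw _ _)]
  · intro g s c m' x
    unfold wF wF'
    have e1 : OF (T.pre (S.D n)) (c, 0) m'
        (scl (T.E.symm (be q ((0 : ℕ) : ZMod N))) s fun A => wn θ β q (S.D n) k₀ g (T.imE A))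
        (scl (T.E.symm (be q ((0 : ℕ) : ZMod N))) s fun A => wn' θ β q (S.D n) k₀ g (T.imE A))
        (sx (T.pre (S.D n)) (T.S.symm (q 0)) x) = fun ω => s * OF (T.pre (S.D n)) (c, 0) m'
          (fun A => wn θ β q (S.D n) k₀ g (T.imE A)) (fun A => wn' θ β q (S.D n) k₀ g (T.imE A))
        (sx (T.pre (S.D n)) (T.S.symm (q 0)) x) ω := funext fun ω => OF_scl he0
    rw [e1, FKA.Ex_mul_left, ex_of_fr T (fun v u => fr_dQQ _ r v u) (2 * Real.cos θ) (S.D n) η0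
      (q 0) (c, 0) (wn θ β q (S.D n) k₀ g) (wn' θ β q (S.D n) k₀ g) (x := x) (m := m') hpot0 hjt0,
      hdob (loc_of _ _ _ _ _ _)]

end Vale.Agent.P167.N.QL
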